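/-
Row 304 (S0559).  Owner: helper138.  ALEXANDER-SPANIER COCHAINS: raw definitions.

`AsC k P q`  = ALL functions `P^{q+1} → k` (no quotient is ever taken at the cochain level).
`AsVan φ x`  = `φ` vanishes on `N^{q+1}` for some neighbourhood `N` of `x`;  `asSupp φ` = the set of points where this fails (closed).
A cochain is NULL ("locally zero") iff `asSupp φ = ∅`.
Operators: `asD` (coboundary), `asPull g` (any function `g`), `asCut E` (multiplication by `1_E(x_0)`, `E` an ARBITRARY subset),
`asIns z` (insert `z` in front: the cone homotopy), `asZeroExt i` (extension by zero along an injective map).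
-/
import Mathlib

set_option autoImplicit false

namespace Claimed.Agent.R304

open Topology

/-- Alexander-Spanier cochains: all functions on `(q+1)`-tuples -/
abbrev AsC (k : Type) (P : Type) (q : ℕ) : Type := (Fin (q + 1) → P) → k

/-- the coboundary `(δφ)(x_0..x_{q+1}) = ∑ (-1)^i φ(.. x̂_i ..)` -/
def asD (k : Type) [Field k] (P : Type) (q : ℕ) : AsC k P q →ₗ[k] AsC k P (q + 1) where
  toFun φ := fun x => ∑ i : Fin (q + 2), (-1 : k) ^ (i : ℕ) * φ (fun j => x (i.succAbove j))
  map_add' φ ψ := by
    funext x
    simp [mul_add, Finset.sum_add_distrib]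
  map_smul' c φ := by
    funext x
    simp [Finset.mul_sum, mul_left_comm]

/-- `φ` vanishes near `x` -/
def AsVan {k : Type} [Field k] {P : Type} [TopologicalSpace P] {q : ℕ} (φ : AsC k P q) (x : P) : Prop :=
  ∃ N ∈ 𝓝 x, ∀ t : Fin (q + 1) → P, (∀ i, t i ∈ N) → φ t = 0

/-- the support of a cochain -/
def asSupp {k : Type} [Field k] {P : Type} [TopologicalSpace P] {q : ℕ} (φ : AsC k P q) : Set P :=
  {x | ¬ AsVan φ x}

/-- pull back along an arbitrary function -/
def asPull (k : Type) [Field k] {P P' : Type} (g : P → P') (q : ℕ) : AsC k P' q →ₗ[k] AsC k P q where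
  toFun φ := fun x => φ (fun j => g (x j))
  map_add' _ _ := rfl
  map_smul' _ _ := rfl

open Classical in
/-- multiplication by the indicator function of `E` in the zeroth variable -/
noncomputable def asCut (k : Type) [Field k] {P : Type} (E : Set P) (q : ℕ) :
    AsC k P q →ₗ[k] AsC k P q where
  toFun φ := fun x => if x 0 ∈ E then φ x else 0
  map_add' φ ψ := by
    funext x
    by_cases h : x 0 ∈ E <;> simp [h]
  map_smul' c φ := by
    funext x
    by_cases h : x 0 ∈ E <;> simp [h]

/-- insertion of a point in front -/
def asIns (k : Type) [Field k] {P : Type} (z : P) (q : ℕ) : AsC k P (q + 1) →ₗ[k] AsC k P q where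
  toFun φ := fun x => φ (Fin.cons z x)
  map_add' _ _ := rfl
  map_smul' _ _ := rfl

/-- the constant `0`-cochain `1` -/
def asOne (k : Type) [Field k] (P : Type) : AsC k P 0 := fun _ => 1

/-- extension by zero along a map `i : Z → P` (used for injective `i`): `Function.extend` along `z ↦ i ∘ z` -/
noncomputable def asZeroExt (k : Type) [Field k] {Z P : Type} (i : Z → P) (q : ℕ) :
    AsC k Z q →ₗ[k] AsC k P q where
  toFun φ := Function.extend (fun (z : Fin (q + 1) → Z) (j : Fin (q + 1)) => i (z j)) φ 0
  map_add' φ ψ := by
    have := Function.extend_add (fun (z : Fin (q + 1) → Z) (j : Fin (q + 1)) => i (z j)) φ ψ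
      (0 : (Fin (q + 1) → P) → k) 0
    simpa using this
  map_smul' c φ := by
    have := Function.extend_smul c (fun (z : Fin (q + 1) → Z) (j : Fin (q + 1)) => i (z j)) φ
      (0 : (Fin (q + 1) → P) → k)
    simpa using this

/-- realises the equation lemmas here (unique names) -/
theorem as_defs_eqns_cite : True := by
  have := @asD.eq_1
  have := @AsVan.eq_1
  have := @asSupp.eq_1
  have := @asPull.eq_1
  have := @asCut.eq_1
  have := @asIns.eq_1
  have := @asOne.eq_1
  have := @asZeroExt.eq_1
  trivial

end Claimed.Agent.R304
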