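/-
Row 304 (S0559).  Owner: helper138.  PACKAGE AsCochain (PROVED): the calculus of raw Alexander-Spanier cochains (`AsDefs.lean`):
`δ² = 0`, supports, compatibility of `asD`, `asPull`, `asCut`, `asIns`, `asZeroExt`.
-/
import Claimed.Agent.R304.AsDefs

set_option autoImplicit false

namespace Claimed.Agent.R304

open Topology

variable {k : Type} [Field k]

theorem as_succAbove_comm {n : ℕ} (i j : Fin (n + 2)) (H : i ≤ j) (l : Fin (n + 1)) :
    j.succ.succAbove (i.succAbove l) = i.castSucc.succAbove (j.succAbove l) := by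
  have H' : (i : ℕ) ≤ j := H
  simp only [Fin.succAbove, Fin.lt_def, Fin.ext_iff]
  split_ifs <;> simp_all <;> omega

theorem as_d_d (P : Type) (q : ℕ) (φ : AsC k P q) : asD k P (q + 1) (asD k P q φ) = 0 := by
  funext x
  show ∑ i : Fin (q + 3), (-1 : k) ^ (i : ℕ) * (∑ j : Fin (q + 2), (-1 : k) ^ (j : ℕ) *
    φ (fun l => x (i.succAbove (j.succAbove l)))) = 0
  simp only [Finset.mul_sum, ← Finset.sum_product']
  let S : Finset (Fin (q + 3) × Fin (q + 2)) := Finset.univ.filter (fun s => (s.1 : ℕ) ≤ (s.2 : ℕ))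
  rw [Finset.univ_product_univ, ← Finset.sum_add_sum_compl S, ← eq_neg_iff_add_eq_zero,
    ← Finset.sum_neg_distrib]
  let f : ∀ s : Fin (q + 3) × Fin (q + 2), s ∈ S → Fin (q + 3) × Fin (q + 2) := fun s hs =>
    (s.2.succ, Fin.castLT s.1 (lt_of_le_of_lt (Finset.mem_filter.mp hs).right (Fin.is_lt s.2)))
  apply Finset.sum_bij f
  · intro ⟨i, j⟩ hij
    simp only [S, f, Finset.compl_filter, Finset.mem_filter, Finset.mem_univ, true_and, Fin.val_succ,
      Fin.val_castLT] at hij ⊢
    omega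
  · rintro ⟨i, j⟩ hij ⟨i', j'⟩ hij' h
    rw [Prod.mk.injEq]
    exact ⟨by simpa [f, Fin.ext_iff] using congr_arg Prod.snd h, by simpa [f] using congr_arg Prod.fst h⟩
  · rintro ⟨i', j'⟩ hij'
    simp only [S, Finset.compl_filter, Finset.mem_filter, Finset.mem_univ, true_and, not_le] at hij'
    refine ⟨(Fin.castSucc j', i'.pred ?_), ?_, ?_⟩
    · rintro rfl
      simp at hij'
    · simp only [S, Finset.mem_filter, Finset.mem_univ, true_and, Fin.val_castSucc, Fin.val_pred]
      omega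
    · simp [f]
  · rintro ⟨i, j⟩ hij
    simp only [S, Finset.mem_filter, Finset.mem_univ, true_and] at hij
    have e : ∀ l : Fin (q + 1), i.succAbove (j.succAbove l) =
        j.succ.succAbove ((Fin.castLT i (lt_of_le_of_lt hij j.is_lt)).succAbove l) := by
      intro l
      rw [as_succAbove_comm (Fin.castLT i (lt_of_le_of_lt hij j.is_lt)) j hij l]
      simp
    simp only [f, e, Fin.val_succ, Fin.val_castLT, pow_succ]
    ring

theorem as_d_apply (P : Type) (q : ℕ) (φ : AsC k P q) (x : Fin (q + 2) → P) :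
    asD k P q φ x = ∑ i : Fin (q + 2), (-1 : k) ^ (i : ℕ) * φ (fun j => x (i.succAbove j)) := rfl

theorem as_d_one (P : Type) : asD k P 0 (asOne k P) = 0 := by
  funext x
  simp [as_d_apply, asOne, Fin.sum_univ_two]

/-! ### pull back -/

theorem as_pull_id (P : Type) (q : ℕ) (φ : AsC k P q) : asPull k (id : P → P) q φ = φ := rfl

theorem as_pull_comp {P P' P'' : Type} (g : P → P') (g' : P' → P'') (q : ℕ) (φ : AsC k P'' q) :
    asPull k (g' ∘ g) q φ = asPull k g q (asPull k g' q φ) := rfl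

theorem as_pull_d {P P' : Type} (g : P → P') (q : ℕ) (φ : AsC k P' q) :
    asPull k g (q + 1) (asD k P' q φ) = asD k P q (asPull k g q φ) := rfl

theorem as_pull_one {P P' : Type} (g : P → P') : asPull k g 0 (asOne k P') = asOne k P := rfl

open Classical in
theorem as_cut_apply {P : Type} (E : Set P) (q : ℕ) (φ : AsC k P q) (x : Fin (q + 1) → P) :
    asCut k E q φ x = if x 0 ∈ E then φ x else 0 := rfl

theorem as_pull_cut {P P' : Type} (g : P → P') (E : Set P') (q : ℕ) (φ : AsC k P' q) :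
    asPull k g q (asCut k E q φ) = asCut k (g ⁻¹' E) q (asPull k g q φ) := by
  funext x
  rfl

/-! ### supports -/

theorem as_supp_closed {P : Type} [TopologicalSpace P] {q : ℕ} (φ : AsC k P q) :
    IsClosed (asSupp φ) := by
  rw [← isOpen_compl_iff, isOpen_iff_mem_nhds]
  intro x hx
  have hx' : AsVan φ x := not_not.1 hx
  obtain ⟨N, hN, h⟩ := hx'
  obtain ⟨U, hUN, hU, hxU⟩ := mem_nhds_iff.1 hN
  refine Filter.mem_of_superset (hU.mem_nhds hxU) ?_
  intro y hy
  exact not_not.2 ⟨N, Filter.mem_of_superset (hU.mem_nhds hy) hUN, h⟩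

theorem as_not_mem_supp {P : Type} [TopologicalSpace P] {q : ℕ} (φ : AsC k P q) (x : P) :
    x ∉ asSupp φ ↔ AsVan φ x := not_not

theorem as_supp_zero {P : Type} [TopologicalSpace P] (q : ℕ) : asSupp (0 : AsC k P q) = ∅ := by
  ext x
  simp only [Set.mem_empty_iff_false, iff_false, as_not_mem_supp]
  exact ⟨Set.univ, Filter.univ_mem, fun _ _ => rfl⟩

theorem as_van_add {P : Type} [TopologicalSpace P] {q : ℕ} (φ ψ : AsC k P q) (x : P)
    (h1 : AsVan φ x) (h2 : AsVan ψ x) : AsVan (φ + ψ) x := by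
  obtain ⟨N, hN, h⟩ := h1
  obtain ⟨N', hN', h'⟩ := h2
  refine ⟨N ∩ N', Filter.inter_mem hN hN', fun t ht => ?_⟩
  show φ t + ψ t = 0
  rw [h t (fun i => (ht i).1), h' t (fun i => (ht i).2), add_zero]

theorem as_van_smul {P : Type} [TopologicalSpace P] {q : ℕ} (c : k) (φ : AsC k P q) (x : P)
    (h1 : AsVan φ x) : AsVan (c • φ) x := by
  obtain ⟨N, hN, h⟩ := h1
  refine ⟨N, hN, fun t ht => ?_⟩
  show c • φ t = 0
  rw [h t ht, smul_zero]

theorem as_van_neg {P : Type} [TopologicalSpace P] {q : ℕ} (φ : AsC k P q) (x : P)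
    (h1 : AsVan φ x) : AsVan (-φ) x := by
  obtain ⟨N, hN, h⟩ := h1
  refine ⟨N, hN, fun t ht => ?_⟩
  show - φ t = 0
  rw [h t ht, neg_zero]

theorem as_van_sub {P : Type} [TopologicalSpace P] {q : ℕ} (φ ψ : AsC k P q) (x : P)
    (h1 : AsVan φ x) (h2 : AsVan ψ x) : AsVan (φ - ψ) x := by
  rw [sub_eq_add_neg]
  exact as_van_add _ _ x h1 (as_van_neg _ x h2)

theorem as_supp_add {P : Type} [TopologicalSpace P] {q : ℕ} (φ ψ : AsC k P q) :
    asSupp (φ + ψ) ⊆ asSupp φ ∪ asSupp ψ := by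
  intro x hx
  by_contra hc
  rw [Set.mem_union, not_or, as_not_mem_supp, as_not_mem_supp] at hc
  exact hx (as_van_add _ _ x hc.1 hc.2)

theorem as_supp_neg {P : Type} [TopologicalSpace P] {q : ℕ} (φ : AsC k P q) :
    asSupp (-φ) ⊆ asSupp φ := by
  intro x hx
  by_contra hc
  rw [as_not_mem_supp] at hc
  exact hx (as_van_neg _ x hc)

theorem as_supp_sub {P : Type} [TopologicalSpace P] {q : ℕ} (φ ψ : AsC k P q) :
    asSupp (φ - ψ) ⊆ asSupp φ ∪ asSupp ψ := by
  intro x hx
  by_contra hc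
  rw [Set.mem_union, not_or, as_not_mem_supp, as_not_mem_supp] at hc
  exact hx (as_van_sub _ _ x hc.1 hc.2)

theorem as_supp_smul {P : Type} [TopologicalSpace P] {q : ℕ} (c : k) (φ : AsC k P q) :
    asSupp (c • φ) ⊆ asSupp φ := by
  intro x hx
  by_contra hc
  rw [as_not_mem_supp] at hc
  exact hx (as_van_smul c _ x hc)

theorem as_van_d {P : Type} [TopologicalSpace P] {q : ℕ} (φ : AsC k P q) (x : P) (h1 : AsVan φ x) :
    AsVan (asD k P q φ) x := by
  obtain ⟨N, hN, h⟩ := h1
  refine ⟨N, hN, fun t ht => ?_⟩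
  rw [as_d_apply]
  exact Finset.sum_eq_zero (fun i _ => by rw [h _ (fun j => ht _), mul_zero])

theorem as_supp_d {P : Type} [TopologicalSpace P] {q : ℕ} (φ : AsC k P q) :
    asSupp (asD k P q φ) ⊆ asSupp φ := by
  intro x hx
  by_contra hc
  rw [as_not_mem_supp] at hc
  exact hx (as_van_d _ x hc)

/-- local version: continuity at one point is enough -/
theorem as_van_pull {P P' : Type} [TopologicalSpace P] [TopologicalSpace P'] (g : P → P') (x : P)
    (hg : ContinuousAt g x) {q : ℕ} (φ : AsC k P' q) (h : AsVan φ (g x)) : AsVan (asPull k g q φ) x := by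
  obtain ⟨N, hN, h⟩ := h
  exact ⟨g ⁻¹' N, hg hN, fun t ht => h _ ht⟩

theorem as_supp_pull {P P' : Type} [TopologicalSpace P] [TopologicalSpace P'] (g : P → P')
    (hg : Continuous g) {q : ℕ} (φ : AsC k P' q) : asSupp (asPull k g q φ) ⊆ g ⁻¹' asSupp φ := by
  intro x hx hc
  exact hx (as_van_pull g x hg.continuousAt φ hc)

theorem as_supp_cut {P : Type} [TopologicalSpace P] (E : Set P) {q : ℕ} (φ : AsC k P q) :
    asSupp (asCut k E q φ) ⊆ asSupp φ ∩ closure E := by
  classical
  intro x hx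
  refine ⟨fun hc => hx ?_, ?_⟩
  · obtain ⟨N, hN, h⟩ := hc
    refine ⟨N, hN, fun t ht => ?_⟩
    rw [as_cut_apply, h t ht, ite_self]
  · by_contra hc
    refine hx ⟨(closure E)ᶜ, isClosed_closure.isOpen_compl.mem_nhds hc, fun t ht => ?_⟩
    rw [as_cut_apply, if_neg (fun h0 => ht 0 (subset_closure h0))]

theorem as_supp_sub_cut {P : Type} [TopologicalSpace P] (E : Set P) {q : ℕ} (φ : AsC k P q) :
    asSupp (φ - asCut k E q φ) ⊆ asSupp φ \ interior E := by
  classical
  intro x hx
  refine ⟨fun hc => hx ?_, fun hc => hx ?_⟩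
  · obtain ⟨N, hN, h⟩ := hc
    refine ⟨N, hN, fun t ht => ?_⟩
    show φ t - asCut k E q φ t = 0
    rw [as_cut_apply, h t ht, ite_self, sub_zero]
  · refine ⟨interior E, isOpen_interior.mem_nhds hc, fun t ht => ?_⟩
    show φ t - asCut k E q φ t = 0
    rw [as_cut_apply, if_pos (interior_subset (ht 0)), sub_self]

/-- two cochains which agree on `N^{q+1}` for a neighbourhood `N` of `x` -/
theorem as_van_sub_of_eqOn {P : Type} [TopologicalSpace P] {q : ℕ} (φ ψ : AsC k P q) (x : P)
    (N : Set P) (hN : N ∈ 𝓝 x) (h : ∀ t : Fin (q + 1) → P, (∀ i, t i ∈ N) → φ t = ψ t) :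
    AsVan (φ - ψ) x :=
  ⟨N, hN, fun t ht => by show φ t - ψ t = 0; rw [h t ht, sub_self]⟩

/-- a null `0`-cochain is zero -/
theorem as_deg0_null {P : Type} [TopologicalSpace P] (φ : AsC k P 0) (h : asSupp φ = ∅) : φ = 0 := by
  funext t
  have hx : t 0 ∉ asSupp φ := by rw [h]; exact Set.notMem_empty _
  rw [as_not_mem_supp] at hx
  obtain ⟨N, hN, h⟩ := hx
  exact h t (fun i => by rw [Fin.fin_one_eq_zero i]; exact mem_of_mem_nhds hN)

theorem as_deg0_van {P : Type} [TopologicalSpace P] (φ : AsC k P 0) (x : P) :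
    AsVan φ x ↔ ∀ᶠ y in 𝓝 x, φ (fun _ => y) = 0 := by
  constructor
  · rintro ⟨N, hN, h⟩
    exact Filter.mem_of_superset hN (fun y hy => h _ (fun _ => hy))
  · intro h
    refine ⟨_, h, fun t ht => ?_⟩
    have := ht 0
    have e : t = fun _ => t 0 := by
      funext i
      rw [Fin.fin_one_eq_zero i]
    rw [e]
    exact this

/-! ### the cone homotopy -/

theorem as_cons_succAbove {P : Type} (z : P) {q : ℕ} (x : Fin (q + 1) → P) (i : Fin (q + 1)) (j : Fin (q + 1)) :
    (Fin.cons z x : Fin (q + 2) → P) (i.succ.succAbove j) =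
      (Fin.cons z (fun l => x (i.succAbove l)) : Fin (q + 1) → P) j := by
  refine Fin.cases ?_ (fun j' => ?_) j
  · simp
  · simp

theorem as_ins_d {P : Type} (z : P) (q : ℕ) (φ : AsC k P (q + 1)) :
    asD k P q (asIns k z q φ) + asIns k z (q + 1) (asD k P (q + 1) φ) = φ := by
  funext x
  show asD k P q (asIns k z q φ) x + asD k P (q + 1) φ (Fin.cons z x) = φ x
  rw [as_d_apply, as_d_apply, Fin.sum_univ_succ (n := q + 2)]
  have e0 : (fun j => (Fin.cons z x : Fin (q + 3) → P) ((0 : Fin (q + 3)).succAbove j)) = x := by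
    funext j
    simp
  rw [e0]
  have e1 : ∀ i : Fin (q + 2), (fun j => (Fin.cons z x : Fin (q + 3) → P) (i.succ.succAbove j)) =
      (Fin.cons z (fun l => x (i.succAbove l)) : Fin (q + 2) → P) := by
    intro i
    funext j
    exact as_cons_succAbove z x i j
  simp only [e1, Fin.val_succ, pow_succ, Fin.val_zero, pow_zero, one_mul]
  have : ∀ i : Fin (q + 2), asIns k z q φ (fun j => x (i.succAbove j)) =
      φ (Fin.cons z (fun l => x (i.succAbove l))) := fun i => rfl
  simp only [this]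
  rw [add_left_comm, ← Finset.sum_add_distrib]
  simp

/-- degree zero: `h_z δ φ = φ - φ(z)` -/
theorem as_ins_d_zero {P : Type} (z : P) (φ : AsC k P 0) :
    asIns k z 0 (asD k P 0 φ) = φ - φ (fun _ => z) • asOne k P := by
  funext x
  show asD k P 0 φ (Fin.cons z x) = φ x - φ (fun _ => z) • (1 : k)
  rw [as_d_apply, Fin.sum_univ_two]
  have e0 : (fun j => (Fin.cons z x : Fin 2 → P) ((0 : Fin 2).succAbove j)) = x := by
    funext j
    simp
  have e1 : (fun j => (Fin.cons z x : Fin 2 → P) ((1 : Fin 2).succAbove j)) = fun _ => z := by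
    funext j
    rw [Fin.fin_one_eq_zero j]
    rfl
  rw [e0, e1]
  simp [sub_eq_add_neg]

theorem as_van_ins {P : Type} [TopologicalSpace P] (z : P) (q : ℕ) (φ : AsC k P (q + 1))
    (h : AsVan φ z) : AsVan (asIns k z q φ) z := by
  obtain ⟨N, hN, h⟩ := h
  refine ⟨N, hN, fun t ht => h _ (fun i => ?_)⟩
  refine Fin.cases ?_ (fun j => ?_) i
  · exact mem_of_mem_nhds hN
  · exact ht j

/-- STALK ACYCLICITY of AS cochains in positive degrees -/
theorem as_stalk_pos {P : Type} [TopologicalSpace P] (z : P) (q : ℕ) (φ : AsC k P (q + 1))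
    (h : AsVan (asD k P (q + 1) φ) z) : AsVan (φ - asD k P q (asIns k z q φ)) z := by
  have e : φ - asD k P q (asIns k z q φ) = asIns k z (q + 1) (asD k P (q + 1) φ) := by
    rw [sub_eq_iff_eq_add]
    exact ((add_comm _ _).trans (as_ins_d z q φ)).symm
  rw [e]
  exact as_van_ins z _ _ h

/-- degree zero: a `0`-cochain with `δφ` vanishing near `z` is constant near `z` -/
theorem as_stalk_zero {P : Type} [TopologicalSpace P] (z : P) (φ : AsC k P 0)
    (h : AsVan (asD k P 0 φ) z) : AsVan (φ - φ (fun _ => z) • asOne k P) z := by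
  rw [← as_ins_d_zero]
  exact as_van_ins z _ _ h

/-! ### extension by zero -/

theorem as_zeroExt_inj {Z P : Type} (i : Z → P) (hi : Function.Injective i) (q : ℕ) :
    Function.Injective (fun (z : Fin (q + 1) → Z) (j : Fin (q + 1)) => i (z j)) := by
  intro z z' h
  funext j
  exact hi (congrFun h j)

theorem as_zeroExt_apply {Z P : Type} (i : Z → P) (hi : Function.Injective i) (q : ℕ) (φ : AsC k Z q)
    (z : Fin (q + 1) → Z) : asZeroExt k i q φ (fun j => i (z j)) = φ z :=
  (as_zeroExt_inj i hi q).extend_apply φ (0 : (Fin (q + 1) → P) → k) z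

theorem as_zeroExt_apply_of_not {Z P : Type} (i : Z → P) (q : ℕ) (φ : AsC k Z q)
    (x : Fin (q + 1) → P) (h : ∃ j, x j ∉ Set.range i) : asZeroExt k i q φ x = 0 := by
  obtain ⟨j, hj⟩ := h
  refine Function.extend_apply' φ (0 : (Fin (q + 1) → P) → k) x ?_
  rintro ⟨z, hz⟩
  exact hj ⟨z j, congrFun hz j⟩

theorem as_pull_zeroExt {Z P : Type} (i : Z → P) (hi : Function.Injective i) (q : ℕ) (φ : AsC k Z q) :
    asPull k i q (asZeroExt k i q φ) = φ := by
  funext z
  exact as_zeroExt_apply i hi q φ z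

theorem as_supp_zeroExt {Z P : Type} [TopologicalSpace Z] [TopologicalSpace P] (i : Z → P)
    (hi : IsClosedEmbedding i) {q : ℕ} (φ : AsC k Z q) :
    asSupp (asZeroExt k i q φ) ⊆ i '' asSupp φ := by
  intro x hx
  by_contra hc
  apply hx
  by_cases hr : x ∈ Set.range i
  · obtain ⟨z, rfl⟩ := hr
    have hz : AsVan φ z := by
      rw [← as_not_mem_supp]
      exact fun h => hc ⟨z, h, rfl⟩
    obtain ⟨N, hN, h⟩ := hz
    rw [hi.isEmbedding.nhds_eq_comap, Filter.mem_comap] at hN
    obtain ⟨N', hN', hsub⟩ := hN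
    refine ⟨N', hN', fun t ht => ?_⟩
    by_cases hall : ∀ j, t j ∈ Set.range i
    · choose w hw using hall
      have e : t = fun j => i (w j) := by
        funext j
        exact (hw j).symm
      rw [e, as_zeroExt_apply i hi.injective]
      exact h w (fun j => hsub (by show i (w j) ∈ N'; rw [hw j]; exact ht j))
    · rw [not_forall] at hall
      exact as_zeroExt_apply_of_not i q φ t hall
  · refine ⟨(Set.range i)ᶜ, hi.isClosed_range.isOpen_compl.mem_nhds hr, fun t ht => ?_⟩
    exact as_zeroExt_apply_of_not i q φ t ⟨0, ht 0⟩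

end Claimed.Agent.R304
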