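/-
Row 304 (S0559).  Owner: helper138.  ALEXANDER-SPANIER COHOMOLOGY GROUPS: definitions.

* `asZ k P A q` / `asB k P A q` : cocycles / coboundaries "relative to `A`" = with support disjoint from `A`, everything modulo null cochains;
* `AsH k P A q = asZ / asB`     : for `P` compact Hausdorff and `A` closed this is `H^q_c(P \ A; k)`;
* `asMapH g` (continuous map of pairs), `asMapJ g` (total version, `0` if `g` is not a continuous map of pairs);
* `AsHc k q X = AsH k (OnePoint X) {∞} q`;  `asColl j : OnePoint X → OnePoint U` the collapse map of `j : U → X`;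
  `asHcPull f = asMapJ (OnePoint.map f)`, `asHcExt j = asMapJ (asColl j)`: BOTH operations of `NmCoh` are induced by pointed maps.
-/
import Claimed.Agent.R304.AsCochain

set_option autoImplicit false

namespace Claimed.Agent.R304

open Topology

/-- null cochains -/
def asNull (k : Type) [Field k] (P : Type) [TopologicalSpace P] (q : ℕ) : Submodule k (AsC k P q) where
  carrier := {φ | asSupp φ = ∅}
  zero_mem' := as_supp_zero q
  add_mem' := by
    intro φ ψ hφ hψ
    have h := as_supp_add φ ψ
    have h1 : asSupp φ = ∅ := hφ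
    have h2 : asSupp ψ = ∅ := hψ
    rw [h1, h2, Set.union_empty] at h
    exact Set.subset_empty_iff.1 h
  smul_mem' := by
    intro c φ hφ
    have h := as_supp_smul c φ
    have h1 : asSupp φ = ∅ := hφ
    rw [h1] at h
    exact Set.subset_empty_iff.1 h

/-- cochains with support disjoint from `A` -/
def asOff (k : Type) [Field k] (P : Type) [TopologicalSpace P] (A : Set P) (q : ℕ) :
    Submodule k (AsC k P q) where
  carrier := {φ | Disjoint (asSupp φ) A}
  zero_mem' := by
    show Disjoint (asSupp (0 : AsC k P q)) A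
    rw [as_supp_zero]
    exact Set.empty_disjoint A
  add_mem' := by
    intro φ ψ hφ hψ
    exact (Disjoint.union_left hφ hψ).mono_left (as_supp_add φ ψ)
  smul_mem' := by
    intro c φ hφ
    exact Disjoint.mono_left (as_supp_smul c φ) hφ

/-- cocycles relative to `A` -/
def asZ (k : Type) [Field k] (P : Type) [TopologicalSpace P] (A : Set P) (q : ℕ) :
    Submodule k (AsC k P q) :=
  asOff k P A q ⊓ (asNull k P (q + 1)).comap (asD k P q)

/-- coboundaries relative to `A` -/
def asB (k : Type) [Field k] (P : Type) [TopologicalSpace P] (A : Set P) :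
    (q : ℕ) → Submodule k (AsC k P q)
  | 0 => asNull k P 0
  | (q + 1) => asNull k P (q + 1) ⊔ (asOff k P A q).map (asD k P q)

/-- Alexander-Spanier cohomology of `P` with supports off `A` -/
def AsH (k : Type) [Field k] (P : Type) [TopologicalSpace P] (A : Set P) (q : ℕ) : Type :=
  (asZ k P A q) ⧸ (asB k P A q).comap (asZ k P A q).subtype

noncomputable instance asHAcg (k : Type) [Field k] (P : Type) [TopologicalSpace P] (A : Set P) (q : ℕ) :
    AddCommGroup (AsH k P A q) :=
  inferInstanceAs (AddCommGroup ((asZ k P A q) ⧸ (asB k P A q).comap (asZ k P A q).subtype))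

noncomputable instance asHMod (k : Type) [Field k] (P : Type) [TopologicalSpace P] (A : Set P) (q : ℕ) :
    Module k (AsH k P A q) :=
  inferInstanceAs (Module k ((asZ k P A q) ⧸ (asB k P A q).comap (asZ k P A q).subtype))

/-- the class of a cocycle -/
noncomputable def asCls (k : Type) [Field k] (P : Type) [TopologicalSpace P] (A : Set P) (q : ℕ) :
    asZ k P A q →ₗ[k] AsH k P A q :=
  ((asB k P A q).comap (asZ k P A q).subtype).mkQ

theorem as_pull_null {k : Type} [Field k] {P P' : Type} [TopologicalSpace P] [TopologicalSpace P']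
    (g : P → P') (hg : Continuous g) (q : ℕ) (φ : AsC k P' q) (h : φ ∈ asNull k P' q) :
    asPull k g q φ ∈ asNull k P q := by
  have h1 := as_supp_pull g hg φ
  have h2 : asSupp φ = ∅ := h
  rw [h2, Set.preimage_empty] at h1
  exact Set.subset_empty_iff.1 h1

theorem as_pull_off {k : Type} [Field k] {P P' : Type} [TopologicalSpace P] [TopologicalSpace P']
    (g : P → P') (hg : Continuous g) (A : Set P) (A' : Set P') (hA : Set.MapsTo g A A') (q : ℕ)
    (φ : AsC k P' q) (h : φ ∈ asOff k P' A' q) : asPull k g q φ ∈ asOff k P A q := by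
  have h2 : Disjoint (asSupp φ) A' := h
  show Disjoint (asSupp (asPull k g q φ)) A
  rw [Set.disjoint_left]
  intro x hx hxA
  exact Set.disjoint_left.1 h2 (as_supp_pull g hg φ hx) (hA hxA)

theorem as_pull_Z {k : Type} [Field k] {P P' : Type} [TopologicalSpace P] [TopologicalSpace P']
    (g : P → P') (hg : Continuous g) (A : Set P) (A' : Set P') (hA : Set.MapsTo g A A') (q : ℕ)
    (φ : AsC k P' q) (h : φ ∈ asZ k P' A' q) : asPull k g q φ ∈ asZ k P A q := by
  refine ⟨as_pull_off g hg A A' hA q φ h.1, ?_⟩
  show asD k P q (asPull k g q φ) ∈ asNull k P (q + 1)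
  rw [← as_pull_d]
  exact as_pull_null g hg (q + 1) _ h.2

theorem as_pull_B {k : Type} [Field k] {P P' : Type} [TopologicalSpace P] [TopologicalSpace P']
    (g : P → P') (hg : Continuous g) (A : Set P) (A' : Set P') (hA : Set.MapsTo g A A') (q : ℕ)
    (φ : AsC k P' q) (h : φ ∈ asB k P' A' q) : asPull k g q φ ∈ asB k P A q := by
  cases q with
  | zero => exact as_pull_null g hg 0 φ h
  | succ q =>
    obtain ⟨η, hη, θ, hθ, rfl⟩ := Submodule.mem_sup.1 h
    obtain ⟨ψ, hψ, rfl⟩ := hθ
    rw [map_add]
    refine Submodule.add_mem_sup (as_pull_null g hg (q + 1) η hη) ?_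
    exact ⟨asPull k g q ψ, as_pull_off g hg A A' hA q ψ hψ, (as_pull_d g q ψ).symm⟩

/-- the map induced by a continuous map of pairs -/
noncomputable def asMapH (k : Type) [Field k] {P P' : Type} [TopologicalSpace P] [TopologicalSpace P']
    (g : P → P') (hg : Continuous g) (A : Set P) (A' : Set P') (hA : Set.MapsTo g A A') (q : ℕ) :
    AsH k P' A' q →ₗ[k] AsH k P A q :=
  Submodule.mapQ _ _ ((asPull k g q).restrict (fun φ h => as_pull_Z g hg A A' hA q φ h))
    (fun φ h => as_pull_B g hg A A' hA q φ.1 h)

open Classical in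
/-- total version of `asMapH` -/
noncomputable def asMapJ (k : Type) [Field k] {P P' : Type} [TopologicalSpace P] [TopologicalSpace P']
    (g : P → P') (A : Set P) (A' : Set P') (q : ℕ) : AsH k P' A' q →ₗ[k] AsH k P A q :=
  if h : Continuous g ∧ Set.MapsTo g A A' then asMapH k g h.1 A A' h.2 q else 0

/-- cohomology with compact supports -/
abbrev AsHc (k : Type) [Field k] (q : ℕ) (X : Type) [TopologicalSpace X] : Type :=
  AsH k (OnePoint X) {OnePoint.infty} q

/-- the collapse map `X⁺ → U⁺` of a map `j : U → X` (used for embeddings onto o-p-e-n subsets) -/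
noncomputable def asColl {U X : Type} (j : U → X) : OnePoint X → OnePoint U :=
  fun x => x.elim OnePoint.infty
    (Function.extend j (fun u => (u : OnePoint U)) (fun _ => OnePoint.infty))

/-- pull back along a proper map -/
noncomputable def asHcPull (k : Type) [Field k] (q : ℕ) {X Y : Type} [TopologicalSpace X]
    [TopologicalSpace Y] (f : X → Y) : AsHc k q Y →ₗ[k] AsHc k q X :=
  asMapJ k (OnePoint.map f) {OnePoint.infty} {OnePoint.infty} q

/-- extension by zero -/
noncomputable def asHcExt (k : Type) [Field k] (q : ℕ) {U X : Type} [TopologicalSpace U]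
    [TopologicalSpace X] (j : U → X) : AsHc k q U →ₗ[k] AsHc k q X :=
  asMapJ k (asColl j) {OnePoint.infty} {OnePoint.infty} q

/-- realises the equation lemmas here (unique names) -/
theorem as_hdefs_eqns_cite : True := by
  have := @asNull.eq_1
  have := @asOff.eq_1
  have := @asZ.eq_1
  have := @asB.eq_1
  have := @asB.eq_2
  have := @AsH.eq_1
  have := @asHAcg.eq_1
  have := @asHMod.eq_1
  have := @asCls.eq_1
  have := @asMapH.eq_1
  have := @asMapJ.eq_1
  have := @asColl.eq_1
  have := @asHcPull.eq_1
  have := @asHcExt.eq_1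
  trivial

end Claimed.Agent.R304
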