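/-
Row 304 (S0559).  Owner: helper138.  PACKAGE AsFun (PROVED): functoriality of `AsH`, the pointed maps `OnePoint.map f` (proper `f`) and `asColl j` (embedding onto an o-p-e-n subset), and the FORMAL fields of `NmCoh`
for the model `AsHc`: `pull_id`, `pull_comp`, `ext_id`, `ext_comp`, `base_change`, `of_isEmpty`.  All of them are identities between maps of one point compactifications.
-/
import Claimed.Agent.R304.AsHDefs

set_option autoImplicit false

namespace Claimed.Agent.R304

open Topology

variable {k : Type} [Field k]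

/-! ### elements of `AsH` -/

theorem as_cls_surj (P : Type) [TopologicalSpace P] (A : Set P) (q : ℕ) :
    Function.Surjective (asCls k P A q) :=
  Submodule.mkQ_surjective _

theorem as_cls_eq_zero (P : Type) [TopologicalSpace P] (A : Set P) (q : ℕ) (φ : asZ k P A q) :
    asCls k P A q φ = 0 ↔ (φ : AsC k P q) ∈ asB k P A q :=
  Submodule.Quotient.mk_eq_zero _

theorem as_cls_eq_iff (P : Type) [TopologicalSpace P] (A : Set P) (q : ℕ) (φ ψ : asZ k P A q) :
    asCls k P A q φ = asCls k P A q ψ ↔ (φ : AsC k P q) - (ψ : AsC k P q) ∈ asB k P A q := by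
  rw [← sub_eq_zero, ← map_sub, as_cls_eq_zero]
  rfl

theorem as_mem_Z_iff (P : Type) [TopologicalSpace P] (A : Set P) (q : ℕ) (φ : AsC k P q) :
    φ ∈ asZ k P A q ↔ Disjoint (asSupp φ) A ∧ asSupp (asD k P q φ) = ∅ := Iff.rfl

theorem as_mem_B_zero (P : Type) [TopologicalSpace P] (A : Set P) (φ : AsC k P 0) :
    φ ∈ asB k P A 0 ↔ φ = 0 := by
  constructor
  · intro h
    exact as_deg0_null φ h
  · rintro rfl
    exact Submodule.zero_mem _

theorem as_mem_B_succ (P : Type) [TopologicalSpace P] (A : Set P) (q : ℕ) (φ : AsC k P (q + 1)) :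
    φ ∈ asB k P A (q + 1) ↔
      ∃ ψ : AsC k P q, Disjoint (asSupp ψ) A ∧ asSupp (φ - asD k P q ψ) = ∅ := by
  constructor
  · intro h
    obtain ⟨η, hη, θ, hθ, rfl⟩ := Submodule.mem_sup.1 h
    obtain ⟨ψ, hψ, rfl⟩ := hθ
    refine ⟨ψ, hψ, ?_⟩
    rw [add_sub_cancel_right]
    exact hη
  · rintro ⟨ψ, hψ, h⟩
    have e : φ = (φ - asD k P q ψ) + asD k P q ψ := by abel
    rw [e]
    exact Submodule.add_mem_sup h ⟨ψ, hψ, rfl⟩

theorem as_null_le_off (P : Type) [TopologicalSpace P] (A : Set P) (q : ℕ) :
    asNull k P q ≤ asOff k P A q := by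
  intro φ h
  have h1 : asSupp φ = ∅ := h
  show Disjoint (asSupp φ) A
  rw [h1]
  exact Set.empty_disjoint A

theorem as_null_d (P : Type) [TopologicalSpace P] (q : ℕ) (φ : AsC k P q) (h : φ ∈ asNull k P q) :
    asD k P q φ ∈ asNull k P (q + 1) := by
  have h1 : asSupp φ = ∅ := h
  have h2 := as_supp_d φ
  rw [h1] at h2
  exact Set.subset_empty_iff.1 h2

theorem as_B_le_Z (P : Type) [TopologicalSpace P] (A : Set P) (q : ℕ) : asB k P A q ≤ asZ k P A q := by
  cases q with
  | zero =>
    intro φ h
    exact ⟨as_null_le_off P A 0 h, as_null_d P 0 φ h⟩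
  | succ q =>
    refine sup_le ?_ ?_
    · intro φ h
      exact ⟨as_null_le_off P A _ h, as_null_d P _ φ h⟩
    · rintro _ ⟨ψ, hψ, rfl⟩
      refine ⟨Disjoint.mono_left (as_supp_d ψ) hψ, ?_⟩
      show asD k P (q + 1) (asD k P q ψ) ∈ asNull k P (q + 2)
      rw [as_d_d]
      exact Submodule.zero_mem _

/-! ### functoriality -/

theorem as_mapH_cls {P P' : Type} [TopologicalSpace P] [TopologicalSpace P'] (g : P → P')
    (hg : Continuous g) (A : Set P) (A' : Set P') (hA : Set.MapsTo g A A') (q : ℕ)
    (φ : asZ k P' A' q) :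
    asMapH k g hg A A' hA q (asCls k P' A' q φ) =
      asCls k P A q ⟨asPull k g q φ.1, as_pull_Z g hg A A' hA q φ.1 φ.2⟩ := rfl

theorem as_mapJ_eq {P P' : Type} [TopologicalSpace P] [TopologicalSpace P'] (g : P → P')
    (hg : Continuous g) (A : Set P) (A' : Set P') (hA : Set.MapsTo g A A') (q : ℕ) :
    asMapJ k g A A' q = asMapH k g hg A A' hA q := by
  unfold asMapJ
  rw [dif_pos ⟨hg, hA⟩]

theorem as_mapJ_id (P : Type) [TopologicalSpace P] (A : Set P) (q : ℕ) (u : AsH k P A q) :
    asMapJ k (id : P → P) A A q u = u := by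
  rw [as_mapJ_eq id continuous_id A A (Set.mapsTo_id A)]
  obtain ⟨φ, rfl⟩ := as_cls_surj P A q u
  rw [as_mapH_cls]
  rfl

theorem as_mapJ_comp {P P' P'' : Type} [TopologicalSpace P] [TopologicalSpace P']
    [TopologicalSpace P''] (g : P → P') (g' : P' → P'') (hg : Continuous g) (hg' : Continuous g')
    (A : Set P) (A' : Set P') (A'' : Set P'') (hA : Set.MapsTo g A A') (hA' : Set.MapsTo g' A' A'')
    (q : ℕ) (u : AsH k P'' A'' q) :
    asMapJ k (g' ∘ g) A A'' q u = asMapJ k g A A' q (asMapJ k g' A' A'' q u) := by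
  rw [as_mapJ_eq (g' ∘ g) (hg'.comp hg) A A'' (hA'.comp hA), as_mapJ_eq g hg A A' hA,
    as_mapJ_eq g' hg' A' A'' hA']
  obtain ⟨φ, rfl⟩ := as_cls_surj P'' A'' q u
  rfl

/-! ### the pointed maps -/

theorem as_map_cont {X Y : Type} [TopologicalSpace X] [TopologicalSpace Y] (f : X → Y)
    (hf : IsProperMap f) : Continuous (OnePoint.map f) := by
  refine OnePoint.continuous_map hf.continuous ?_
  rw [Filter.hasBasis_coclosedCompact.tendsto_right_iff]
  rintro K ⟨hKc, hK⟩
  have : (f ⁻¹' K)ᶜ ∈ Filter.coclosedCompact X :=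
    (hf.isCompact_preimage hK).compl_mem_coclosedCompact_of_isClosed (hKc.preimage hf.continuous)
  exact Filter.mem_of_superset this (fun x hx => hx)

theorem as_coll_coe {U X : Type} (j : U → X) (hj : Function.Injective j) (u : U) :
    asColl j ((j u : X) : OnePoint X) = (u : OnePoint U) := by
  show Function.extend j (fun u => (u : OnePoint U)) (fun _ => OnePoint.infty) (j u) = _
  exact hj.extend_apply _ _ u

theorem as_coll_of_not {U X : Type} (j : U → X) (x : X) (hx : x ∉ Set.range j) :
    asColl j (x : OnePoint X) = OnePoint.infty := by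
  show Function.extend j (fun u => (u : OnePoint U)) (fun _ => OnePoint.infty) x = _
  exact Function.extend_apply' _ _ x hx

theorem as_coll_infty {U X : Type} (j : U → X) : asColl j OnePoint.infty = OnePoint.infty := rfl

theorem as_coll_cont {U X : Type} [TopologicalSpace U] [TopologicalSpace X] [T2Space X] (j : U → X)
    (hj : IsOpenEmbedding j) : Continuous (asColl j) := by
  rw [continuous_def]
  intro s hs
  by_cases hinf : OnePoint.infty ∈ s
  · have h1 := (OnePoint.isOpen_iff_of_mem hinf).1 hs
    have hK : IsCompact (j '' ((↑) ⁻¹' s : Set U)ᶜ) := h1.2.image hj.continuous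
    have e : asColl j ⁻¹' s = ((↑) '' (j '' ((↑) ⁻¹' s : Set U)ᶜ) : Set (OnePoint X))ᶜ := by
      ext x
      induction x using OnePoint.rec with
      | infty => simp [as_coll_infty, hinf]
      | coe x =>
        by_cases hx : x ∈ Set.range j
        · obtain ⟨u, rfl⟩ := hx
          simp [as_coll_coe j hj.injective, hj.injective.eq_iff]
        · simp only [Set.mem_preimage, as_coll_of_not j x hx, hinf, Set.mem_compl_iff, Set.mem_image,
            OnePoint.coe_eq_coe, exists_eq_right, true_iff, not_exists, not_and]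
          intro u _ hu
          exact hx ⟨u, hu⟩
    rw [e]
    exact OnePoint.isOpen_compl_image_coe.2 ⟨hK.isClosed, hK⟩
  · have h1 := (OnePoint.isOpen_iff_of_notMem hinf).1 hs
    have e : asColl j ⁻¹' s = ((↑) '' (j '' ((↑) ⁻¹' s : Set U)) : Set (OnePoint X)) := by
      ext x
      induction x using OnePoint.rec with
      | infty => simp [as_coll_infty, hinf]
      | coe x =>
        by_cases hx : x ∈ Set.range j
        · obtain ⟨u, rfl⟩ := hx
          simp [as_coll_coe j hj.injective, hj.injective.eq_iff]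
        · simp only [Set.mem_preimage, as_coll_of_not j x hx, hinf, Set.mem_image,
            OnePoint.coe_eq_coe, exists_eq_right, false_iff, not_exists, not_and]
          intro u _ hu
          exact hx ⟨u, hu⟩
    rw [e]
    exact OnePoint.isOpen_image_coe.2 (hj.isOpenMap _ h1)

theorem as_coll_id (X : Type) (x : OnePoint X) : asColl (id : X → X) x = x := by
  induction x using OnePoint.rec with
  | infty => rfl
  | coe x => exact as_coll_coe id Function.injective_id x

theorem as_coll_comp {X Y Z : Type} (f : X → Y) (g : Y → Z) (hf : Function.Injective f)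
    (hg : Function.Injective g) (z : OnePoint Z) : asColl (g ∘ f) z = asColl f (asColl g z) := by
  induction z using OnePoint.rec with
  | infty => rfl
  | coe z =>
    by_cases hz : z ∈ Set.range g
    · obtain ⟨y, rfl⟩ := hz
      rw [as_coll_coe g hg]
      by_cases hy : y ∈ Set.range f
      · obtain ⟨x, rfl⟩ := hy
        rw [as_coll_coe f hf]
        exact as_coll_coe (g ∘ f) (hg.comp hf) x
      · rw [as_coll_of_not f y hy]
        refine as_coll_of_not _ _ ?_
        rintro ⟨x, hx⟩
        exact hy ⟨x, hg hx⟩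
    · rw [as_coll_of_not g z hz, as_coll_infty]
      refine as_coll_of_not _ _ ?_
      rintro ⟨x, hx⟩
      exact hz ⟨f x, hx⟩

theorem as_coll_base_change {X Y V V' : Type} (f : X → Y) (j : V → Y) (f' : V' → V) (j' : V' → X)
    (hj : Function.Injective j) (hj' : Function.Injective j') (hcomm : ∀ v, f (j' v) = j (f' v))
    (hcart : Set.range j' = f ⁻¹' Set.range j) (x : OnePoint X) :
    asColl j (OnePoint.map f x) = OnePoint.map f' (asColl j' x) := by
  induction x using OnePoint.rec with
  | infty => rfl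
  | coe x =>
    by_cases hx : x ∈ Set.range j'
    · obtain ⟨v, rfl⟩ := hx
      rw [as_coll_coe j' hj', OnePoint.map_some, OnePoint.map_some, hcomm, as_coll_coe j hj]
    · rw [as_coll_of_not j' x hx, OnePoint.map_some, OnePoint.map_infty]
      refine as_coll_of_not _ _ ?_
      intro h
      exact hx (by rw [hcart]; exact h)

/-! ### the formal fields of `NmCoh` -/

theorem as_mapsTo_infty {X Y : Type} (g : OnePoint X → OnePoint Y) (h : g OnePoint.infty = OnePoint.infty) :
    Set.MapsTo g {OnePoint.infty} {OnePoint.infty} := by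
  intro x hx
  rw [Set.mem_singleton_iff] at hx
  rw [hx, h]
  rfl

theorem as_hc_pull_id (q : ℕ) (X : Type) [TopologicalSpace X] (u : AsHc k q X) :
    asHcPull k q (id : X → X) u = u := by
  unfold asHcPull
  rw [OnePoint.map_id]
  exact as_mapJ_id _ _ q u

theorem as_hc_pull_comp (q : ℕ) {X Y Z : Type} [TopologicalSpace X] [TopologicalSpace Y]
    [TopologicalSpace Z] (f : X → Y) (g : Y → Z) (hf : IsProperMap f) (hg : IsProperMap g)
    (u : AsHc k q Z) : asHcPull k q (g ∘ f) u = asHcPull k q f (asHcPull k q g u) := by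
  unfold asHcPull
  rw [OnePoint.map_comp]
  exact as_mapJ_comp _ _ (as_map_cont f hf) (as_map_cont g hg) _ _ _ (as_mapsTo_infty _ rfl)
    (as_mapsTo_infty _ rfl) q u

theorem as_hc_ext_id (q : ℕ) (X : Type) [TopologicalSpace X] (u : AsHc k q X) :
    asHcExt k q (id : X → X) u = u := by
  unfold asHcExt
  have : asColl (id : X → X) = id := funext (as_coll_id X)
  rw [this]
  exact as_mapJ_id _ _ q u

theorem as_hc_ext_comp (q : ℕ) {X Y Z : Type} [TopologicalSpace X] [TopologicalSpace Y]
    [TopologicalSpace Z] [T2Space Y] [T2Space Z] (f : X → Y) (g : Y → Z) (hf : IsOpenEmbedding f)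
    (hg : IsOpenEmbedding g) (u : AsHc k q X) :
    asHcExt k q (g ∘ f) u = asHcExt k q g (asHcExt k q f u) := by
  unfold asHcExt
  have : asColl (g ∘ f) = asColl f ∘ asColl g := funext (as_coll_comp f g hf.injective hg.injective)
  rw [this]
  exact as_mapJ_comp _ _ (as_coll_cont g hg) (as_coll_cont f hf) _ _ _ (as_mapsTo_infty _ rfl)
    (as_mapsTo_infty _ rfl) q u

theorem as_hc_base_change (q : ℕ) {X Y V V' : Type} [TopologicalSpace X] [TopologicalSpace Y]
    [TopologicalSpace V] [TopologicalSpace V'] [T2Space X] [T2Space Y]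
    (f : X → Y) (j : V → Y) (f' : V' → V) (j' : V' → X)
    (hf : IsProperMap f) (hj : IsOpenEmbedding j) (hf' : IsProperMap f') (hj' : IsOpenEmbedding j')
    (hcomm : ∀ v, f (j' v) = j (f' v)) (hcart : Set.range j' = f ⁻¹' Set.range j) (u : AsHc k q V) :
    asHcPull k q f (asHcExt k q j u) = asHcExt k q j' (asHcPull k q f' u) := by
  unfold asHcExt asHcPull
  rw [← as_mapJ_comp _ _ (as_map_cont f hf) (as_coll_cont j hj) _ _ _ (as_mapsTo_infty _ rfl)
    (as_mapsTo_infty _ rfl) q u, ← as_mapJ_comp _ _ (as_coll_cont j' hj') (as_map_cont f' hf') _ _ _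
    (as_mapsTo_infty _ rfl) (as_mapsTo_infty _ rfl) q u]
  have : asColl j ∘ OnePoint.map f = OnePoint.map f' ∘ asColl j' :=
    funext (as_coll_base_change f j f' j' hj.injective hj'.injective hcomm hcart)
  rw [this]

theorem as_hc_of_isEmpty (q : ℕ) (X : Type) [TopologicalSpace X] [IsEmpty X] (u : AsHc k q X) : u = 0 := by
  obtain ⟨φ, rfl⟩ := as_cls_surj _ _ q u
  rw [as_cls_eq_zero]
  have hnull : asSupp φ.1 = ∅ := by
    rw [Set.eq_empty_iff_forall_notMem]
    intro x hx
    induction x using OnePoint.rec with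
    | infty => exact Set.disjoint_left.1 φ.2.1 hx rfl
    | coe x => exact isEmptyElim x
  cases q with
  | zero => exact hnull
  | succ q => exact Submodule.mem_sup_left hnull

end Claimed.Agent.R304
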