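/-
Row 304 (S0559).  Owner: helper138.  PACKAGE AsExc (PROVED): EXCISION ("relative homeomorphisms induce isomorphisms"), at the level of cochains modulo null cochains it is a bijection, no homological algebra.

`AsRelHomeo g s A₂` : `g : P₁ → P₂` continuous, `A₂` closed, and `g` restricts to a homeomorphism `P₁ \ g⁻¹A₂ → P₂ \ A₂` with inverse `s`.
Examples: the collapse `asColl j : X⁺ → U⁺` (`A₂ = {∞}`), the map `X⁺ × I → (X × I)⁺`.
-/
import Claimed.Agent.R304.AsFun

set_option autoImplicit false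

namespace Claimed.Agent.R304

open Topology

/-- relative homeomorphism -/
structure AsRelHomeo {P₁ P₂ : Type} [TopologicalSpace P₁] [TopologicalSpace P₂] (g : P₁ → P₂)
    (s : P₂ → P₁) (A₂ : Set P₂) : Prop where
  cont : Continuous g
  closed : IsClosed A₂
  right_inv : ∀ y, y ∉ A₂ → g (s y) = y
  left_inv : ∀ x, g x ∉ A₂ → s (g x) = x
  cont_s : ∀ y, y ∉ A₂ → ContinuousAt s y

variable {k : Type} [Field k]

theorem as_relHomeo_mono {P₁ P₂ : Type} [TopologicalSpace P₁] [TopologicalSpace P₂] (g : P₁ → P₂)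
    (s : P₂ → P₁) (A₂ A₂' : Set P₂) (h : AsRelHomeo g s A₂) (hsub : A₂ ⊆ A₂') (hc : IsClosed A₂') :
    AsRelHomeo g s A₂' :=
  ⟨h.cont, hc, fun y hy => h.right_inv y (fun h' => hy (hsub h')),
    fun x hx => h.left_inv x (fun h' => hx (hsub h')), fun y hy => h.cont_s y (fun h' => hy (hsub h'))⟩

theorem as_exc_van {P₁ P₂ : Type} [TopologicalSpace P₁] [TopologicalSpace P₂] (g : P₁ → P₂)
    (s : P₂ → P₁) (A₂ : Set P₂) (h : AsRelHomeo g s A₂) (q : ℕ) (φ' : AsC k P₂ q) (y : P₂)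
    (hy : y ∉ A₂) (hv : AsVan (asPull k g q φ') (s y)) : AsVan φ' y := by
  obtain ⟨N, hN, hz⟩ := hv
  refine ⟨s ⁻¹' N ∩ A₂ᶜ, Filter.inter_mem (h.cont_s y hy hN) (h.closed.isOpen_compl.mem_nhds hy), ?_⟩
  intro t ht
  have e : t = fun i => g (s (t i)) := by
    funext i
    exact (h.right_inv _ (ht i).2).symm
  rw [e]
  exact hz (fun i => s (t i)) (fun i => (ht i).1)

theorem as_exc_supp {P₁ P₂ : Type} [TopologicalSpace P₁] [TopologicalSpace P₂] (g : P₁ → P₂)
    (s : P₂ → P₁) (A₂ : Set P₂) (h : AsRelHomeo g s A₂) (q : ℕ) (φ' : AsC k P₂ q)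
    (hoff : Disjoint (asSupp φ') A₂) : asSupp φ' ⊆ g '' asSupp (asPull k g q φ') := by
  intro y hy
  have hyA : y ∉ A₂ := Set.disjoint_left.1 hoff hy
  exact ⟨s y, fun hv => hy (as_exc_van g s A₂ h q φ' y hyA hv), h.right_inv y hyA⟩

theorem as_exc_null {P₁ P₂ : Type} [TopologicalSpace P₁] [TopologicalSpace P₂] (g : P₁ → P₂)
    (s : P₂ → P₁) (A₂ : Set P₂) (h : AsRelHomeo g s A₂) (q : ℕ) (φ' : AsC k P₂ q)
    (hoff : Disjoint (asSupp φ') A₂) (hn : asSupp (asPull k g q φ') = ∅) : asSupp φ' = ∅ := by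
  have := as_exc_supp g s A₂ h q φ' hoff
  rw [hn, Set.image_empty] at this
  exact Set.subset_empty_iff.1 this

theorem as_exc_lift {P₁ P₂ : Type} [TopologicalSpace P₁] [TopologicalSpace P₂] [CompactSpace P₁]
    [CompactSpace P₂] [T2Space P₂] (g : P₁ → P₂) (s : P₂ → P₁) (A₂ : Set P₂)
    (h : AsRelHomeo g s A₂) (q : ℕ) (φ : AsC k P₁ q) (hoff : Disjoint (asSupp φ) (g ⁻¹' A₂)) :
    ∃ φ' : AsC k P₂ q, Disjoint (asSupp φ') A₂ ∧ asSupp φ' ⊆ g '' asSupp φ ∧
      asSupp (asPull k g q φ' - φ) = ∅ := by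
  classical
  have hK : IsCompact (asSupp φ) := (as_supp_closed φ).isCompact
  have hgK : IsClosed (g '' asSupp φ) := (hK.image h.cont).isClosed
  have hsub : g '' asSupp φ ⊆ A₂ᶜ := by
    rintro _ ⟨x, hx, rfl⟩ hA
    exact Set.disjoint_left.1 hoff hx hA
  obtain ⟨E, hE, hKE, hEc⟩ := normal_exists_closure_subset hgK h.closed.isOpen_compl hsub
  set φ' : AsC k P₂ q := asCut k E q (asPull k s q φ) with hφ'
  have hoff' : Disjoint (asSupp φ') A₂ := by
    rw [Set.disjoint_left]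
    intro y hy hyA
    exact hEc (as_supp_cut E _ hy).2 hyA
  have hval : ∀ t : Fin (q + 1) → P₁, asPull k g q φ' t =
      if g (t 0) ∈ E then φ (fun i => s (g (t i))) else 0 := fun t => rfl
  have hnull : asSupp (asPull k g q φ' - φ) = ∅ := by
    rw [Set.eq_empty_iff_forall_notMem]
    intro x
    rw [as_not_mem_supp]
    by_cases hx : g x ∈ E
    · refine as_van_sub_of_eqOn _ _ x (g ⁻¹' E) ((hE.preimage h.cont).mem_nhds hx) ?_
      intro t ht
      rw [hval, if_pos (show g (t 0) ∈ E from ht 0)]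
      congr 1
      funext i
      exact h.left_inv _ (hEc (subset_closure (ht i)))
    · have hxK : AsVan φ x := by
        rw [← as_not_mem_supp]
        exact fun hh => hx (hKE ⟨x, hh, rfl⟩)
      obtain ⟨N₀, hN₀, hz⟩ := hxK
      by_cases hxA : g x ∈ A₂
      · refine as_van_sub_of_eqOn _ _ x (N₀ ∩ g ⁻¹' (closure E)ᶜ) (Filter.inter_mem hN₀
          ((isClosed_closure.isOpen_compl.preimage h.cont).mem_nhds (fun hc => hEc hc hxA))) ?_
        intro t ht
        rw [hval, if_neg (fun hc => (ht 0).2 (subset_closure hc)), hz t (fun i => (ht i).1)]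
      · refine as_van_sub_of_eqOn _ _ x (N₀ ∩ g ⁻¹' A₂ᶜ) (Filter.inter_mem hN₀
          ((h.closed.isOpen_compl.preimage h.cont).mem_nhds hxA)) ?_
        intro t ht
        have e : (fun i => s (g (t i))) = t := by
          funext i
          exact h.left_inv _ (ht i).2
        rw [hval, e, hz t (fun i => (ht i).1), ite_self]
  refine ⟨φ', hoff', ?_, hnull⟩
  refine (as_exc_supp g s A₂ h q φ' hoff').trans (Set.image_mono ?_)
  intro x hx
  have e : asPull k g q φ' = (asPull k g q φ' - φ) + φ := by abel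
  rw [e] at hx
  rcases as_supp_add _ _ hx with h1 | h1
  · rw [hnull] at h1; exact h1.elim
  · exact h1

theorem as_null_le_B (P : Type) [TopologicalSpace P] (A : Set P) (q : ℕ) : asNull k P q ≤ asB k P A q := by
  cases q with
  | zero => exact le_rfl
  | succ q => exact le_sup_left

theorem as_supp_eq_empty_of_sub {P : Type} [TopologicalSpace P] {q : ℕ} (φ ψ : AsC k P q)
    (h1 : asSupp φ = ∅) (h2 : asSupp ψ = ∅) : asSupp (φ - ψ) = ∅ := by
  have := as_supp_sub φ ψ
  rw [h1, h2, Set.union_empty] at this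
  exact Set.subset_empty_iff.1 this

theorem as_supp_eq_empty_of_add {P : Type} [TopologicalSpace P] {q : ℕ} (φ ψ : AsC k P q)
    (h1 : asSupp φ = ∅) (h2 : asSupp ψ = ∅) : asSupp (φ + ψ) = ∅ := by
  have := as_supp_add φ ψ
  rw [h1, h2, Set.union_empty] at this
  exact Set.subset_empty_iff.1 this

theorem as_supp_eq_empty_of_d {P : Type} [TopologicalSpace P] {q : ℕ} (φ : AsC k P q)
    (h1 : asSupp φ = ∅) : asSupp (asD k P q φ) = ∅ := by
  have := as_supp_d φ
  rw [h1] at this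
  exact Set.subset_empty_iff.1 this

theorem as_supp_eq_empty_of_pull {P P' : Type} [TopologicalSpace P] [TopologicalSpace P'] (g : P → P')
    (hg : Continuous g) {q : ℕ} (φ : AsC k P' q) (h1 : asSupp φ = ∅) : asSupp (asPull k g q φ) = ∅ := by
  have := as_supp_pull g hg φ
  rw [h1, Set.preimage_empty] at this
  exact Set.subset_empty_iff.1 this

/-- a lift of a cocycle is a cocycle -/
theorem as_exc_lift_cocycle {P₁ P₂ : Type} [TopologicalSpace P₁] [TopologicalSpace P₂] (g : P₁ → P₂)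
    (s : P₂ → P₁) (A₂ : Set P₂) (h : AsRelHomeo g s A₂) (q : ℕ) (φ : AsC k P₁ q) (φ' : AsC k P₂ q)
    (hoff : Disjoint (asSupp φ') A₂) (hn : asSupp (asPull k g q φ' - φ) = ∅)
    (hd : asSupp (asD k P₁ q φ) = ∅) : asSupp (asD k P₂ q φ') = ∅ := by
  refine as_exc_null g s A₂ h (q + 1) _ (hoff.mono_left (as_supp_d φ')) ?_
  have e : asPull k g (q + 1) (asD k P₂ q φ') = asD k P₁ q (asPull k g q φ' - φ) + asD k P₁ q φ := by
    rw [as_pull_d, map_sub]; abel
  rw [e]
  exact as_supp_eq_empty_of_add _ _ (as_supp_eq_empty_of_d _ hn) hd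

theorem as_exc_bij {P₁ P₂ : Type} [TopologicalSpace P₁] [TopologicalSpace P₂] [CompactSpace P₁]
    [CompactSpace P₂] [T2Space P₂] (g : P₁ → P₂) (s : P₂ → P₁) (A₂ : Set P₂)
    (h : AsRelHomeo g s A₂) (q : ℕ) :
    Function.Bijective (asMapH k g h.cont (g ⁻¹' A₂) A₂ (fun _ hx => hx) q) := by
  constructor
  · rw [injective_iff_map_eq_zero]
    intro u hu
    obtain ⟨φ', rfl⟩ := as_cls_surj P₂ A₂ q u
    have hu2 : asCls k P₁ (g ⁻¹' A₂) q ⟨asPull k g q φ'.1,
        as_pull_Z g h.cont (g ⁻¹' A₂) A₂ (fun _ hx => hx) q φ'.1 φ'.2⟩ = 0 := hu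
    rw [as_cls_eq_zero] at hu2
    rw [as_cls_eq_zero]
    have hu' : asPull k g q φ'.1 ∈ asB k P₁ (g ⁻¹' A₂) q := hu2
    cases q with
    | zero =>
      exact as_exc_null g s A₂ h 0 φ'.1 φ'.2.1 hu'
    | succ q =>
      obtain ⟨ψ, hψ, hn⟩ := (as_mem_B_succ _ _ _ _).1 hu'
      obtain ⟨ψ', hψ', _, hn'⟩ := as_exc_lift g s A₂ h q ψ hψ
      refine (as_mem_B_succ _ _ _ _).2 ⟨ψ', hψ', ?_⟩
      refine as_exc_null g s A₂ h (q + 1) _ ?_ ?_
      · exact (Set.disjoint_union_left.2 ⟨φ'.2.1, hψ'.mono_left (as_supp_d ψ')⟩).mono_left (as_supp_sub _ _)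
      · have e : asPull k g (q + 1) (φ'.1 - asD k P₂ q ψ') =
            (asPull k g (q + 1) φ'.1 - asD k P₁ q ψ) - asD k P₁ q (asPull k g q ψ' - ψ) := by
          rw [map_sub, as_pull_d, map_sub]; abel
        rw [e]
        exact as_supp_eq_empty_of_sub _ _ hn (as_supp_eq_empty_of_d _ hn')
  · intro v
    obtain ⟨φ, rfl⟩ := as_cls_surj P₁ (g ⁻¹' A₂) q v
    obtain ⟨φ', hφ', _, hn⟩ := as_exc_lift g s A₂ h q φ.1 φ.2.1
    have hZ : φ' ∈ asZ k P₂ A₂ q := ⟨hφ', as_exc_lift_cocycle g s A₂ h q φ.1 φ' hφ' hn φ.2.2⟩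
    refine ⟨asCls k P₂ A₂ q ⟨φ', hZ⟩, ?_⟩
    show asCls k P₁ (g ⁻¹' A₂) q ⟨asPull k g q φ',
        as_pull_Z g h.cont (g ⁻¹' A₂) A₂ (fun _ hx => hx) q φ' hZ⟩ = _
    rw [as_cls_eq_iff]
    exact as_null_le_B _ _ _ hn

theorem as_coll_relHomeo {U X : Type} [TopologicalSpace U] [TopologicalSpace X] [T2Space X]
    (j : U → X) (hj : IsOpenEmbedding j) :
    AsRelHomeo (asColl j) (OnePoint.map j) ({OnePoint.infty} : Set (OnePoint U)) := by
  refine ⟨as_coll_cont j hj, OnePoint.isClosed_infty, ?_, ?_, ?_⟩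
  · intro y hy
    induction y using OnePoint.rec with
    | infty => exact (hy rfl).elim
    | coe u => rw [OnePoint.map_some, as_coll_coe j hj.injective]
  · intro x hx
    induction x using OnePoint.rec with
    | infty => exact (hx rfl).elim
    | coe x =>
      by_cases hr : x ∈ Set.range j
      · obtain ⟨u, rfl⟩ := hr
        rw [as_coll_coe j hj.injective, OnePoint.map_some]
      · exact (hx (as_coll_of_not j x hr)).elim
  · intro y hy
    induction y using OnePoint.rec with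
    | infty => exact (hy rfl).elim
    | coe u =>
      rw [OnePoint.continuousAt_coe]
      exact (OnePoint.continuous_coe.comp hj.continuous).continuousAt

theorem as_coll_preimage {U X : Type} (j : U → X) (hj : Function.Injective j) :
    asColl j ⁻¹' ({OnePoint.infty} : Set (OnePoint U)) =
      ((fun u : U => ((j u : X) : OnePoint X)) '' Set.univ)ᶜ := by
  ext x
  induction x using OnePoint.rec with
  | infty => simp [as_coll_infty]
  | coe x =>
    by_cases hr : x ∈ Set.range j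
    · obtain ⟨u, rfl⟩ := hr
      simp [as_coll_coe j hj]
    · simp only [Set.mem_preimage, as_coll_of_not j x hr, Set.mem_singleton_iff, Set.image_univ,
        Set.mem_compl_iff, Set.mem_range, OnePoint.coe_eq_coe, true_iff]
      exact hr

theorem as_coll_off {U X : Type} [TopologicalSpace X] (j : U → X) (hj : Function.Injective j) {q : ℕ}
    (φ : AsC k (OnePoint X) q)
    (hφ : asSupp φ ⊆ Set.range (fun u : U => ((j u : X) : OnePoint X))) :
    Disjoint (asSupp φ) (asColl j ⁻¹' ({OnePoint.infty} : Set (OnePoint U))) := by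
  rw [as_coll_preimage j hj, Set.image_univ, Set.disjoint_compl_right_iff_subset]
  exact hφ

theorem as_coll_supp {U X : Type} [TopologicalSpace U] [TopologicalSpace X] [T2Space X] (j : U → X)
    (hj : IsOpenEmbedding j) {q : ℕ} (φ' : AsC k (OnePoint U) q)
    (hφ : Disjoint (asSupp φ') {OnePoint.infty}) :
    asSupp (asPull k (asColl j) q φ') ⊆ Set.range (fun u : U => ((j u : X) : OnePoint X)) := by
  intro x hx
  have h1 := as_supp_pull (asColl j) (as_coll_cont j hj) φ' hx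
  have h2 : x ∉ asColl j ⁻¹' ({OnePoint.infty} : Set (OnePoint U)) :=
    fun h => Set.disjoint_left.1 hφ h1 h
  rw [as_coll_preimage j hj.injective, Set.image_univ] at h2
  exact not_not.1 h2

theorem as_hcExt_cls {U X : Type} [TopologicalSpace U] [TopologicalSpace X] [T2Space X]
    (j : U → X) (hj : IsOpenEmbedding j) (q : ℕ) (φ' : asZ k (OnePoint U) {OnePoint.infty} q) :
    asHcExt k q j (asCls k _ _ q φ') = asCls k (OnePoint X) {OnePoint.infty} q
      ⟨asPull k (asColl j) q φ'.1, as_pull_Z (asColl j) (as_coll_cont j hj) _ _ (as_mapsTo_infty _ rfl) q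
        φ'.1 φ'.2⟩ := by
  unfold asHcExt
  rw [as_mapJ_eq (asColl j) (as_coll_cont j hj) _ _ (as_mapsTo_infty _ rfl)]
  rfl

theorem as_dict_surj {U X : Type} [TopologicalSpace U] [TopologicalSpace X] [T2Space X]
    [T2Space U] [LocallyCompactSpace U] (j : U → X) (hj : IsOpenEmbedding j) (q : ℕ)
    (φ : asZ k (OnePoint X) {OnePoint.infty} q)
    (hφ : asSupp φ.1 ⊆ Set.range (fun u : U => ((j u : X) : OnePoint X))) :
    ∃ w : AsHc k q U, asHcExt k q j w = asCls k (OnePoint X) {OnePoint.infty} q φ := by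
  have hrel := as_coll_relHomeo j hj
  obtain ⟨φ', hφ', _, hn⟩ := as_exc_lift _ _ _ hrel q φ.1 (as_coll_off j hj.injective φ.1 hφ)
  refine ⟨asCls k _ _ q ⟨φ', hφ', as_exc_lift_cocycle _ _ _ hrel q φ.1 φ' hφ' hn φ.2.2⟩, ?_⟩
  rw [as_hcExt_cls j hj, as_cls_eq_iff]
  exact as_null_le_B _ _ _ hn

theorem as_dict_repr {U X : Type} [TopologicalSpace U] [TopologicalSpace X] [T2Space X]
    (j : U → X) (hj : IsOpenEmbedding j) (q : ℕ) (w : AsHc k q U) :
    ∃ φ : asZ k (OnePoint X) {OnePoint.infty} q,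
      asSupp φ.1 ⊆ Set.range (fun u : U => ((j u : X) : OnePoint X)) ∧
      asHcExt k q j w = asCls k (OnePoint X) {OnePoint.infty} q φ := by
  obtain ⟨φ', rfl⟩ := as_cls_surj _ _ q w
  exact ⟨_, as_coll_supp j hj φ'.1 φ'.2.1, as_hcExt_cls j hj q φ'⟩

theorem as_dict_vanish {U X : Type} [TopologicalSpace U] [TopologicalSpace X] [T2Space X]
    [T2Space U] [LocallyCompactSpace U] (j : U → X) (hj : IsOpenEmbedding j) (q : ℕ)
    (hvan : ∀ w : AsHc k (q + 1) U, w = 0) (θ : AsC k (OnePoint X) (q + 1))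
    (hθ : asSupp θ ⊆ Set.range (fun u : U => ((j u : X) : OnePoint X)))
    (hd : asSupp (asD k (OnePoint X) (q + 1) θ) = ∅) :
    ∃ b : AsC k (OnePoint X) q, asSupp b ⊆ Set.range (fun u : U => ((j u : X) : OnePoint X)) ∧
      asSupp (θ - asD k (OnePoint X) q b) = ∅ := by
  have hrel := as_coll_relHomeo j hj
  obtain ⟨θ', hθ', _, hn⟩ := as_exc_lift _ _ _ hrel (q + 1) θ (as_coll_off j hj.injective θ hθ)
  have hz := hvan (asCls k _ _ (q + 1) ⟨θ', hθ', as_exc_lift_cocycle _ _ _ hrel (q + 1) θ θ' hθ' hn hd⟩)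
  rw [as_cls_eq_zero] at hz
  obtain ⟨b', hb', hn'⟩ := (as_mem_B_succ _ _ _ _).1 hz
  refine ⟨asPull k (asColl j) q b', as_coll_supp j hj b' hb', ?_⟩
  have e : θ - asD k (OnePoint X) q (asPull k (asColl j) q b') =
      asPull k (asColl j) (q + 1) (θ' - asD k (OnePoint U) q b') - (asPull k (asColl j) (q + 1) θ' - θ) := by
    rw [map_sub, as_pull_d]; abel
  rw [e]
  exact as_supp_eq_empty_of_sub _ _ (as_supp_eq_empty_of_pull _ (as_coll_cont j hj) _ hn') hn

end Claimed.Agent.R304
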