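/-
Row 304 (S0559).  Owner: helper138.  GRADED COMPLEXES WITH SUPPORTS (`AsFc`, the graded "FC model" without the axiom `supp m = ∅ → m = 0`), the acyclicity
predicates, and the two complexes to which the local-to-global principle `as_lg1` (`AsLG.lean`) is applied:
* `asFcTaut k P Z`  : cochains on `P` vanishing identically on tuples of points of `Z`, support `asSupp φ ∩ Z`          (tautness of closed subsets);
* `asFcVB k P t₀`   : cochains on `P × I` whose restriction to `P × {t₀}` vanishes identically, support `pr₁ (asSupp m)`   (Vietoris-Begle for `P × I → P`).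
-/
import Claimed.Agent.R304.AsCochain

set_option autoImplicit false

namespace Claimed.Agent.R304

open Topology

/-- a cochain complex of `k`-modules with supports in `X` and cut-off operators -/
structure AsFc (k : Type) [Field k] (X : Type) [TopologicalSpace X] where
  /-- the modules -/
  M : ℕ → Type
  [acg : ∀ q, AddCommGroup (M q)]
  [mod : ∀ q, Module k (M q)]
  /-- the differential -/
  d : ∀ q, M q →ₗ[k] M (q + 1)
  d_d : ∀ q m, d (q + 1) (d q m) = 0
  /-- the support -/
  supp : ∀ q, M q → Set X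
  supp_closed : ∀ q m, IsClosed (supp q m)
  supp_zero : ∀ q, supp q 0 = ∅
  supp_add : ∀ q m m', supp q (m + m') ⊆ supp q m ∪ supp q m'
  supp_neg : ∀ q m, supp q (-m) ⊆ supp q m
  supp_d : ∀ q m, supp (q + 1) (d q m) ⊆ supp q m
  /-- the cut-off operators -/
  cut : ∀ q, Set X → M q → M q
  supp_cut : ∀ q E m, supp q (cut q E m) ⊆ supp q m ∩ closure E
  supp_sub_cut : ∀ q E m, supp q (m - cut q E m) ⊆ supp q m \ interior E

attribute [instance] AsFc.acg AsFc.mod

namespace AsFc

variable {k : Type} [Field k] {X : Type} [TopologicalSpace X]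

/-- acyclicity near `K` in degree `0` -/
def Acyc0 (F : AsFc k X) (K : Set X) : Prop :=
  ∀ m : F.M 0, Disjoint (F.supp 1 (F.d 0 m)) K → Disjoint (F.supp 0 m) K

/-- acyclicity near `K` in degree `q + 1` -/
def AcycS (F : AsFc k X) (K : Set X) (q : ℕ) : Prop :=
  ∀ m : F.M (q + 1), Disjoint (F.supp (q + 2) (F.d (q + 1) m)) K →
    ∃ a : F.M q, Disjoint (F.supp (q + 1) (m - F.d q a)) K

/-- acyclicity near `K` in degree `q` -/
def Acyc (F : AsFc k X) (K : Set X) : ℕ → Prop
  | 0 => F.Acyc0 K
  | (q + 1) => F.AcycS K q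

end AsFc

/-- all Alexander-Spanier cochains as a complex with supports -/
noncomputable def asFcFull (k : Type) [Field k] (P : Type) [TopologicalSpace P] : AsFc k P where
  M q := AsC k P q
  d q := asD k P q
  d_d q m := as_d_d P q m
  supp q m := asSupp m
  supp_closed q m := as_supp_closed m
  supp_zero q := as_supp_zero q
  supp_add q m m' := as_supp_add m m'
  supp_neg q m := as_supp_neg m
  supp_d q m := as_supp_d m
  cut q E m := asCut k E q m
  supp_cut q E m := as_supp_cut E m
  supp_sub_cut q E m := as_supp_sub_cut E m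

/-- cochains vanishing identically on tuples of points of `Z` -/
def asRelSub (k : Type) [Field k] (P : Type) (Z : Set P) (q : ℕ) : Submodule k (AsC k P q) where
  carrier := {φ | ∀ x : Fin (q + 1) → P, (∀ j, x j ∈ Z) → φ x = 0}
  zero_mem' := fun _ _ => rfl
  add_mem' := by
    intro φ ψ hφ hψ x hx
    show φ x + ψ x = 0
    rw [hφ x hx, hψ x hx, add_zero]
  smul_mem' := by
    intro c φ hφ x hx
    show c * φ x = 0
    rw [hφ x hx, mul_zero]

theorem as_relSub_d (k : Type) [Field k] (P : Type) (Z : Set P) (q : ℕ) (φ : AsC k P q)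
    (h : φ ∈ asRelSub k P Z q) : asD k P q φ ∈ asRelSub k P Z (q + 1) := by
  intro x hx
  show ∑ i : Fin (q + 2), (-1 : k) ^ (i : ℕ) * φ (fun j => x (i.succAbove j)) = 0
  apply Finset.sum_eq_zero
  intro i _
  rw [h _ (fun j => hx _), mul_zero]

theorem as_relSub_cut (k : Type) [Field k] (P : Type) (Z E : Set P) (q : ℕ) (φ : AsC k P q)
    (h : φ ∈ asRelSub k P Z q) : asCut k E q φ ∈ asRelSub k P Z q := by
  intro x hx
  classical
  show (if x 0 ∈ E then φ x else 0) = 0
  rw [h x hx, ite_self]

/-- the complex for tautness -/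
noncomputable def asFcTaut (k : Type) [Field k] (P : Type) [TopologicalSpace P] (Z : Set P)
    (hZ : IsClosed Z) : AsFc k P where
  M q := asRelSub k P Z q
  d q := (asD k P q).restrict (fun φ h => as_relSub_d k P Z q φ h)
  d_d q m := Subtype.ext (as_d_d P q m.1)
  supp q m := asSupp m.1 ∩ Z
  supp_closed q m := (as_supp_closed m.1).inter hZ
  supp_zero q := by
    show asSupp (0 : AsC k P q) ∩ Z = ∅
    rw [as_supp_zero, Set.empty_inter]
  supp_add q m m' := by
    rintro x ⟨hx, hz⟩
    rcases as_supp_add m.1 m'.1 hx with h | h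
    · exact Or.inl ⟨h, hz⟩
    · exact Or.inr ⟨h, hz⟩
  supp_neg q m := fun x hx => ⟨as_supp_neg m.1 hx.1, hx.2⟩
  supp_d q m := fun x hx => ⟨as_supp_d m.1 hx.1, hx.2⟩
  cut q E m := ⟨asCut k E q m.1, as_relSub_cut k P Z E q m.1 m.2⟩
  supp_cut q E m := fun x hx => ⟨⟨(as_supp_cut E m.1 hx.1).1, hx.2⟩, (as_supp_cut E m.1 hx.1).2⟩
  supp_sub_cut q E m := fun x hx =>
    ⟨⟨(as_supp_sub_cut E m.1 hx.1).1, hx.2⟩, (as_supp_sub_cut E m.1 hx.1).2⟩

/-- the slice inclusion `x ↦ (x, t)` -/
def asSlice (P : Type) (t : unitInterval) (x : P) : P × unitInterval := (x, t)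

/-- cochains on `P × I` whose restriction to the slice `t₀` vanishes identically -/
def asVBSub (k : Type) [Field k] (P : Type) (t₀ : unitInterval) (q : ℕ) :
    Submodule k (AsC k (P × unitInterval) q) :=
  LinearMap.ker (asPull k (asSlice P t₀) q)

theorem as_vbSub_d (k : Type) [Field k] (P : Type) (t₀ : unitInterval) (q : ℕ)
    (m : AsC k (P × unitInterval) q) (h : m ∈ asVBSub k P t₀ q) :
    asD k (P × unitInterval) q m ∈ asVBSub k P t₀ (q + 1) := by
  have h' : asPull k (asSlice P t₀) q m = 0 := h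
  show asPull k (asSlice P t₀) (q + 1) (asD k (P × unitInterval) q m) = 0
  rw [as_pull_d, h', map_zero]

theorem as_vbSub_cut (k : Type) [Field k] (P : Type) (t₀ : unitInterval) (E : Set P) (q : ℕ)
    (m : AsC k (P × unitInterval) q) (h : m ∈ asVBSub k P t₀ q) :
    asCut k (Prod.fst ⁻¹' E : Set (P × unitInterval)) q m ∈ asVBSub k P t₀ q := by
  have h' : asPull k (asSlice P t₀) q m = 0 := h
  show asPull k (asSlice P t₀) q (asCut k (Prod.fst ⁻¹' E : Set (P × unitInterval)) q m) = 0
  rw [as_pull_cut, h', map_zero]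

/-- the complex for Vietoris-Begle -/
noncomputable def asFcVB (k : Type) [Field k] (P : Type) [TopologicalSpace P] (t₀ : unitInterval) :
    AsFc k P where
  M q := asVBSub k P t₀ q
  d q := (asD k (P × unitInterval) q).restrict (fun m h => as_vbSub_d k P t₀ q m h)
  d_d q m := Subtype.ext (as_d_d (P × unitInterval) q m.1)
  supp q m := Prod.fst '' asSupp m.1
  supp_closed q m := isClosedMap_fst_of_compactSpace _ (as_supp_closed m.1)
  supp_zero q := by
    show Prod.fst '' asSupp (0 : AsC k (P × unitInterval) q) = ∅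
    rw [as_supp_zero, Set.image_empty]
  supp_add q m m' := by
    rintro _ ⟨y, hy, rfl⟩
    rcases as_supp_add m.1 m'.1 hy with h | h
    · exact Or.inl ⟨y, h, rfl⟩
    · exact Or.inr ⟨y, h, rfl⟩
  supp_neg q m := by
    rintro _ ⟨y, hy, rfl⟩
    exact ⟨y, as_supp_neg m.1 hy, rfl⟩
  supp_d q m := by
    rintro _ ⟨y, hy, rfl⟩
    exact ⟨y, as_supp_d m.1 hy, rfl⟩
  cut q E m := ⟨asCut k (Prod.fst ⁻¹' E : Set (P × unitInterval)) q m.1, as_vbSub_cut k P t₀ E q m.1 m.2⟩
  supp_cut q E m := by
    rintro _ ⟨y, hy, rfl⟩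
    have h := as_supp_cut (Prod.fst ⁻¹' E : Set (P × unitInterval)) m.1 hy
    refine ⟨⟨y, h.1, rfl⟩, ?_⟩
    have hc : closure (Prod.fst ⁻¹' E : Set (P × unitInterval)) ⊆ Prod.fst ⁻¹' closure E :=
      continuous_fst.closure_preimage_subset E
    exact hc h.2
  supp_sub_cut q E m := by
    rintro _ ⟨y, hy, rfl⟩
    have h := as_supp_sub_cut (Prod.fst ⁻¹' E : Set (P × unitInterval)) m.1 hy
    refine ⟨⟨y, h.1, rfl⟩, fun hi => h.2 ?_⟩
    have hc : Prod.fst ⁻¹' interior E ⊆ interior (Prod.fst ⁻¹' E : Set (P × unitInterval)) :=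
      preimage_interior_subset_interior_preimage continuous_fst
    exact hc hi

/-- realises the equation lemmas here (unique names) -/
theorem as_fcdefs_eqns_cite : True := by
  have := @AsFc.Acyc0.eq_1
  have := @AsFc.AcycS.eq_1
  have := @AsFc.Acyc.eq_1
  have := @AsFc.Acyc.eq_2
  have := @asFcFull.eq_1
  have := @asRelSub.eq_1
  have := @asFcTaut.eq_1
  have := @asSlice.eq_1
  have := @asVBSub.eq_1
  have := @asFcVB.eq_1
  trivial

end Claimed.Agent.R304
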