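/-
Row 304 (S0559).  Owner: helper138.  PACKAGE AsLG (PROVED): THE LOCAL-TO-GLOBAL PRINCIPLE for complexes with supports (`AsFc`) over a compact Hausdorff space:
a complex which is acyclic near every point is acyclic near every closed set, and on every o-p-e-n set (with supports inside it).
Purely formal: closed supports, normality, compactness, the cut-off operators.  No cochains.
-/
import Claimed.Agent.R304.AsFcDefs

set_option autoImplicit false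

namespace Claimed.Agent.R304

open Topology

variable {k : Type} [Field k] {X : Type} [TopologicalSpace X]

theorem as_fc_supp_sub (F : AsFc k X) (q : ℕ) (m m' : F.M q) :
    F.supp q (m - m') ⊆ F.supp q m ∪ F.supp q m' := by
  rw [sub_eq_add_neg]
  exact (F.supp_add q m (-m')).trans (Set.union_subset_union_right _ (F.supp_neg q m'))

theorem as_fc_disj_add (F : AsFc k X) (q : ℕ) (m m' : F.M q) (K : Set X)
    (h : Disjoint (F.supp q m) K) (h' : Disjoint (F.supp q m') K) : Disjoint (F.supp q (m + m')) K :=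
  (Set.disjoint_union_left.2 ⟨h, h'⟩).mono_left (F.supp_add q m m')

theorem as_fc_disj_sub (F : AsFc k X) (q : ℕ) (m m' : F.M q) (K : Set X)
    (h : Disjoint (F.supp q m) K) (h' : Disjoint (F.supp q m') K) : Disjoint (F.supp q (m - m')) K :=
  (Set.disjoint_union_left.2 ⟨h, h'⟩).mono_left (as_fc_supp_sub F q m m')

theorem as_fc_disj_d (F : AsFc k X) (q : ℕ) (m : F.M q) (K : Set X)
    (h : Disjoint (F.supp q m) K) : Disjoint (F.supp (q + 1) (F.d q m)) K :=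
  h.mono_left (F.supp_d q m)

theorem as_split [NormalSpace X] (F : AsFc k X) (q : ℕ) (s : F.M q) (K₁ K₂ : Set X) (h₁ : IsClosed K₁)
    (h₂ : IsClosed K₂) (hs : Disjoint (F.supp q s) (K₁ ∩ K₂)) :
    ∃ s₁ s₂ : F.M q, s = s₁ + s₂ ∧ Disjoint (F.supp q s₁) K₁ ∧ Disjoint (F.supp q s₂) K₂ := by
  have hc : IsClosed (F.supp q s) := F.supp_closed q s
  have hsub : F.supp q s ∩ K₂ ⊆ (F.supp q s ∩ K₁)ᶜ := by
    rintro x ⟨hx, hx2⟩ ⟨_, hx1⟩
    exact Set.disjoint_left.1 hs hx ⟨hx1, hx2⟩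
  obtain ⟨E, hE, hCE, hEc⟩ := normal_exists_closure_subset (hc.inter h₂) (hc.inter h₁).isOpen_compl hsub
  refine ⟨F.cut q E s, s - F.cut q E s, by abel, ?_, ?_⟩
  · rw [Set.disjoint_left]
    intro x hx hx1
    have := F.supp_cut q E s hx
    exact hEc this.2 ⟨this.1, hx1⟩
  · rw [Set.disjoint_left]
    intro x hx hx2
    have := F.supp_sub_cut q E s hx
    exact this.2 (by rw [hE.interior_eq]; exact hCE ⟨this.1, hx2⟩)

theorem as_glue [NormalSpace X] (F : AsFc k X) (q : ℕ) (m : F.M (q + 1)) (a₁ a₂ z s : F.M q)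
    (K₁ K₂ : Set X) (h₁ : IsClosed K₁) (h₂ : IsClosed K₂)
    (ha₁ : Disjoint (F.supp (q + 1) (m - F.d q a₁)) K₁)
    (ha₂ : Disjoint (F.supp (q + 1) (m - F.d q a₂)) K₂)
    (hdec : a₁ - a₂ = z + s) (hz : F.d q z = 0) (hs : Disjoint (F.supp q s) (K₁ ∩ K₂)) :
    ∃ a : F.M q, Disjoint (F.supp (q + 1) (m - F.d q a)) (K₁ ∪ K₂) := by
  obtain ⟨s₁, s₂, hss, hs₁, hs₂⟩ := as_split F q s K₁ K₂ h₁ h₂ hs
  refine ⟨a₁ - s₁, ?_⟩
  rw [Set.disjoint_union_right]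
  constructor
  · have e : m - F.d q (a₁ - s₁) = (m - F.d q a₁) + F.d q s₁ := by
      rw [map_sub]; abel
    rw [e]
    exact as_fc_disj_add F _ _ _ _ ha₁ (as_fc_disj_d F _ _ _ hs₁)
  · have e0 : a₁ - s₁ = a₂ + z + s₂ := by
      have : a₁ = a₂ + (z + s) := by rw [← hdec]; abel
      rw [this, hss]; abel
    have e : m - F.d q (a₁ - s₁) = (m - F.d q a₂) - F.d q s₂ := by
      rw [e0, map_add, map_add, hz]; abel
    rw [e]
    exact as_fc_disj_sub F _ _ _ _ ha₂ (as_fc_disj_d F _ _ _ hs₂)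

theorem as_glue_acyc [NormalSpace X] (F : AsFc k X) (q : ℕ) (m : F.M (q + 1)) (a₁ a₂ : F.M q)
    (K₁ K₂ : Set X) (h₁ : IsClosed K₁) (h₂ : IsClosed K₂)
    (ha₁ : Disjoint (F.supp (q + 1) (m - F.d q a₁)) K₁)
    (ha₂ : Disjoint (F.supp (q + 1) (m - F.d q a₂)) K₂) (hac : F.Acyc (K₁ ∩ K₂) q) :
    ∃ a : F.M q, Disjoint (F.supp (q + 1) (m - F.d q a)) (K₁ ∪ K₂) := by
  have hc : Disjoint (F.supp (q + 1) (F.d q (a₁ - a₂))) (K₁ ∩ K₂) := by
    have e : F.d q (a₁ - a₂) = (m - F.d q a₂) - (m - F.d q a₁) := by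
      rw [map_sub]; abel
    rw [e]
    exact as_fc_disj_sub F _ _ _ _ (ha₂.mono_right Set.inter_subset_right)
      (ha₁.mono_right Set.inter_subset_left)
  cases q with
  | zero =>
    have := hac (a₁ - a₂) hc
    exact as_glue F 0 m a₁ a₂ 0 (a₁ - a₂) K₁ K₂ h₁ h₂ ha₁ ha₂ (by abel) (map_zero _) this
  | succ q' =>
    obtain ⟨b, hb⟩ := hac (a₁ - a₂) hc
    exact as_glue F (q' + 1) m a₁ a₂ (F.d q' b) (a₁ - a₂ - F.d q' b) K₁ K₂ h₁ h₂ ha₁ ha₂ (by abel)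
      (F.d_d _ _) hb

theorem as_closed_nhd [RegularSpace X] (S : Set X) (hS : IsClosed S) (x : X) (hx : x ∉ S) :
    ∃ L : Set X, IsClosed L ∧ L ∈ 𝓝 x ∧ Disjoint S L := by
  obtain ⟨L, hL, hLc, hsub⟩ := exists_mem_nhds_isClosed_subset (hS.isOpen_compl.mem_nhds hx)
  exact ⟨L, hLc, hL, Set.disjoint_left.2 (fun y hy hyL => hsub hyL hy)⟩

theorem as_glue_fin [NormalSpace X] (F : AsFc k X) (q : ℕ) (hac : ∀ K, IsClosed K → F.Acyc K q)
    (m : F.M (q + 1)) (n : ℕ) (L : Fin n → Set X) (hL : ∀ i, IsClosed (L i))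
    (ha : ∀ i, ∃ a : F.M q, Disjoint (F.supp (q + 1) (m - F.d q a)) (L i)) :
    ∃ a : F.M q, Disjoint (F.supp (q + 1) (m - F.d q a)) (⋃ i, L i) := by
  induction n with
  | zero =>
    refine ⟨0, ?_⟩
    rw [Set.iUnion_of_empty]
    exact Set.disjoint_empty _
  | succ n ih =>
    obtain ⟨a₁, ha₁⟩ := ih (fun i => L i.succ) (fun i => hL _) (fun i => ha _)
    obtain ⟨a₂, ha₂⟩ := ha 0
    have hcl : IsClosed (⋃ i : Fin n, L i.succ) := isClosed_iUnion_of_finite (fun i => hL _)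
    obtain ⟨a, h⟩ := as_glue_acyc F q m a₁ a₂ _ _ hcl (hL 0) ha₁ ha₂ (hac _ (hcl.inter (hL 0)))
    refine ⟨a, h.mono_right ?_⟩
    intro x hx
    obtain ⟨i, hi⟩ := Set.mem_iUnion.1 hx
    refine Fin.cases (fun hi => Or.inr hi) (fun j hj => Or.inl (Set.mem_iUnion.2 ⟨j, hj⟩)) i hi

theorem as_lg1 [CompactSpace X] [T2Space X] (F : AsFc k X) (h : ∀ x q, F.Acyc {x} q) (K : Set X)
    (hK : IsClosed K) (q : ℕ) : F.Acyc K q := by
  induction q generalizing K with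
  | zero =>
    intro m hm
    rw [Set.disjoint_left]
    intro x hx hxK
    have := h x 0 m (hm.mono_right (Set.singleton_subset_iff.2 hxK))
    exact Set.disjoint_left.1 this hx rfl
  | succ q ih =>
    intro m hm
    have hpt : ∀ x : K, ∃ L : Set X, IsClosed L ∧ L ∈ 𝓝 (x : X) ∧
        ∃ a : F.M q, Disjoint (F.supp (q + 1) (m - F.d q a)) L := by
      intro x
      obtain ⟨a, ha⟩ := h x (q + 1) m (hm.mono_right (Set.singleton_subset_iff.2 x.2))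
      obtain ⟨L, hL, hLn, hd⟩ := as_closed_nhd _ (F.supp_closed (q + 1) (m - F.d q a)) (x : X)
        (fun hx => Set.disjoint_left.1 ha hx rfl)
      exact ⟨L, hL, hLn, a, hd⟩
    choose L hLc hLn ha using hpt
    obtain ⟨t, ht⟩ := hK.isCompact.elim_nhds_subcover' (fun x hx => L ⟨x, hx⟩) (fun x hx => hLn ⟨x, hx⟩)
    obtain ⟨a, haa⟩ := as_glue_fin F q (fun K hK => ih K hK) m t.card (fun i => L (t.equivFin.symm i))
      (fun i => hLc _) (fun i => ha _)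
    refine ⟨a, haa.mono_right ?_⟩
    intro x hx
    obtain ⟨y, hy, hxy⟩ := Set.mem_iUnion₂.1 (ht hx)
    exact Set.mem_iUnion.2 ⟨t.equivFin ⟨y, hy⟩, by simpa using hxy⟩

theorem as_lg1_zero [CompactSpace X] [T2Space X] (F : AsFc k X) (h : ∀ x q, F.Acyc {x} q)
    (m : F.M 0) (hm : F.supp 1 (F.d 0 m) = ∅) : F.supp 0 m = ∅ := by
  have := as_lg1 F h Set.univ isClosed_univ 0 m (by rw [hm]; exact Set.empty_disjoint _)
  exact Set.disjoint_univ.1 this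

theorem as_lg1_rel [CompactSpace X] [T2Space X] (F : AsFc k X) (h : ∀ x q, F.Acyc {x} q)
    (U K : Set X) (hU : IsOpen U) (hK : IsClosed K) (q : ℕ) (m : F.M (q + 1))
    (hm : F.supp (q + 1) m ⊆ U) (hd : Disjoint (F.supp (q + 2) (F.d (q + 1) m)) K) :
    ∃ a : F.M q, F.supp q a ⊆ U ∧ Disjoint (F.supp (q + 1) (m - F.d q a)) K := by
  obtain ⟨a₀, ha₀⟩ := as_lg1 F h K hK (q + 1) m hd
  have hKU : IsClosed (K ∩ Uᶜ) := hK.inter hU.isClosed_compl
  have hda₀ : Disjoint (F.supp (q + 1) (F.d q a₀)) (K ∩ Uᶜ) := by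
    have e : F.d q a₀ = m - (m - F.d q a₀) := by abel
    rw [e]
    refine as_fc_disj_sub F _ _ _ _ ?_ (ha₀.mono_right Set.inter_subset_left)
    exact Set.disjoint_left.2 (fun x hx hx' => hx'.2 (hm hx))
  -- a₁ with d a₁ = d a₀ and a₁ ≡ 0 near K ∩ Uᶜ
  have hex : ∃ a₁ : F.M q, F.d q a₁ = F.d q a₀ ∧ Disjoint (F.supp q a₁) (K ∩ Uᶜ) := by
    cases q with
    | zero => exact ⟨a₀, rfl, as_lg1 F h _ hKU 0 a₀ hda₀⟩
    | succ q' =>
      obtain ⟨b, hb⟩ := as_lg1 F h _ hKU (q' + 1) a₀ hda₀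
      exact ⟨a₀ - F.d q' b, by rw [map_sub, F.d_d, sub_zero], hb⟩
  obtain ⟨a₁, hd₁, hs₁⟩ := hex
  have hsub : F.supp q a₁ ∩ K ⊆ U := by
    rintro x ⟨hx, hxK⟩
    by_contra hxU
    exact Set.disjoint_left.1 hs₁ hx ⟨hxK, hxU⟩
  obtain ⟨E, hE, hCE, hEc⟩ := normal_exists_closure_subset ((F.supp_closed q a₁).inter hK) hU hsub
  refine ⟨F.cut q E a₁, fun x hx => hEc (F.supp_cut q E a₁ hx).2, ?_⟩
  have e : m - F.d q (F.cut q E a₁) = (m - F.d q a₀) + F.d q (a₁ - F.cut q E a₁) := by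
    rw [map_sub, hd₁]; abel
  rw [e]
  refine as_fc_disj_add F _ _ _ _ ha₀ (as_fc_disj_d F _ _ _ ?_)
  rw [Set.disjoint_left]
  intro x hx hxK
  have := F.supp_sub_cut q E a₁ hx
  exact this.2 (by rw [hE.interior_eq]; exact hCE ⟨this.1, hxK⟩)

theorem as_lg1_open [CompactSpace X] [T2Space X] (F : AsFc k X) (h : ∀ x q, F.Acyc {x} q)
    (U : Set X) (hU : IsOpen U) (q : ℕ) (m : F.M (q + 1)) (hm : F.supp (q + 1) m ⊆ U)
    (hd : F.supp (q + 2) (F.d (q + 1) m) = ∅) :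
    ∃ a : F.M q, F.supp q a ⊆ U ∧ F.supp (q + 1) (m - F.d q a) = ∅ := by
  obtain ⟨a, ha, hb⟩ := as_lg1_rel F h U Set.univ hU isClosed_univ q m hm
    (by rw [hd]; exact Set.empty_disjoint _)
  exact ⟨a, ha, Set.disjoint_univ.1 hb⟩

end Claimed.Agent.R304
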