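/-
Row 304 (S0559).  Owner: helper138.  PACKAGE AsTaut (PROVED): TAUTNESS of closed subsets for Alexander-Spanier cochains on a compact Hausdorff space `P`:
a cochain which vanishes identically on `Z`-tuples and whose coboundary vanishes near `Z` is, near `Z`, the coboundary of a cochain vanishing identically on `Z`-tuples.
Proof = `as_lg1_rel` for the complex `asFcTaut k P Z` + the cone homotopy `asIns z` at the points `z ∈ Z`.
-/
import Claimed.Agent.R304.AsLG

set_option autoImplicit false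

namespace Claimed.Agent.R304

open Topology

variable {k : Type} [Field k]

theorem as_relSub_ins (P : Type) (Z : Set P) (z : P) (hz : z ∈ Z) (q : ℕ) (φ : AsC k P (q + 1))
    (h : φ ∈ asRelSub k P Z (q + 1)) : asIns k z q φ ∈ asRelSub k P Z q := by
  intro x hx
  refine h _ (fun j => ?_)
  refine Fin.cases ?_ (fun i => ?_) j
  · exact hz
  · exact hx i

theorem as_taut_stalk (P : Type) [TopologicalSpace P] (Z : Set P) (hZ : IsClosed Z) (x : P) (q : ℕ) :
    (asFcTaut k P Z hZ).Acyc {x} q := by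
  by_cases hx : x ∈ Z
  · cases q with
    | zero =>
      intro m hm
      have hm' : AsVan (asD k P 0 m.1) x := by
        rw [← as_not_mem_supp]
        exact fun h => Set.disjoint_left.1 hm ⟨h, hx⟩ rfl
      have h1 := as_stalk_zero x m.1 hm'
      have h0 : m.1 (fun _ => x) = 0 := m.2 _ (fun _ => hx)
      rw [h0, zero_smul, sub_zero] at h1
      rw [Set.disjoint_singleton_right]
      exact fun h => h.1 h1
    | succ q =>
      intro m hm
      have hm' : AsVan (asD k P (q + 1) m.1) x := by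
        rw [← as_not_mem_supp]
        exact fun h => Set.disjoint_left.1 hm ⟨h, hx⟩ rfl
      refine ⟨⟨asIns k x q m.1, as_relSub_ins P Z x hx q m.1 m.2⟩, ?_⟩
      rw [Set.disjoint_singleton_right]
      exact fun h => h.1 (as_stalk_pos x q m.1 hm')
  · cases q with
    | zero =>
      intro m _
      rw [Set.disjoint_singleton_right]
      exact fun h => hx h.2
    | succ q =>
      intro m _
      refine ⟨0, ?_⟩
      rw [Set.disjoint_singleton_right]
      exact fun h => hx h.2

theorem as_taut_zero (P : Type) [TopologicalSpace P] (Z : Set P) (φ : AsC k P 0)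
    (hφ : φ ∈ asRelSub k P Z 0) (hd : Disjoint (asSupp (asD k P 0 φ)) Z) : Disjoint (asSupp φ) Z := by
  rw [Set.disjoint_left]
  intro x hx hxZ
  have hm' : AsVan (asD k P 0 φ) x := by
    rw [← as_not_mem_supp]
    exact fun h => Set.disjoint_left.1 hd h hxZ
  have h1 := as_stalk_zero x φ hm'
  have h0 : φ (fun _ => x) = 0 := hφ _ (fun _ => hxZ)
  rw [h0, zero_smul, sub_zero] at h1
  exact hx h1

theorem as_taut (P : Type) [TopologicalSpace P] [CompactSpace P] [T2Space P] (Z U : Set P)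
    (hZ : IsClosed Z) (hU : IsOpen U) (q : ℕ) (φ : AsC k P (q + 1))
    (hφ : φ ∈ asRelSub k P Z (q + 1)) (hφU : asSupp φ ⊆ U)
    (hd : Disjoint (asSupp (asD k P (q + 1) φ)) Z) :
    ∃ a : AsC k P q, a ∈ asRelSub k P Z q ∧ asSupp a ⊆ U ∧
      Disjoint (asSupp (φ - asD k P q a)) Z := by
  obtain ⟨a₀, ha₀U, ha₀⟩ := as_lg1_rel (asFcTaut k P Z hZ) (fun x q => as_taut_stalk P Z hZ x q) U Set.univ hU
    isClosed_univ q ⟨φ, hφ⟩ (fun x hx => hφU hx.1)
    (Set.disjoint_left.2 (fun x hx _ => Set.disjoint_left.1 hd hx.1 hx.2))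
  have ha₀U' : asSupp a₀.1 ∩ Z ⊆ U := ha₀U
  have ha₀' : Disjoint (asSupp (φ - asD k P q a₀.1)) Z := by
    rw [Set.disjoint_left]
    intro x hx hxZ
    exact Set.disjoint_left.1 ha₀ (show x ∈ asSupp (φ - asD k P q a₀.1) ∩ Z from ⟨hx, hxZ⟩) trivial
  have hsub : (asSupp a₀.1 ∪ asSupp φ) ∩ Z ⊆ U := by
    rintro x ⟨hx | hx, hxZ⟩
    · exact ha₀U' ⟨hx, hxZ⟩
    · exact hφU hx
  obtain ⟨E, hE, hCE, hEc⟩ := normal_exists_closure_subset
    (((as_supp_closed a₀.1).union (as_supp_closed φ)).inter hZ) hU hsub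
  refine ⟨asCut k E q a₀.1, as_relSub_cut k P Z E q a₀.1 a₀.2, fun x hx => hEc (as_supp_cut E a₀.1 hx).2, ?_⟩
  rw [Set.disjoint_left]
  intro z hz hzZ
  apply hz
  by_cases hzE : z ∈ E
  · have e : φ - asD k P q (asCut k E q a₀.1) = (φ - asD k P q a₀.1) + asD k P q (a₀.1 - asCut k E q a₀.1) := by
      rw [map_sub]; abel
    rw [e]
    refine as_van_add _ _ z ?_ (as_van_d _ z ?_)
    · rw [← as_not_mem_supp]
      exact fun h => Set.disjoint_left.1 ha₀' h hzZ
    · rw [← as_not_mem_supp]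
      exact fun h => (as_supp_sub_cut E a₀.1 h).2 (by rw [hE.interior_eq]; exact hzE)
  · have h1 : AsVan a₀.1 z := by
      rw [← as_not_mem_supp]
      exact fun h => hzE (hCE ⟨Or.inl h, hzZ⟩)
    have h2 : AsVan φ z := by
      rw [← as_not_mem_supp]
      exact fun h => hzE (hCE ⟨Or.inr h, hzZ⟩)
    refine as_van_sub _ _ z h2 (as_van_d _ z ?_)
    rw [← as_not_mem_supp]
    exact fun h => (as_supp_cut E a₀.1 h).1 h1

end Claimed.Agent.R304
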