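/-
Row 304 (S0559).  Owner: helper138.  PACKAGE AsVB (PROVED): VIETORIS-BEGLE for `P × I → P` and HOMOTOPY INVARIANCE, at the level of cochains.
`P` compact Hausdorff, `I = unitInterval`, `σ_t = asSlice P t : P → P × I`, `π = Prod.fst`.
-/
import Claimed.Agent.R304.AsLG

set_option autoImplicit false

namespace Claimed.Agent.R304

open Topology

variable {k : Type} [Field k]

theorem as_fibre_glue (P : Type) [TopologicalSpace P] [CompactSpace P] [T2Space P] (x : P) (q : ℕ)
    (m : AsC k (P × unitInterval) (q + 1)) (a₁ a₂ : AsC k (P × unitInterval) q)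
    (t t' : unitInterval)
    (h₁ : ∀ s, s ≤ t → AsVan (m - asD k (P × unitInterval) q a₁) (x, s))
    (h₂ : ∀ s, t ≤ s → s ≤ t' → AsVan (m - asD k (P × unitInterval) q a₂) (x, s)) :
    ∃ a : AsC k (P × unitInterval) q, ∀ s, s ≤ t' → AsVan (m - asD k (P × unitInterval) q a) (x, s) := by
  by_cases htt : t ≤ t'
  swap
  · exact ⟨a₁, fun s hs => h₁ s (hs.trans (le_of_not_ge htt))⟩
  set K₁ : Set (P × unitInterval) := ({x} : Set P) ×ˢ Set.Iic t with hK₁
  set K₂ : Set (P × unitInterval) := ({x} : Set P) ×ˢ Set.Icc t t' with hK₂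
  have c₁ : IsClosed K₁ := isClosed_singleton.prod isClosed_Iic
  have c₂ : IsClosed K₂ := isClosed_singleton.prod isClosed_Icc
  have d₁ : Disjoint (asSupp (m - asD k (P × unitInterval) q a₁)) K₁ := by
    rw [Set.disjoint_left]
    rintro ⟨y, s⟩ hy ⟨hyx, hs⟩
    have hyx' : y = x := hyx
    subst hyx'
    exact hy (h₁ s hs)
  have d₂ : Disjoint (asSupp (m - asD k (P × unitInterval) q a₂)) K₂ := by
    rw [Set.disjoint_left]
    rintro ⟨y, s⟩ hy ⟨hyx, hs⟩
    have hyx' : y = x := hyx
    subst hyx'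
    exact hy (h₂ s hs.1 hs.2)
  have hint : K₁ ∩ K₂ ⊆ {(x, t)} := by
    rintro ⟨y, s⟩ ⟨⟨hyx, hs⟩, ⟨_, hs'⟩⟩
    have hyx' : y = x := hyx
    have : s = t := le_antisymm hs hs'.1
    rw [hyx', this]
    rfl
  have hc : AsVan (asD k (P × unitInterval) q (a₁ - a₂)) (x, t) := by
    have e : asD k (P × unitInterval) q (a₁ - a₂) =
        (m - asD k (P × unitInterval) q a₂) - (m - asD k (P × unitInterval) q a₁) := by
      rw [map_sub]; abel
    rw [e]
    exact as_van_sub _ _ _ (h₂ t le_rfl htt) (h₁ t le_rfl)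
  have key : ∃ z s : AsC k (P × unitInterval) q, a₁ - a₂ = z + s ∧ asD k (P × unitInterval) q z = 0 ∧
      AsVan s (x, t) := by
    cases q with
    | zero =>
      refine ⟨(a₁ - a₂) (fun _ => (x, t)) • asOne k _, (a₁ - a₂) - (a₁ - a₂) (fun _ => (x, t)) • asOne k _,
        by abel, by rw [map_smul, as_d_one, smul_zero], as_stalk_zero _ _ hc⟩
    | succ q' =>
      refine ⟨asD k _ q' (asIns k (x, t) q' (a₁ - a₂)), (a₁ - a₂) - asD k _ q' (asIns k (x, t) q' (a₁ - a₂)),
        by abel, as_d_d _ _ _, as_stalk_pos _ _ _ hc⟩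
  obtain ⟨z, s, hdec, hz, hs⟩ := key
  obtain ⟨a, ha⟩ := as_glue (asFcFull k (P × unitInterval)) q m a₁ a₂ z s K₁ K₂ c₁ c₂ d₁ d₂ hdec hz
    (Set.disjoint_left.2 (fun y hy hyK => by
      have := hint hyK
      rw [Set.mem_singleton_iff] at this
      subst this
      exact hy hs))
  refine ⟨a, fun s hs => ?_⟩
  rw [← as_not_mem_supp]
  intro hmem
  refine Set.disjoint_left.1 ha hmem ?_
  rcases le_total s t with h | h
  · exact Or.inl ⟨rfl, h⟩
  · exact Or.inr ⟨rfl, h, hs⟩

theorem as_fibre (P : Type) [TopologicalSpace P] [CompactSpace P] [T2Space P] (x : P) (q : ℕ)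
    (m : AsC k (P × unitInterval) (q + 1))
    (h : ∀ t, AsVan (asD k (P × unitInterval) (q + 1) m) (x, t)) :
    ∃ a : AsC k (P × unitInterval) q, ∀ t, AsVan (m - asD k (P × unitInterval) q a) (x, t) := by
  set S : Set unitInterval := {t | ∃ a : AsC k (P × unitInterval) q,
    ∀ s, s ≤ t → AsVan (m - asD k (P × unitInterval) q a) (x, s)} with hS
  -- local intervals
  have hloc : ∀ t : unitInterval, ∃ J : Set unitInterval, J ∈ 𝓝 t ∧ ((S ∩ J).Nonempty → J ⊆ S) := by
    intro t
    have hopen : {s : unitInterval | AsVan (m - asD k (P × unitInterval) q (asIns k (x, t) q m)) (x, s)} ∈ 𝓝 t := by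
      have hc : Continuous (fun s : unitInterval => ((x, s) : P × unitInterval)) := by fun_prop
      have ho : IsOpen ((fun s : unitInterval => ((x, s) : P × unitInterval)) ⁻¹'
          (asSupp (m - asD k (P × unitInterval) q (asIns k (x, t) q m)))ᶜ) :=
        (as_supp_closed _).isOpen_compl.preimage hc
      refine Filter.mem_of_superset (ho.mem_nhds ?_) ?_
      · show (x, t) ∉ asSupp _
        rw [as_not_mem_supp]
        exact as_stalk_pos _ _ _ (h t)
      · intro s hs
        exact (as_not_mem_supp _ _).1 hs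
    obtain ⟨b, c, _, hbc, hsub⟩ := exists_Icc_mem_subset_of_mem_nhds hopen
    refine ⟨Set.Icc b c, hbc, ?_⟩
    rintro ⟨t₁, ⟨a₁, ha₁⟩, ht₁⟩ t₂ ht₂
    exact as_fibre_glue P x q m a₁ (asIns k (x, t) q m) t₁ t₂ ha₁
      (fun s hs hs' => hsub ⟨ht₁.1.trans hs, hs'.trans ht₂.2⟩)
  have hclopen : IsClopen S := by
    constructor
    · rw [← closure_subset_iff_isClosed]
      intro t ht
      obtain ⟨J, hJ, hJS⟩ := hloc t
      obtain ⟨y, hyJ, hyS⟩ := mem_closure_iff_nhds.1 ht J hJ
      exact hJS ⟨y, hyS, hyJ⟩ (mem_of_mem_nhds hJ)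
    · rw [isOpen_iff_mem_nhds]
      intro t ht
      obtain ⟨J, hJ, hJS⟩ := hloc t
      exact Filter.mem_of_superset hJ (hJS ⟨t, ht, mem_of_mem_nhds hJ⟩)
  have h0 : (0 : unitInterval) ∈ S := by
    refine ⟨asIns k (x, 0) q m, fun s hs => ?_⟩
    have : s = 0 := le_antisymm hs bot_le
    rw [this]
    exact as_stalk_pos _ _ _ (h 0)
  have huniv := hclopen.eq_univ ⟨0, h0⟩
  have h1 : (1 : unitInterval) ∈ S := by rw [huniv]; trivial
  obtain ⟨a, ha⟩ := h1
  exact ⟨a, fun t => ha t le_top⟩

theorem as_fibre_zero (P : Type) [TopologicalSpace P] (x : P) (m : AsC k (P × unitInterval) 0)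
    (h : ∀ t, AsVan (asD k (P × unitInterval) 0 m) (x, t)) (t₀ : unitInterval)
    (h0 : m (fun _ => (x, t₀)) = 0) : ∀ t, AsVan m (x, t) := by
  have hlc : IsLocallyConstant (fun t : unitInterval => m (fun _ => (x, t))) := by
    rw [IsLocallyConstant.iff_eventually_eq]
    intro t
    have h1 := (as_deg0_van _ _).1 (as_stalk_zero (x, t) m (h t))
    have hc : ContinuousAt (fun s : unitInterval => ((x, s) : P × unitInterval)) t := by fun_prop
    have h2 := hc.eventually h1
    refine h2.mono (fun s hs => ?_)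
    have hs' : m (fun _ => (x, s)) - m (fun _ => (x, t)) • (1 : k) = 0 := hs
    rw [smul_eq_mul, mul_one, sub_eq_zero] at hs'
    exact hs'
  intro t
  have e : m (fun _ => (x, t)) = 0 := by
    rw [← h0]
    exact hlc.apply_eq_of_preconnectedSpace t t₀
  have h1 := as_stalk_zero (x, t) m (h t)
  rwa [e, zero_smul, sub_zero] at h1

theorem as_vb_disj (P : Type) [TopologicalSpace P] {q : ℕ} (m : AsC k (P × unitInterval) q) (x : P) :
    Disjoint (Prod.fst '' asSupp m) {x} ↔ ∀ t, AsVan m (x, t) := by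
  rw [Set.disjoint_singleton_right]
  constructor
  · intro h t
    rw [← as_not_mem_supp]
    exact fun hm => h ⟨(x, t), hm, rfl⟩
  · rintro h ⟨⟨y, t⟩, hm, rfl⟩
    exact hm (h t)

theorem as_vb_stalk (P : Type) [TopologicalSpace P] [CompactSpace P] [T2Space P] (t₀ : unitInterval)
    (x : P) (q : ℕ) : (asFcVB k P t₀).Acyc {x} q := by
  cases q with
  | zero =>
    intro m hm
    have hm' : ∀ t, AsVan (asD k (P × unitInterval) 0 m.1) (x, t) := (as_vb_disj P _ x).1 hm
    have h0 : m.1 (fun _ => (x, t₀)) = 0 := by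
      have : asPull k (asSlice P t₀) 0 m.1 = 0 := m.2
      exact congrFun this (fun _ => x)
    exact (as_vb_disj P _ x).2 (as_fibre_zero P x m.1 hm' t₀ h0)
  | succ q =>
    intro m hm
    have hm' : ∀ t, AsVan (asD k (P × unitInterval) (q + 1) m.1) (x, t) := (as_vb_disj P _ x).1 hm
    obtain ⟨a, ha⟩ := as_fibre P x q m.1 hm'
    have hm0 : asPull k (asSlice P t₀) (q + 1) m.1 = 0 := m.2
    set π : P × unitInterval → P := Prod.fst with hπ
    set a' : AsC k (P × unitInterval) q := a - asPull k π q (asPull k (asSlice P t₀) q a) with ha'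
    have hmem : a' ∈ asVBSub k P t₀ q := by
      show asPull k (asSlice P t₀) q a' = 0
      rw [ha', map_sub, ← as_pull_comp]
      have : π ∘ asSlice P t₀ = id := rfl
      rw [this, as_pull_id, sub_self]
    refine ⟨⟨a', hmem⟩, ?_⟩
    refine (as_vb_disj P _ x).2 (fun t => ?_)
    set r := m.1 - asD k (P × unitInterval) q a with hr
    have e : m.1 - asD k (P × unitInterval) q a' = r - asPull k π (q + 1) (asPull k (asSlice P t₀) (q + 1) r) := by
      rw [hr, ha', map_sub, map_sub, map_sub, hm0, map_zero, as_pull_d, as_pull_d]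
      abel
    show AsVan (m.1 - asD k (P × unitInterval) q a') (x, t)
    rw [e]
    refine as_van_sub _ _ _ (ha t) ?_
    refine as_van_pull π (x, t) continuous_fst.continuousAt _ ?_
    refine as_van_pull (asSlice P t₀) x ?_ _ (ha t₀)
    exact (Continuous.prodMk continuous_id continuous_const).continuousAt

theorem as_vb (P : Type) [TopologicalSpace P] [CompactSpace P] [T2Space P] (t₀ : unitInterval)
    (U : Set P) (hU : IsOpen U) (q : ℕ) (m : AsC k (P × unitInterval) (q + 1))
    (h0 : asPull k (asSlice P t₀) (q + 1) m = 0) (hm : Prod.fst '' asSupp m ⊆ U)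
    (hd : asSupp (asD k (P × unitInterval) (q + 1) m) = ∅) :
    ∃ a : AsC k (P × unitInterval) q, asPull k (asSlice P t₀) q a = 0 ∧ Prod.fst '' asSupp a ⊆ U ∧
      asSupp (m - asD k (P × unitInterval) q a) = ∅ := by
  obtain ⟨a, haU, ha⟩ := as_lg1_open (asFcVB k P t₀) (fun x q => as_vb_stalk P t₀ x q) U hU q ⟨m, h0⟩ hm
    (by show Prod.fst '' asSupp (asD k (P × unitInterval) (q + 1) m) = ∅; rw [hd, Set.image_empty])
  refine ⟨a.1, a.2, haU, ?_⟩
  have : Prod.fst '' asSupp (m - asD k (P × unitInterval) q a.1) = ∅ := ha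
  exact Set.image_eq_empty.1 this

theorem as_vb_zero (P : Type) [TopologicalSpace P] [CompactSpace P] [T2Space P] (t₀ : unitInterval)
    (m : AsC k (P × unitInterval) 0) (h0 : asPull k (asSlice P t₀) 0 m = 0)
    (hd : asSupp (asD k (P × unitInterval) 0 m) = ∅) : m = 0 := by
  have := as_lg1_zero (asFcVB k P t₀) (fun x q => as_vb_stalk P t₀ x q) ⟨m, h0⟩
    (by show Prod.fst '' asSupp (asD k (P × unitInterval) 0 m) = ∅; rw [hd, Set.image_empty])
  have h' : Prod.fst '' asSupp m = ∅ := this
  exact as_deg0_null m (Set.image_eq_empty.1 h')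

theorem as_slice_cont (P : Type) [TopologicalSpace P] (t : unitInterval) : Continuous (asSlice P t) :=
  Continuous.prodMk continuous_id continuous_const

theorem as_htpy (P : Type) [TopologicalSpace P] [CompactSpace P] [T2Space P] (t t' : unitInterval)
    (U : Set P) (hU : IsOpen U) (q : ℕ) (m : AsC k (P × unitInterval) (q + 1))
    (hm : Prod.fst '' asSupp m ⊆ U) (hd : asSupp (asD k (P × unitInterval) (q + 1) m) = ∅) :
    ∃ b : AsC k P q, asSupp b ⊆ U ∧
      asSupp (asPull k (asSlice P t') (q + 1) m - asPull k (asSlice P t) (q + 1) m - asD k P q b) = ∅ := by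
  set π : P × unitInterval → P := Prod.fst with hπ
  set m' : AsC k (P × unitInterval) (q + 1) := m - asPull k π (q + 1) (asPull k (asSlice P t) (q + 1) m) with hm'
  have hπσ : ∀ s, π ∘ asSlice P s = id := fun s => rfl
  have h0 : asPull k (asSlice P t) (q + 1) m' = 0 := by
    rw [hm', map_sub, ← as_pull_comp, hπσ, as_pull_id, sub_self]
  have hsupp : Prod.fst '' asSupp m' ⊆ U := by
    rintro _ ⟨y, hy, rfl⟩
    rcases as_supp_sub _ _ hy with h | h
    · exact hm ⟨y, h, rfl⟩
    · have h1 := as_supp_pull π continuous_fst _ h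
      have h2 := as_supp_pull (asSlice P t) (as_slice_cont P t) _ h1
      exact hm ⟨_, h2, rfl⟩
  have hdm : asSupp (asD k (P × unitInterval) (q + 1) m') = ∅ := by
    rw [hm', map_sub, ← as_pull_d, ← as_pull_d]
    rw [Set.eq_empty_iff_forall_notMem]
    intro y hy
    rcases as_supp_sub _ _ hy with h | h
    · rw [hd] at h; exact h
    · have h1 := as_supp_pull π continuous_fst _ h
      have h2 := as_supp_pull (asSlice P t) (as_slice_cont P t) _ h1
      rw [hd] at h2; exact h2
  obtain ⟨a, _, haU, ha⟩ := as_vb P t U hU q m' h0 hsupp hdm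
  refine ⟨asPull k (asSlice P t') q a, ?_, ?_⟩
  · intro y hy
    exact haU ⟨_, as_supp_pull (asSlice P t') (as_slice_cont P t') _ hy, rfl⟩
  · have e : asPull k (asSlice P t') (q + 1) m - asPull k (asSlice P t) (q + 1) m -
        asD k P q (asPull k (asSlice P t') q a) =
        asPull k (asSlice P t') (q + 1) (m' - asD k (P × unitInterval) q a) := by
      rw [map_sub, hm', map_sub, ← as_pull_comp, hπσ, as_pull_id, as_pull_d]
    rw [e, Set.eq_empty_iff_forall_notMem]
    intro y hy
    have := as_supp_pull (asSlice P t') (as_slice_cont P t') _ hy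
    rw [ha] at this
    exact this

theorem as_htpy_zero (P : Type) [TopologicalSpace P] [CompactSpace P] [T2Space P]
    (t t' : unitInterval) (m : AsC k (P × unitInterval) 0)
    (hd : asSupp (asD k (P × unitInterval) 0 m) = ∅) :
    asPull k (asSlice P t') 0 m = asPull k (asSlice P t) 0 m := by
  set π : P × unitInterval → P := Prod.fst with hπ
  set m' : AsC k (P × unitInterval) 0 := m - asPull k π 0 (asPull k (asSlice P t) 0 m) with hm'
  have hπσ : ∀ s, π ∘ asSlice P s = id := fun s => rfl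
  have h0 : asPull k (asSlice P t) 0 m' = 0 := by
    rw [hm', map_sub, ← as_pull_comp, hπσ, as_pull_id, sub_self]
  have hdm : asSupp (asD k (P × unitInterval) 0 m') = ∅ := by
    rw [hm', map_sub, ← as_pull_d, ← as_pull_d]
    rw [Set.eq_empty_iff_forall_notMem]
    intro y hy
    rcases as_supp_sub _ _ hy with h | h
    · rw [hd] at h; exact h
    · have h1 := as_supp_pull π continuous_fst _ h
      have h2 := as_supp_pull (asSlice P t) (as_slice_cont P t) _ h1
      rw [hd] at h2; exact h2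
  have hz := as_vb_zero P t m' h0 hdm
  have : asPull k (asSlice P t') 0 m' = 0 := by rw [hz, map_zero]
  rw [hm', map_sub, ← as_pull_comp, hπσ, as_pull_id, sub_eq_zero] at this
  exact this

end Claimed.Agent.R304
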