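/-
Row 304 (S0559).  Owner: helper138.  PACKAGE AsExact (PROVED): the fields `exact_mid`, `restr_surj`, `mv_surj`, `cont`, `htpy` of `NmCoh` for the model `AsHc`.
Tools: the dictionary of `AsExc.lean`, tautness `as_taut`, homotopy invariance `as_htpy`, the cut-off operators.
NOTATION: `X⁺ = OnePoint X`, `i⁺ = OnePoint.map i`.
-/
import Claimed.Agent.R304.AsExc
import Claimed.Agent.R304.AsTaut
import Claimed.Agent.R304.AsVB

set_option autoImplicit false

namespace Claimed.Agent.R304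

open Topology

variable {k : Type} [Field k]

theorem as_map_inj {Z X : Type} (i : Z → X) (hi : Function.Injective i) :
    Function.Injective (OnePoint.map i) := Option.map_injective hi

theorem as_map_closedEmb {Z X : Type} [TopologicalSpace Z] [TopologicalSpace X] [T2Space X]
    [LocallyCompactSpace X] (i : Z → X) (hi : IsClosedEmbedding i) :
    IsClosedEmbedding (OnePoint.map i) :=
  (as_map_cont i hi.isProperMap).isClosedEmbedding (as_map_inj i hi.injective)

theorem as_relSub_range {Z P : Type} (g : Z → P) (q : ℕ) (φ : AsC k P q) :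
    φ ∈ asRelSub k P (Set.range g) q ↔ asPull k g q φ = 0 := by
  constructor
  · intro h
    funext z
    exact h _ (fun j => ⟨z j, rfl⟩)
  · intro h x hx
    choose z hz using hx
    have e : x = fun j => g (z j) := by
      funext j
      exact (hz j).symm
    rw [e]
    exact congrFun h z

theorem as_range_compl {U X Z : Type} (j : U → X) (i : Z → X) (h : Set.range j = (Set.range i)ᶜ) :
    (Set.range (OnePoint.map i))ᶜ = Set.range (fun u : U => ((j u : X) : OnePoint X)) := by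
  ext x
  induction x using OnePoint.rec with
  | infty =>
    simp only [Set.mem_compl_iff, Set.mem_range, not_exists, OnePoint.coe_ne_infty, exists_false, iff_false,
      not_forall, not_not]
    exact ⟨OnePoint.infty, rfl⟩
  | coe x =>
    have h1 : ((x : OnePoint X) ∈ Set.range (OnePoint.map i)) ↔ x ∈ Set.range i := by
      constructor
      · rintro ⟨z, hz⟩
        induction z using OnePoint.rec with
        | infty => exact (OnePoint.infty_ne_coe x hz).elim
        | coe z =>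
          rw [OnePoint.map_some, OnePoint.coe_eq_coe] at hz
          exact ⟨z, hz⟩
      · rintro ⟨z, rfl⟩
        exact ⟨z, rfl⟩
    have h2 : ((x : OnePoint X) ∈ Set.range (fun u : U => ((j u : X) : OnePoint X))) ↔ x ∈ Set.range j := by
      simp
    rw [Set.mem_compl_iff, h1, h2, h]
    rfl

theorem as_hcPull_cls {X Y : Type} [TopologicalSpace X] [TopologicalSpace Y]
    (f : X → Y) (hf : IsProperMap f) (q : ℕ) (φ : asZ k (OnePoint Y) {OnePoint.infty} q) :
    asHcPull k q f (asCls k _ _ q φ) = asCls k (OnePoint X) {OnePoint.infty} q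
      ⟨asPull k (OnePoint.map f) q φ.1, as_pull_Z (OnePoint.map f) (as_map_cont f hf) _ _
        (as_mapsTo_infty _ rfl) q φ.1 φ.2⟩ := by
  unfold asHcPull
  rw [as_mapJ_eq (OnePoint.map f) (as_map_cont f hf) _ _ (as_mapsTo_infty _ rfl)]
  rfl

/-- the extension by zero along `i⁺` of a cochain off `∞` is off `∞` -/
theorem as_zeroExt_off {Z X : Type} [TopologicalSpace Z] [TopologicalSpace X] [T2Space X]
    [LocallyCompactSpace X] (i : Z → X) (hi : IsClosedEmbedding i) {q : ℕ} (ψ : AsC k (OnePoint Z) q)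
    (h : Disjoint (asSupp ψ) {OnePoint.infty}) :
    Disjoint (asSupp (asZeroExt k (OnePoint.map i) q ψ)) {OnePoint.infty} := by
  rw [Set.disjoint_singleton_right]
  intro hx
  obtain ⟨z, hz, he⟩ := as_supp_zeroExt _ (as_map_closedEmb i hi) ψ hx
  induction z using OnePoint.rec with
  | infty => exact Set.disjoint_left.1 h hz rfl
  | coe z => exact OnePoint.coe_ne_infty _ he

theorem as_zeroExt_null {Z X : Type} [TopologicalSpace Z] [TopologicalSpace X] [T2Space X]
    [LocallyCompactSpace X] (i : Z → X) (hi : IsClosedEmbedding i) {q : ℕ} (ψ : AsC k (OnePoint Z) q)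
    (h : asSupp ψ = ∅) : asSupp (asZeroExt k (OnePoint.map i) q ψ) = ∅ := by
  have := as_supp_zeroExt _ (as_map_closedEmb i hi) ψ
  rw [h, Set.image_empty] at this
  exact Set.subset_empty_iff.1 this

theorem as_disj_sub {P : Type} [TopologicalSpace P] {q : ℕ} (φ ψ : AsC k P q) (A : Set P)
    (h1 : Disjoint (asSupp φ) A) (h2 : Disjoint (asSupp ψ) A) : Disjoint (asSupp (φ - ψ)) A :=
  (Set.disjoint_union_left.2 ⟨h1, h2⟩).mono_left (as_supp_sub _ _)

theorem as_disj_add {P : Type} [TopologicalSpace P] {q : ℕ} (φ ψ : AsC k P q) (A : Set P)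
    (h1 : Disjoint (asSupp φ) A) (h2 : Disjoint (asSupp ψ) A) : Disjoint (asSupp (φ + ψ)) A :=
  (Set.disjoint_union_left.2 ⟨h1, h2⟩).mono_left (as_supp_add _ _)

theorem as_disj_d {P : Type} [TopologicalSpace P] {q : ℕ} (φ : AsC k P q) (A : Set P)
    (h1 : Disjoint (asSupp φ) A) : Disjoint (asSupp (asD k P q φ)) A :=
  h1.mono_left (as_supp_d _)

theorem as_disj_of_null {P : Type} [TopologicalSpace P] {q : ℕ} (φ : AsC k P q) (A : Set P)
    (h1 : asSupp φ = ∅) : Disjoint (asSupp φ) A := by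
  rw [h1]; exact Set.empty_disjoint A

theorem as_normalise {Z X : Type} [TopologicalSpace Z] [TopologicalSpace X] [T2Space X]
    [LocallyCompactSpace X] (i : Z → X) (hi : IsClosedEmbedding i) (q : ℕ)
    (φ : asZ k (OnePoint X) {OnePoint.infty} q)
    (h : asPull k (OnePoint.map i) q φ.1 ∈ asB k (OnePoint Z) {OnePoint.infty} q) :
    ∃ φ₁ : asZ k (OnePoint X) {OnePoint.infty} q,
      asCls k _ _ q φ₁ = asCls k _ _ q φ ∧ asPull k (OnePoint.map i) q φ₁.1 = 0 := by
  cases q with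
  | zero => exact ⟨φ, rfl, (as_mem_B_zero _ _ _).1 h⟩
  | succ q =>
    obtain ⟨ψ, hψ, hn⟩ := (as_mem_B_succ _ _ _ _).1 h
    have hinj := as_map_inj i hi.injective
    set η := asPull k (OnePoint.map i) (q + 1) φ.1 - asD k (OnePoint Z) q ψ with hη
    set ψt := asZeroExt k (OnePoint.map i) q ψ with hψt
    set ηt := asZeroExt k (OnePoint.map i) (q + 1) η with hηt
    have hηn : asSupp ηt = ∅ := as_zeroExt_null i hi η hn
    have hψo : Disjoint (asSupp ψt) {OnePoint.infty} := as_zeroExt_off i hi ψ hψ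
    have hZ : φ.1 - asD k (OnePoint X) q ψt - ηt ∈ asZ k (OnePoint X) {OnePoint.infty} (q + 1) := by
      refine ⟨as_disj_sub _ _ _ (as_disj_sub _ _ _ φ.2.1 (as_disj_d _ _ hψo)) (as_disj_of_null _ _ hηn), ?_⟩
      show asSupp (asD k (OnePoint X) (q + 1) (φ.1 - asD k (OnePoint X) q ψt - ηt)) = ∅
      rw [map_sub, map_sub, as_d_d, sub_zero]
      exact as_supp_eq_empty_of_sub _ _ φ.2.2 (as_supp_eq_empty_of_d _ hηn)
    refine ⟨⟨_, hZ⟩, ?_, ?_⟩
    · rw [as_cls_eq_iff]
      refine (as_mem_B_succ _ _ _ _).2 ⟨-ψt, hψo.mono_left (as_supp_neg _), ?_⟩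
      have e : φ.1 - asD k (OnePoint X) q ψt - ηt - φ.1 - asD k (OnePoint X) q (-ψt) = -ηt := by
        rw [map_neg]; abel
      show asSupp (φ.1 - asD k (OnePoint X) q ψt - ηt - φ.1 - asD k (OnePoint X) q (-ψt)) = ∅
      rw [e]
      exact Set.subset_empty_iff.1 (hηn ▸ as_supp_neg ηt)
    · show asPull k (OnePoint.map i) (q + 1) (φ.1 - asD k (OnePoint X) q ψt - ηt) = 0
      rw [map_sub, map_sub, as_pull_d, hψt, hηt, as_pull_zeroExt _ hinj, as_pull_zeroExt _ hinj, hη]
      abel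

theorem as_off_iff {X : Type} [TopologicalSpace X] {q : ℕ} (φ : AsC k (OnePoint X) q) :
    Disjoint (asSupp φ) {OnePoint.infty} ↔ asSupp φ ⊆ {OnePoint.infty}ᶜ :=
  Set.subset_compl_iff_disjoint_right.symm

theorem as_hc_exact_mid (q : ℕ) {U X Z : Type} [TopologicalSpace U] [TopologicalSpace X]
    [TopologicalSpace Z] [T2Space X] [LocallyCompactSpace X] [T2Space U] [LocallyCompactSpace U]
    [T2Space Z] [LocallyCompactSpace Z] (j : U → X) (i : Z → X) (hj : IsOpenEmbedding j)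
    (hi : IsClosedEmbedding i) (hr : Set.range j = (Set.range i)ᶜ) (u : AsHc k q X)
    (hu : asHcPull k q i u = 0) : ∃ w : AsHc k q U, asHcExt k q j w = u := by
  obtain ⟨φ, rfl⟩ := as_cls_surj _ _ q u
  rw [as_hcPull_cls i hi.isProperMap, as_cls_eq_zero] at hu
  obtain ⟨φ₁, hcls, h0⟩ := as_normalise i hi q φ hu
  rw [← hcls]
  have hZc : IsClosed (Set.range (OnePoint.map i)) := (as_map_closedEmb i hi).isClosed_range
  have hrel := (as_relSub_range (OnePoint.map i) q φ₁.1).2 h0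
  have hcompl := as_range_compl j i hr
  cases q with
  | zero =>
    have hd := as_taut_zero (OnePoint X) _ φ₁.1 hrel (as_disj_of_null _ _ φ₁.2.2)
    refine as_dict_surj j hj 0 φ₁ ?_
    rw [← hcompl]
    exact Set.disjoint_compl_right_iff_subset.1 (by rwa [compl_compl])
  | succ q =>
    obtain ⟨a, _, haU, hd⟩ := as_taut (OnePoint X) _ {OnePoint.infty}ᶜ hZc
      OnePoint.isClosed_infty.isOpen_compl q φ₁.1 hrel ((as_off_iff _).1 φ₁.2.1)
      (as_disj_of_null _ _ φ₁.2.2)
    have hao : Disjoint (asSupp a) {OnePoint.infty} := (as_off_iff _).2 haU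
    have hZ : φ₁.1 - asD k (OnePoint X) q a ∈ asZ k (OnePoint X) {OnePoint.infty} (q + 1) := by
      refine ⟨as_disj_sub _ _ _ φ₁.2.1 (as_disj_d _ _ hao), ?_⟩
      show asSupp (asD k (OnePoint X) (q + 1) (φ₁.1 - asD k (OnePoint X) q a)) = ∅
      rw [map_sub, as_d_d, sub_zero]
      exact φ₁.2.2
    obtain ⟨w, hw⟩ := as_dict_surj j hj (q + 1) ⟨_, hZ⟩ (by
      rw [← hcompl]
      exact Set.disjoint_compl_right_iff_subset.1 (by rwa [compl_compl]))
    refine ⟨w, hw.trans ?_⟩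
    rw [as_cls_eq_iff]
    refine (as_mem_B_succ _ _ _ _).2 ⟨-a, hao.mono_left (as_supp_neg _), ?_⟩
    show asSupp (φ₁.1 - asD k (OnePoint X) q a - φ₁.1 - asD k (OnePoint X) q (-a)) = ∅
    have e : φ₁.1 - asD k (OnePoint X) q a - φ₁.1 - asD k (OnePoint X) q (-a) = 0 := by
      rw [map_neg]; abel
    rw [e, as_supp_zero]

theorem as_range_off {U X : Type} [TopologicalSpace X] (j : U → X) {q : ℕ} (b : AsC k (OnePoint X) q)
    (h : asSupp b ⊆ Set.range (fun u : U => ((j u : X) : OnePoint X))) :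
    Disjoint (asSupp b) {OnePoint.infty} := by
  rw [Set.disjoint_singleton_right]
  intro hx
  obtain ⟨u, hu⟩ := h hx
  exact OnePoint.coe_ne_infty _ hu

theorem as_hc_restr_surj (q : ℕ) {U X Z : Type} [TopologicalSpace U] [TopologicalSpace X]
    [TopologicalSpace Z] [T2Space X] [LocallyCompactSpace X] [T2Space U] [LocallyCompactSpace U]
    [T2Space Z] [LocallyCompactSpace Z] (j : U → X) (i : Z → X) (hj : IsOpenEmbedding j)
    (hi : IsClosedEmbedding i) (hr : Set.range j = (Set.range i)ᶜ)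
    (hvan : ∀ w : AsHc k (q + 1) U, w = 0) (v : AsHc k q Z) :
    ∃ u : AsHc k q X, asHcPull k q i u = v := by
  obtain ⟨ψ, rfl⟩ := as_cls_surj _ _ q v
  have hinj := as_map_inj i hi.injective
  have hZc : IsClosed (Set.range (OnePoint.map i)) := (as_map_closedEmb i hi).isClosed_range
  have hcompl := as_range_compl j i hr
  set ψt := asZeroExt k (OnePoint.map i) q ψ.1 with hψt
  set ηt := asZeroExt k (OnePoint.map i) (q + 1) (asD k (OnePoint Z) q ψ.1) with hηt
  have hηn : asSupp ηt = ∅ := as_zeroExt_null i hi _ ψ.2.2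
  have hψo : Disjoint (asSupp ψt) {OnePoint.infty} := as_zeroExt_off i hi ψ.1 ψ.2.1
  set θ := asD k (OnePoint X) q ψt - ηt with hθ
  have hθ0 : asPull k (OnePoint.map i) (q + 1) θ = 0 := by
    rw [hθ, map_sub, as_pull_d, hψt, hηt, as_pull_zeroExt _ hinj, as_pull_zeroExt _ hinj, sub_self]
  have hθd : asSupp (asD k (OnePoint X) (q + 1) θ) = ∅ := by
    rw [hθ, map_sub, as_d_d, zero_sub]
    exact Set.subset_empty_iff.1 ((as_supp_eq_empty_of_d _ hηn) ▸ as_supp_neg _)
  have hθo : Disjoint (asSupp θ) {OnePoint.infty} :=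
    as_disj_sub _ _ _ (as_disj_d _ _ hψo) (as_disj_of_null _ _ hηn)
  obtain ⟨a, haR, haU, hd⟩ := as_taut (OnePoint X) _ {OnePoint.infty}ᶜ hZc
    OnePoint.isClosed_infty.isOpen_compl q θ ((as_relSub_range _ _ _).2 hθ0) ((as_off_iff _).1 hθo)
    (as_disj_of_null _ _ hθd)
  have hao : Disjoint (asSupp a) {OnePoint.infty} := (as_off_iff _).2 haU
  obtain ⟨b, hb, hbn⟩ := as_dict_vanish j hj q hvan (θ - asD k (OnePoint X) q a) (by
      rw [← hcompl]
      exact Set.disjoint_compl_right_iff_subset.1 (by rwa [compl_compl])) (by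
      rw [map_sub, as_d_d, sub_zero]; exact hθd)
  have hbo := as_range_off j b hb
  have hZ : ψt - a - b ∈ asZ k (OnePoint X) {OnePoint.infty} q := by
    refine ⟨as_disj_sub _ _ _ (as_disj_sub _ _ _ hψo hao) hbo, ?_⟩
    show asSupp (asD k (OnePoint X) q (ψt - a - b)) = ∅
    have e : asD k (OnePoint X) q (ψt - a - b) =
        (θ - asD k (OnePoint X) q a - asD k (OnePoint X) q b) + ηt := by
      rw [map_sub, map_sub, hθ]; abel
    rw [e]
    exact as_supp_eq_empty_of_add _ _ hbn hηn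
  refine ⟨asCls k _ _ q ⟨_, hZ⟩, ?_⟩
  rw [as_hcPull_cls i hi.isProperMap, as_cls_eq_iff]
  refine as_null_le_B _ _ _ ?_
  show asSupp (asPull k (OnePoint.map i) q (ψt - a - b) - ψ.1) = ∅
  have e : asPull k (OnePoint.map i) q (ψt - a - b) - ψ.1 = - asPull k (OnePoint.map i) q b := by
    rw [map_sub, map_sub, hψt, as_pull_zeroExt _ hinj, (as_relSub_range _ _ _).1 haR]; abel
  rw [e]
  have hbn' : asSupp (asPull k (OnePoint.map i) q b) = ∅ := by
    rw [Set.eq_empty_iff_forall_notMem]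
    intro z hz
    have h1 := hb (as_supp_pull _ (as_map_cont i hi.isProperMap) b hz)
    rw [← hcompl] at h1
    exact h1 ⟨z, rfl⟩
  exact Set.subset_empty_iff.1 (hbn' ▸ as_supp_neg _)

theorem as_supp_comm_cut {P : Type} [TopologicalSpace P] (E : Set P) {q : ℕ} (φ : AsC k P q) :
    asSupp (asD k P q (asCut k E q φ) - asCut k E (q + 1) (asD k P q φ)) ⊆ asSupp φ ∩ frontier E := by
  classical
  intro x hx
  refine ⟨fun hc => hx ?_, ?_⟩
  · refine as_van_sub _ _ x (as_van_d _ x ?_) ?_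
    · rw [← as_not_mem_supp]
      exact fun h => (as_supp_cut E φ h).1 hc
    · rw [← as_not_mem_supp]
      exact fun h => (as_supp_cut E _ h).1 (as_van_d _ x hc)
  · by_contra hf
    apply hx
    rw [frontier, Set.mem_sdiff, not_and_or, not_not] at hf
    rcases hf with hf | hf
    · refine as_van_sub_of_eqOn _ _ x (closure E)ᶜ (isClosed_closure.isOpen_compl.mem_nhds hf) ?_
      intro t ht
      rw [as_cut_apply, if_neg (fun h => ht 0 (subset_closure h)), as_d_apply]
      refine Finset.sum_eq_zero (fun i _ => ?_)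
      rw [as_cut_apply, if_neg (fun h => ht _ (subset_closure h)), mul_zero]
    · refine as_van_sub_of_eqOn _ _ x (interior E) (isOpen_interior.mem_nhds hf) ?_
      intro t ht
      rw [as_cut_apply, if_pos (interior_subset (ht 0)), as_d_apply, as_d_apply]
      refine Finset.sum_congr rfl (fun i _ => ?_)
      rw [as_cut_apply, if_pos (interior_subset (ht _))]

theorem as_range_open {U X : Type} [TopologicalSpace U] [TopologicalSpace X] (j : U → X)
    (hj : IsOpenEmbedding j) : IsOpen (Set.range (fun u : U => ((j u : X) : OnePoint X))) :=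
  (OnePoint.isOpenEmbedding_coe.comp hj).isOpen_range

theorem as_hc_mv_surj (q : ℕ) {U₁ U₂ U₁₂ X : Type} [TopologicalSpace U₁] [TopologicalSpace U₂]
    [TopologicalSpace U₁₂] [TopologicalSpace X]
    [T2Space X] [LocallyCompactSpace X] [T2Space U₁] [LocallyCompactSpace U₁]
    [T2Space U₂] [LocallyCompactSpace U₂] [T2Space U₁₂] [LocallyCompactSpace U₁₂]
    (j₁ : U₁ → X) (j₂ : U₂ → X) (j₁₂ : U₁₂ → X) (hj₁ : IsOpenEmbedding j₁) (hj₂ : IsOpenEmbedding j₂)
    (hj₁₂ : IsOpenEmbedding j₁₂) (hcov : Set.range j₁ ∪ Set.range j₂ = Set.univ)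
    (hint : Set.range j₁₂ = Set.range j₁ ∩ Set.range j₂) (hvan : ∀ w : AsHc k (q + 1) U₁₂, w = 0)
    (u : AsHc k q X) :
    ∃ (u₁ : AsHc k q U₁) (u₂ : AsHc k q U₂), u = asHcExt k q j₁ u₁ + asHcExt k q j₂ u₂ := by
  obtain ⟨φ, rfl⟩ := as_cls_surj _ _ q u
  set O₁ := Set.range (fun u : U₁ => ((j₁ u : X) : OnePoint X)) with hO₁
  set O₂ := Set.range (fun u : U₂ => ((j₂ u : X) : OnePoint X)) with hO₂
  set O₁₂ := Set.range (fun u : U₁₂ => ((j₁₂ u : X) : OnePoint X)) with hO₁₂
  have o₁ : IsOpen O₁ := as_range_open j₁ hj₁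
  have o₂ : IsOpen O₂ := as_range_open j₂ hj₂
  have hKc : IsClosed (asSupp φ.1) := as_supp_closed _
  have hK : asSupp φ.1 ⊆ O₁ ∪ O₂ := by
    intro x hx
    induction x using OnePoint.rec with
    | infty => exact (Set.disjoint_left.1 φ.2.1 hx rfl).elim
    | coe x =>
      have : x ∈ Set.range j₁ ∪ Set.range j₂ := by rw [hcov]; trivial
      rcases this with ⟨u, rfl⟩ | ⟨u, rfl⟩
      · exact Or.inl ⟨u, rfl⟩
      · exact Or.inr ⟨u, rfl⟩
  have hO : O₁ ∩ O₂ ⊆ O₁₂ := by
    rintro _ ⟨⟨u, rfl⟩, ⟨u', hu'⟩⟩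
    have h1 : j₂ u' = j₁ u := OnePoint.coe_injective hu'
    have : j₁ u ∈ Set.range j₁₂ := by rw [hint]; exact ⟨⟨u, rfl⟩, ⟨u', h1⟩⟩
    obtain ⟨w, hw⟩ := this
    exact ⟨w, by show ((j₁₂ w : X) : OnePoint X) = _; rw [hw]⟩
  have hO1 : O₁₂ ⊆ O₁ := by
    rintro _ ⟨w, rfl⟩
    have : j₁₂ w ∈ Set.range j₁ ∩ Set.range j₂ := by rw [← hint]; exact ⟨w, rfl⟩
    obtain ⟨u, hu⟩ := this.1
    exact ⟨u, by show ((j₁ u : X) : OnePoint X) = _; rw [hu]⟩
  have hO2 : O₁₂ ⊆ O₂ := by
    rintro _ ⟨w, rfl⟩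
    have : j₁₂ w ∈ Set.range j₁ ∩ Set.range j₂ := by rw [← hint]; exact ⟨w, rfl⟩
    obtain ⟨u, hu⟩ := this.2
    exact ⟨u, by show ((j₂ u : X) : OnePoint X) = _; rw [hu]⟩
  obtain ⟨E, hE, hCE, hEc⟩ := normal_exists_closure_subset (hKc.inter o₂.isClosed_compl)
    (hKc.inter o₁.isClosed_compl).isOpen_compl (by
      rintro x ⟨hx, hx2⟩ ⟨_, hx1⟩
      rcases hK hx with h | h
      · exact hx1 h
      · exact hx2 h)
  set φ₁ := asCut k E q φ.1 with hφ₁
  set φ₂ := φ.1 - φ₁ with hφ₂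
  have s₁ : asSupp φ₁ ⊆ O₁ := by
    intro x hx
    have := as_supp_cut E φ.1 hx
    by_contra hc
    exact hEc this.2 ⟨this.1, hc⟩
  have s₂ : asSupp φ₂ ⊆ O₂ := by
    intro x hx
    have := as_supp_sub_cut E φ.1 hx
    by_contra hc
    exact this.2 (by rw [hE.interior_eq]; exact hCE ⟨this.1, hc⟩)
  set θ := asD k (OnePoint X) q φ₁ with hθ
  have hθs : asSupp θ ⊆ O₁₂ := by
    intro x hx
    refine hO ⟨s₁ (as_supp_d _ hx), ?_⟩
    have e : θ = asD k (OnePoint X) q φ.1 - asD k (OnePoint X) q φ₂ := by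
      rw [hφ₂, map_sub]; abel
    rw [e] at hx
    rcases as_supp_sub _ _ hx with h | h
    · rw [φ.2.2] at h; exact h.elim
    · exact s₂ (as_supp_d _ h)
  obtain ⟨b, hb, hbn⟩ := as_dict_vanish j₁₂ hj₁₂ q hvan θ hθs (by rw [hθ, as_d_d, as_supp_zero])
  have t₁ : asSupp (φ₁ - b) ⊆ O₁ := (as_supp_sub _ _).trans (Set.union_subset s₁ (hb.trans hO1))
  have t₂ : asSupp (φ₂ + b) ⊆ O₂ := (as_supp_add _ _).trans (Set.union_subset s₂ (hb.trans hO2))
  have z₁ : φ₁ - b ∈ asZ k (OnePoint X) {OnePoint.infty} q := by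
    refine ⟨as_range_off j₁ _ t₁, ?_⟩
    show asSupp (asD k (OnePoint X) q (φ₁ - b)) = ∅
    rw [map_sub]
    exact hbn
  have z₂ : φ₂ + b ∈ asZ k (OnePoint X) {OnePoint.infty} q := by
    refine ⟨as_range_off j₂ _ t₂, ?_⟩
    show asSupp (asD k (OnePoint X) q (φ₂ + b)) = ∅
    have e : asD k (OnePoint X) q (φ₂ + b) = asD k (OnePoint X) q φ.1 - (θ - asD k (OnePoint X) q b) := by
      rw [hφ₂, map_add, map_sub]; abel
    rw [e]
    exact as_supp_eq_empty_of_sub _ _ φ.2.2 hbn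
  obtain ⟨u₁, hu₁⟩ := as_dict_surj j₁ hj₁ q ⟨_, z₁⟩ t₁
  obtain ⟨u₂, hu₂⟩ := as_dict_surj j₂ hj₂ q ⟨_, z₂⟩ t₂
  refine ⟨u₁, u₂, ?_⟩
  rw [hu₁, hu₂, ← map_add]
  congr 1
  apply Subtype.ext
  show φ.1 = (φ₁ - b) + (φ₂ + b)
  rw [hφ₂]; abel

theorem as_hc_cont (q : ℕ) (X : Type) [TopologicalSpace X] [T2Space X] [LocallyCompactSpace X]
    (ι : Type) [Nonempty ι] (U : ι → Set X) (hU : ∀ i, IsOpen (U i)) (hdir : Directed (· ⊆ ·) U)
    (hcov : (⋃ i, U i) = Set.univ) (u : AsHc k q X) :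
    ∃ (i : ι) (w : AsHc k q (U i)), asHcExt k q (Subtype.val : U i → X) w = u := by
  obtain ⟨φ, rfl⟩ := as_cls_surj _ _ q u
  have hK : IsCompact (asSupp φ.1) := (as_supp_closed _).isCompact
  obtain ⟨i, hi⟩ := hK.elim_directed_cover (fun i => ((↑) '' U i : Set (OnePoint X)))
    (fun i => OnePoint.isOpen_image_coe.2 (hU i)) (by
      intro x hx
      induction x using OnePoint.rec with
      | infty => exact (Set.disjoint_left.1 φ.2.1 hx rfl).elim
      | coe x =>
        have : x ∈ ⋃ i, U i := by rw [hcov]; trivial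
        obtain ⟨i, hi⟩ := Set.mem_iUnion.1 this
        exact Set.mem_iUnion.2 ⟨i, x, hi, rfl⟩) (by
      intro a b
      obtain ⟨c, hac, hbc⟩ := hdir a b
      exact ⟨c, Set.image_mono hac, Set.image_mono hbc⟩)
  have : LocallyCompactSpace (U i) := (hU i).locallyCompactSpace
  obtain ⟨w, hw⟩ := as_dict_surj (Subtype.val : U i → X) (hU i).isOpenEmbedding_subtypeVal q φ (by
    intro x hx
    obtain ⟨y, hy, rfl⟩ := hi hx
    exact ⟨⟨y, hy⟩, rfl⟩)
  exact ⟨i, w, hw⟩

/-- the map `X⁺ × I → (X × I)⁺` -/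
noncomputable def asCylMap (X : Type) (y : OnePoint X × unitInterval) : OnePoint (X × unitInterval) :=
  y.1.elim OnePoint.infty (fun x => ((x, y.2) : X × unitInterval))

theorem as_cylMap_eqns_cite : True := by
  have := @asCylMap.eq_1
  trivial

theorem as_cylMap_cont (X : Type) [TopologicalSpace X] [T2Space X] : Continuous (asCylMap X) := by
  rw [continuous_iff_continuousAt]
  rintro ⟨x, t⟩
  induction x using OnePoint.rec with
  | infty =>
    show Filter.Tendsto (asCylMap X) (𝓝 (OnePoint.infty, t)) (𝓝 (OnePoint.infty))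
    rw [OnePoint.hasBasis_nhds_infty.tendsto_right_iff]
    rintro L ⟨_, hL⟩
    have hK : IsCompact (Prod.fst '' L) := hL.image continuous_fst
    have ho : IsOpen ((((↑) '' (Prod.fst '' L) : Set (OnePoint X))ᶜ) ×ˢ (Set.univ : Set unitInterval)) :=
      (OnePoint.isOpen_compl_image_coe.2 ⟨hK.isClosed, hK⟩).prod isOpen_univ
    refine Filter.mem_of_superset (ho.mem_nhds ⟨by simp, trivial⟩) ?_
    rintro ⟨y, s⟩ ⟨hy, _⟩
    induction y using OnePoint.rec with
    | infty => exact Or.inr rfl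
    | coe y =>
      refine Or.inl ⟨(y, s), fun hmem => hy ⟨y, ⟨(y, s), hmem, rfl⟩, rfl⟩, rfl⟩
  | coe x =>
    have he : IsOpenEmbedding (Prod.map ((↑) : X → OnePoint X) (id : unitInterval → unitInterval)) :=
      OnePoint.isOpenEmbedding_coe.prodMap IsOpenEmbedding.id
    have := he.continuousAt_iff (g := asCylMap X) (x := (x, t))
    refine this.1 ?_
    exact OnePoint.continuous_coe.continuousAt

theorem as_cylMap_slice (X : Type) (t : unitInterval) :
    OnePoint.map (fun x : X => (x, t)) = asCylMap X ∘ asSlice (OnePoint X) t := by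
  funext x
  induction x using OnePoint.rec with
  | infty => rfl
  | coe x => rfl

theorem as_hc_htpy (q : ℕ) (X : Type) [TopologicalSpace X] [T2Space X] [LocallyCompactSpace X]
    (u : AsHc k q (X × unitInterval)) :
    asHcPull k q (fun x : X => (x, (0 : unitInterval))) u =
      asHcPull k q (fun x : X => (x, (1 : unitInterval))) u := by
  obtain ⟨m', rfl⟩ := as_cls_surj _ _ q u
  have hc : ∀ t, Continuous (asCylMap X ∘ asSlice (OnePoint X) t) :=
    fun t => (as_cylMap_cont X).comp (as_slice_cont _ t)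
  unfold asHcPull
  rw [as_cylMap_slice, as_cylMap_slice, as_mapJ_eq _ (hc 0) _ _ (as_mapsTo_infty _ rfl),
    as_mapJ_eq _ (hc 1) _ _ (as_mapsTo_infty _ rfl), as_mapH_cls, as_mapH_cls, as_cls_eq_iff]
  set m := asPull k (asCylMap X) q m'.1 with hm
  have hms : Prod.fst '' asSupp m ⊆ {OnePoint.infty}ᶜ := by
    rintro _ ⟨⟨y, s⟩, hy, rfl⟩ hinf
    have h1 := as_supp_pull _ (as_cylMap_cont X) m'.1 hy
    have h2 : y = OnePoint.infty := hinf
    subst h2
    exact Set.disjoint_left.1 m'.2.1 h1 rfl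
  have hmd : asSupp (asD k _ q m) = ∅ := by
    rw [hm, ← as_pull_d]
    exact as_supp_eq_empty_of_pull _ (as_cylMap_cont X) _ m'.2.2
  show asPull k (asSlice (OnePoint X) 0) q m - asPull k (asSlice (OnePoint X) 1) q m ∈ _
  cases q with
  | zero =>
    rw [as_htpy_zero (OnePoint X) 1 0 m hmd, sub_self]
    exact Submodule.zero_mem _
  | succ q =>
    obtain ⟨b, hb, hn⟩ := as_htpy (OnePoint X) 1 0 {OnePoint.infty}ᶜ OnePoint.isClosed_infty.isOpen_compl q m
      hms hmd
    exact (as_mem_B_succ _ _ _ _).2 ⟨b, Set.subset_compl_iff_disjoint_right.1 hb, hn⟩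

end Claimed.Agent.R304
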