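/-
Row 304 (S0559, Hilbert-Smith).  Owner: helper248.  LAYER S, BASIC DEFINITIONS ("FC model").

`FC(X)` replaces c-soft sheaves of real vector spaces on a Hausdorff space `X`:
an object is a real vector space `M` together with a support function `supp : M → Set X`
(think: `M = Γ_c(X, F)`).  Morphisms are the linear maps which do not increase supports (`FcLoc`).
There are NO sheaves, NO derived functors, NO gradings: a complex is totalised to a
DIFFERENTIAL object `(M, d)`, `d` local, `d ∘ d = 0` (`FcD X`).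

* `FcObj X`, `FcD X`         objects / differential objects
* `FcD.sec A U`              `M(U) = {m | supp m ⊆ U}`  (`= Γ_c(U, F)`)
* `FcD.AcycAt A U`           `H(M(U), d) = 0`
* `FcD.AcycOn A O`           `H(M(U)) = 0` for all opens `U ⊆ O`;  `FcD.Acyc A` : `O = univ` (class `𝒩(X)`)
* `FcHom A B`                local chain maps;  `FcIso A B`
* `FcD.resc A c`             `(M, c d)`
* `FcD.prod A B`, `fcCone f` (`A × B`, `D (a, b) = (- d a, f a + d b)`)
* `FcD.dual A`               compactly supported functionals, `d^∨ φ = φ ∘ d`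
* `fcEv A`                   `A → A^∨∨`;   `fcTr f : B^∨ → A^∨`
* `FcD.push g A`             `g_! A` : same module, `supp' = g '' supp`
* `fcPushDual g A`           the inclusion `g_!(A^∨) → (g_! A)^∨`
* `FcD.res A U`              `M(U)` as an object over `X`
* `FcCls X`                  "thick" classes of differential objects; `fcAcycCls X` is the smallest one.

All proof obligations inside the definitions are PROVED (helper231, 05:45): this file is free of gaps.
-/
import Mathlib

set_option autoImplicit false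

namespace Claimed.Agent.R304

open Topology

/-- An object of `FC(X)`: a real vector space with supports.  `ury` = "Urysohn operators":
for EVERY subset `E` a linear local cut-off `π` which lives on `closure E`, while `1 - π` lives on
`closure Eᶜ` (for Alexander-Spanier cochains: multiply by the indicator of `E` in the first variable). -/
structure FcObj (X : Type) [TopologicalSpace X] where
  /-- the underlying vector space -/
  carrier : Type
  /-- additive structure -/
  acg : AddCommGroup carrier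
  /-- linear structure -/
  mod : Module ℝ carrier
  /-- the support -/
  supp : carrier → Set X
  supp_compact : ∀ m, IsCompact (supp m)
  supp_closed : ∀ m, IsClosed (supp m)
  supp_empty_iff : ∀ m, supp m = ∅ ↔ m = 0
  supp_add : ∀ m m', supp (m + m') ⊆ supp m ∪ supp m'
  supp_smul : ∀ (c : ℝ) m, supp (c • m) ⊆ supp m
  ury : ∀ E : Set X, ∃ π : carrier →ₗ[ℝ] carrier,
    ∀ m, supp (π m) ⊆ supp m ∩ closure E ∧ supp (m - π m) ⊆ supp m ∩ closure Eᶜ

attribute [instance] FcObj.acg FcObj.mod

/-- A differential object of `FC(X)`. -/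
structure FcD (X : Type) [TopologicalSpace X] extends FcObj X where
  /-- the differential -/
  d : carrier →ₗ[ℝ] carrier
  d_loc : ∀ m, supp (d m) ⊆ supp m
  d_sq : ∀ m, d (d m) = 0

variable {X Y : Type} [TopologicalSpace X] [TopologicalSpace Y]

/-- the underlying type of a differential object -/
abbrev FcD.C (A : FcD X) : Type := A.toFcObj.carrier

theorem FcObj.supp_zero (A : FcObj X) : A.supp 0 = ∅ := (A.supp_empty_iff 0).2 rfl

theorem FcObj.supp_neg (A : FcObj X) (m : A.carrier) : A.supp (-m) ⊆ A.supp m := by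
  have := A.supp_smul (-1) m
  rwa [neg_one_smul] at this

theorem FcObj.supp_sub (A : FcObj X) (m m' : A.carrier) : A.supp (m - m') ⊆ A.supp m ∪ A.supp m' := by
  rw [sub_eq_add_neg]
  exact (A.supp_add m (-m')).trans (Set.union_subset_union_right _ (A.supp_neg m'))

/-- elementwise softness: the 2-set decomposition -/
theorem FcObj.decomp [T2Space X] (A : FcObj X) {U₁ U₂ : Set X} (h₁ : IsOpen U₁) (h₂ : IsOpen U₂)
    (m : A.carrier) (hm : A.supp m ⊆ U₁ ∪ U₂) :
    ∃ m₁ m₂, m = m₁ + m₂ ∧ A.supp m₁ ⊆ A.supp m ∩ U₁ ∧ A.supp m₂ ⊆ A.supp m ∩ U₂ := by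
  have hK := A.supp_compact m
  have hd : Disjoint (A.supp m \ U₂) (A.supp m \ U₁) := by
    rw [Set.disjoint_left]
    rintro x ⟨hx, hx2⟩ ⟨_, hx1⟩
    rcases hm hx with h | h
    · exact hx1 h
    · exact hx2 h
  obtain ⟨V₁, V₂, hV₁, hV₂, hs₁, hs₂, hV⟩ :=
    SeparatedNhds.of_isCompact_isCompact (hK.diff h₂) (hK.diff h₁) hd
  obtain ⟨π, hπ⟩ := A.ury V₁
  refine ⟨π m, m - π m, by abel, ?_, ?_⟩
  · intro x hx
    obtain ⟨hxK, hxc⟩ := (hπ m).1 hx
    refine ⟨hxK, ?_⟩
    by_contra hx1
    have hx2 : x ∈ V₂ := hs₂ ⟨hxK, hx1⟩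
    have : Disjoint (closure V₁) V₂ := hV.closure_left hV₂
    exact Set.disjoint_left.1 this hxc hx2
  · intro x hx
    obtain ⟨hxK, hxc⟩ := (hπ m).2 hx
    refine ⟨hxK, ?_⟩
    by_contra hx2
    have hx1 : x ∈ V₁ := hs₁ ⟨hxK, hx2⟩
    rw [hV₁.isClosed_compl.closure_eq] at hxc
    exact hxc hx1

/-- linear algebra: a functional which kills the kernel of `f` factors through `f` -/
theorem fc_factor {V W : Type} [AddCommGroup V] [Module ℝ V] [AddCommGroup W] [Module ℝ W]
    (f : V →ₗ[ℝ] W) (Φ : Module.Dual ℝ V) (h : ∀ v, f v = 0 → Φ v = 0) :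
    ∃ ψ : Module.Dual ℝ W, ∀ v, ψ (f v) = Φ v := by
  have hΦ : Φ ∈ (LinearMap.ker f).dualAnnihilator := by
    rw [Submodule.mem_dualAnnihilator]
    exact fun v hv => h v hv
  rw [← LinearMap.range_dualMap_eq_dualAnnihilator_ker] at hΦ
  obtain ⟨ψ, hψ⟩ := hΦ
  exact ⟨ψ, fun v => by rw [← hψ]; rfl⟩

/-- a linear map which does not increase supports -/
def FcLoc (A B : FcD X) (f : A.C →ₗ[ℝ] B.C) : Prop := ∀ m, B.supp (f m) ⊆ A.supp m

/-- a bilinear form which vanishes on pairs with disjoint supports -/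
def FcLoc2 (A B : FcD X) (b : A.C →ₗ[ℝ] B.C →ₗ[ℝ] ℝ) : Prop :=
  ∀ m n, Disjoint (A.supp m) (B.supp n) → b m n = 0

/-- `M(U)`: the elements supported in `U` -/
def FcD.sec (A : FcD X) (U : Set X) : Submodule ℝ A.C where
  carrier := {m | A.supp m ⊆ U}
  add_mem' := fun {a b} ha hb => (A.supp_add a b).trans (Set.union_subset ha hb)
  zero_mem' := by
    have : A.supp 0 = ∅ := (A.supp_empty_iff 0).2 rfl
    simp [this]
  smul_mem' := fun c m hm => (A.supp_smul c m).trans hm

/-- `H(M(U), d) = 0` -/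
def FcD.AcycAt (A : FcD X) (U : Set X) : Prop :=
  ∀ m, A.supp m ⊆ U → A.d m = 0 → ∃ m', A.supp m' ⊆ U ∧ A.d m' = m

/-- locally acyclic on the set `O` -/
def FcD.AcycOn (A : FcD X) (O : Set X) : Prop :=
  ∀ U, IsOpen U → U ⊆ O → A.AcycAt U

/-- the class `𝒩(X)` of locally acyclic objects -/
def FcD.Acyc (A : FcD X) : Prop := A.AcycOn Set.univ

/-- local chain maps -/
structure FcHom (A B : FcD X) where
  /-- the linear map -/
  f : A.C →ₗ[ℝ] B.C
  loc : FcLoc A B f
  comm : ∀ m, f (A.d m) = B.d (f m)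

/-- isomorphisms of differential objects (supports are preserved exactly) -/
structure FcIso (A B : FcD X) where
  /-- the linear equivalence -/
  e : A.C ≃ₗ[ℝ] B.C
  supp_eq : ∀ m, B.supp (e m) = A.supp m
  comm : ∀ m, e (A.d m) = B.d (e m)

/-- identity -/
def fcId (A : FcD X) : FcHom A A := ⟨LinearMap.id, fun _ => subset_rfl, fun _ => rfl⟩

/-- composition -/
def FcHom.comp {A B C : FcD X} (g : FcHom B C) (f : FcHom A B) : FcHom A C :=
  ⟨g.f ∘ₗ f.f, fun m => (g.loc _).trans (f.loc m), fun m => by simp [f.comm, g.comm]⟩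

/-- `(M, c d)` -/
def FcD.resc (A : FcD X) (c : ℝ) : FcD X :=
  { A.toFcObj with
    d := c • A.d
    d_loc := fun m => (A.supp_smul c _).trans (A.d_loc m)
    d_sq := fun m => by simp [A.d_sq] }

/-- the zero object -/
def fcZero (X : Type) [TopologicalSpace X] : FcD X where
  carrier := PUnit
  acg := inferInstance
  mod := inferInstance
  supp := fun _ => ∅
  supp_compact := fun _ => isCompact_empty
  supp_closed := fun _ => isClosed_empty
  supp_empty_iff := fun _ => by simp
  supp_add := fun _ _ => by simp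
  supp_smul := fun _ _ => by simp
  ury := fun _ => ⟨0, fun _ => by simp⟩
  d := 0
  d_loc := fun _ => by simp
  d_sq := fun _ => rfl

/-- the product of two objects of `FC(X)` -/
def FcObj.prod (A B : FcObj X) : FcObj X where
  carrier := A.carrier × B.carrier
  acg := inferInstance
  mod := inferInstance
  supp := fun m => A.supp m.1 ∪ B.supp m.2
  supp_compact := fun m => (A.supp_compact _).union (B.supp_compact _)
  supp_closed := fun m => (A.supp_closed _).union (B.supp_closed _)
  supp_empty_iff := fun m => by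
    rw [Set.union_empty_iff, A.supp_empty_iff, B.supp_empty_iff, Prod.ext_iff]; rfl
  supp_add := fun m m' => by
    have h1 := A.supp_add m.1 m'.1
    have h2 := B.supp_add m.2 m'.2
    intro x hx
    rcases hx with hx | hx
    · rcases h1 hx with h | h
      · exact Or.inl (Or.inl h)
      · exact Or.inr (Or.inl h)
    · rcases h2 hx with h | h
      · exact Or.inl (Or.inr h)
      · exact Or.inr (Or.inr h)
  supp_smul := fun c m => Set.union_subset_union (A.supp_smul c _) (B.supp_smul c _)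
  ury := fun E => by
    obtain ⟨p, hp⟩ := A.ury E
    obtain ⟨q, hq⟩ := B.ury E
    refine ⟨p.prodMap q, fun m => ⟨?_, ?_⟩⟩
    · rintro x (hx | hx)
      · exact ⟨Or.inl ((hp m.1).1 hx).1, ((hp m.1).1 hx).2⟩
      · exact ⟨Or.inr ((hq m.2).1 hx).1, ((hq m.2).1 hx).2⟩
    · rintro x (hx | hx)
      · exact ⟨Or.inl ((hp m.1).2 hx).1, ((hp m.1).2 hx).2⟩
      · exact ⟨Or.inr ((hq m.2).2 hx).1, ((hq m.2).2 hx).2⟩

/-- the direct sum of two differential objects -/
def FcD.prod (A B : FcD X) : FcD X :=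
  { A.toFcObj.prod B.toFcObj with
    d := A.d.prodMap B.d
    d_loc := fun m => Set.union_subset_union (A.d_loc _) (B.d_loc _)
    d_sq := fun m => by
      show (A.d (A.d m.1), B.d (B.d m.2)) = 0
      rw [A.d_sq, B.d_sq]; rfl }

/-- the cone of a local chain map `f : A → B`: `A × B` with `D (a, b) = (- d a, f a + d b)`.
`B` is a subobject, the quotient is `A.resc (-1)`. -/
def fcCone {A B : FcD X} (f : FcHom A B) : FcD X :=
  { A.toFcObj.prod B.toFcObj with
    d := ((-A.d) ∘ₗ LinearMap.fst ℝ A.C B.C).prod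
          (f.f ∘ₗ LinearMap.fst ℝ A.C B.C + B.d ∘ₗ LinearMap.snd ℝ A.C B.C)
    d_loc := fun m => by
      show A.supp (-(A.d m.1)) ∪ B.supp (f.f m.1 + B.d m.2) ⊆ A.supp m.1 ∪ B.supp m.2
      refine Set.union_subset ?_ ?_
      · exact ((A.supp_neg _).trans (A.d_loc _)).trans Set.subset_union_left
      · refine (B.supp_add _ _).trans (Set.union_subset ?_ ?_)
        · exact (f.loc _).trans Set.subset_union_left
        · exact (B.d_loc _).trans Set.subset_union_right
    d_sq := fun m => by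
      show (-(A.d (-(A.d m.1))), f.f (-(A.d m.1)) + B.d (f.f m.1 + B.d m.2)) = 0
      rw [map_neg, map_neg, A.d_sq, map_add, B.d_sq, f.comm]
      simp }

/-- the compactly supported functionals -/
def FcObj.dualSub (A : FcObj X) : Submodule ℝ (Module.Dual ℝ A.carrier) where
  carrier := {φ | ∃ K, IsCompact K ∧ ∀ m, Disjoint (A.supp m) K → φ m = 0}
  add_mem' := by
    rintro a b ⟨K, hK, h⟩ ⟨L, hL, h'⟩
    refine ⟨K ∪ L, hK.union hL, fun m hm => ?_⟩
    rw [Set.disjoint_union_right] at hm
    simp [h m hm.1, h' m hm.2]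
  zero_mem' := ⟨∅, isCompact_empty, fun _ _ => rfl⟩
  smul_mem' := by
    rintro c a ⟨K, hK, h⟩
    exact ⟨K, hK, fun m hm => by simp [h m hm]⟩

/-- the support of a functional: the complement of the largest open set `U` with `φ = 0` on `M(U)` -/
def FcObj.dualSupp (A : FcObj X) (φ : Module.Dual ℝ A.carrier) : Set X :=
  (⋃₀ {U | IsOpen U ∧ ∀ m, A.supp m ⊆ U → φ m = 0})ᶜ

theorem FcObj.dualSupp_closed (A : FcObj X) (φ : Module.Dual ℝ A.carrier) :
    IsClosed (A.dualSupp φ) :=
  (isOpen_sUnion fun _ h => h.1).isClosed_compl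

/-- if `φ` vanishes on `M(U)`, `U` an open set, then the support of `φ` avoids `U` -/
theorem FcObj.dualSupp_subset (A : FcObj X) (φ : Module.Dual ℝ A.carrier) {U : Set X} (hU : IsOpen U)
    (h : ∀ m, A.supp m ⊆ U → φ m = 0) : A.dualSupp φ ⊆ Uᶜ :=
  Set.compl_subset_compl.2 (Set.subset_sUnion_of_mem ⟨hU, h⟩)

/-- KEY LEMMA: a functional vanishes on the elements whose support avoids its support -/
theorem FcObj.dual_apply_eq_zero [T2Space X] (A : FcObj X) (φ : Module.Dual ℝ A.carrier) (m : A.carrier)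
    (h : Disjoint (A.supp m) (A.dualSupp φ)) : φ m = 0 := by
  have key : ∃ U, (IsOpen U ∧ ∀ m, A.supp m ⊆ U → φ m = 0) ∧ A.supp m ⊆ U := by
    refine (A.supp_compact m).induction_on
      (p := fun s => ∃ U, (IsOpen U ∧ ∀ m, A.supp m ⊆ U → φ m = 0) ∧ s ⊆ U) ?_ ?_ ?_ ?_
    · refine ⟨∅, ⟨isOpen_empty, fun m hm => ?_⟩, subset_rfl⟩
      have : m = 0 := (A.supp_empty_iff m).1 (Set.subset_empty_iff.1 hm)
      rw [this, map_zero]
    · rintro s t hst ⟨U, hU, htU⟩
      exact ⟨U, hU, hst.trans htU⟩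
    · rintro s t ⟨U, ⟨hU, hU'⟩, hsU⟩ ⟨V, ⟨hV, hV'⟩, htV⟩
      refine ⟨U ∪ V, ⟨hU.union hV, fun n hn => ?_⟩, Set.union_subset_union hsU htV⟩
      obtain ⟨n₁, n₂, rfl, h1, h2⟩ := A.decomp hU hV n hn
      rw [map_add, hU' _ (h1.trans Set.inter_subset_right), hV' _ (h2.trans Set.inter_subset_right),
        add_zero]
    · intro x hx
      have hx' : x ∉ A.dualSupp φ := Set.disjoint_left.1 h hx
      simp only [FcObj.dualSupp, Set.mem_compl_iff, not_not] at hx'
      obtain ⟨U, hU, hxU⟩ := hx'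
      exact ⟨U, mem_nhdsWithin_of_mem_nhds (hU.1.mem_nhds hxU), U, hU, subset_rfl⟩
  obtain ⟨U, hU, hmU⟩ := key
  exact hU.2 m hmU

/-- a functional which vanishes off the closed set `K` is supported in `K` -/
theorem FcObj.dualSupp_subset_of_closed (A : FcObj X) (φ : Module.Dual ℝ A.carrier) {K : Set X}
    (hK : IsClosed K) (h : ∀ m, Disjoint (A.supp m) K → φ m = 0) : A.dualSupp φ ⊆ K := by
  have := A.dualSupp_subset φ hK.isOpen_compl
    (fun m hm => h m (Set.disjoint_left.2 fun x hx hxK => hm hx hxK))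
  rwa [compl_compl] at this

/-- transposition by a local map does not increase supports -/
theorem FcObj.dualSupp_comp {A B : FcObj X} (f : A.carrier →ₗ[ℝ] B.carrier)
    (hf : ∀ m, B.supp (f m) ⊆ A.supp m) (φ : Module.Dual ℝ B.carrier) :
    A.dualSupp (φ ∘ₗ f) ⊆ B.dualSupp φ := by
  apply Set.compl_subset_compl.2
  rintro x ⟨U, ⟨hU, hU'⟩, hxU⟩
  exact ⟨U, ⟨hU, fun m hm => hU' _ ((hf m).trans hm)⟩, hxU⟩

/-- transposition by a map with values supported in the closed set `Z` -/
theorem FcObj.dualSupp_comp_closed {A B : FcObj X} (f : A.carrier →ₗ[ℝ] B.carrier) {Z : Set X}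
    (hZ : IsClosed Z) (hf : ∀ m, B.supp (f m) ⊆ A.supp m ∩ Z) (φ : Module.Dual ℝ B.carrier) :
    A.dualSupp (φ ∘ₗ f) ⊆ B.dualSupp φ ∩ Z := by
  refine Set.subset_inter (FcObj.dualSupp_comp f (fun m => (hf m).trans Set.inter_subset_left) φ) ?_
  refine A.dualSupp_subset_of_closed _ hZ (fun m hm => ?_)
  have h0 : B.supp (f m) = ∅ := by
    rw [← Set.subset_empty_iff]
    intro x hx
    exact Set.disjoint_left.1 hm (hf m hx).1 (hf m hx).2
  show φ (f m) = 0
  rw [(B.supp_empty_iff _).1 h0, map_zero]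

/-- the dual object `M^∨` -/
def FcObj.dual [T2Space X] (A : FcObj X) : FcObj X where
  carrier := A.dualSub
  acg := inferInstance
  mod := inferInstance
  supp := fun φ => A.dualSupp φ.1
  supp_compact := fun φ => by
    obtain ⟨K, hK, h⟩ := φ.2
    exact hK.of_isClosed_subset (A.dualSupp_closed _) (A.dualSupp_subset_of_closed _ hK.isClosed h)
  supp_closed := fun φ => A.dualSupp_closed _
  supp_empty_iff := fun φ => by
    constructor
    · intro h
      apply Subtype.ext
      apply LinearMap.ext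
      intro m
      exact A.dual_apply_eq_zero φ.1 m (by rw [h]; exact Set.disjoint_empty _)
    · rintro rfl
      rw [← Set.subset_empty_iff]
      have := A.dualSupp_subset (0 : Module.Dual ℝ A.carrier) isOpen_univ (fun _ _ => rfl)
      rwa [Set.compl_univ] at this
  supp_add := fun φ ψ => by
    intro x hx
    by_contra hcon
    rw [Set.mem_union, not_or] at hcon
    obtain ⟨h1, h2⟩ := hcon
    simp only [FcObj.dualSupp, Set.mem_compl_iff, not_not] at h1 h2
    obtain ⟨U, ⟨hU, hU'⟩, hxU⟩ := h1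
    obtain ⟨V, ⟨hV, hV'⟩, hxV⟩ := h2
    refine A.dualSupp_subset (φ + ψ).1 (hU.inter hV) (fun m hm => ?_) hx ⟨hxU, hxV⟩
    show φ.1 m + ψ.1 m = 0
    rw [hU' m (hm.trans Set.inter_subset_left), hV' m (hm.trans Set.inter_subset_right), add_zero]
  supp_smul := fun c φ => by
    apply Set.compl_subset_compl.2
    rintro x ⟨U, ⟨hU, hU'⟩, hxU⟩
    refine ⟨U, ⟨hU, fun m hm => ?_⟩, hxU⟩
    show c • φ.1 m = 0
    rw [hU' m hm, smul_zero]
  ury := fun E => by
    obtain ⟨π, hπ⟩ := A.ury E
    refine ⟨{ toFun := fun φ => ⟨φ.1 ∘ₗ π, ?_⟩, map_add' := fun _ _ => rfl, map_smul' := fun _ _ => rfl },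
      fun φ => ⟨?_, ?_⟩⟩
    · obtain ⟨K, hK, h⟩ := φ.2
      exact ⟨K, hK, fun m hm =>
        h _ (Set.disjoint_of_subset_left ((hπ m).1.trans Set.inter_subset_left) hm)⟩
    · exact FcObj.dualSupp_comp_closed π isClosed_closure (fun m => (hπ m).1) φ.1
    · have h := FcObj.dualSupp_comp_closed (LinearMap.id - π) isClosed_closure (fun m => (hπ m).2) φ.1
      have e : φ.1 ∘ₗ (LinearMap.id - π) = φ.1 - φ.1 ∘ₗ π := by
        apply LinearMap.ext
        intro m
        simp
      rw [e] at h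
      exact h

/-- transpose of a local linear map, on compactly supported functionals -/
def fcTrLin [T2Space X] {A B : FcObj X} (f : A.carrier →ₗ[ℝ] B.carrier)
    (hf : ∀ m, B.supp (f m) ⊆ A.supp m) : B.dual.carrier →ₗ[ℝ] A.dual.carrier where
  toFun := fun φ => ⟨φ.1 ∘ₗ f, by
    obtain ⟨K, hK, h⟩ := φ.2
    exact ⟨K, hK, fun m hm => h _ (Set.disjoint_of_subset_left (hf m) hm)⟩⟩
  map_add' := fun _ _ => rfl
  map_smul' := fun _ _ => rfl

/-- the dual differential object `(M^∨, d^∨)`, `d^∨ φ = φ ∘ d` -/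
def FcD.dual [T2Space X] (A : FcD X) : FcD X :=
  { A.toFcObj.dual with
    d := fcTrLin A.d A.d_loc
    d_loc := fun φ => FcObj.dualSupp_comp A.d A.d_loc φ.1
    d_sq := fun φ => by
      apply Subtype.ext
      apply LinearMap.ext
      intro m
      show φ.1 (A.d (A.d m)) = 0
      rw [A.d_sq, map_zero] }

/-- the value of an element of the dual -/
def fcAp [T2Space X] {A : FcD X} (φ : A.dual.C) (m : A.C) : ℝ := φ.1 m

/-- transpose of a local chain map -/
def fcTr [T2Space X] {A B : FcD X} (f : FcHom A B) : FcHom B.dual A.dual where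
  f := fcTrLin f.f f.loc
  loc := fun φ => FcObj.dualSupp_comp f.f f.loc φ.1
  comm := fun φ => by
    apply Subtype.ext
    apply LinearMap.ext
    intro m
    show φ.1 (B.d (f.f m)) = φ.1 (f.f (A.d m))
    rw [f.comm]

/-- evaluation `M → M^∨∨` -/
def fcEv [T2Space X] (A : FcD X) : FcHom A A.dual.dual where
  f :=
    { toFun := fun m => ⟨{ toFun := fun φ => φ.1 m, map_add' := fun _ _ => rfl,
                            map_smul' := fun _ _ => rfl },
        ⟨A.supp m, A.supp_compact m, fun φ hφ => A.toFcObj.dual_apply_eq_zero φ.1 m hφ.symm⟩⟩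
      map_add' := fun m m' => by
        apply Subtype.ext; apply LinearMap.ext; intro φ
        exact map_add φ.1 m m'
      map_smul' := fun c m => by
        apply Subtype.ext; apply LinearMap.ext; intro φ
        exact map_smul φ.1 c m }
  loc := fun m => A.toFcObj.dual.dualSupp_subset_of_closed _ (A.supp_closed m)
    (fun φ hφ => A.toFcObj.dual_apply_eq_zero φ.1 m hφ.symm)
  comm := fun m => rfl

/-- a local bilinear form as a local linear map `A → B^∨` -/
def fcCurry [T2Space X] {A B : FcD X} (b : A.C →ₗ[ℝ] B.C →ₗ[ℝ] ℝ) (hb : FcLoc2 A B b) :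
    A.C →ₗ[ℝ] B.dual.C where
  toFun := fun m => ⟨b m, A.supp m, A.supp_compact m, fun n hn => hb m n hn.symm⟩
  map_add' := fun m m' => by apply Subtype.ext; exact map_add b m m'
  map_smul' := fun c m => by apply Subtype.ext; exact map_smul b c m

/-- `g_! M`: the same module, supports pushed forward -/
def FcObj.push [T2Space Y] (g : C(X, Y)) (A : FcObj X) : FcObj Y where
  carrier := A.carrier
  acg := A.acg
  mod := A.mod
  supp := fun m => g '' A.supp m
  supp_compact := fun m => (A.supp_compact m).image g.continuous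
  supp_closed := fun m => ((A.supp_compact m).image g.continuous).isClosed
  supp_empty_iff := fun m => by rw [Set.image_eq_empty, A.supp_empty_iff]
  supp_add := fun m m' => by
    rw [← Set.image_union]; exact Set.image_mono (A.supp_add m m')
  supp_smul := fun c m => Set.image_mono (A.supp_smul c m)
  ury := fun E => by
    obtain ⟨π, hπ⟩ := A.ury (g ⁻¹' E)
    have hcl : ∀ F : Set Y, g '' closure (g ⁻¹' F) ⊆ closure F := fun F =>
      (image_closure_subset_closure_image g.continuous).trans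
        (closure_mono (Set.image_preimage_subset g F))
    refine ⟨π, fun m => ⟨?_, ?_⟩⟩
    · rintro y ⟨x, hx, rfl⟩
      exact ⟨⟨x, ((hπ m).1 hx).1, rfl⟩, hcl E ⟨x, ((hπ m).1 hx).2, rfl⟩⟩
    · rintro y ⟨x, hx, rfl⟩
      exact ⟨⟨x, ((hπ m).2 hx).1, rfl⟩, hcl Eᶜ ⟨x, ((hπ m).2 hx).2, rfl⟩⟩

/-- `g_!` of a differential object -/
def FcD.push [T2Space Y] (g : C(X, Y)) (A : FcD X) : FcD Y :=
  { A.toFcObj.push g with
    d := A.d
    d_loc := fun m => Set.image_mono (A.d_loc m)
    d_sq := A.d_sq }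

/-- `g_!` of a local chain map -/
def FcHom.push [T2Space Y] (g : C(X, Y)) {A B : FcD X} (f : FcHom A B) :
    FcHom (A.push g) (B.push g) :=
  ⟨f.f, fun m => Set.image_mono (f.loc m), f.comm⟩

/-- the inclusion `g_!(M^∨) → (g_! M)^∨` (an equality if `g` is proper) -/
def fcPushDual [T2Space X] [T2Space Y] (g : C(X, Y)) (A : FcD X) :
    FcHom (A.dual.push g) (A.push g).dual where
  f :=
    { toFun := fun φ => ⟨φ.1, by
        obtain ⟨K, hK, h⟩ := φ.2
        refine ⟨g '' K, hK.image g.continuous, fun m hm => h m ?_⟩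
        rw [Set.disjoint_left] at hm ⊢
        exact fun x hx hxK => hm (Set.mem_image_of_mem g hx) (Set.mem_image_of_mem g hxK)⟩
      map_add' := fun _ _ => rfl
      map_smul' := fun _ _ => rfl }
  loc := fun φ => (A.toFcObj.push g).dualSupp_subset_of_closed _
    (((A.toFcObj.dual.supp_compact φ).image g.continuous).isClosed)
    (fun m hm => A.toFcObj.dual_apply_eq_zero φ.1 m (by
      rw [Set.disjoint_left] at hm ⊢
      exact fun x hx hxK => hm (Set.mem_image_of_mem g hx) (Set.mem_image_of_mem g hxK)))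
  comm := fun _ => rfl

/-- `M(U)` as an object over `X` -/
def FcD.res (A : FcD X) (U : Set X) : FcD X where
  carrier := A.sec U
  acg := inferInstance
  mod := inferInstance
  supp := fun m => A.supp m.1
  supp_compact := fun m => A.supp_compact _
  supp_closed := fun m => A.supp_closed _
  supp_empty_iff := fun m => by
    rw [A.supp_empty_iff]; exact (Submodule.coe_eq_zero (p := A.sec U) (x := m))
  supp_add := fun m m' => A.supp_add _ _
  supp_smul := fun c m => A.supp_smul c _
  ury := fun E => by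
    obtain ⟨π, hπ⟩ := A.ury E
    exact ⟨π.restrict (fun m hm => ((hπ m).1.trans Set.inter_subset_left).trans hm),
      fun m => hπ m.1⟩
  d := A.d.restrict (fun m hm => (A.d_loc m).trans hm)
  d_loc := fun m => A.d_loc _
  d_sq := fun m => Subtype.ext (A.d_sq _)

/-- the inclusion `M(U) → M` -/
def fcResIncl (A : FcD X) (U : Set X) : FcHom (A.res U) A :=
  ⟨(A.sec U).subtype, fun _ => subset_rfl, fun _ => rfl⟩

/-- A CLASS of differential objects over `X`: closed under isomorphisms, rescaling of the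
differential, two-out-of-three for cones, duals; contains the locally acyclic objects.
(NOT necessarily closed under direct summands: see `FcCls.Summ`.) -/
structure FcCls (X : Type) [TopologicalSpace X] [T2Space X] where
  /-- membership -/
  mem : FcD X → Prop
  iso : ∀ {A B : FcD X}, FcIso A B → mem A → mem B
  acyc : ∀ {A : FcD X}, A.Acyc → mem A
  resc : ∀ {A : FcD X} (c : ℝ), c ≠ 0 → mem A → mem (A.resc c)
  cone : ∀ {A B : FcD X} (f : FcHom A B), mem A → mem B → mem (fcCone f)
  cone_src : ∀ {A B : FcD X} (f : FcHom A B), mem B → mem (fcCone f) → mem A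
  cone_tgt : ∀ {A B : FcD X} (f : FcHom A B), mem A → mem (fcCone f) → mem B
  dual : ∀ {A : FcD X}, mem A → mem A.dual

/-- inclusion of classes -/
def FcCls.le [T2Space X] (P T : FcCls X) : Prop := ∀ A, P.mem A → T.mem A

/-- closed under direct summands -/
def FcCls.Summ [T2Space X] (T : FcCls X) : Prop := ∀ A B : FcD X, T.mem (A.prod B) → T.mem A

/-- a class all of whose members are reflexive up to locally acyclic objects -/
def FcCls.Refl [T2Space X] (T : FcCls X) : Prop := ∀ A, T.mem A → (fcCone (fcEv A)).Acyc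

theorem FcD.AcycAt.of_iso {A B : FcD X} (e : FcIso A B) {U : Set X} (h : A.AcycAt U) : B.AcycAt U := by
  intro m hm hd
  obtain ⟨m', hm', hd'⟩ := h (e.e.symm m)
    (by rw [← e.supp_eq, LinearEquiv.apply_symm_apply]; exact hm)
    (by apply e.e.injective; rw [e.comm, LinearEquiv.apply_symm_apply, hd, map_zero])
  exact ⟨e.e m', by rw [e.supp_eq]; exact hm', by rw [← e.comm, hd', LinearEquiv.apply_symm_apply]⟩

theorem FcD.AcycAt.resc {A : FcD X} {c : ℝ} (hc : c ≠ 0) {U : Set X} (h : A.AcycAt U) :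
    (A.resc c).AcycAt U := by
  intro m hm hd
  have hd0 : A.d m = 0 := by
    have h1 : c • A.d m = 0 := hd
    exact (smul_eq_zero.1 h1).resolve_left hc
  obtain ⟨m', hm', hd'⟩ := h m hm hd0
  refine ⟨c⁻¹ • m', (A.supp_smul _ _).trans hm', ?_⟩
  show c • A.d (c⁻¹ • m') = m
  rw [map_smul, smul_smul, mul_inv_cancel₀ hc, one_smul, hd']

theorem fcCone_acycAt {A B : FcD X} (f : FcHom A B) {U : Set X} (hA : A.AcycAt U) (hB : B.AcycAt U) :
    (fcCone f).AcycAt U := by
  rintro ⟨a, b⟩ hm hd
  have hm1 : A.supp a ⊆ U := Set.subset_union_left.trans hm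
  have hm2 : B.supp b ⊆ U := Set.subset_union_right.trans hm
  have hd' : (-(A.d a), f.f a + B.d b) = (0 : A.C × B.C) := hd
  have hd1 : A.d a = 0 := by simpa using congrArg Prod.fst hd'
  have hd2 : f.f a + B.d b = 0 := congrArg Prod.snd hd'
  obtain ⟨a', ha', hda'⟩ := hA a hm1 hd1
  obtain ⟨b', hb', hdb'⟩ := hB (b + f.f a')
    ((B.supp_add _ _).trans (Set.union_subset hm2 ((f.loc _).trans ha')))
    (by rw [map_add, ← f.comm, hda', add_comm]; exact hd2)
  refine ⟨(-a', b'), Set.union_subset ((A.supp_neg _).trans ha') hb', ?_⟩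
  show (-(A.d (-a')), f.f (-a') + B.d b') = (a, b)
  rw [map_neg, map_neg, hda', hdb']
  simp

theorem fcCone_acycAt_src {A B : FcD X} (f : FcHom A B) {U : Set X} (hB : B.AcycAt U)
    (hC : (fcCone f).AcycAt U) : A.AcycAt U := by
  intro a ha hd
  obtain ⟨b, hb, hdb⟩ := hB (f.f a) ((f.loc _).trans ha) (by rw [← f.comm, hd, map_zero])
  obtain ⟨⟨a', b'⟩, hm', hd'⟩ := hC (a, -b) (Set.union_subset ha ((B.supp_neg _).trans hb)) (by
    show (-(A.d a), f.f a + B.d (-b)) = 0
    rw [hd, map_neg, hdb]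
    simp)
  have hd'' : (-(A.d a'), f.f a' + B.d b') = (a, -b) := hd'
  refine ⟨-a', (A.supp_neg _).trans (Set.subset_union_left.trans hm'), ?_⟩
  rw [map_neg]
  exact congrArg Prod.fst hd''

theorem fcCone_acycAt_tgt {A B : FcD X} (f : FcHom A B) {U : Set X} (hA : A.AcycAt U)
    (hC : (fcCone f).AcycAt U) : B.AcycAt U := by
  intro b hb hd
  obtain ⟨⟨a', b'⟩, hm', hd'⟩ := hC (0, b) (by
      show A.supp 0 ∪ B.supp b ⊆ U
      rw [A.supp_zero, Set.empty_union]; exact hb) (by
    show (-(A.d 0), f.f 0 + B.d b) = 0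
    rw [hd]
    simp)
  have hd'' : (-(A.d a'), f.f a' + B.d b') = (0, b) := hd'
  have h1 : A.d a' = 0 := by simpa using congrArg Prod.fst hd''
  have h2 : f.f a' + B.d b' = b := congrArg Prod.snd hd''
  obtain ⟨a'', ha'', hda''⟩ := hA a' (Set.subset_union_left.trans hm') h1
  refine ⟨f.f a'' + b', (B.supp_add _ _).trans
    (Set.union_subset ((f.loc _).trans ha'') (Set.subset_union_right.trans hm')), ?_⟩
  rw [map_add, ← f.comm, hda'', h2]

theorem FcD.AcycAt.of_prod {A B : FcD X} {U : Set X} (h : (A.prod B).AcycAt U) : A.AcycAt U := by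
  intro a ha hd
  obtain ⟨⟨a', b'⟩, hm', hd'⟩ := h (a, 0) (by
      show A.supp a ∪ B.supp 0 ⊆ U
      rw [B.supp_zero, Set.union_empty]; exact ha) (by
    show (A.d a, B.d 0) = 0
    rw [hd, map_zero]; rfl)
  exact ⟨a', Set.subset_union_left.trans hm', congrArg Prod.fst hd'⟩

theorem FcD.AcycOn.mono {A : FcD X} {O O' : Set X} (h : A.AcycOn O) (hO : O' ⊆ O) : A.AcycOn O' :=
  fun U hU hUO => h U hU (hUO.trans hO)

/-- the dual of an object which is locally acyclic on `O` is locally acyclic on `O` -/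
theorem FcD.AcycOn.dual [T2Space X] {A : FcD X} {O : Set X} (h : A.AcycOn O) : A.dual.AcycOn O := by
  intro U hU hUO φ hφ hd
  have hφd : ∀ m, φ.1 (A.d m) = 0 := fun m => by
    have := congrArg (fun ψ : A.dual.C => ψ.1 m) hd
    exact this
  have hK : IsCompact (A.dualSupp φ.1) := A.toFcObj.dual.supp_compact φ
  have hKU : A.dualSupp φ.1 ⊆ U := hφ
  have hKo : IsOpen (A.dualSupp φ.1)ᶜ := hK.isClosed.isOpen_compl
  obtain ⟨ψ, hψ⟩ := fc_factor
    (A.d.coprod (A.sec (A.dualSupp φ.1)ᶜ).subtype) (φ.1 ∘ₗ LinearMap.fst ℝ _ _) (by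
      rintro ⟨m, n⟩ hmn
      have hmn' : A.d m + n.1 = 0 := hmn
      show φ.1 m = 0
      obtain ⟨m₁, m₂, rfl, h1, h2⟩ := A.toFcObj.decomp hU hKo m (by
        intro x _
        by_cases hx : x ∈ A.dualSupp φ.1
        · exact Or.inl (hKU hx)
        · exact Or.inr hx)
      have hm2 : φ.1 m₂ = 0 := A.toFcObj.dual_apply_eq_zero φ.1 m₂
        (Set.disjoint_left.2 fun x hx hxK => (h2 hx).2 hxK)
      have hdm1 : A.d m₁ = -n.1 - A.d m₂ := by
        rw [map_add] at hmn'
        have e : A.d m₁ = (A.d m₁ + A.d m₂ + n.1) + (-n.1 - A.d m₂) := by abel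
        rw [e, hmn', zero_add]
      have hs1 : A.supp (A.d m₁) ⊆ U \ A.dualSupp φ.1 := by
        intro x hx
        refine ⟨(h1 (A.d_loc _ hx)).2, ?_⟩
        rw [hdm1] at hx
        rcases A.supp_sub _ _ hx with hx | hx
        · exact n.2 (A.supp_neg _ hx)
        · exact (h2 (A.d_loc _ hx)).2
      obtain ⟨m'', hm'', hdm''⟩ := h (U \ A.dualSupp φ.1) (hU.sdiff hK.isClosed)
        (Set.sdiff_subset.trans hUO) (A.d m₁) hs1 (A.d_sq _)
      obtain ⟨m''', _, hdm'''⟩ := h U hU hUO (m₁ - m'')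
        ((A.supp_sub _ _).trans (Set.union_subset (h1.trans Set.inter_subset_right)
          (hm''.trans Set.sdiff_subset)))
        (by rw [map_sub, hdm'', sub_self])
      have hm''0 : φ.1 m'' = 0 := A.toFcObj.dual_apply_eq_zero φ.1 m''
        (Set.disjoint_left.2 fun x hx hxK => (hm'' hx).2 hxK)
      have : φ.1 (m₁ - m'') = 0 := by rw [← hdm''', hφd]
      rw [map_sub, hm''0, sub_zero] at this
      rw [map_add, this, hm2, add_zero])
  have hψ1 : ∀ m, ψ (A.d m) = φ.1 m := fun m => by
    have := hψ (m, 0)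
    simpa using this
  have hψ2 : ∀ n, Disjoint (A.supp n) (A.dualSupp φ.1) → ψ n = 0 := fun n hn => by
    have := hψ (0, ⟨n, fun x hx hxK => Set.disjoint_left.1 hn hx hxK⟩)
    simpa using this
  refine ⟨⟨ψ, A.dualSupp φ.1, hK, hψ2⟩, ?_, ?_⟩
  · exact (A.toFcObj.dualSupp_subset_of_closed ψ hK.isClosed hψ2).trans hKU
  · apply Subtype.ext
    apply LinearMap.ext
    intro m
    exact hψ1 m

/-- the class `𝒩(X)` of locally acyclic objects is thick -/
def fcAcycCls (X : Type) [TopologicalSpace X] [T2Space X] : FcCls X where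
  mem := fun A => A.Acyc
  iso := fun e h U hU hUO => (h U hU hUO).of_iso e
  acyc := fun h => h
  resc := fun _ hc h U hU hUO => (h U hU hUO).resc hc
  cone := fun f hA hB U hU hUO => fcCone_acycAt f (hA U hU hUO) (hB U hU hUO)
  cone_src := fun f hB hC U hU hUO => fcCone_acycAt_src f (hB U hU hUO) (hC U hU hUO)
  cone_tgt := fun f hA hC U hU hUO => fcCone_acycAt_tgt f (hA U hU hUO) (hC U hU hUO)
  dual := fun h => FcD.AcycOn.dual h

/-- the members of a thick class `T` which are locally acyclic near the complement of `V` -/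
def FcCls.near [T2Space X] (T : FcCls X) (V : Set X) : FcCls X where
  mem := fun A => T.mem A ∧ ∃ O, IsOpen O ∧ Vᶜ ⊆ O ∧ A.AcycOn O
  iso := fun e ⟨hT, O, hO, hVO, h⟩ =>
    ⟨T.iso e hT, O, hO, hVO, fun U hU hUO => (h U hU hUO).of_iso e⟩
  acyc := fun h => ⟨T.acyc h, Set.univ, isOpen_univ, Set.subset_univ _, h⟩
  resc := fun c hc ⟨hT, O, hO, hVO, h⟩ =>
    ⟨T.resc c hc hT, O, hO, hVO, fun U hU hUO => (h U hU hUO).resc hc⟩
  cone := fun f ⟨hT, O, hO, hVO, h⟩ ⟨hT', O', hO', hVO', h'⟩ =>
    ⟨T.cone f hT hT', O ∩ O', hO.inter hO', Set.subset_inter hVO hVO', fun U hU hUO =>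
      fcCone_acycAt f (h U hU (hUO.trans Set.inter_subset_left))
        (h' U hU (hUO.trans Set.inter_subset_right))⟩
  cone_src := fun f ⟨hT, O, hO, hVO, h⟩ ⟨hT', O', hO', hVO', h'⟩ =>
    ⟨T.cone_src f hT hT', O ∩ O', hO.inter hO', Set.subset_inter hVO hVO', fun U hU hUO =>
      fcCone_acycAt_src f (h U hU (hUO.trans Set.inter_subset_left))
        (h' U hU (hUO.trans Set.inter_subset_right))⟩
  cone_tgt := fun f ⟨hT, O, hO, hVO, h⟩ ⟨hT', O', hO', hVO', h'⟩ =>
    ⟨T.cone_tgt f hT hT', O ∩ O', hO.inter hO', Set.subset_inter hVO hVO', fun U hU hUO =>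
      fcCone_acycAt_tgt f (h U hU (hUO.trans Set.inter_subset_left))
        (h' U hU (hUO.trans Set.inter_subset_right))⟩
  dual := fun ⟨hT, O, hO, hVO, h⟩ => ⟨T.dual hT, O, hO, hVO, h.dual⟩

/-- the class generated by a family `G` of objects WITHOUT the summand rule
(the closure under duals is a THEOREM for the geometric generators, so it is not a rule here) -/
inductive FcGen [T2Space X] (G : FcD X → Prop) : FcD X → Prop
  | gen {A : FcD X} : G A → FcGen G A
  | iso {A B : FcD X} : FcIso A B → FcGen G A → FcGen G B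
  | acyc {A : FcD X} : A.Acyc → FcGen G A
  | resc {A : FcD X} (c : ℝ) : c ≠ 0 → FcGen G A → FcGen G (A.resc c)
  | cone {A B : FcD X} (f : FcHom A B) : FcGen G A → FcGen G B → FcGen G (fcCone f)
  | cone_src {A B : FcD X} (f : FcHom A B) : FcGen G B → FcGen G (fcCone f) → FcGen G A
  | cone_tgt {A B : FcD X} (f : FcHom A B) : FcGen G A → FcGen G (fcCone f) → FcGen G B

/-- the THICK class generated by a family `G` of objects (with the summand rule) -/
inductive FcThick [T2Space X] (G : FcD X → Prop) : FcD X → Prop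
  | gen {A : FcD X} : G A → FcThick G A
  | iso {A B : FcD X} : FcIso A B → FcThick G A → FcThick G B
  | acyc {A : FcD X} : A.Acyc → FcThick G A
  | resc {A : FcD X} (c : ℝ) : c ≠ 0 → FcThick G A → FcThick G (A.resc c)
  | cone {A B : FcD X} (f : FcHom A B) : FcThick G A → FcThick G B → FcThick G (fcCone f)
  | cone_src {A B : FcD X} (f : FcHom A B) : FcThick G B → FcThick G (fcCone f) → FcThick G A
  | cone_tgt {A B : FcD X} (f : FcHom A B) : FcThick G A → FcThick G (fcCone f) → FcThick G B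
  | summand {A B : FcD X} : FcThick G (A.prod B) → FcThick G A

/-- realises the equation lemmas here (unique names) -/
theorem fc_defs_eqns_cite : True := by
  have := @FcD.C.eq_1
  have := @FcLoc.eq_1
  have := @FcLoc2.eq_1
  have := @FcD.sec.eq_1
  have := @FcD.AcycAt.eq_1
  have := @FcD.AcycOn.eq_1
  have := @FcD.Acyc.eq_1
  have := @fcId.eq_1
  have := @FcHom.comp.eq_1
  have := @FcD.resc.eq_1
  have := @fcZero.eq_1
  have := @FcObj.prod.eq_1
  have := @FcD.prod.eq_1
  have := @fcCone.eq_1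
  have := @FcObj.dualSub.eq_1
  have := @FcObj.dualSupp.eq_1
  have := @FcObj.dual.eq_1
  have := @fcTrLin.eq_1
  have := @FcD.dual.eq_1
  have := @fcAp.eq_1
  have := @fcTr.eq_1
  have := @fcEv.eq_1
  have := @fcCurry.eq_1
  have := @FcObj.push.eq_1
  have := @FcD.push.eq_1
  have := @FcHom.push.eq_1
  have := @fcPushDual.eq_1
  have := @FcD.res.eq_1
  have := @fcResIncl.eq_1
  have := @FcCls.le.eq_1
  have := @FcCls.Summ.eq_1
  have := @FcCls.Refl.eq_1
  have := @fcAcycCls.eq_1
  have := @FcCls.near.eq_1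
  trivial

end Claimed.Agent.R304
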