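/-
Row 304 (S0559).  Owner: helper138.  ALEXANDER-SPANIER COCHAINS AS A DIFFERENTIAL OBJECT OF `FC(X)` (`FcDefs.lean`): definitions.

* `asCc X q`      : real cochains of degree `q` with compact support;
* `AsQ X q`       : `asCc X q` modulo null cochains;  `asQMk`, `asQSupp`;
* `asQMap T`      : the map induced on the quotients by a linear map of raw cochains which preserves compact supports and null cochains;
* `asObj X : FcD X` : carrier `⨁ q, AsQ X q` (ALL degrees totalised), `supp m = ⋃ q, asQSupp (m q)`, `d = ⨁ δ`, Urysohn operators `asCut`;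
* `asEl X q φ hφ` : the element of `asObj X` given by a raw cochain `φ` of degree `q` with compact support;
* `asObjSgn X`    : the sign operator `(-1)^q` on the summand of degree `q`;
* `asObjPull f hf : FcHom (asObj Y) ((asObj X).push f)` for a PROPER map `f` (underlying linear map `asObjPullL f hf : (asObj Y).C →ₗ[ℝ] (asObj X).C`).
All proof obligations are PROVED.
-/
import Claimed.Agent.R304.AsHDefs
import Claimed.Agent.R304.FcDefs

set_option autoImplicit false

namespace Claimed.Agent.R304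

open Topology

/-- cochains with compact support -/
def asCc (X : Type) [TopologicalSpace X] (q : ℕ) : Submodule ℝ (AsC ℝ X q) where
  carrier := {φ | IsCompact (asSupp φ)}
  zero_mem' := by
    show IsCompact (asSupp (0 : AsC ℝ X q))
    rw [as_supp_zero]
    exact isCompact_empty
  add_mem' := by
    intro φ ψ hφ hψ
    exact (IsCompact.union hφ hψ).of_isClosed_subset (as_supp_closed _) (as_supp_add φ ψ)
  smul_mem' := by
    intro c φ hφ
    exact IsCompact.of_isClosed_subset hφ (as_supp_closed _) (as_supp_smul c φ)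

/-- compactly supported cochains modulo null cochains -/
def AsQ (X : Type) [TopologicalSpace X] (q : ℕ) : Type :=
  (asCc X q) ⧸ (asNull ℝ X q).comap (asCc X q).subtype

noncomputable instance asQAcg (X : Type) [TopologicalSpace X] (q : ℕ) : AddCommGroup (AsQ X q) :=
  inferInstanceAs (AddCommGroup ((asCc X q) ⧸ (asNull ℝ X q).comap (asCc X q).subtype))

noncomputable instance asQMod (X : Type) [TopologicalSpace X] (q : ℕ) : Module ℝ (AsQ X q) :=
  inferInstanceAs (Module ℝ ((asCc X q) ⧸ (asNull ℝ X q).comap (asCc X q).subtype))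

/-- the class of a cochain -/
noncomputable def asQMk (X : Type) [TopologicalSpace X] (q : ℕ) : asCc X q →ₗ[ℝ] AsQ X q :=
  ((asNull ℝ X q).comap (asCc X q).subtype).mkQ

theorem as_qMk_surj (X : Type) [TopologicalSpace X] (q : ℕ) : Function.Surjective (asQMk X q) :=
  Submodule.mkQ_surjective _

/-- a representative -/
noncomputable def asQRep {X : Type} [TopologicalSpace X] {q : ℕ} (m : AsQ X q) : asCc X q :=
  (as_qMk_surj X q m).choose

theorem as_qMk_rep {X : Type} [TopologicalSpace X] {q : ℕ} (m : AsQ X q) :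
    asQMk X q (asQRep m) = m := (as_qMk_surj X q m).choose_spec

/-- the support of a class -/
noncomputable def asQSupp {X : Type} [TopologicalSpace X] {q : ℕ} (m : AsQ X q) : Set X :=
  asSupp (asQRep m).1

/-! ### the support calculus on the quotients -/

theorem asd_supp_congr {X : Type} [TopologicalSpace X] {q : ℕ} (φ ψ : AsC ℝ X q)
    (h : asSupp (φ - ψ) = ∅) : asSupp φ = asSupp ψ := by
  apply Set.Subset.antisymm
  · intro x hx
    have e : φ = (φ - ψ) + ψ := by abel
    rw [e] at hx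
    rcases as_supp_add _ _ hx with h1 | h1
    · rw [h] at h1; exact h1.elim
    · exact h1
  · intro x hx
    have e : ψ = φ - (φ - ψ) := by abel
    rw [e] at hx
    rcases as_supp_sub _ _ hx with h1 | h1
    · exact h1
    · rw [h] at h1; exact h1.elim

theorem asd_qMk_eq_iff {X : Type} [TopologicalSpace X] (q : ℕ) (φ ψ : asCc X q) :
    asQMk X q φ = asQMk X q ψ ↔ asSupp (φ.1 - ψ.1) = ∅ := by
  rw [← sub_eq_zero, ← map_sub]
  exact Submodule.Quotient.mk_eq_zero _

theorem as_qMk_eq_zero {X : Type} [TopologicalSpace X] {q : ℕ} (φ : asCc X q) :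
    asQMk X q φ = 0 ↔ asSupp φ.1 = ∅ :=
  Submodule.Quotient.mk_eq_zero _

theorem asd_qSupp_mk {X : Type} [TopologicalSpace X] (q : ℕ) (φ : asCc X q) :
    asQSupp (asQMk X q φ) = asSupp φ.1 :=
  asd_supp_congr _ _ ((asd_qMk_eq_iff q _ _).1 (as_qMk_rep _))

theorem as_qSupp_compact {X : Type} [TopologicalSpace X] {q : ℕ} (m : AsQ X q) :
    IsCompact (asQSupp m) := (asQRep m).2

theorem as_qSupp_closed {X : Type} [TopologicalSpace X] {q : ℕ} (m : AsQ X q) :
    IsClosed (asQSupp m) := as_supp_closed _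

theorem as_qSupp_eq_empty {X : Type} [TopologicalSpace X] {q : ℕ} (m : AsQ X q) :
    asQSupp m = ∅ ↔ m = 0 := by
  obtain ⟨φ, rfl⟩ := as_qMk_surj X q m
  rw [asd_qSupp_mk, as_qMk_eq_zero]

theorem as_qSupp_zero (X : Type) [TopologicalSpace X] (q : ℕ) : asQSupp (0 : AsQ X q) = ∅ :=
  (as_qSupp_eq_empty 0).2 rfl

theorem as_qSupp_add {X : Type} [TopologicalSpace X] {q : ℕ} (m m' : AsQ X q) :
    asQSupp (m + m') ⊆ asQSupp m ∪ asQSupp m' := by
  obtain ⟨φ, rfl⟩ := as_qMk_surj X q m
  obtain ⟨ψ, rfl⟩ := as_qMk_surj X q m'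
  rw [← map_add, asd_qSupp_mk, asd_qSupp_mk, asd_qSupp_mk]
  exact as_supp_add _ _

theorem as_qSupp_sub {X : Type} [TopologicalSpace X] {q : ℕ} (m m' : AsQ X q) :
    asQSupp (m - m') ⊆ asQSupp m ∪ asQSupp m' := by
  obtain ⟨φ, rfl⟩ := as_qMk_surj X q m
  obtain ⟨ψ, rfl⟩ := as_qMk_surj X q m'
  rw [← map_sub, asd_qSupp_mk, asd_qSupp_mk, asd_qSupp_mk]
  exact as_supp_sub _ _

theorem as_qSupp_smul {X : Type} [TopologicalSpace X] {q : ℕ} (c : ℝ) (m : AsQ X q) :
    asQSupp (c • m) ⊆ asQSupp m := by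
  obtain ⟨φ, rfl⟩ := as_qMk_surj X q m
  rw [← map_smul, asd_qSupp_mk, asd_qSupp_mk]
  exact as_supp_smul _ _

/-- the map induced by a linear map of raw cochains -/
noncomputable def asQMap {X Y : Type} [TopologicalSpace X] [TopologicalSpace Y] {q q' : ℕ}
    (T : AsC ℝ X q →ₗ[ℝ] AsC ℝ Y q') (hc : ∀ φ ∈ asCc X q, T φ ∈ asCc Y q')
    (hn : ∀ φ ∈ asNull ℝ X q, T φ ∈ asNull ℝ Y q') : AsQ X q →ₗ[ℝ] AsQ Y q' :=
  Submodule.mapQ _ _ (T.restrict hc) (fun φ h => hn φ.1 h)

theorem asd_qMap_mk {X Y : Type} [TopologicalSpace X] [TopologicalSpace Y] {q q' : ℕ}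
    (T : AsC ℝ X q →ₗ[ℝ] AsC ℝ Y q') (hc : ∀ φ ∈ asCc X q, T φ ∈ asCc Y q')
    (hn : ∀ φ ∈ asNull ℝ X q, T φ ∈ asNull ℝ Y q') (φ : asCc X q) :
    asQMap T hc hn (asQMk X q φ) = asQMk Y q' ⟨T φ.1, hc φ.1 φ.2⟩ := rfl

theorem as_cc_of_supp_subset {X : Type} [TopologicalSpace X] {q q' : ℕ} (φ : AsC ℝ X q)
    (ψ : AsC ℝ X q') (h : φ ∈ asCc X q) (hs : asSupp ψ ⊆ asSupp φ) : ψ ∈ asCc X q' :=
  IsCompact.of_isClosed_subset h (as_supp_closed _) hs

theorem as_null_of_supp_subset {X : Type} [TopologicalSpace X] {q q' : ℕ} (φ : AsC ℝ X q)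
    (ψ : AsC ℝ X q') (h : φ ∈ asNull ℝ X q) (hs : asSupp ψ ⊆ asSupp φ) : ψ ∈ asNull ℝ X q' := by
  have h1 : asSupp φ = ∅ := h
  rw [h1] at hs
  exact Set.subset_empty_iff.1 hs

/-- the coboundary on the quotients -/
noncomputable def asQD (X : Type) [TopologicalSpace X] (q : ℕ) : AsQ X q →ₗ[ℝ] AsQ X (q + 1) :=
  asQMap (asD ℝ X q) (fun φ h => as_cc_of_supp_subset φ _ h (as_supp_d φ))
    (fun φ h => as_null_of_supp_subset φ _ h (as_supp_d φ))

/-- the cut-off operators on the quotients -/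
noncomputable def asQCut (X : Type) [TopologicalSpace X] (E : Set X) (q : ℕ) :
    AsQ X q →ₗ[ℝ] AsQ X q :=
  asQMap (asCut ℝ E q) (fun φ h => as_cc_of_supp_subset φ _ h (fun _ hx => (as_supp_cut E φ hx).1))
    (fun φ h => as_null_of_supp_subset φ _ h (fun _ hx => (as_supp_cut E φ hx).1))

/-- pull back along a proper map on the quotients -/
noncomputable def asQPull {X Y : Type} [TopologicalSpace X] [TopologicalSpace Y] (f : X → Y)
    (hf : IsProperMap f) (q : ℕ) : AsQ Y q →ₗ[ℝ] AsQ X q :=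
  asQMap (asPull ℝ f q)
    (fun φ h => IsCompact.of_isClosed_subset (hf.isCompact_preimage h) (as_supp_closed _)
      (as_supp_pull f hf.continuous φ))
    (fun φ h => as_pull_null f hf.continuous q φ h)

/-- the total space of all degrees -/
abbrev AsT (X : Type) [TopologicalSpace X] : Type := DirectSum ℕ (fun q => AsQ X q)

/-- the total differential -/
noncomputable def asTD (X : Type) [TopologicalSpace X] : AsT X →ₗ[ℝ] AsT X :=
  DirectSum.toModule ℝ ℕ (AsT X)
    (fun q => (DirectSum.lof ℝ ℕ (fun q => AsQ X q) (q + 1)).comp (asQD X q))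

/-- a family of degree preserving maps, totalised -/
noncomputable def asTMap {X Y : Type} [TopologicalSpace X] [TopologicalSpace Y]
    (T : ∀ q, AsQ X q →ₗ[ℝ] AsQ Y q) : AsT X →ₗ[ℝ] AsT Y :=
  DirectSum.toModule ℝ ℕ (AsT Y) (fun q => (DirectSum.lof ℝ ℕ (fun q => AsQ Y q) q).comp (T q))

/-- the total support -/
noncomputable def asTSupp {X : Type} [TopologicalSpace X] (m : AsT X) : Set X :=
  ⋃ q, asQSupp (m q)

/-! ### the calculus of the total space -/

theorem as_tMap_lof {X Y : Type} [TopologicalSpace X] [TopologicalSpace Y]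
    (T : ∀ q, AsQ X q →ₗ[ℝ] AsQ Y q) (q : ℕ) (x : AsQ X q) :
    asTMap T (DirectSum.lof ℝ ℕ (fun q => AsQ X q) q x) = DirectSum.lof ℝ ℕ (fun q => AsQ Y q) q (T q x) := by
  unfold asTMap
  rw [DirectSum.toModule_lof]
  rfl

theorem as_tD_lof (X : Type) [TopologicalSpace X] (q : ℕ) (x : AsQ X q) :
    asTD X (DirectSum.lof ℝ ℕ (fun q => AsQ X q) q x) =
      DirectSum.lof ℝ ℕ (fun q => AsQ X q) (q + 1) (asQD X q x) := by
  unfold asTD
  rw [DirectSum.toModule_lof]
  rfl

theorem as_lof_apply_same (X : Type) [TopologicalSpace X] (q : ℕ) (x : AsQ X q) :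
    (DirectSum.lof ℝ ℕ (fun q => AsQ X q) q x) q = x := DirectSum.lof_apply ℝ q x

theorem as_lof_apply_ne (X : Type) [TopologicalSpace X] (q q' : ℕ) (h : q ≠ q') (x : AsQ X q) :
    (DirectSum.lof ℝ ℕ (fun q => AsQ X q) q x) q' = 0 := DirectSum.of_eq_of_ne _ _ _ h.symm

theorem as_tMap_apply {X Y : Type} [TopologicalSpace X] [TopologicalSpace Y]
    (T : ∀ q, AsQ X q →ₗ[ℝ] AsQ Y q) (m : AsT X) (q : ℕ) : (asTMap T m) q = T q (m q) := by
  induction m using DirectSum.induction_on with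
  | zero => simp
  | of i x =>
    have e : DirectSum.of (fun q => AsQ X q) i x = DirectSum.lof ℝ ℕ (fun q => AsQ X q) i x := rfl
    rw [e, as_tMap_lof]
    by_cases h : i = q
    · subst h
      rw [as_lof_apply_same, as_lof_apply_same]
    · rw [as_lof_apply_ne _ _ _ h, as_lof_apply_ne _ _ _ h, map_zero]
  | add a b ha hb => rw [map_add, DirectSum.add_apply, DirectSum.add_apply, ha, hb, map_add]

theorem as_tD_apply_succ (X : Type) [TopologicalSpace X] (m : AsT X) (q : ℕ) :
    (asTD X m) (q + 1) = asQD X q (m q) := by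
  induction m using DirectSum.induction_on with
  | zero => simp
  | of i x =>
    have e : DirectSum.of (fun q => AsQ X q) i x = DirectSum.lof ℝ ℕ (fun q => AsQ X q) i x := rfl
    rw [e, as_tD_lof]
    by_cases h : i = q
    · subst h
      rw [as_lof_apply_same, as_lof_apply_same]
    · rw [as_lof_apply_ne _ _ _ h, as_lof_apply_ne _ _ _ (fun h' => h (Nat.succ_injective h')), map_zero]
  | add a b ha hb => rw [map_add, DirectSum.add_apply, DirectSum.add_apply, ha, hb, map_add]

theorem as_tD_apply_zero (X : Type) [TopologicalSpace X] (m : AsT X) : (asTD X m) 0 = 0 := by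
  induction m using DirectSum.induction_on with
  | zero => simp
  | of i x =>
    have e : DirectSum.of (fun q => AsQ X q) i x = DirectSum.lof ℝ ℕ (fun q => AsQ X q) i x := rfl
    rw [e, as_tD_lof, as_lof_apply_ne _ _ _ (Nat.succ_ne_zero i)]
  | add a b ha hb => rw [map_add, DirectSum.add_apply, ha, hb, add_zero]

theorem as_qD_qD (X : Type) [TopologicalSpace X] (q : ℕ) (x : AsQ X q) :
    asQD X (q + 1) (asQD X q x) = 0 := by
  obtain ⟨φ, rfl⟩ := as_qMk_surj X q x
  unfold asQD
  rw [asd_qMap_mk, asd_qMap_mk, as_qMk_eq_zero]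
  show asSupp (asD ℝ X (q + 1) (asD ℝ X q φ.1)) = ∅
  rw [as_d_d, as_supp_zero]

theorem as_qSupp_qD {X : Type} [TopologicalSpace X] {q : ℕ} (x : AsQ X q) :
    asQSupp (asQD X q x) ⊆ asQSupp x := by
  obtain ⟨φ, rfl⟩ := as_qMk_surj X q x
  unfold asQD
  rw [asd_qMap_mk, asd_qSupp_mk, asd_qSupp_mk]
  exact as_supp_d _

theorem as_qSupp_qCut {X : Type} [TopologicalSpace X] (E : Set X) {q : ℕ} (x : AsQ X q) :
    asQSupp (asQCut X E q x) ⊆ asQSupp x ∩ closure E := by
  obtain ⟨φ, rfl⟩ := as_qMk_surj X q x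
  unfold asQCut
  rw [asd_qMap_mk, asd_qSupp_mk, asd_qSupp_mk]
  exact as_supp_cut E _

theorem as_qSupp_sub_qCut {X : Type} [TopologicalSpace X] (E : Set X) {q : ℕ} (x : AsQ X q) :
    asQSupp (x - asQCut X E q x) ⊆ asQSupp x \ interior E := by
  obtain ⟨φ, rfl⟩ := as_qMk_surj X q x
  unfold asQCut
  rw [asd_qMap_mk, ← map_sub, asd_qSupp_mk, asd_qSupp_mk]
  exact as_supp_sub_cut E _

theorem as_qSupp_qPull {X Y : Type} [TopologicalSpace X] [TopologicalSpace Y] (f : X → Y)
    (hf : IsProperMap f) {q : ℕ} (x : AsQ Y q) : asQSupp (asQPull f hf q x) ⊆ f ⁻¹' asQSupp x := by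
  obtain ⟨φ, rfl⟩ := as_qMk_surj Y q x
  have e : asQPull f hf q (asQMk Y q φ) = asQMk X q ⟨asPull ℝ f q φ.1,
      IsCompact.of_isClosed_subset (hf.isCompact_preimage φ.2) (as_supp_closed _)
        (as_supp_pull f hf.continuous φ.1)⟩ := rfl
  rw [e, asd_qSupp_mk, asd_qSupp_mk]
  exact as_supp_pull f hf.continuous _

theorem as_qPull_qD {X Y : Type} [TopologicalSpace X] [TopologicalSpace Y] (f : X → Y)
    (hf : IsProperMap f) (q : ℕ) (x : AsQ Y q) :
    asQPull f hf (q + 1) (asQD Y q x) = asQD X q (asQPull f hf q x) := by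
  obtain ⟨φ, rfl⟩ := as_qMk_surj Y q x
  rfl

open Classical in
theorem as_tSupp_eq {X : Type} [TopologicalSpace X] (m : AsT X) :
    asTSupp m = ⋃ q ∈ DFinsupp.support m, asQSupp (m q) := by
  ext x
  simp only [asTSupp, Set.mem_iUnion, DFinsupp.mem_support_toFun, exists_prop]
  constructor
  · rintro ⟨q, hq⟩
    refine ⟨q, fun h0 => ?_, hq⟩
    rw [h0, as_qSupp_zero] at hq
    exact hq
  · rintro ⟨q, _, hq⟩
    exact ⟨q, hq⟩

theorem as_tSupp_compact {X : Type} [TopologicalSpace X] (m : AsT X) : IsCompact (asTSupp m) := by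
  classical
  rw [as_tSupp_eq]
  exact (DFinsupp.support m).isCompact_biUnion (fun q _ => as_qSupp_compact _)

theorem as_tSupp_closed {X : Type} [TopologicalSpace X] (m : AsT X) : IsClosed (asTSupp m) := by
  classical
  rw [as_tSupp_eq]
  exact isClosed_biUnion_finset (fun q _ => as_qSupp_closed _)

theorem as_tSupp_eq_empty {X : Type} [TopologicalSpace X] (m : AsT X) : asTSupp m = ∅ ↔ m = 0 := by
  unfold asTSupp
  rw [Set.iUnion_eq_empty]
  constructor
  · intro h
    apply DFinsupp.ext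
    intro q
    exact (as_qSupp_eq_empty _).1 (h q)
  · rintro rfl q
    exact as_qSupp_zero X q

theorem as_tSupp_add {X : Type} [TopologicalSpace X] (m m' : AsT X) :
    asTSupp (m + m') ⊆ asTSupp m ∪ asTSupp m' := by
  intro x hx
  obtain ⟨q, hq⟩ := Set.mem_iUnion.1 hx
  rw [DirectSum.add_apply] at hq
  rcases as_qSupp_add _ _ hq with h | h
  · exact Or.inl (Set.mem_iUnion.2 ⟨q, h⟩)
  · exact Or.inr (Set.mem_iUnion.2 ⟨q, h⟩)

theorem as_tSupp_smul {X : Type} [TopologicalSpace X] (c : ℝ) (m : AsT X) :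
    asTSupp (c • m) ⊆ asTSupp m := by
  intro x hx
  obtain ⟨q, hq⟩ := Set.mem_iUnion.1 hx
  have e : (c • m) q = c • m q := DFinsupp.smul_apply c m q
  rw [e] at hq
  exact Set.mem_iUnion.2 ⟨q, as_qSupp_smul _ _ hq⟩

theorem as_tSupp_cut {X : Type} [TopologicalSpace X] (E : Set X) (m : AsT X) :
    asTSupp (asTMap (fun q => asQCut X E q) m) ⊆ asTSupp m ∩ closure E ∧
      asTSupp (m - asTMap (fun q => asQCut X E q) m) ⊆ asTSupp m ∩ closure Eᶜ := by
  constructor
  · intro x hx
    obtain ⟨q, hq⟩ := Set.mem_iUnion.1 hx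
    rw [as_tMap_apply] at hq
    have := as_qSupp_qCut E _ hq
    exact ⟨Set.mem_iUnion.2 ⟨q, this.1⟩, this.2⟩
  · intro x hx
    obtain ⟨q, hq⟩ := Set.mem_iUnion.1 hx
    rw [DirectSum.sub_apply, as_tMap_apply] at hq
    have := as_qSupp_sub_qCut E _ hq
    refine ⟨Set.mem_iUnion.2 ⟨q, this.1⟩, ?_⟩
    rw [closure_compl]
    exact this.2

theorem as_tSupp_tD {X : Type} [TopologicalSpace X] (m : AsT X) : asTSupp (asTD X m) ⊆ asTSupp m := by
  intro x hx
  obtain ⟨q, hq⟩ := Set.mem_iUnion.1 hx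
  cases q with
  | zero =>
    rw [as_tD_apply_zero, as_qSupp_zero] at hq
    exact hq.elim
  | succ q =>
    rw [as_tD_apply_succ] at hq
    exact Set.mem_iUnion.2 ⟨q, as_qSupp_qD _ hq⟩

theorem as_tD_tD {X : Type} [TopologicalSpace X] (m : AsT X) : asTD X (asTD X m) = 0 := by
  apply DFinsupp.ext
  intro q
  cases q with
  | zero => exact as_tD_apply_zero X _
  | succ q =>
    rw [as_tD_apply_succ]
    cases q with
    | zero => rw [as_tD_apply_zero, map_zero]; rfl
    | succ q => rw [as_tD_apply_succ, as_qD_qD]; rfl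

theorem as_tSupp_tPull {X Y : Type} [TopologicalSpace X] [TopologicalSpace Y] (f : X → Y)
    (hf : IsProperMap f) (m : AsT Y) :
    asTSupp (asTMap (fun q => asQPull f hf q) m) ⊆ f ⁻¹' asTSupp m := by
  intro x hx
  obtain ⟨q, hq⟩ := Set.mem_iUnion.1 hx
  rw [as_tMap_apply] at hq
  exact Set.mem_iUnion.2 ⟨q, as_qSupp_qPull f hf _ hq⟩

theorem as_tPull_tD {X Y : Type} [TopologicalSpace X] [TopologicalSpace Y] (f : X → Y)
    (hf : IsProperMap f) (m : AsT Y) :
    asTMap (fun q => asQPull f hf q) (asTD Y m) = asTD X (asTMap (fun q => asQPull f hf q) m) := by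
  apply DFinsupp.ext
  intro q
  rw [as_tMap_apply]
  cases q with
  | zero => rw [as_tD_apply_zero, as_tD_apply_zero, map_zero]
  | succ q => rw [as_tD_apply_succ, as_tD_apply_succ, as_tMap_apply, as_qPull_qD]

/-- ALEXANDER-SPANIER COCHAINS WITH COMPACT SUPPORTS as a differential object of `FC(X)` -/
noncomputable def asObj (X : Type) [TopologicalSpace X] : FcD X where
  carrier := AsT X
  acg := inferInstance
  mod := inferInstance
  supp := asTSupp
  supp_compact := fun m => as_tSupp_compact m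
  supp_closed := fun m => as_tSupp_closed m
  supp_empty_iff := fun m => as_tSupp_eq_empty m
  supp_add := fun m m' => as_tSupp_add m m'
  supp_smul := fun c m => as_tSupp_smul c m
  ury := fun E => ⟨asTMap (fun q => asQCut X E q), fun m => as_tSupp_cut E m⟩
  d := asTD X
  d_loc := fun m => as_tSupp_tD m
  d_sq := fun m => as_tD_tD m

/-- the element of `asObj X` given by a raw cochain with compact support -/
noncomputable def asEl (X : Type) [TopologicalSpace X] (q : ℕ) (φ : AsC ℝ X q)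
    (hφ : IsCompact (asSupp φ)) : (asObj X).C :=
  DirectSum.lof ℝ ℕ (fun q => AsQ X q) q (asQMk X q ⟨φ, hφ⟩)

/-- the sign operator -/
noncomputable def asObjSgn (X : Type) [TopologicalSpace X] : (asObj X).C →ₗ[ℝ] (asObj X).C :=
  asTMap (fun q => ((-1 : ℝ) ^ q) • LinearMap.id)

/-- the component of degree `q` -/
noncomputable def asObjPr (X : Type) [TopologicalSpace X] (q : ℕ) : (asObj X).C →ₗ[ℝ] (asObj X).C :=
  (DirectSum.lof ℝ ℕ (fun q => AsQ X q) q).comp (DirectSum.component ℝ ℕ (fun q => AsQ X q) q)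

/-- `f^#` for a proper map `f`, as a linear map -/
noncomputable def asObjPullL {X Y : Type} [TopologicalSpace X] [TopologicalSpace Y]
    (f : X → Y) (hf : IsProperMap f) : (asObj Y).C →ₗ[ℝ] (asObj X).C :=
  asTMap (fun q => asQPull f hf q)

/-- `f^# : AS(Y) → f_! AS(X)` for a proper map `f` -/
noncomputable def asObjPull {X Y : Type} [TopologicalSpace X] [TopologicalSpace Y] [T2Space Y]
    (f : C(X, Y)) (hf : IsProperMap f) : FcHom (asObj Y) ((asObj X).push f) where
  f := asObjPullL f hf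
  loc := by
    rintro m _ ⟨x, hx, rfl⟩
    exact as_tSupp_tPull f hf m hx
  comm := fun m => as_tPull_tD f hf m

/-- realises the equation lemmas here (unique names) -/
theorem as_obj_defs_eqns_cite : True := by
  have := @asCc.eq_1
  have := @AsQ.eq_1
  have := @asQAcg.eq_1
  have := @asQMod.eq_1
  have := @asQMk.eq_1
  have := @asQRep.eq_1
  have := @asQSupp.eq_1
  have := @asQMap.eq_1
  have := @asQD.eq_1
  have := @asQCut.eq_1
  have := @asQPull.eq_1
  have := @asTD.eq_1
  have := @asTMap.eq_1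
  have := @asTSupp.eq_1
  have := @asObj.eq_1
  have := @asEl.eq_1
  have := @asObjSgn.eq_1
  have := @asObjPr.eq_1
  have := @asObjPullL.eq_1
  have := @asObjPull.eq_1
  trivial

end Claimed.Agent.R304
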