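/-
Row 304 (S0559).  Owner: helper138.  PACKAGE AsObj (~1200 lines): the calculus of `asObj X : FcD X` (`AsObjDefs.lean`).
 1. elements `asEl X q φ hφ`, supports, differential, homogeneous components;
 2. DICTIONARY: acyclicity of `asObj X` on a set `U` in terms of raw cochains, and (for compact `X`) in terms of the groups `AsH ℝ X Uᶜ q`;
    `AsGenAt A U c` : `H(A(U))` is one dimensional, generated by the class of the cycle `c`;
 3. functoriality: `asObjPull`, homeomorphisms, EMBEDDINGS OF O-P-E-N SUBSETS (`AS_c(U) = AS_c(X)(U)`, an isomorphism of differential objects);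
 4. CLOSED SUBSETS: `i^# : AS(X) → i_! AS(Z)` has a local linear section; TAUTNESS: `cone(AS(X)(X∖Z) → AS(X)) → i_! AS(Z)` has a locally acyclic cone;
 5. homotopy invariance, contractible compact spaces.
-/
import Claimed.Agent.R304.AsObjDefs
import Claimed.Agent.R304.AsExact

set_option autoImplicit false

namespace Claimed.Agent.R304

open Topology

variable {X Y Z : Type} [TopologicalSpace X] [TopologicalSpace Y] [TopologicalSpace Z]

/-- the inclusion of the summand of degree `q` -/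
noncomputable def asLof (X : Type) [TopologicalSpace X] (q : ℕ) : AsQ X q →ₗ[ℝ] (asObj X).C :=
  DirectSum.lof ℝ ℕ (fun q => AsQ X q) q

/-- the coordinate of degree `q` -/
noncomputable def asCmp (X : Type) [TopologicalSpace X] (q : ℕ) : (asObj X).C →ₗ[ℝ] AsQ X q :=
  DirectSum.component ℝ ℕ (fun q => AsQ X q) q

theorem as_o_el_eq (q : ℕ) (φ : AsC ℝ X q) (hφ : IsCompact (asSupp φ)) :
    asEl X q φ hφ = asLof X q (asQMk X q ⟨φ, hφ⟩) := rfl

theorem as_o_cmp_lof_same (q : ℕ) (a : AsQ X q) : asCmp X q (asLof X q a) = a :=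
  DirectSum.of_eq_same q a

theorem as_o_cmp_lof_ne (q q' : ℕ) (h : q ≠ q') (a : AsQ X q) : asCmp X q' (asLof X q a) = 0 :=
  DirectSum.of_eq_of_ne q q' a h.symm

theorem as_o_pr_apply (q : ℕ) (m : (asObj X).C) : asObjPr X q m = asLof X q (asCmp X q m) := rfl

theorem as_o_supp_def (m : (asObj X).C) : (asObj X).supp m = ⋃ q, asQSupp (asCmp X q m) := rfl

theorem as_o_tMap_lof (T : ∀ q, AsQ X q →ₗ[ℝ] AsQ Y q) (q : ℕ) (a : AsQ X q) :
    asTMap T (DirectSum.lof ℝ ℕ (fun q => AsQ X q) q a) = DirectSum.lof ℝ ℕ (fun q => AsQ Y q) q (T q a) := by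
  unfold asTMap
  rw [DirectSum.toModule_lof]
  rfl

theorem as_o_tD_lof (q : ℕ) (a : AsQ X q) :
    asTD X (DirectSum.lof ℝ ℕ (fun q => AsQ X q) q a)
      = DirectSum.lof ℝ ℕ (fun q => AsQ X q) (q + 1) (asQD X q a) := by
  unfold asTD
  rw [DirectSum.toModule_lof]
  rfl

theorem as_o_d_lof (q : ℕ) (a : AsQ X q) : (asObj X).d (asLof X q a) = asLof X (q + 1) (asQD X q a) :=
  as_o_tD_lof q a

theorem as_o_sgn_lof' (q : ℕ) (a : AsQ X q) : asObjSgn X (asLof X q a) = asLof X q (((-1 : ℝ) ^ q) • a) :=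
  as_o_tMap_lof _ q a

theorem as_o_pullL_lof (f : X → Y) (hf : IsProperMap f) (q : ℕ) (a : AsQ Y q) :
    asObjPullL f hf (asLof Y q a) = asLof X q (asQPull f hf q a) :=
  as_o_tMap_lof _ q a

/-- a family of degree preserving maps, totalised, as a map of the carriers -/
noncomputable def asOMap (T : ∀ q, AsQ X q →ₗ[ℝ] AsQ Y q) : (asObj X).C →ₗ[ℝ] (asObj Y).C := asTMap T

theorem as_o_map_lof (T : ∀ q, AsQ X q →ₗ[ℝ] AsQ Y q) (q : ℕ) (a : AsQ X q) :
    asOMap T (asLof X q a) = asLof Y q (T q a) :=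
  as_o_tMap_lof T q a

/-- linear maps are determined by their values on the summands -/
theorem as_o_lin_ext {M : Type} [AddCommGroup M] [Module ℝ M] (f g : (asObj X).C →ₗ[ℝ] M)
    (h : ∀ q (a : AsQ X q), f (asLof X q a) = g (asLof X q a)) : f = g := by
  have key : ∀ f g : AsT X →ₗ[ℝ] M, (∀ q (a : AsQ X q), f (DirectSum.lof ℝ ℕ (fun q => AsQ X q) q a)
      = g (DirectSum.lof ℝ ℕ (fun q => AsQ X q) q a)) → f = g :=
    fun f g h => DirectSum.linearMap_ext ℝ (fun q => LinearMap.ext (h q))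
  exact key f g h

/-! ### 1. elements -/

/-- Plan: `φ = (φ - ψ) + ψ`, `ψ = φ - (φ - ψ)`, `as_supp_add`, `as_supp_sub`. -/
theorem as_supp_congr {q : ℕ} (φ ψ : AsC ℝ X q) (h : asSupp (φ - ψ) = ∅) : asSupp φ = asSupp ψ := by
  apply Set.Subset.antisymm
  · have h1 := as_supp_add (φ - ψ) ψ
    rw [sub_add_cancel, h, Set.empty_union] at h1
    exact h1
  · have h1 := as_supp_sub φ (φ - ψ)
    rw [sub_sub_cancel, h, Set.union_empty] at h1
    exact h1

/-- Plan: `Submodule.Quotient.eq` / `Submodule.Quotient.mk_eq_zero`. -/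
theorem as_qMk_eq_iff (q : ℕ) (φ ψ : asCc X q) :
    asQMk X q φ = asQMk X q ψ ↔ asSupp (φ.1 - ψ.1) = ∅ :=
  Submodule.Quotient.eq _

/-- Plan: `as_qMk_rep`, `as_qMk_eq_iff`, `as_supp_congr`. -/
theorem as_qSupp_mk (q : ℕ) (φ : asCc X q) : asQSupp (asQMk X q φ) = asSupp φ.1 :=
  as_supp_congr _ _ ((as_qMk_eq_iff q _ _).1 (as_qMk_rep (asQMk X q φ)))

theorem as_qMap_mk {q q' : ℕ} (T : AsC ℝ X q →ₗ[ℝ] AsC ℝ Y q') (hc : ∀ φ ∈ asCc X q, T φ ∈ asCc Y q')
    (hn : ∀ φ ∈ asNull ℝ X q, T φ ∈ asNull ℝ Y q') (φ : asCc X q) :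
    asQMap T hc hn (asQMk X q φ) = asQMk Y q' ⟨T φ.1, hc φ.1 φ.2⟩ := rfl

theorem as_o_qSupp_zero (q : ℕ) : asQSupp (0 : AsQ X q) = ∅ := by
  have h := as_qSupp_mk q (0 : asCc X q)
  rw [map_zero] at h
  rw [h]
  exact as_supp_zero q

theorem as_o_lof_inj (q : ℕ) : Function.Injective (asLof X q) := by
  intro a b h
  have := congrArg (asCmp X q) h
  rwa [as_o_cmp_lof_same, as_o_cmp_lof_same] at this

theorem as_o_supp_lof (q : ℕ) (a : AsQ X q) : (asObj X).supp (asLof X q a) = asQSupp a := by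
  rw [as_o_supp_def]
  apply Set.Subset.antisymm
  · apply Set.iUnion_subset
    intro q'
    by_cases h : q = q'
    · subst h
      rw [as_o_cmp_lof_same]
    · rw [as_o_cmp_lof_ne q q' h, as_o_qSupp_zero]
      exact Set.empty_subset _
  · intro x hx
    refine Set.mem_iUnion.2 ⟨q, ?_⟩
    rw [as_o_cmp_lof_same]
    exact hx

/-- Plan: `asTSupp`; `DirectSum.lof` has the only component `asQMk ..` in degree `q` (`DirectSum.lof_eq_of`, `DirectSum.of_eq_same`, `DirectSum.of_eq_of_ne`), `asQSupp 0 = ∅`. -/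
theorem as_el_supp (q : ℕ) (φ : AsC ℝ X q) (hφ : IsCompact (asSupp φ)) :
    (asObj X).supp (asEl X q φ hφ) = asSupp φ :=
  (as_o_supp_lof q _).trans (as_qSupp_mk q ⟨φ, hφ⟩)

theorem as_d_compact (q : ℕ) (φ : AsC ℝ X q) (hφ : IsCompact (asSupp φ)) :
    IsCompact (asSupp (asD ℝ X q φ)) :=
  hφ.of_isClosed_subset (as_supp_closed _) (as_supp_d φ)

/-- Plan: `DirectSum.toModule_lof`. -/
theorem as_el_d (q : ℕ) (φ : AsC ℝ X q) (hφ : IsCompact (asSupp φ)) :
    (asObj X).d (asEl X q φ hφ) = asEl X (q + 1) (asD ℝ X q φ) (as_d_compact q φ hφ) :=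
  as_o_d_lof q _

/-- Plan: `DirectSum.lof` is injective (`DirectSum.of_injective`), `as_qMk_eq_iff`. -/
theorem as_el_eq_iff (q : ℕ) (φ ψ : AsC ℝ X q) (hφ : IsCompact (asSupp φ))
    (hψ : IsCompact (asSupp ψ)) : asEl X q φ hφ = asEl X q ψ hψ ↔ asSupp (φ - ψ) = ∅ :=
  (as_o_lof_inj q).eq_iff.trans (as_qMk_eq_iff q ⟨φ, hφ⟩ ⟨ψ, hψ⟩)

theorem as_el_add (q : ℕ) (φ ψ : AsC ℝ X q) (hφ : IsCompact (asSupp φ)) (hψ : IsCompact (asSupp ψ))
    (h : IsCompact (asSupp (φ + ψ))) : asEl X q (φ + ψ) h = asEl X q φ hφ + asEl X q ψ hψ := by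
  rw [as_o_el_eq, as_o_el_eq, as_o_el_eq, ← map_add, ← map_add]
  rfl

theorem as_el_smul (q : ℕ) (c : ℝ) (φ : AsC ℝ X q) (hφ : IsCompact (asSupp φ))
    (h : IsCompact (asSupp (c • φ))) : asEl X q (c • φ) h = c • asEl X q φ hφ := by
  rw [as_o_el_eq, as_o_el_eq, ← map_smul, ← map_smul]
  rfl

theorem as_o_el_eq_zero_iff (q : ℕ) (φ : AsC ℝ X q) (hφ : IsCompact (asSupp φ)) :
    asEl X q φ hφ = 0 ↔ asSupp φ = ∅ := by
  rw [← (asObj X).supp_empty_iff, as_el_supp]

theorem as_o_el_sub (q : ℕ) (φ ψ : AsC ℝ X q) (hφ : IsCompact (asSupp φ)) (hψ : IsCompact (asSupp ψ))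
    (h : IsCompact (asSupp (φ - ψ))) : asEl X q (φ - ψ) h = asEl X q φ hφ - asEl X q ψ hψ := by
  rw [as_o_el_eq, as_o_el_eq, as_o_el_eq, ← map_sub, ← map_sub]
  rfl

/-- every element of the summand of degree `q` is an `asEl` -/
theorem as_o_lof_el (q : ℕ) (a : AsQ X q) :
    ∃ (φ : AsC ℝ X q) (hφ : IsCompact (asSupp φ)), asLof X q a = asEl X q φ hφ := by
  have hc : IsCompact (asSupp (asQRep a).1) := (asQRep a).2
  refine ⟨(asQRep a).1, hc, ?_⟩
  show asLof X q a = asLof X q (asQMk X q ⟨(asQRep a).1, hc⟩)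
  congr 1
  exact (as_qMk_rep a).symm

/-- every homogeneous component is an `asEl` -/
theorem as_obj_pr_el (q : ℕ) (m : (asObj X).C) :
    ∃ (φ : AsC ℝ X q) (hφ : IsCompact (asSupp φ)), asObjPr X q m = asEl X q φ hφ :=
  as_o_lof_el q _

theorem as_obj_pr_supp (q : ℕ) (m : (asObj X).C) :
    (asObj X).supp (asObjPr X q m) ⊆ (asObj X).supp m := by
  rw [as_o_pr_apply, as_o_supp_lof, as_o_supp_def]
  exact Set.subset_iUnion (fun q => asQSupp (asCmp X q m)) q

theorem as_o_pr_lof_same (q : ℕ) (a : AsQ X q) : asObjPr X q (asLof X q a) = asLof X q a := by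
  rw [as_o_pr_apply, as_o_cmp_lof_same]

theorem as_o_pr_lof_ne (q q' : ℕ) (h : q ≠ q') (a : AsQ X q') : asObjPr X q (asLof X q' a) = 0 := by
  rw [as_o_pr_apply, as_o_cmp_lof_ne q' q h.symm, map_zero]

theorem as_obj_pr_el_same (q : ℕ) (φ : AsC ℝ X q) (hφ : IsCompact (asSupp φ)) :
    asObjPr X q (asEl X q φ hφ) = asEl X q φ hφ :=
  as_o_pr_lof_same q _

theorem as_obj_pr_el_ne (q q' : ℕ) (h : q ≠ q') (φ : AsC ℝ X q') (hφ : IsCompact (asSupp φ)) :
    asObjPr X q (asEl X q' φ hφ) = 0 :=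
  as_o_pr_lof_ne q q' h _

/-- induction: a submodule which contains all summands is everything -/
theorem as_o_induction (S : Submodule ℝ (asObj X).C) (h : ∀ q (a : AsQ X q), asLof X q a ∈ S)
    (m : (asObj X).C) : m ∈ S := by
  have h0 : S.mkQ = 0 := by
    apply as_o_lin_ext
    intro q a
    rw [LinearMap.zero_apply]
    exact (Submodule.Quotient.mk_eq_zero S).2 (h q a)
  exact (Submodule.Quotient.mk_eq_zero S).1 (LinearMap.congr_fun h0 m)

theorem as_o_sum_pr_ge (m : (asObj X).C) :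
    ∃ N : ℕ, ∀ N', N ≤ N' → m = ∑ q ∈ Finset.range N', asObjPr X q m := by
  let S : Submodule ℝ (asObj X).C :=
    { carrier := {m | ∃ N : ℕ, ∀ N', N ≤ N' → m = ∑ q ∈ Finset.range N', asObjPr X q m}
      zero_mem' := ⟨0, fun N' _ => by simp⟩
      add_mem' := by
        rintro m m' ⟨N, hN⟩ ⟨N', hN'⟩
        refine ⟨max N N', fun K hK => ?_⟩
        have e1 := hN K (le_trans (le_max_left _ _) hK)
        have e2 := hN' K (le_trans (le_max_right _ _) hK)
        simp only [map_add, Finset.sum_add_distrib]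
        rw [← e1, ← e2]
      smul_mem' := by
        rintro c m ⟨N, hN⟩
        refine ⟨N, fun K hK => ?_⟩
        simp only [map_smul]
        rw [← Finset.smul_sum, ← hN K hK] }
  refine as_o_induction S (fun i a => ?_) m
  refine ⟨i + 1, fun N' hN' => ?_⟩
  have h1 : ∑ q ∈ Finset.range N', asObjPr X q (asLof X i a) = asObjPr X i (asLof X i a) := by
    apply Finset.sum_eq_single i
    · intro q _ hq
      exact as_o_pr_lof_ne q i hq a
    · intro hi
      exact absurd (Finset.mem_range.2 (by omega)) hi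
  exact (h1.trans (as_o_pr_lof_same i a)).symm

/-- Plan: `DirectSum.sum_support_of` / `DFinsupp.sum_single`; `N` = a bound of the finite support. -/
theorem as_obj_sum_pr (m : (asObj X).C) : ∃ N : ℕ, m = ∑ q ∈ Finset.range N, asObjPr X q m := by
  obtain ⟨N, hN⟩ := as_o_sum_pr_ge m
  exact ⟨N, hN N le_rfl⟩

theorem as_obj_ext (m m' : (asObj X).C) (h : ∀ q, asObjPr X q m = asObjPr X q m') : m = m' := by
  obtain ⟨N, hN⟩ := as_o_sum_pr_ge m
  obtain ⟨N', hN'⟩ := as_o_sum_pr_ge m'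
  rw [hN (max N N') (le_max_left _ _), hN' (max N N') (le_max_right _ _)]
  exact Finset.sum_congr rfl fun q _ => h q

theorem as_obj_pr_d (q : ℕ) (m : (asObj X).C) :
    asObjPr X (q + 1) ((asObj X).d m) = (asObj X).d (asObjPr X q m) := by
  have : (asObjPr X (q + 1)).comp (asObj X).d = (asObj X).d.comp (asObjPr X q) := by
    apply as_o_lin_ext
    intro i a
    simp only [LinearMap.comp_apply]
    rw [as_o_d_lof]
    by_cases h : q = i
    · subst h
      rw [as_o_pr_lof_same, as_o_pr_lof_same, as_o_d_lof]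
    · rw [as_o_pr_lof_ne (q + 1) (i + 1) (by omega), as_o_pr_lof_ne q i h, map_zero]
  exact LinearMap.congr_fun this m

theorem as_obj_pr_d_zero (m : (asObj X).C) : asObjPr X 0 ((asObj X).d m) = 0 := by
  have : (asObjPr X 0).comp (asObj X).d = 0 := by
    apply as_o_lin_ext
    intro i a
    simp only [LinearMap.comp_apply, LinearMap.zero_apply]
    rw [as_o_d_lof, as_o_pr_lof_ne 0 (i + 1) (by omega)]
  exact LinearMap.congr_fun this m

theorem as_o_sgn_lof (q : ℕ) (a : AsQ X q) : asObjSgn X (asLof X q a) = ((-1 : ℝ) ^ q) • asLof X q a := by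
  rw [as_o_sgn_lof', map_smul]

theorem as_obj_sgn_el (q : ℕ) (φ : AsC ℝ X q) (hφ : IsCompact (asSupp φ)) :
    asObjSgn X (asEl X q φ hφ) = ((-1 : ℝ) ^ q) • asEl X q φ hφ :=
  as_o_sgn_lof q _

theorem as_obj_sgn_d (m : (asObj X).C) :
    asObjSgn X ((asObj X).d m) = - (asObj X).d (asObjSgn X m) := by
  have : (asObjSgn X).comp (asObj X).d = - (asObj X).d.comp (asObjSgn X) := by
    apply as_o_lin_ext
    intro i a
    simp only [LinearMap.comp_apply, LinearMap.neg_apply]
    rw [as_o_d_lof, as_o_sgn_lof, as_o_sgn_lof, map_smul, as_o_d_lof, pow_succ, ← neg_smul]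
    congr 1
    ring
  exact LinearMap.congr_fun this m

theorem as_obj_sgn_sgn (m : (asObj X).C) : asObjSgn X (asObjSgn X m) = m := by
  have : (asObjSgn X).comp (asObjSgn X) = LinearMap.id := by
    apply as_o_lin_ext
    intro i a
    simp only [LinearMap.comp_apply, LinearMap.id_apply]
    rw [as_o_sgn_lof, map_smul, as_o_sgn_lof, smul_smul, ← mul_pow]
    simp
  exact LinearMap.congr_fun this m

theorem as_o_pr_sgn (q : ℕ) (m : (asObj X).C) :
    asObjPr X q (asObjSgn X m) = ((-1 : ℝ) ^ q) • asObjPr X q m := by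
  have : (asObjPr X q).comp (asObjSgn X) = ((-1 : ℝ) ^ q) • asObjPr X q := by
    apply as_o_lin_ext
    intro i a
    simp only [LinearMap.comp_apply, LinearMap.smul_apply]
    rw [as_o_sgn_lof, map_smul]
    by_cases h : q = i
    · subst h; rfl
    · rw [as_o_pr_lof_ne q i h, smul_zero, smul_zero]
  exact LinearMap.congr_fun this m

/-- the support is the union of the supports of the components -/
theorem as_o_supp_eq (m : (asObj X).C) : (asObj X).supp m = ⋃ q, (asObj X).supp (asObjPr X q m) := by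
  rw [as_o_supp_def]
  apply Set.iUnion_congr
  intro q
  rw [as_o_pr_apply, as_o_supp_lof]

theorem as_o_sgn_supp_le (m : (asObj X).C) : (asObj X).supp (asObjSgn X m) ⊆ (asObj X).supp m := by
  rw [as_o_supp_eq (asObjSgn X m)]
  apply Set.iUnion_subset
  intro q
  rw [as_o_pr_sgn]
  exact ((asObj X).supp_smul _ _).trans (as_obj_pr_supp q m)

theorem as_obj_sgn_supp (m : (asObj X).C) : (asObj X).supp (asObjSgn X m) = (asObj X).supp m := by
  apply Set.Subset.antisymm (as_o_sgn_supp_le m)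
  have := as_o_sgn_supp_le (asObjSgn X m)
  rwa [as_obj_sgn_sgn] at this

/-! ### 2. the dictionary -/

/-- `H(A(U))` is one dimensional, generated by the class of the cycle `c` -/
def AsGenAt (A : FcD X) (U : Set X) (c : A.C) : Prop :=
  A.supp c ⊆ U ∧ A.d c = 0 ∧ (∀ m', A.supp m' ⊆ U → A.d m' ≠ c) ∧
    ∀ m, A.supp m ⊆ U → A.d m = 0 → ∃ (t : ℝ) (m' : A.C), A.supp m' ⊆ U ∧ m = t • c + A.d m'

theorem as_genAt_eqns_cite : True := by
  have := @AsGenAt.eq_1
  trivial

/-- an element all of whose components lie in a submodule lies in it -/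
theorem as_o_mem_of_pr (S : Submodule ℝ (asObj X).C) (m : (asObj X).C)
    (h : ∀ q, asObjPr X q m ∈ S) : m ∈ S := by
  obtain ⟨N, hN⟩ := as_obj_sum_pr m
  rw [hN]
  exact S.sum_mem fun q _ => h q

/-- the boundaries of the elements supported in `U` -/
noncomputable def asBd (A : FcD X) (U : Set X) : Submodule ℝ A.C := (A.sec U).map A.d

theorem as_o_mem_bd (A : FcD X) (U : Set X) (m : A.C) :
    m ∈ asBd A U ↔ ∃ b, A.supp b ⊆ U ∧ A.d b = m := Iff.rfl

theorem as_o_bd_zero_iff (U : Set X) (φ : AsC ℝ X 0) (hφ : IsCompact (asSupp φ)) :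
    asEl X 0 φ hφ ∈ asBd (asObj X) U ↔ asSupp φ = ∅ := by
  rw [← as_o_el_eq_zero_iff 0 φ hφ]
  constructor
  · rintro ⟨b, _, hb⟩
    rw [← as_obj_pr_el_same, ← hb, as_obj_pr_d_zero]
  · intro h
    rw [h]
    exact Submodule.zero_mem _

theorem as_o_bd_succ_iff (U : Set X) (q : ℕ) (φ : AsC ℝ X (q + 1)) (hφ : IsCompact (asSupp φ)) :
    asEl X (q + 1) φ hφ ∈ asBd (asObj X) U ↔
      ∃ a : AsC ℝ X q, IsCompact (asSupp a) ∧ asSupp a ⊆ U ∧ asSupp (φ - asD ℝ X q a) = ∅ := by
  constructor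
  · rintro ⟨b, hbU, hb⟩
    obtain ⟨a, ha, hab⟩ := as_obj_pr_el q b
    refine ⟨a, ha, ?_, ?_⟩
    · rw [← as_el_supp q a ha, ← hab]
      exact (as_obj_pr_supp q b).trans hbU
    · rw [← as_el_eq_iff (q + 1) φ _ hφ (as_d_compact q a ha), ← as_el_d q a ha, ← hab, ← as_obj_pr_d, hb,
        as_obj_pr_el_same]
  · rintro ⟨a, ha, haU, h⟩
    refine ⟨asEl X q a ha, ?_, ?_⟩
    · show (asObj X).supp (asEl X q a ha) ⊆ U
      rw [as_el_supp]
      exact haU
    · rw [as_el_d]
      exact ((as_el_eq_iff (q + 1) φ _ hφ (as_d_compact q a ha)).2 h).symm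

theorem as_o_el_d_eq_zero_iff (q : ℕ) (φ : AsC ℝ X q) (hφ : IsCompact (asSupp φ)) :
    (asObj X).d (asEl X q φ hφ) = 0 ↔ asSupp (asD ℝ X q φ) = ∅ := by
  rw [as_el_d, as_o_el_eq_zero_iff]

theorem as_o_pr_cycle (q : ℕ) (m : (asObj X).C) (h : (asObj X).d m = 0) :
    (asObj X).d (asObjPr X q m) = 0 := by
  rw [← as_obj_pr_d, h, map_zero]

/-- acyclicity of `asObj X` on `U` in raw terms.  Plan: `→`: apply `AcycAt` to `asEl`, take the component of degree `q` of the primitive (`as_obj_pr_d`, `as_obj_pr_supp`, `as_obj_pr_el`, `as_el_eq_iff`).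
`←`: decompose a cycle `m` into components (`as_obj_sum_pr`); each component is a cycle (`as_obj_pr_d`); sum the primitives. -/
theorem as_obj_acycAt_iff (U : Set X) : (asObj X).AcycAt U ↔
    (∀ φ : AsC ℝ X 0, IsCompact (asSupp φ) → asSupp φ ⊆ U → asSupp (asD ℝ X 0 φ) = ∅ → asSupp φ = ∅) ∧
    ∀ (q : ℕ) (φ : AsC ℝ X (q + 1)), IsCompact (asSupp φ) → asSupp φ ⊆ U →
      asSupp (asD ℝ X (q + 1) φ) = ∅ →
      ∃ a : AsC ℝ X q, IsCompact (asSupp a) ∧ asSupp a ⊆ U ∧ asSupp (φ - asD ℝ X q a) = ∅ := by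
  constructor
  · intro H
    refine ⟨fun φ hφ hU hd => ?_, fun q φ hφ hU hd => ?_⟩
    · rw [← as_o_bd_zero_iff U φ hφ]
      exact H _ (by rw [as_el_supp]; exact hU) ((as_o_el_d_eq_zero_iff 0 φ hφ).2 hd)
    · rw [← as_o_bd_succ_iff U q φ hφ]
      exact H _ (by rw [as_el_supp]; exact hU) ((as_o_el_d_eq_zero_iff (q + 1) φ hφ).2 hd)
  · rintro ⟨H0, H1⟩ m hm hd
    have : m ∈ asBd (asObj X) U := by
      apply as_o_mem_of_pr
      intro q
      have hc := as_o_pr_cycle q m hd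
      have hs := (as_obj_pr_supp q m).trans hm
      obtain ⟨φ, hφ, e⟩ := as_obj_pr_el q m
      rw [e] at hc hs ⊢
      rw [as_el_supp] at hs
      rw [as_o_el_d_eq_zero_iff] at hc
      cases q with
      | zero => exact (as_o_bd_zero_iff U φ hφ).2 (H0 φ hφ hs hc)
      | succ q => exact (as_o_bd_succ_iff U q φ hφ).2 (H1 q φ hφ hs hc)
    exact this

/-- boundaries in terms of `asB` -/
theorem as_o_bd_iff_B [CompactSpace X] (U : Set X) (q : ℕ) (φ : AsC ℝ X q) (hφ : IsCompact (asSupp φ)) :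
    asEl X q φ hφ ∈ asBd (asObj X) U ↔ φ ∈ asB ℝ X Uᶜ q := by
  cases q with
  | zero => exact as_o_bd_zero_iff U φ hφ
  | succ q =>
    rw [as_o_bd_succ_iff, as_mem_B_succ]
    constructor
    · rintro ⟨a, _, haU, h⟩
      exact ⟨a, Set.disjoint_compl_right_iff_subset.2 haU, h⟩
    · rintro ⟨a, haU, h⟩
      exact ⟨a, (as_supp_closed a).isCompact, Set.disjoint_compl_right_iff_subset.1 haU, h⟩

/-- cycles in terms of `asZ` -/
theorem as_o_cycle_iff_Z (U : Set X) (q : ℕ) (φ : AsC ℝ X q) (hφ : IsCompact (asSupp φ)) :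
    ((asObj X).supp (asEl X q φ hφ) ⊆ U ∧ (asObj X).d (asEl X q φ hφ) = 0) ↔ φ ∈ asZ ℝ X Uᶜ q := by
  rw [as_el_supp, as_o_el_d_eq_zero_iff, as_mem_Z_iff, Set.disjoint_compl_right_iff_subset]

/-- Plan: `as_obj_acycAt_iff`; in a compact space closed supports are compact; `Disjoint (asSupp φ) Uᶜ ↔ asSupp φ ⊆ U`; unfold `asZ`, `asB`, `Submodule.Quotient.mk_eq_zero`. -/
theorem as_obj_acycAt_iff_H [CompactSpace X] (U : Set X) :
    (asObj X).AcycAt U ↔ ∀ (q : ℕ) (u : AsH ℝ X Uᶜ q), u = 0 := by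
  constructor
  · intro H q u
    obtain ⟨φ, rfl⟩ := as_cls_surj X Uᶜ q u
    rw [as_cls_eq_zero]
    have hc : IsCompact (asSupp φ.1) := (as_supp_closed _).isCompact
    rw [← as_o_bd_iff_B U q φ.1 hc]
    obtain ⟨h1, h2⟩ := (as_o_cycle_iff_Z U q φ.1 hc).2 φ.2
    exact H _ h1 h2
  · intro H m hm hd
    have : m ∈ asBd (asObj X) U := by
      apply as_o_mem_of_pr
      intro q
      have hc := as_o_pr_cycle q m hd
      have hs := (as_obj_pr_supp q m).trans hm
      obtain ⟨φ, hφ, e⟩ := as_obj_pr_el q m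
      rw [e] at hc hs ⊢
      have hZ := (as_o_cycle_iff_Z U q φ hφ).1 ⟨hs, hc⟩
      rw [as_o_bd_iff_B]
      exact (as_cls_eq_zero X Uᶜ q ⟨φ, hZ⟩).1 (H q _)
    exact this

/-- Plan: as before; a generator of the one dimensional `AsH ℝ X Uᶜ n` is the class of a raw cocycle `φ`; `c = asEl X n φ _`. -/
theorem as_obj_genAt_of_H [CompactSpace X] (U : Set X) (n : ℕ)
    (h1 : Module.finrank ℝ (AsH ℝ X Uᶜ n) = 1) (h0 : ∀ q, q ≠ n → ∀ u : AsH ℝ X Uᶜ q, u = 0) :
    ∃ c, AsGenAt (asObj X) U c ∧ asObjPr X n c = c := by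
  obtain ⟨v, hv, hgen⟩ := finrank_eq_one_iff'.1 h1
  obtain ⟨φ, rfl⟩ := as_cls_surj X Uᶜ n v
  have hc : IsCompact (asSupp φ.1) := (as_supp_closed _).isCompact
  obtain ⟨hs, hd⟩ := (as_o_cycle_iff_Z U n φ.1 hc).2 φ.2
  refine ⟨asEl X n φ.1 hc, ⟨hs, hd, ?_, ?_⟩, as_obj_pr_el_same n _ _⟩
  · intro m' hm' e
    apply hv
    rw [as_cls_eq_zero, ← as_o_bd_iff_B U n φ.1 hc]
    exact ⟨m', hm', e⟩
  · intro m hm hdm
    have : m ∈ Submodule.span ℝ {asEl X n φ.1 hc} ⊔ asBd (asObj X) U := by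
      apply as_o_mem_of_pr
      intro q
      have hc' := as_o_pr_cycle q m hdm
      have hs' := (as_obj_pr_supp q m).trans hm
      obtain ⟨ψ, hψ, e⟩ := as_obj_pr_el q m
      rw [e] at hc' hs' ⊢
      have hZ := (as_o_cycle_iff_Z U q ψ hψ).1 ⟨hs', hc'⟩
      by_cases hq : q = n
      · subst hq
        obtain ⟨t, ht⟩ := hgen (asCls ℝ X Uᶜ q ⟨ψ, hZ⟩)
        rw [← map_smul, eq_comm, as_cls_eq_iff] at ht
        have hcs : IsCompact (asSupp (t • φ.1)) := (as_supp_closed _).isCompact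
        have hcd : IsCompact (asSupp (ψ - t • φ.1)) := (as_supp_closed _).isCompact
        have h3 := (as_o_bd_iff_B U q (ψ - t • φ.1) hcd).2 ht
        rw [as_o_el_sub q ψ (t • φ.1) hψ hcs, as_el_smul q t φ.1 hc] at h3
        have e2 : asEl X q ψ hψ = t • asEl X q φ.1 hc + (asEl X q ψ hψ - t • asEl X q φ.1 hc) := by abel
        rw [e2]
        exact Submodule.add_mem_sup (Submodule.smul_mem _ _ (Submodule.mem_span_singleton_self _)) h3
      · apply Submodule.mem_sup_right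
        rw [as_o_bd_iff_B]
        exact (as_cls_eq_zero X Uᶜ q ⟨ψ, hZ⟩).1 (h0 q hq _)
    obtain ⟨y, hy, z, ⟨b, hb, rfl⟩, rfl⟩ := Submodule.mem_sup.1 this
    obtain ⟨t, rfl⟩ := Submodule.mem_span_singleton.1 hy
    exact ⟨t, b, hb, rfl⟩

/-- any two generators are proportional modulo boundaries; a cycle which is not a boundary is a generator -/
theorem as_genAt_of_not_bd (A : FcD X) (U : Set X) (c c' : A.C) (h : AsGenAt A U c)
    (h1 : A.supp c' ⊆ U) (h2 : A.d c' = 0) (h3 : ∀ m', A.supp m' ⊆ U → A.d m' ≠ c') :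
    AsGenAt A U c' := by
  obtain ⟨_, _, _, hg⟩ := h
  obtain ⟨t, m0, hm0, e0⟩ := hg c' h1 h2
  have ht : t ≠ 0 := by
    rintro rfl
    rw [zero_smul, zero_add] at e0
    exact h3 m0 hm0 e0.symm
  refine ⟨h1, h2, h3, fun m hm hd => ?_⟩
  obtain ⟨s, m1, hm1, e1⟩ := hg m hm hd
  refine ⟨s * t⁻¹, m1 - (s * t⁻¹) • m0, ?_, ?_⟩
  · exact (A.sec U).sub_mem hm1 ((A.sec U).smul_mem _ hm0)
  · rw [e1, e0, map_sub, map_smul, smul_add, smul_smul, mul_assoc, inv_mul_cancel₀ ht, mul_one]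
    abel

/-- THE INTEGRAL: a generator defines a functional on `A(U)`-cycles; it extends to a linear functional on all of `A.C` which kills the boundaries of elements supported in `U`.
Plan: on the subspace `ℝ c ⊕ d (A(U))` put `t c + d m' ↦ t`; `LinearMap.exists_extend`. -/
theorem as_genAt_integral (A : FcD X) (U : Set X) (c : A.C) (h : AsGenAt A U c) :
    ∃ I : A.C →ₗ[ℝ] ℝ, I c = 1 ∧ ∀ m', A.supp m' ⊆ U → I (A.d m') = 0 := by
  have hc : c ∉ asBd A U := by
    rintro ⟨b, hb, e⟩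
    exact h.2.2.1 b hb e
  obtain ⟨f, hf, hle⟩ := Submodule.exists_le_ker_of_notMem hc
  refine ⟨(f c)⁻¹ • f, ?_, fun m' hm' => ?_⟩
  · rw [LinearMap.smul_apply, smul_eq_mul, inv_mul_cancel₀ hf]
  · have : f (A.d m') = 0 := hle ⟨m', hm', rfl⟩
    rw [LinearMap.smul_apply, this, smul_zero]

/-! ### 3. functoriality -/

theorem as_pull_compact (f : X → Y) (hf : IsProperMap f) (q : ℕ) (φ : AsC ℝ Y q)
    (hφ : IsCompact (asSupp φ)) : IsCompact (asSupp (asPull ℝ f q φ)) :=
  IsCompact.of_isClosed_subset (hf.isCompact_preimage hφ) (as_supp_closed _)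
    (as_supp_pull f hf.continuous φ)

theorem as_o_el_congr (q : ℕ) (φ ψ : AsC ℝ X q) (h : φ = ψ) (hφ : IsCompact (asSupp φ))
    (hψ : IsCompact (asSupp ψ)) : asEl X q φ hφ = asEl X q ψ hψ := by
  subst h
  rfl

theorem as_o_pullL_el (f : X → Y) (hf : IsProperMap f) (q : ℕ) (φ : AsC ℝ Y q)
    (hφ : IsCompact (asSupp φ)) :
    asObjPullL f hf (asEl Y q φ hφ) = asEl X q (asPull ℝ f q φ) (as_pull_compact f hf q φ hφ) :=
  as_o_pullL_lof f hf q _

theorem as_objPull_el [T2Space Y] (f : C(X, Y)) (hf : IsProperMap f) (q : ℕ) (φ : AsC ℝ Y q)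
    (hφ : IsCompact (asSupp φ)) :
    (asObjPull f hf).f (asEl Y q φ hφ) = asEl X q (asPull ℝ f q φ) (as_pull_compact f hf q φ hφ) :=
  as_o_pullL_el f hf q φ hφ

theorem as_o_pull_f [T2Space Y] (f : C(X, Y)) (hf : IsProperMap f) (m : (asObj Y).C) :
    (asObjPull f hf).f m = asObjPullL f hf m := rfl

theorem as_o_pullL_comp (f : X → Y) (g : Y → Z) (k : X → Z) (hf : IsProperMap f) (hg : IsProperMap g)
    (hk : IsProperMap k) (h : ∀ x, g (f x) = k x) (m : (asObj Z).C) :
    asObjPullL f hf (asObjPullL g hg m) = asObjPullL k hk m := by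
  have : (asObjPullL f hf).comp (asObjPullL g hg) = asObjPullL k hk := by
    apply as_o_lin_ext
    intro q a
    obtain ⟨φ, hφ, e⟩ := as_o_lof_el q a
    rw [e, LinearMap.comp_apply, as_o_pullL_el, as_o_pullL_el, as_o_pullL_el]
    apply as_o_el_congr
    funext x
    show φ (fun j => g (f (x j))) = φ (fun j => k (x j))
    simp only [h]
  exact LinearMap.congr_fun this m

theorem as_o_pullL_id (f : X → X) (hf : IsProperMap f) (h : ∀ x, f x = x) (m : (asObj X).C) :
    asObjPullL f hf m = m := by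
  have : asObjPullL f hf = LinearMap.id := by
    apply as_o_lin_ext
    intro q a
    obtain ⟨φ, hφ, e⟩ := as_o_lof_el q a
    rw [e, as_o_pullL_el, LinearMap.id_apply]
    apply as_o_el_congr
    funext x
    show φ (fun j => f (x j)) = φ x
    simp only [h]
  exact LinearMap.congr_fun this m

/-- homeomorphisms.  Plan: `asObjPull` of `h` and of `h.symm` are inverse to each other on `asEl`s. -/
theorem as_obj_homeo [T2Space Y] (h : X ≃ₜ Y) :
    ∃ e : FcIso (asObj Y) ((asObj X).push (h : C(X, Y))),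
      ∀ m, e.e m = (asObjPull (h : C(X, Y)) h.isProperMap).f m := by
  have : T2Space X := h.symm.t2Space
  let e0 : (asObj Y).C ≃ₗ[ℝ] (asObj X).C :=
    LinearEquiv.ofLinearMap (asObjPullL h h.isProperMap) (asObjPullL h.symm h.symm.isProperMap)
      (LinearMap.ext fun m => (as_o_pullL_comp h h.symm id _ _ isProperMap_id (fun x => by simp) m).trans
        (as_o_pullL_id id _ (fun _ => rfl) m))
      (LinearMap.ext fun m => (as_o_pullL_comp h.symm h id _ _ isProperMap_id (fun x => by simp) m).trans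
        (as_o_pullL_id id _ (fun _ => rfl) m))
  refine ⟨⟨e0, fun m => ?_, fun m => (asObjPull (h : C(X, Y)) h.isProperMap).comm m⟩, fun m => rfl⟩
  apply Set.Subset.antisymm ((asObjPull (h : C(X, Y)) h.isProperMap).loc m)
  have h1 := (asObjPull (h.symm : C(Y, X)) h.symm.isProperMap).loc (e0 m)
  have h2 : (asObjPull (h.symm : C(Y, X)) h.symm.isProperMap).f (e0 m) = m := e0.symm_apply_apply m
  rw [h2] at h1
  intro y hy
  exact ⟨h.symm y, h1 ⟨y, hy, rfl⟩, h.apply_symm_apply y⟩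

/-- for an embedding onto an o-p-e-n subset the support of the restriction is the preimage of the support -/
theorem as_o_supp_pull_open (j : Y → X) (hj : IsOpenEmbedding j) {q : ℕ} (φ : AsC ℝ X q) :
    asSupp (asPull ℝ j q φ) = j ⁻¹' asSupp φ := by
  apply Set.Subset.antisymm (as_supp_pull j hj.continuous φ)
  intro y hy hv
  apply hy
  obtain ⟨N, hN, h⟩ := hv
  refine ⟨j '' N, hj.isOpenMap.image_mem_nhds hN, fun t ht => ?_⟩
  choose s hs hst using ht
  have e : t = fun i => j (s i) := funext fun i => (hst i).symm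
  rw [e]
  exact h s hs

theorem as_o_image_supp_pull_open (j : Y → X) (hj : IsOpenEmbedding j) {q : ℕ} (φ : AsC ℝ X q)
    (hs : asSupp φ ⊆ Set.range j) : j '' asSupp (asPull ℝ j q φ) = asSupp φ := by
  rw [as_o_supp_pull_open j hj, Set.image_preimage_eq_of_subset hs]

theorem as_o_pull_open_compact (j : Y → X) (hj : IsOpenEmbedding j) {q : ℕ} (φ : AsC ℝ X q)
    (hφ : IsCompact (asSupp φ)) (hs : asSupp φ ⊆ Set.range j) :
    IsCompact (asSupp (asPull ℝ j q φ)) := by
  rw [as_o_supp_pull_open j hj]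
  exact hj.isEmbedding.isInducing.isCompact_preimage' hφ hs

/-- every compactly supported cochain on the o-p-e-n subset is, modulo null cochains, a restriction -/
theorem as_o_open_lift [T2Space X] [LocallyCompactSpace X] (j : Y → X) (hj : IsOpenEmbedding j) (q : ℕ)
    (ψ : AsC ℝ Y q) (hψ : IsCompact (asSupp ψ)) :
    ∃ φ : AsC ℝ X q, IsCompact (asSupp φ) ∧ asSupp φ ⊆ Set.range j ∧
      asSupp (asPull ℝ j q φ - ψ) = ∅ := by
  obtain ⟨E, hE, hKE, hEU, hEc⟩ := exists_open_between_and_isCompact_closure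
    (hψ.image hj.continuous) hj.isOpen_range (Set.image_subset_range j _)
  have h1 : asSupp (asCut ℝ E q (asZeroExt ℝ j q ψ)) ⊆ closure E :=
    (as_supp_cut E _).trans Set.inter_subset_right
  refine ⟨asCut ℝ E q (asZeroExt ℝ j q ψ), hEc.of_isClosed_subset (as_supp_closed _) h1,
    h1.trans hEU, ?_⟩
  rw [as_pull_cut, as_pull_zeroExt j hj.injective]
  have h2 := as_supp_sub_cut (j ⁻¹' E) ψ
  rw [(hE.preimage hj.continuous).interior_eq] at h2
  have h3 : asSupp (ψ - asCut ℝ (j ⁻¹' E) q ψ) = ∅ := by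
    rw [← Set.subset_empty_iff]
    intro y hy
    exact (h2 hy).2 (hKE ⟨y, (h2 hy).1, rfl⟩)
  have h4 := as_supp_neg (ψ - asCut ℝ (j ⁻¹' E) q ψ)
  rw [neg_sub, h3] at h4
  exact Set.subset_empty_iff.1 h4

/-- extension by zero from an o-p-e-n subset, on the quotients -/
theorem as_o_open_ext [T2Space X] [LocallyCompactSpace X] (j : Y → X) (hj : IsOpenEmbedding j) (q : ℕ) :
    ∃ T : AsQ Y q →ₗ[ℝ] AsQ X q, ∀ (φ : AsC ℝ X q) (hφ : IsCompact (asSupp φ))
      (_ : asSupp φ ⊆ Set.range j) (h' : IsCompact (asSupp (asPull ℝ j q φ))),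
      T (asQMk Y q ⟨asPull ℝ j q φ, h'⟩) = asQMk X q ⟨φ, hφ⟩ := by
  let C : Submodule ℝ (AsC ℝ X q) := asCc X q ⊓ asOff ℝ X (Set.range j)ᶜ q
  have hC : ∀ φ ∈ C, asSupp φ ⊆ Set.range j := fun φ h => Set.disjoint_compl_right_iff_subset.1 h.2
  have hCc : ∀ φ ∈ C, IsCompact (asSupp φ) := fun φ h => h.1
  let π : C →ₗ[ℝ] AsQ X q := (asQMk X q).comp (Submodule.inclusion inf_le_left)
  let ρ : C →ₗ[ℝ] AsQ Y q := (asQMk Y q).comp ((asPull ℝ j q).restrict (p := C) (q := asCc Y q)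
    (fun φ h => as_o_pull_open_compact j hj φ (hCc φ h) (hC φ h)))
  have hρ : Function.Surjective ρ := by
    intro a
    obtain ⟨ψ, rfl⟩ := as_qMk_surj Y q a
    obtain ⟨φ, h1, h2, h3⟩ := as_o_open_lift j hj q ψ.1 ψ.2
    exact ⟨⟨φ, h1, Set.disjoint_compl_right_iff_subset.2 h2⟩, (as_qMk_eq_iff q _ _).2 h3⟩
  obtain ⟨s, hs⟩ := ρ.exists_rightInverse_of_surjective (LinearMap.range_eq_top.2 hρ)
  have hker : ∀ c : C, ρ c = 0 → π c = 0 := by
    intro c hc
    have h1 : asSupp (asPull ℝ j q c.1) = ∅ := by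
      have := (as_qMk_eq_iff q ⟨asPull ℝ j q c.1, as_o_pull_open_compact j hj c.1 (hCc _ c.2) (hC _ c.2)⟩ 0).1
        (hc.trans (map_zero _).symm)
      simpa using this
    have h2 : asSupp c.1 = ∅ := by
      rw [← as_o_image_supp_pull_open j hj c.1 (hC _ c.2), h1, Set.image_empty]
    have : asQMk X q ⟨c.1, hCc _ c.2⟩ = asQMk X q 0 := (as_qMk_eq_iff q _ _).2 (by simpa using h2)
    exact this.trans (map_zero _)
  refine ⟨π.comp s, fun φ hφ hsφ h' => ?_⟩
  let c : C := ⟨φ, hφ, Set.disjoint_compl_right_iff_subset.2 hsφ⟩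
  have e1 : asQMk Y q ⟨asPull ℝ j q φ, h'⟩ = ρ c := rfl
  have e2 : asQMk X q ⟨φ, hφ⟩ = π c := rfl
  rw [e1, e2, LinearMap.comp_apply, ← sub_eq_zero, ← map_sub]
  apply hker
  rw [map_sub, sub_eq_zero]
  exact LinearMap.congr_fun hs (ρ c)

theorem as_o_pr_map (T : ∀ q, AsQ X q →ₗ[ℝ] AsQ Y q) (q : ℕ) (m : (asObj X).C) :
    asObjPr Y q (asOMap T m) = asOMap T (asObjPr X q m) := by
  have : (asObjPr Y q).comp (asOMap T) = (asOMap T).comp (asObjPr X q) := by
    apply as_o_lin_ext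
    intro i a
    simp only [LinearMap.comp_apply]
    rw [as_o_map_lof]
    by_cases h : q = i
    · subst h
      rw [as_o_pr_lof_same, as_o_pr_lof_same, as_o_map_lof]
    · rw [as_o_pr_lof_ne q i h, as_o_pr_lof_ne q i h, map_zero]
  exact LinearMap.congr_fun this m

/-- EMBEDDINGS OF O-P-E-N SUBSETS: `j_! AS_c(U) = AS_c(X)(j U)`; the inverse of the isomorphism is the restriction of cochains.
Plan: the linear map `r : (asObj X).sec (range j) → asObj U`, `[φ] ↦ [j^# φ]` (`asSupp (j^# φ) = j ⁻¹' asSupp φ` is compact because `j` is an embedding and `asSupp φ ⊆ range j`).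
Injective: `j^# φ` null and `asSupp φ ⊆ range j` imply `φ` null (`AsVan` is local and `range j` is o-p-e-n).
Surjective: `ψ` on `U` with compact support `K`; `E` o-p-e-n in `X` with `j '' K ⊆ E`, `closure E ⊆ range j` (`exists_open_between_and_isCompact_closure`); `φ = asCut ℝ E q (asZeroExt ℝ j q ψ)`; cf. `as_exc_lift`.
Supports: `asSupp φ = j '' asSupp (j^# φ)`. -/
theorem as_obj_open_iso [T2Space X] [LocallyCompactSpace X] (j : C(Y, X)) (hj : IsOpenEmbedding j) :
    ∃ e : FcIso ((asObj Y).push j) ((asObj X).res (Set.range j)),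
      ∀ (q : ℕ) (φ : AsC ℝ X q) (hφ : IsCompact (asSupp φ)) (_hs : asSupp φ ⊆ Set.range j)
        (h' : IsCompact (asSupp (asPull ℝ j q φ))),
        (fcResIncl (asObj X) (Set.range j)).f (e.e (asEl Y q (asPull ℝ j q φ) h')) =
          asEl X q φ hφ := by
  choose T hT using fun q => as_o_open_ext j hj q
  let Ext : (asObj Y).C →ₗ[ℝ] (asObj X).C := asOMap T
  have hExt : ∀ (q : ℕ) (φ : AsC ℝ X q) (hφ : IsCompact (asSupp φ)) (_ : asSupp φ ⊆ Set.range j)
      (h' : IsCompact (asSupp (asPull ℝ j q φ))),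
      Ext (asEl Y q (asPull ℝ j q φ) h') = asEl X q φ hφ := by
    intro q φ hφ hs h'
    rw [as_o_el_eq, as_o_el_eq]
    show asOMap T _ = _
    rw [as_o_map_lof, hT q φ hφ hs h']
  -- every summand element is a restriction
  have hrep : ∀ (q : ℕ) (a : AsQ Y q), ∃ (φ : AsC ℝ X q) (_ : IsCompact (asSupp φ))
      (_ : asSupp φ ⊆ Set.range j) (h' : IsCompact (asSupp (asPull ℝ j q φ))),
      asLof Y q a = asEl Y q (asPull ℝ j q φ) h' := by
    intro q a
    obtain ⟨ψ, hψ, e⟩ := as_o_lof_el q a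
    obtain ⟨φ, h1, h2, h3⟩ := as_o_open_lift j hj q ψ hψ
    have h' := as_o_pull_open_compact j hj φ h1 h2
    exact ⟨φ, h1, h2, h', e.trans ((as_el_eq_iff q _ _ h' hψ).2 h3).symm⟩
  have hsupp : ∀ n : (asObj Y).C, (asObj X).supp (Ext n) = j '' (asObj Y).supp n := by
    intro n
    rw [as_o_supp_eq (Ext n), as_o_supp_eq n, Set.image_iUnion]
    apply Set.iUnion_congr
    intro q
    have e0 : asObjPr X q (Ext n) = Ext (asObjPr Y q n) := as_o_pr_map T q n
    rw [e0, as_o_pr_apply]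
    obtain ⟨φ, h1, h2, h', e⟩ := hrep q (asCmp Y q n)
    rw [e, hExt q φ h1 h2 h', as_el_supp, as_el_supp, as_o_image_supp_pull_open j hj φ h2]
  have hcomm : ∀ n : (asObj Y).C, Ext ((asObj Y).d n) = (asObj X).d (Ext n) := by
    have : Ext.comp (asObj Y).d = (asObj X).d.comp Ext := by
      apply as_o_lin_ext
      intro q a
      obtain ⟨φ, h1, h2, h', e⟩ := hrep q a
      rw [LinearMap.comp_apply, LinearMap.comp_apply, e, hExt q φ h1 h2 h', as_el_d, as_el_d]
      exact hExt (q + 1) (asD ℝ X q φ) (as_d_compact q φ h1) ((as_supp_d φ).trans h2) _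
    exact fun n => LinearMap.congr_fun this n
  have hmem : ∀ n, Ext n ∈ (asObj X).sec (Set.range j) := by
    intro n
    show (asObj X).supp (Ext n) ⊆ Set.range j
    rw [hsupp]
    exact Set.image_subset_range _ _
  have hinj : Function.Injective (Ext.codRestrict ((asObj X).sec (Set.range j)) hmem) := by
    rw [← LinearMap.ker_eq_bot, LinearMap.ker_codRestrict, LinearMap.ker_eq_bot']
    intro n hn
    have h1 := hsupp n
    rw [hn, (asObj X).supp_zero, eq_comm, Set.image_eq_empty] at h1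
    exact ((asObj Y).supp_empty_iff n).1 h1
  have hsurj : Function.Surjective (Ext.codRestrict ((asObj X).sec (Set.range j)) hmem) := by
    rintro ⟨m, hm⟩
    have : m ∈ LinearMap.range Ext := by
      apply as_o_mem_of_pr
      intro q
      obtain ⟨φ, hφ, e⟩ := as_obj_pr_el q m
      have hs : asSupp φ ⊆ Set.range j := by
        rw [← as_el_supp q φ hφ, ← e]
        exact (as_obj_pr_supp q m).trans hm
      rw [e]
      exact ⟨_, hExt q φ hφ hs (as_o_pull_open_compact j hj φ hφ hs)⟩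
    obtain ⟨n, hn⟩ := this
    exact ⟨n, Subtype.ext hn⟩
  let e0 : (asObj Y).C ≃ₗ[ℝ] (asObj X).sec (Set.range j) :=
    LinearEquiv.ofBijective (Ext.codRestrict ((asObj X).sec (Set.range j)) hmem) ⟨hinj, hsurj⟩
  exact ⟨⟨e0, fun n => hsupp n, fun n => Subtype.ext (hcomm n)⟩, fun q φ hφ hs h' => hExt q φ hφ hs h'⟩

/-! ### helpers for sections 4 and 5 (helper148) -/

theorem aso_sum_supp (U : Set X) {ι : Type} (s : Finset ι) (b : ι → (asObj X).C)
    (h : ∀ i ∈ s, (asObj X).supp (b i) ⊆ U) : (asObj X).supp (∑ i ∈ s, b i) ⊆ U :=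
  Submodule.sum_mem ((asObj X).sec U) h

/-- summing up homogeneous statements -/
theorem aso_sum_bd (U : Set X) (c m : (asObj X).C)
    (h : ∀ q, ∃ (t : ℝ) (b : (asObj X).C), (asObj X).supp b ⊆ U ∧ asObjPr X q m = t • c + (asObj X).d b) :
    ∃ (t : ℝ) (b : (asObj X).C), (asObj X).supp b ⊆ U ∧ m = t • c + (asObj X).d b := by
  choose t b hb he using h
  obtain ⟨N, hN⟩ := as_obj_sum_pr m
  refine ⟨∑ q ∈ Finset.range N, t q, ∑ q ∈ Finset.range N, b q, aso_sum_supp U _ b (fun q _ => hb q), ?_⟩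
  rw [map_sum, Finset.sum_smul, ← Finset.sum_add_distrib]
  conv_lhs => rw [hN]
  exact Finset.sum_congr rfl (fun q _ => he q)

theorem aso_supp_subset_iff (m : (asObj X).C) (U : Set X) :
    (asObj X).supp m ⊆ U ↔ ∀ q, (asObj X).supp (asObjPr X q m) ⊆ U := by
  rw [as_o_supp_eq, Set.iUnion_subset_iff]

theorem aso_pullL_pr (f : X → Y) (hf : IsProperMap f) (q : ℕ) (m : (asObj Y).C) :
    asObjPr X q (asObjPullL f hf m) = asObjPullL f hf (asObjPr Y q m) :=
  as_o_pr_map _ q m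

theorem aso_pullL_d (f : X → Y) (hf : IsProperMap f) (m : (asObj Y).C) :
    asObjPullL f hf ((asObj Y).d m) = (asObj X).d (asObjPullL f hf m) := by
  have : (asObjPullL f hf).comp (asObj Y).d = (asObj X).d.comp (asObjPullL f hf) := by
    apply as_o_lin_ext
    intro q a
    obtain ⟨φ, hφ, e⟩ := as_o_lof_el q a
    rw [e, LinearMap.comp_apply, LinearMap.comp_apply, as_el_d, as_o_pullL_el, as_o_pullL_el, as_el_d]
    rfl
  exact LinearMap.congr_fun this m

theorem aso_pullL_supp (f : X → Y) (hf : IsProperMap f) (m : (asObj Y).C) :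
    (asObj X).supp (asObjPullL f hf m) ⊆ f ⁻¹' (asObj Y).supp m := by
  rw [aso_supp_subset_iff]
  intro q
  rw [aso_pullL_pr]
  obtain ⟨φ, hφ, e⟩ := as_obj_pr_el q m
  rw [e, as_o_pullL_el, as_el_supp]
  refine (as_supp_pull f hf.continuous φ).trans (Set.preimage_mono ?_)
  rw [← as_el_supp q φ hφ, ← e]
  exact as_obj_pr_supp q m

theorem aso_pullL_congr (f g : X → Y) (hf : IsProperMap f) (hg : IsProperMap g) (h : f = g) :
    asObjPullL f hf = asObjPullL g hg := by
  subst h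
  rfl

theorem aso_compact [CompactSpace X] {q : ℕ} (φ : AsC ℝ X q) : IsCompact (asSupp φ) :=
  (as_supp_closed φ).isCompact

/-- a null cochain vanishes on the constant tuples -/
theorem aso_null_const {q : ℕ} (φ : AsC ℝ X q) (h : asSupp φ = ∅) (z : X) : φ (fun _ => z) = 0 := by
  have hv : AsVan φ z := by
    rw [← as_not_mem_supp, h]
    exact Set.notMem_empty z
  obtain ⟨N, hN, hz⟩ := hv
  exact hz _ (fun _ => mem_of_mem_nhds hN)

/-! ### more calculus (helper138; prefix `as4_`) -/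

theorem as4_t_ext (m m' : AsT X) (h : ∀ q, m q = m' q) : m = m' := DFinsupp.ext h

/-- a totalised family of scalars does not increase supports -/
theorem as4_tSupp_tMap_smul (c : ℕ → ℝ) (m : AsT X) :
    asTSupp (asTMap (fun q => c q • (LinearMap.id : AsQ X q →ₗ[ℝ] AsQ X q)) m) ⊆ asTSupp m := by
  intro x hx
  obtain ⟨q, hq⟩ := Set.mem_iUnion.1 hx
  rw [as_tMap_apply] at hq
  exact Set.mem_iUnion.2 ⟨q, as_qSupp_smul _ _ hq⟩

theorem as_tMap_comp (T : ∀ q, AsQ X q →ₗ[ℝ] AsQ Y q) (T' : ∀ q, AsQ Y q →ₗ[ℝ] AsQ Z q) (m : AsT X) :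
    asTMap T' (asTMap T m) = asTMap (fun q => (T' q).comp (T q)) m := by
  apply as4_t_ext
  intro q
  rw [as_tMap_apply, as_tMap_apply, as_tMap_apply]
  rfl

theorem as4_tMap_congr (T T' : ∀ q, AsQ X q →ₗ[ℝ] AsQ Y q) (h : ∀ q x, T q x = T' q x) (m : AsT X) :
    asTMap T m = asTMap T' m := by
  apply as4_t_ext
  intro q
  rw [as_tMap_apply, as_tMap_apply, h]

theorem as4_tMap_id (m : AsT X) : asTMap (fun q => (LinearMap.id : AsQ X q →ₗ[ℝ] AsQ X q)) m = m := by
  apply as4_t_ext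
  intro q
  rw [as_tMap_apply]
  rfl

theorem as4_el_eq_zero (q : ℕ) (φ : AsC ℝ X q) (hφ : IsCompact (asSupp φ)) :
    asEl X q φ hφ = 0 ↔ asSupp φ = ∅ := by
  rw [← (asObj X).supp_empty_iff, as_el_supp]

theorem as4_el_sub (q : ℕ) (φ ψ : AsC ℝ X q) (hφ : IsCompact (asSupp φ)) (hψ : IsCompact (asSupp ψ))
    (h : IsCompact (asSupp (φ - ψ))) : asEl X q (φ - ψ) h = asEl X q φ hφ - asEl X q ψ hψ :=
  ((DirectSum.lof ℝ ℕ (fun q => AsQ X q) q).comp (asQMk X q)).map_sub ⟨φ, hφ⟩ ⟨ψ, hψ⟩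

/-- totalised maps commute with the projections -/
theorem as4_tMap_pr (T : ∀ q, AsQ X q →ₗ[ℝ] AsQ Y q) (q : ℕ) (m : AsT X) :
    DirectSum.lof ℝ ℕ (fun q => AsQ Y q) q ((asTMap T m) q) =
      asTMap T (DirectSum.lof ℝ ℕ (fun q => AsQ X q) q (m q)) := by
  rw [as_tMap_apply, as_tMap_lof]

theorem as4_pullL_el (f : X → Y) (hf : IsProperMap f) (q : ℕ) (φ : AsC ℝ Y q)
    (hφ : IsCompact (asSupp φ)) :
    asObjPullL f hf (asEl Y q φ hφ) = asEl X q (asPull ℝ f q φ) (as_pull_compact f hf q φ hφ) :=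
  as_tMap_lof _ q _

theorem as4_pullL_d (f : X → Y) (hf : IsProperMap f) (m : (asObj Y).C) :
    asObjPullL f hf ((asObj Y).d m) = (asObj X).d (asObjPullL f hf m) := as_tPull_tD f hf m

theorem as4_pullL_supp (f : X → Y) (hf : IsProperMap f) (m : (asObj Y).C) :
    (asObj X).supp (asObjPullL f hf m) ⊆ f ⁻¹' (asObj Y).supp m := as_tSupp_tPull f hf m

theorem as4_pullL_prc (f : X → Y) (hf : IsProperMap f) (n : ℕ) (m : (asObj Y).C) :
    asObjPr X n (asObjPullL f hf m) = asObjPullL f hf (asObjPr Y n m) := as4_tMap_pr _ n m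

/-- pull backs commute with totalised families of scalars (`asObjSgn`, `wcGam`, ..) -/
theorem as_objPullL_tMap_smul (f : X → Y) (hf : IsProperMap f) (c : ℕ → ℝ) (m : (asObj Y).C) :
    asObjPullL f hf (asTMap (fun q => c q • (LinearMap.id : AsQ Y q →ₗ[ℝ] AsQ Y q)) m) =
      asTMap (fun q => c q • (LinearMap.id : AsQ X q →ₗ[ℝ] AsQ X q)) (asObjPullL f hf m) := by
  refine (as_tMap_comp _ _ m).trans (Eq.trans ?_ (as_tMap_comp _ _ m).symm)
  refine as4_tMap_congr _ _ (fun q x => ?_) m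
  simp

theorem as4_zeroExt_compact (i : Z → X) (hi : IsClosedEmbedding i) (q : ℕ) (φ : AsC ℝ Z q)
    (hφ : IsCompact (asSupp φ)) : IsCompact (asSupp (asZeroExt ℝ i q φ)) :=
  (hφ.image hi.continuous).of_isClosed_subset (as_supp_closed _) (as_supp_zeroExt i hi φ)

theorem as4_zeroExt_null (i : Z → X) (hi : IsClosedEmbedding i) (q : ℕ) (φ : AsC ℝ Z q)
    (hφ : asSupp φ = ∅) : asSupp (asZeroExt ℝ i q φ) = ∅ := by
  have := as_supp_zeroExt i hi φ
  rw [hφ, Set.image_empty] at this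
  exact Set.subset_empty_iff.1 this

/-! ### 4. closed subsets -/

theorem as_obj_closed_section [T2Space X] (i : C(Z, X)) (hi : IsClosedEmbedding i) :
    ∃ s : (asObj Z).C →ₗ[ℝ] (asObj X).C, (∀ n, (asObj X).supp (s n) ⊆ i '' (asObj Z).supp n) ∧
      ∀ n, (asObjPull i hi.isProperMap).f (s n) = n := by
  let T : ∀ q, AsQ Z q →ₗ[ℝ] AsQ X q := fun q => asQMap (asZeroExt ℝ i q)
    (fun φ h => as4_zeroExt_compact i hi q φ h) (fun φ h => as4_zeroExt_null i hi q φ h)
  refine ⟨asTMap T, ?_, ?_⟩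
  · have key : ∀ n : AsT Z, asTSupp (asTMap T n) ⊆ i '' asTSupp n := by
      intro n x hx
      obtain ⟨q, hq⟩ := Set.mem_iUnion.1 hx
      rw [as_tMap_apply] at hq
      obtain ⟨φ, hφ⟩ := as_qMk_surj Z q (n q)
      rw [← hφ] at hq
      have e : T q (asQMk Z q φ) = asQMk X q ⟨asZeroExt ℝ i q φ.1, as4_zeroExt_compact i hi q φ.1 φ.2⟩ := rfl
      rw [e, as_qSupp_mk] at hq
      obtain ⟨y, hy, rfl⟩ := as_supp_zeroExt i hi φ.1 hq
      refine ⟨y, Set.mem_iUnion.2 ⟨q, ?_⟩, rfl⟩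
      rw [← hφ, as_qSupp_mk]
      exact hy
    exact key
  · have key : ∀ n : AsT Z, asTMap (fun q => asQPull i hi.isProperMap q) (asTMap T n) = n := by
      intro n
      refine (as_tMap_comp _ _ n).trans (Eq.trans ?_ (as4_tMap_id n))
      refine as4_tMap_congr _ _ (fun q x => ?_) n
      obtain ⟨φ, rfl⟩ := as_qMk_surj Z q x
      have e : ((asQPull i hi.isProperMap q).comp (T q)) (asQMk Z q φ) =
          asQMk Z q ⟨asPull ℝ i q (asZeroExt ℝ i q φ.1),
            as_pull_compact i hi.isProperMap q _ (as4_zeroExt_compact i hi q φ.1 φ.2)⟩ := rfl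
      rw [e]
      exact congrArg (asQMk Z q) (Subtype.ext (as_pull_zeroExt i hi.injective q φ.1))
    exact key

/-- elements supported off `Z` restrict to zero -/
theorem as4_pullL_of_disjoint (i : Z → X) (hi : IsProperMap i) (m : (asObj X).C)
    (h : Disjoint ((asObj X).supp m) (Set.range i)) : asObjPullL i hi m = 0 := by
  rw [← (asObj Z).supp_empty_iff, Set.eq_empty_iff_forall_notMem]
  intro z hz
  exact Set.disjoint_left.1 h (as4_pullL_supp i hi m hz) ⟨z, rfl⟩

theorem as_objPull_of_disjoint [T2Space X] (i : C(Z, X)) (hi : IsProperMap i) (m : (asObj X).C)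
    (h : Disjoint ((asObj X).supp m) (Set.range i)) : (asObjPull i hi).f m = 0 :=
  as4_pullL_of_disjoint i hi m h

/-- `cone(AS(X)(X∖Z) → AS(X)) → i_! AS(Z)`, `(a, b) ↦ i^# b` -/
noncomputable def asObjResCone [T2Space X] (i : C(Z, X)) (hi : IsProperMap i) :
    FcHom (fcCone (fcResIncl (asObj X) (Set.range i)ᶜ)) ((asObj Z).push i) where
  f := (asObjPull i hi).f ∘ₗ LinearMap.snd ℝ ((asObj X).res (Set.range i)ᶜ).C (asObj X).C
  loc := fun m => ((asObjPull i hi).loc m.2).trans Set.subset_union_right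
  comm := by
    rintro ⟨a, b⟩
    show asObjPullL i hi (a.1 + (asObj X).d b) = (asObj Z).d (asObjPullL i hi b)
    rw [map_add, as4_pullL_of_disjoint i hi a.1 (Set.subset_compl_iff_disjoint_right.1 a.2), zero_add]
    exact as4_pullL_d i hi b

theorem as_objResCone_eqns_cite : True := by
  have := @asObjResCone.eq_1
  trivial

/-- tautness for one homogeneous element -/
theorem as4_taut_el [CompactSpace X] [T2Space X] (i : Z → X) (hi : IsClosedEmbedding i) (U : Set X)
    (hU : IsOpen U) (q : ℕ) (φ : AsC ℝ X q) (hφ : IsCompact (asSupp φ)) (hs : asSupp φ ⊆ U)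
    (h0 : asSupp (asPull ℝ i q φ) = ∅) (hd : Disjoint (asSupp (asD ℝ X q φ)) (Set.range i)) :
    ∃ a : (asObj X).C, (asObj X).supp a ⊆ U ∧ asObjPullL i hi.isProperMap a = 0 ∧
      Disjoint ((asObj X).supp (asEl X q φ hφ - (asObj X).d a)) (Set.range i) := by
  set η := asZeroExt ℝ i q (asPull ℝ i q φ) with hη
  have hηn : asSupp η = ∅ := as4_zeroExt_null i hi q _ h0
  set φ' := φ - η with hφ'
  have hcong : asSupp (φ - φ') = ∅ := by
    have : φ - φ' = η := by rw [hφ']; abel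
    rw [this]; exact hηn
  have hsupp : asSupp φ' = asSupp φ := (as_supp_congr _ _ hcong).symm
  have hc' : IsCompact (asSupp φ') := by rw [hsupp]; exact hφ
  have hel : asEl X q φ hφ = asEl X q φ' hc' := (as_el_eq_iff q _ _ _ _).2 hcong
  have hrel : φ' ∈ asRelSub ℝ X (Set.range i) q := by
    rw [as_relSub_range, hφ', map_sub, hη, as_pull_zeroExt i hi.injective, sub_self]
  have hd' : Disjoint (asSupp (asD ℝ X q φ')) (Set.range i) := by
    have : asSupp (asD ℝ X q φ') = asSupp (asD ℝ X q φ) := by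
      apply as_supp_congr
      rw [← map_sub]
      have e : φ' - φ = -η := by rw [hφ']; abel
      rw [e, map_neg]
      exact Set.subset_empty_iff.1 ((as_supp_eq_empty_of_d _ hηn) ▸ as_supp_neg _)
    rw [this]; exact hd
  cases q with
  | zero =>
    refine ⟨0, by rw [(asObj X).supp_zero]; exact Set.empty_subset _, map_zero _, ?_⟩
    rw [map_zero, sub_zero, hel, as_el_supp]
    exact as_taut_zero X _ φ' hrel hd'
  | succ q =>
    obtain ⟨a, haR, haU, hda⟩ := as_taut X (Set.range i) U hi.isClosed_range hU q φ' hrel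
      (by rw [hsupp]; exact hs) hd'
    have hca : IsCompact (asSupp a) := (as_supp_closed _).isCompact
    refine ⟨asEl X q a hca, by rw [as_el_supp]; exact haU, ?_, ?_⟩
    · rw [as4_pullL_el, as4_el_eq_zero, (as_relSub_range _ _ _).1 haR, as_supp_zero]
    · rw [hel, as_el_d, ← as4_el_sub (q + 1) φ' _ hc' _ (as_supp_closed _).isCompact, as_el_supp]
      exact hda

theorem as_obj_taut [CompactSpace X] [T2Space X] (i : C(Z, X)) (hi : IsClosedEmbedding i) (U : Set X)
    (hU : IsOpen U) (m : (asObj X).C) (hm : (asObj X).supp m ⊆ U)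
    (h0 : (asObjPull i hi.isProperMap).f m = 0)
    (hd : Disjoint ((asObj X).supp ((asObj X).d m)) (Set.range i)) :
    ∃ a : (asObj X).C, (asObj X).supp a ⊆ U ∧ (asObjPull i hi.isProperMap).f a = 0 ∧
      Disjoint ((asObj X).supp (m - (asObj X).d a)) (Set.range i) := by
  have h0' : asObjPullL i hi.isProperMap m = 0 := h0
  have hq : ∀ q, ∃ a : (asObj X).C, (asObj X).supp a ⊆ U ∧ asObjPullL i hi.isProperMap a = 0 ∧
      Disjoint ((asObj X).supp (asObjPr X q m - (asObj X).d a)) (Set.range i) := by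
    intro q
    obtain ⟨φ, hφ, hp⟩ := as_obj_pr_el q m
    rw [hp]
    apply as4_taut_el i hi U hU q φ hφ
    · rw [← as_el_supp q φ hφ, ← hp]
      exact (as_obj_pr_supp q m).trans hm
    · have := as4_pullL_prc i hi.isProperMap q m
      rw [h0', map_zero, hp, as4_pullL_el, eq_comm, as4_el_eq_zero] at this
      exact this
    · have h1 : (asObj X).supp ((asObj X).d (asObjPr X q m)) ⊆ (asObj X).supp ((asObj X).d m) := by
        rw [← as_obj_pr_d]
        exact as_obj_pr_supp _ _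
      rw [hp, as_el_d, as_el_supp] at h1
      exact hd.mono_left h1
  choose a haU ha0 had using hq
  obtain ⟨N, hN⟩ := as_obj_sum_pr m
  refine ⟨∑ q ∈ Finset.range N, a q, ((asObj X).sec U).sum_mem (fun q _ => haU q), ?_, ?_⟩
  · show asObjPullL i hi.isProperMap (∑ q ∈ Finset.range N, a q) = 0
    rw [map_sum]
    exact Finset.sum_eq_zero (fun q _ => ha0 q)
  · rw [map_sum]
    have e : m - ∑ q ∈ Finset.range N, (asObj X).d (a q) =
        ∑ q ∈ Finset.range N, (asObjPr X q m - (asObj X).d (a q)) := by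
      rw [Finset.sum_sub_distrib, ← hN]
    rw [e, ← Set.subset_compl_iff_disjoint_right]
    exact ((asObj X).sec (Set.range i)ᶜ).sum_mem
      (fun q _ => Set.subset_compl_iff_disjoint_right.2 (had q))

theorem as4_taut_cone_aux [CompactSpace X] [T2Space X] (i : C(Z, X)) (hi : IsClosedEmbedding i)
    (U : Set X) (hU : IsOpen U) (a b : (asObj X).C) (n : (asObj Z).C)
    (ha : (asObj X).supp a ⊆ (Set.range i)ᶜ) (hsb : (asObj X).supp b ⊆ U)
    (hsn : i '' (asObj Z).supp n ⊆ U) (hc2 : a + (asObj X).d b = 0)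
    (hc3 : asObjPullL i hi.isProperMap b + (asObj Z).d n = 0) :
    ∃ a' b' : (asObj X).C, (asObj X).supp a' ⊆ (Set.range i)ᶜ ∧ (asObj X).supp a' ⊆ U ∧
      (asObj X).supp b' ⊆ U ∧ (asObj X).d a' = a ∧ -(a' + (asObj X).d b') = b ∧
      asObjPullL i hi.isProperMap b' = n := by
  obtain ⟨s, hs, hsec⟩ := as_obj_closed_section i hi
  have hsec' : ∀ n, asObjPullL i hi.isProperMap (s n) = n := hsec
  set m : (asObj X).C := -b - (asObj X).d (s n) with hm
  have hms : (asObj X).supp m ⊆ U := by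
    refine ((asObj X).sec U).sub_mem (((asObj X).sec U).neg_mem hsb) ?_
    exact ((asObj X).d_loc _).trans ((hs n).trans hsn)
  have hm0 : asObjPullL i hi.isProperMap m = 0 := by
    rw [hm, map_sub, map_neg, as4_pullL_d, hsec', eq_neg_of_add_eq_zero_left hc3]
    abel
  have hdm : (asObj X).d m = a := by
    rw [hm, map_sub, map_neg, (asObj X).d_sq, sub_zero]
    exact (eq_neg_of_add_eq_zero_left hc2).symm
  obtain ⟨a₀, ha₀U, ha₀0, ha₀d⟩ := as_obj_taut i hi U hU m hms hm0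
    (by rw [hdm]; exact Set.subset_compl_iff_disjoint_right.1 ha)
  have ha₀0' : asObjPullL i hi.isProperMap a₀ = 0 := ha₀0
  refine ⟨m - (asObj X).d a₀, s n + a₀, Set.subset_compl_iff_disjoint_right.2 ha₀d,
    ((asObj X).sec U).sub_mem hms (((asObj X).d_loc _).trans ha₀U),
    ((asObj X).sec U).add_mem ((hs n).trans hsn) ha₀U, ?_, ?_, ?_⟩
  · rw [map_sub, (asObj X).d_sq, sub_zero, hdm]
  · rw [hm, map_add]
    abel
  · rw [map_add, hsec', ha₀0', add_zero]

theorem as_obj_taut_cone [CompactSpace X] [T2Space X] (i : C(Z, X)) (hi : IsClosedEmbedding i) :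
    (fcCone (asObjResCone i hi.isProperMap)).Acyc := by
  intro U hU _
  rintro ⟨⟨a, b⟩, n⟩ hsupp hcyc
  have hc2 : -(a.1 + (asObj X).d b) = 0 := congrArg (fun x => x.1.2) hcyc
  have hc3 : asObjPullL i hi.isProperMap b + (asObj Z).d n = 0 := congrArg (fun x => x.2) hcyc
  obtain ⟨a', b', h1, h2, h3, h4, h5, h6⟩ := as4_taut_cone_aux i hi U hU a.1 b n a.2
    (fun x hx => hsupp (Or.inl (Or.inr hx))) (fun x hx => hsupp (Or.inr hx)) (neg_eq_zero.1 hc2) hc3
  refine ⟨((⟨a', h1⟩, b'), 0), ?_, ?_⟩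
  · rintro x ((hx | hx) | hx)
    · exact h2 hx
    · exact h3 hx
    · have : ((asObj Z).push i).supp 0 = ∅ := ((asObj Z).push i).supp_zero
      rw [this] at hx
      exact hx.elim
  · refine Prod.ext (Prod.ext ?_ ?_) ?_
    · apply Subtype.ext
      show - - (asObj X).d a' = a.1
      rw [neg_neg, h4]
    · exact h5
    · show asObjPullL i hi.isProperMap b' + (asObj Z).d 0 = n
      rw [h6, map_zero]
      exact add_zero (show (asObj Z).C from n)


/-! ### 5. homotopy invariance -/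

theorem as_one_compact [CompactSpace X] : IsCompact (asSupp (asOne ℝ X)) :=
  (as_supp_closed _).isCompact

/-- the unit cocycle of a compact space -/
noncomputable def asObjOne (X : Type) [TopologicalSpace X] [CompactSpace X] : (asObj X).C :=
  asEl X 0 (asOne ℝ X) as_one_compact

theorem as_objOne_eqns_cite : True := by
  have := @asObjOne.eq_1
  trivial

theorem as_objOne_d [CompactSpace X] : (asObj X).d (asObjOne X) = 0 := by
  unfold asObjOne
  rw [as_o_el_d_eq_zero_iff, as_d_one]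
  exact as_supp_zero 1

/-- HOMOTOPY INVARIANCE: the two ends of a cycle on `X × I` differ by a boundary, with control of supports.  Plan: components, `as_htpy`, `as_htpy_zero`. -/
theorem as_obj_htpy [CompactSpace X] [T2Space X] (t t' : unitInterval) (U : Set X) (hU : IsOpen U)
    (m : (asObj (X × unitInterval)).C) (hm : Prod.fst '' (asObj (X × unitInterval)).supp m ⊆ U)
    (hd : (asObj (X × unitInterval)).d m = 0)
    (σ σ' : C(X, X × unitInterval)) (hσ : ∀ x, σ x = (x, t)) (hσ' : ∀ x, σ' x = (x, t')) :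
    ∃ b : (asObj X).C, (asObj X).supp b ⊆ U ∧
      asObjPullL σ' σ'.continuous.isProperMap m - asObjPullL σ σ.continuous.isProperMap m =
        (asObj X).d b := by
  have e1 : (σ : X → X × unitInterval) = asSlice X t := funext hσ
  have e2 : (σ' : X → X × unitInterval) = asSlice X t' := funext hσ'
  have hp : ∀ s, IsProperMap (asSlice X s) := fun s => (as_slice_cont X s).isProperMap
  rw [aso_pullL_congr _ _ _ (hp t) e1, aso_pullL_congr _ _ _ (hp t') e2]
  have key : ∃ (s : ℝ) (b : (asObj X).C), (asObj X).supp b ⊆ U ∧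
      asObjPullL (asSlice X t') (hp t') m - asObjPullL (asSlice X t) (hp t) m =
        s • (0 : (asObj X).C) + (asObj X).d b := by
    refine aso_sum_bd U 0 _ (fun q => ?_)
    rw [map_sub, aso_pullL_pr, aso_pullL_pr]
    obtain ⟨φ, hφ, e⟩ := as_obj_pr_el q m
    have hs : Prod.fst '' asSupp φ ⊆ U := by
      rw [← as_el_supp q φ hφ, ← e]
      exact (Set.image_mono (as_obj_pr_supp q m)).trans hm
    have hdφ : asSupp (asD ℝ (X × unitInterval) q φ) = ∅ := by
      rw [← as_o_el_d_eq_zero_iff q φ hφ, ← e]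
      exact as_o_pr_cycle q m hd
    rw [e, as_o_pullL_el, as_o_pullL_el]
    cases q with
    | zero =>
      refine ⟨0, 0, by rw [(asObj X).supp_zero]; exact Set.empty_subset _, ?_⟩
      rw [as_o_el_congr 0 _ _ (as_htpy_zero X t t' φ hdφ) _ (as_pull_compact _ (hp t) 0 φ hφ)]
      simp
    | succ q =>
      obtain ⟨b, hbU, hb⟩ := as_htpy X t t' U hU q φ hs hdφ
      refine ⟨0, asEl X q b (aso_compact b), by rw [as_el_supp]; exact hbU, ?_⟩
      rw [zero_smul, zero_add, as_el_d, ← as_o_el_sub (q + 1) _ _ _ _ (aso_compact _), as_el_eq_iff]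
      exact hb
  obtain ⟨s, b, hb, e⟩ := key
  refine ⟨b, hb, ?_⟩
  rw [e]
  simp

/-- a contractible compact Hausdorff space has the cohomology of a point.
Plan: `m` a cycle on `X`; `H^# m` is a cycle on `X × I`; its ends are `m` and `(const z)^# m`; the latter is `t • 1` in degree `0` and, in positive degrees, a boundary (`as_ins_d` on constant tuples: `(const z)^# φ` is a constant
function on tuples; a constant cocycle of positive degree is `0` (even degree... ) or `δ` of a constant).  `1` is not a boundary: there is nothing in degree `-1` (`as_obj_pr_d_zero`), and `asOne ≠ 0` mod null as `X` is nonempty. -/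
theorem as_obj_contr [CompactSpace X] [T2Space X] (H : C(X × unitInterval, X)) (z : X)
    (h0 : ∀ x, H (x, 0) = x) (h1 : ∀ x, H (x, 1) = z) :
    AsGenAt (asObj X) Set.univ (asObjOne X) := by
  refine ⟨Set.subset_univ _, as_objOne_d, ?_, ?_⟩
  · intro m' _ hm'
    have h2 : asEl X 0 (asOne ℝ X) as_one_compact ∈ asBd (asObj X) Set.univ :=
      ⟨m', Set.subset_univ _, hm'⟩
    rw [as_o_bd_zero_iff] at h2
    have := aso_null_const (asOne ℝ X) h2 z
    exact one_ne_zero this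
  · intro m _ hd
    refine aso_sum_bd Set.univ _ m (fun q => ?_)
    obtain ⟨φ, hφ, e⟩ := as_obj_pr_el q m
    have hdφ : asSupp (asD ℝ X q φ) = ∅ := by
      rw [← as_o_el_d_eq_zero_iff q φ hφ, ← e]
      exact as_o_pr_cycle q m hd
    have hdH : asSupp (asD ℝ (X × unitInterval) q (asPull ℝ H q φ)) = ∅ := by
      rw [← as_pull_d]
      exact as_pull_null H H.continuous (q + 1) _ hdφ
    have eH0 : asPull ℝ (asSlice X 0) q (asPull ℝ H q φ) = φ := by
      funext x
      show φ (fun j => H (x j, 0)) = φ x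
      simp only [h0]
    have eH1 : asPull ℝ (asSlice X 1) q (asPull ℝ H q φ) = asPull ℝ (fun _ : X => z) q φ := by
      funext x
      show φ (fun j => H (x j, 1)) = φ (fun _ => z)
      simp only [h1]
    rw [e]
    cases q with
    | zero =>
      have h2 := as_htpy_zero X 0 1 (asPull ℝ H 0 φ) hdH
      rw [eH0, eH1] at h2
      refine ⟨φ (fun _ => z), 0, Set.subset_univ _, ?_⟩
      rw [map_zero, add_zero]
      unfold asObjOne
      rw [← as_el_smul 0 _ _ _ (aso_compact _)]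
      apply as_o_el_congr
      rw [← h2]
      funext x
      show φ (fun _ => z) = φ (fun _ => z) * 1
      rw [mul_one]
    | succ q =>
      obtain ⟨b, _, hb⟩ := as_htpy X 0 1 Set.univ isOpen_univ q (asPull ℝ H (q + 1) φ)
        (Set.subset_univ _) hdH
      rw [eH0, eH1] at hb
      set κ : AsC ℝ X (q + 1) := asPull ℝ (fun _ : X => z) (q + 1) φ with hκ
      have hdκ : asD ℝ X (q + 1) κ = 0 := by
        rw [hκ, ← as_pull_d]
        funext x
        exact aso_null_const _ hdφ z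
      have hκ2 : asD ℝ X q (asIns ℝ z q κ) = κ := by
        have := as_ins_d z q κ
        rw [hdκ, map_zero, add_zero] at this
        exact this
      refine ⟨0, asEl X q (asIns ℝ z q κ - b) (aso_compact _), Set.subset_univ _, ?_⟩
      rw [zero_smul, zero_add, as_el_d, as_el_eq_iff, map_sub, hκ2]
      have e3 : φ - (κ - asD ℝ X q b) = -(κ - φ - asD ℝ X q b) := by abel
      rw [e3]
      exact Set.subset_empty_iff.1 (hb ▸ as_supp_neg _)

/-! ### 6. excision on elements -/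

/-- EXCISION on elements: `g^#` is onto the elements supported off `g⁻¹A₂`, and reflects cycles -/
theorem as_obj_exc_inj {P₁ P₂ : Type} [TopologicalSpace P₁] [TopologicalSpace P₂]
    (g : P₁ → P₂) (s : P₂ → P₁) (A₂ : Set P₂) (h : AsRelHomeo g s A₂) (hg : IsProperMap g)
    (m' : (asObj P₂).C) (hm : Disjoint ((asObj P₂).supp m') A₂) (h0 : asObjPullL g hg m' = 0) :
    m' = 0 := by
  apply as_obj_ext
  intro q
  rw [map_zero]
  obtain ⟨φ, hφ, hp⟩ := as_obj_pr_el q m'
  rw [hp, as4_el_eq_zero]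
  apply as_exc_null g s A₂ h q φ
  · rw [← as_el_supp q φ hφ, ← hp]
    exact hm.mono_left (as_obj_pr_supp q m')
  · have := as4_pullL_prc g hg q m'
    rw [h0, map_zero, hp, as4_pullL_el, eq_comm, as4_el_eq_zero] at this
    exact this

end Claimed.Agent.R304
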