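/-
Row 304 (S0559).  Owner: helper138.  PACKAGE AsCup (~700 lines): THE CUP PRODUCT of Alexander-Spanier cochains,
      `(φ ∪ ψ)(x_0 .. x_{p+q}) = φ(x_0 .. x_p) ψ(x_p .. x_{p+q})`,
raw version `asCup`, and the total version `asObjCup X` on `asObj X` (bilinear, LOCAL: `supp (x ∪ y) ⊆ supp x ∩ supp y`, Leibniz rule with the sign operator `asObjSgn`, associative, natural, unit `asObjOne` for compact `X`).
NOT graded commutative on cochains: symmetrise the forms (`b'(x,y) = (b(x,y) + e b(y,x))/2` keeps `b(dx,y) = k b(x,dy)`).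
-/
import Claimed.Agent.R304.AsObj

set_option autoImplicit false

namespace Claimed.Agent.R304

open Topology

/-- the front `p`-face of a `(p+q)`-tuple -/
def asFront {P : Type} (p q : ℕ) (x : Fin (p + q + 1) → P) : Fin (p + 1) → P :=
  fun i => x ⟨i.1, by have := i.2; omega⟩

/-- the back `q`-face of a `(p+q)`-tuple -/
def asBack {P : Type} (p q : ℕ) (x : Fin (p + q + 1) → P) : Fin (q + 1) → P :=
  fun j => x ⟨p + j.1, by have := j.2; omega⟩

/-- the cup product of raw cochains -/
def asCup (k : Type) [Field k] (P : Type) (p q : ℕ) :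
    AsC k P p →ₗ[k] AsC k P q →ₗ[k] AsC k P (p + q) :=
  LinearMap.mk₂ k (fun φ ψ x => φ (asFront p q x) * ψ (asBack p q x))
    (fun φ φ' ψ => by funext x; simp [add_mul])
    (fun c φ ψ => by funext x; simp [mul_assoc])
    (fun φ ψ ψ' => by funext x; simp [mul_add])
    (fun c φ ψ => by funext x; simp [mul_left_comm])

theorem as_cup_eqns_cite : True := by
  have := @asFront.eq_1
  have := @asBack.eq_1
  have := @asCup.eq_1
  trivial

variable {k : Type} [Field k]

theorem as_cup_apply (P : Type) (p q : ℕ) (φ : AsC k P p) (ψ : AsC k P q) (x : Fin (p + q + 1) → P) :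
    asCup k P p q φ ψ x = φ (asFront p q x) * ψ (asBack p q x) := rfl

/-- the value of `succAbove` -/
theorem as_cup_succAbove_val (n : ℕ) (i : Fin (n + 2)) (j : Fin (n + 1)) :
    (i.succAbove j).1 = if j.1 < i.1 then j.1 else j.1 + 1 := by
  unfold Fin.succAbove
  by_cases h : j.castSucc < i
  · have h' : j.1 < i.1 := h
    simp [h, h']
  · have h' : ¬ j.1 < i.1 := h
    simp [h, h']

/-- LEIBNIZ RULE (pointwise form, because `(p+1)+q` and `p+q+1` are not definitionally equal).
Plan: split `∑ i : Fin (p+q+2)` at `i ≤ p` / `i > p`; for `i ≤ p` the back face is unchanged and the front face loses `x_i`; the two extra terms (`i = p+1` of `δφ ∪ ψ` and `i = 0` of `φ ∪ δψ`) cancel. -/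
theorem as_cup_d (P : Type) (p q : ℕ) (φ : AsC k P p) (ψ : AsC k P q) (x : Fin (p + q + 1 + 1) → P) :
    asD k P (p + q) (asCup k P p q φ ψ) x =
      asCup k P (p + 1) q (asD k P p φ) ψ (fun i => x ⟨i.1, by have := i.2; omega⟩) +
        (-1 : k) ^ p * asCup k P p (q + 1) φ (asD k P q ψ) x := by
  classical
  let X : ℕ → P := fun m => if h : m < p + q + 1 + 1 then x ⟨m, h⟩ else x 0
  have hx : ∀ (m : ℕ) (h : m < p + q + 1 + 1), x ⟨m, h⟩ = X m := by
    intro m h
    simp only [X, h, dif_pos]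
  let sk : ℕ → ℕ → ℕ := fun i m => if m < i then m else m + 1
  -- the three sums over `ℕ`
  have hL : asD k P (p + q) (asCup k P p q φ ψ) x =
      ∑ i ∈ Finset.range (p + q + 2), (-1 : k) ^ i *
        (φ (fun j : Fin (p + 1) => X (sk i j.1)) * ψ (fun j : Fin (q + 1) => X (sk i (p + j.1)))) := by
    rw [as_d_apply, ← Fin.sum_univ_eq_sum_range (fun i => (-1 : k) ^ i *
        (φ (fun j : Fin (p + 1) => X (sk i j.1)) * ψ (fun j : Fin (q + 1) => X (sk i (p + j.1)))))]
    refine Finset.sum_congr rfl (fun i _ => ?_)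
    rw [as_cup_apply]
    congr 2
    · congr 1
      funext j
      show x (i.succAbove ⟨j.1, _⟩) = _
      rw [← hx (sk i.1 j.1) (by have := j.2; have := i.2; simp only [sk]; split_ifs <;> omega)]
      congr 1
      apply Fin.ext
      rw [as_cup_succAbove_val]
    · congr 1
      funext j
      show x (i.succAbove ⟨p + j.1, _⟩) = _
      rw [← hx (sk i.1 (p + j.1)) (by have := j.2; have := i.2; simp only [sk]; split_ifs <;> omega)]
      congr 1
      apply Fin.ext
      rw [as_cup_succAbove_val]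
  have hA : asCup k P (p + 1) q (asD k P p φ) ψ (fun i => x ⟨i.1, by have := i.2; omega⟩) =
      (∑ i ∈ Finset.range (p + 2), (-1 : k) ^ i * φ (fun j : Fin (p + 1) => X (sk i j.1))) *
        ψ (fun j : Fin (q + 1) => X (p + 1 + j.1)) := by
    rw [as_cup_apply, as_d_apply, ← Fin.sum_univ_eq_sum_range (fun i => (-1 : k) ^ i *
        φ (fun j : Fin (p + 1) => X (sk i j.1)))]
    congr 1
    · refine Finset.sum_congr rfl (fun i _ => ?_)
      congr 2
      funext j
      show x ⟨(i.succAbove j).1, _⟩ = _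
      rw [hx, as_cup_succAbove_val]
    · congr 1
      funext j
      show x ⟨p + 1 + j.1, _⟩ = _
      rw [hx]
  have hB : asCup k P p (q + 1) φ (asD k P q ψ) x =
      φ (fun j : Fin (p + 1) => X j.1) *
        ∑ i ∈ Finset.range (q + 2), (-1 : k) ^ i * ψ (fun j : Fin (q + 1) => X (p + sk i j.1)) := by
    rw [as_cup_apply, as_d_apply, ← Fin.sum_univ_eq_sum_range (fun i => (-1 : k) ^ i *
        ψ (fun j : Fin (q + 1) => X (p + sk i j.1)))]
    congr 1
    · congr 1
      funext j
      show x ⟨j.1, _⟩ = _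
      rw [hx]
    · refine Finset.sum_congr rfl (fun i _ => ?_)
      congr 2
      funext j
      show x ⟨p + (i.succAbove j).1, _⟩ = _
      rw [hx, as_cup_succAbove_val]
  rw [hL, hA, hB]
  have e1 : p + q + 2 = (p + 1) + (q + 1) := by omega
  rw [e1, Finset.sum_range_add, Finset.sum_range_succ (n := p + 1), Finset.sum_range_succ' (n := q + 1)]
  have h1 : ∀ i ∈ Finset.range (p + 1), (-1 : k) ^ i *
        (φ (fun j : Fin (p + 1) => X (sk i j.1)) * ψ (fun j : Fin (q + 1) => X (sk i (p + j.1)))) =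
      ((-1 : k) ^ i * φ (fun j : Fin (p + 1) => X (sk i j.1))) *
        ψ (fun j : Fin (q + 1) => X (p + 1 + j.1)) := by
    intro i hi
    have hi' : i < p + 1 := Finset.mem_range.1 hi
    have : (fun j : Fin (q + 1) => X (sk i (p + j.1))) = fun j : Fin (q + 1) => X (p + 1 + j.1) := by
      funext j
      congr 1
      simp only [sk]
      split_ifs <;> omega
    rw [this, mul_assoc]
  have h2 : ∀ i ∈ Finset.range (q + 1), (-1 : k) ^ (p + 1 + i) *
        (φ (fun j : Fin (p + 1) => X (sk (p + 1 + i) j.1)) *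
          ψ (fun j : Fin (q + 1) => X (sk (p + 1 + i) (p + j.1)))) =
      (-1 : k) ^ p * (φ (fun j : Fin (p + 1) => X j.1) *
        ((-1 : k) ^ (i + 1) * ψ (fun j : Fin (q + 1) => X (p + sk (i + 1) j.1)))) := by
    intro i _
    have e2 : (fun j : Fin (p + 1) => X (sk (p + 1 + i) j.1)) = fun j : Fin (p + 1) => X j.1 := by
      funext j
      congr 1
      have := j.2
      simp only [sk]
      split_ifs <;> omega
    have e3 : (fun j : Fin (q + 1) => X (sk (p + 1 + i) (p + j.1))) =
        fun j : Fin (q + 1) => X (p + sk (i + 1) j.1) := by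
      funext j
      congr 1
      simp only [sk]
      split_ifs <;> omega
    rw [e2, e3]
    ring
  rw [Finset.sum_congr rfl h1, Finset.sum_congr rfl h2, ← Finset.sum_mul, ← Finset.mul_sum,
    ← Finset.mul_sum]
  have e4 : (fun j : Fin (p + 1) => X (sk (p + 1) j.1)) = fun j : Fin (p + 1) => X j.1 := by
    funext j
    congr 1
    have := j.2
    simp only [sk]
    split_ifs <;> omega
  have e5 : (fun j : Fin (q + 1) => X (p + sk 0 j.1)) = fun j : Fin (q + 1) => X (p + 1 + j.1) := by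
    funext j
    congr 1
    simp only [sk]
    split_ifs <;> omega
  rw [e4, e5]
  ring

theorem as_cup_pull {P P' : Type} (g : P → P') (p q : ℕ) (φ : AsC k P' p) (ψ : AsC k P' q) :
    asPull k g (p + q) (asCup k P' p q φ ψ) = asCup k P p q (asPull k g p φ) (asPull k g q ψ) := rfl

/-- LOCALITY -/
theorem as_cup_supp {P : Type} [TopologicalSpace P] (p q : ℕ) (φ : AsC k P p) (ψ : AsC k P q) :
    asSupp (asCup k P p q φ ψ) ⊆ asSupp φ ∩ asSupp ψ := by
  intro x hx
  refine ⟨fun h => hx ?_, fun h => hx ?_⟩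
  · obtain ⟨N, hN, h0⟩ := h
    refine ⟨N, hN, fun t ht => ?_⟩
    rw [as_cup_apply, h0 (asFront p q t) (fun i => ht _), zero_mul]
  · obtain ⟨N, hN, h0⟩ := h
    refine ⟨N, hN, fun t ht => ?_⟩
    rw [as_cup_apply, h0 (asBack p q t) (fun i => ht _), mul_zero]

theorem as_cup_one_right (P : Type) (p : ℕ) (φ : AsC k P p) : asCup k P p 0 φ (asOne k P) = φ := by
  funext x
  rw [as_cup_apply]
  show φ (asFront p 0 x) * 1 = φ x
  rw [mul_one]
  rfl

theorem as_cup_one_left (P : Type) (q : ℕ) (ψ : AsC k P q) (x : Fin (0 + q + 1) → P) :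
    asCup k P 0 q (asOne k P) ψ x = ψ (fun j => x ⟨j.1, by have := j.2; omega⟩) := by
  rw [as_cup_apply]
  show 1 * ψ (asBack 0 q x) = _
  rw [one_mul]
  congr 1
  funext j
  show x ⟨0 + j.1, _⟩ = _
  congr 1
  apply Fin.ext
  simp

/-- cutting in the zeroth variable commutes with the cup product in the first factor -/
theorem as_cup_cut (P : Type) (E : Set P) (p q : ℕ) (φ : AsC k P p) (ψ : AsC k P q) :
    asCup k P p q (asCut k E p φ) ψ = asCut k E (p + q) (asCup k P p q φ ψ) := by
  classical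
  funext x
  rw [as_cup_apply, as_cut_apply, as_cut_apply, as_cup_apply]
  have : asFront p q x 0 = x 0 := rfl
  rw [this]
  split_ifs <;> simp

/-- associativity of the raw cup product (pointwise form) -/
theorem as_cup_assoc (P : Type) (p q r : ℕ) (φ : AsC k P p) (ψ : AsC k P q) (χ : AsC k P r)
    (x : Fin (p + q + r + 1) → P) :
    asCup k P (p + q) r (asCup k P p q φ ψ) χ x =
      asCup k P p (q + r) φ (asCup k P q r ψ χ) (fun i => x ⟨i.1, by have := i.2; omega⟩) := by
  rw [as_cup_apply, as_cup_apply, as_cup_apply, as_cup_apply, mul_assoc]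
  congr 1
  congr 1
  congr 1
  funext j
  show x ⟨p + q + j.1, _⟩ = x ⟨p + (q + j.1), _⟩
  congr 1
  apply Fin.ext
  show p + q + j.1 = p + (q + j.1)
  omega

variable {X Y : Type} [TopologicalSpace X] [TopologicalSpace Y]

theorem as_cup_compact (p q : ℕ) (φ : AsC ℝ X p) (ψ : AsC ℝ X q) (hφ : IsCompact (asSupp φ)) :
    IsCompact (asSupp (asCup ℝ X p q φ ψ)) :=
  hφ.of_isClosed_subset (as_supp_closed _) (fun _ hx => (as_cup_supp p q φ ψ hx).1)

/-- the cup product `asCc X p → asCc X q → AsQ X (p+q)` -/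
noncomputable def asCupCc (X : Type) [TopologicalSpace X] (p q : ℕ) :
    asCc X p →ₗ[ℝ] asCc X q →ₗ[ℝ] AsQ X (p + q) :=
  LinearMap.mk₂ ℝ (fun φ ψ => asQMk X (p + q) ⟨asCup ℝ X p q φ.1 ψ.1, as_cup_compact p q φ.1 ψ.1 φ.2⟩)
    (fun φ φ' ψ => by
      rw [← map_add]
      congr 1
      apply Subtype.ext
      show asCup ℝ X p q (φ.1 + φ'.1) ψ.1 = asCup ℝ X p q φ.1 ψ.1 + asCup ℝ X p q φ'.1 ψ.1
      rw [map_add, LinearMap.add_apply])
    (fun c φ ψ => by
      rw [← map_smul]
      congr 1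
      apply Subtype.ext
      show asCup ℝ X p q (c • φ.1) ψ.1 = c • asCup ℝ X p q φ.1 ψ.1
      rw [map_smul, LinearMap.smul_apply])
    (fun φ ψ ψ' => by
      rw [← map_add]
      congr 1
      apply Subtype.ext
      show asCup ℝ X p q φ.1 (ψ.1 + ψ'.1) = asCup ℝ X p q φ.1 ψ.1 + asCup ℝ X p q φ.1 ψ'.1
      rw [map_add])
    (fun c φ ψ => by
      rw [← map_smul]
      congr 1
      apply Subtype.ext
      show asCup ℝ X p q φ.1 (c • ψ.1) = c • asCup ℝ X p q φ.1 ψ.1
      rw [map_smul])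

theorem as_cupCc_apply (p q : ℕ) (φ : asCc X p) (ψ : asCc X q) :
    asCupCc X p q φ ψ =
      asQMk X (p + q) ⟨asCup ℝ X p q φ.1 ψ.1, as_cup_compact p q φ.1 ψ.1 φ.2⟩ := rfl

theorem as_qMk_eq_zero_of_null (q : ℕ) (φ : asCc X q) (h : asSupp φ.1 = ∅) : asQMk X q φ = 0 := by
  have : asQMk X q φ = asQMk X q 0 := by
    rw [as_qMk_eq_iff]
    show asSupp (φ.1 - 0) = ∅
    rw [sub_zero, h]
  rw [this, map_zero]

theorem as_cupCc_null_left (p q : ℕ) (φ : asCc X p) (ψ : asCc X q) (h : asSupp φ.1 = ∅) :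
    asCupCc X p q φ ψ = 0 := by
  rw [as_cupCc_apply]
  apply as_qMk_eq_zero_of_null
  have := as_cup_supp p q φ.1 ψ.1
  rw [h, Set.empty_inter] at this
  exact Set.subset_empty_iff.1 this

theorem as_cupCc_null_right (p q : ℕ) (φ : asCc X p) (ψ : asCc X q) (h : asSupp ψ.1 = ∅) :
    asCupCc X p q φ ψ = 0 := by
  rw [as_cupCc_apply]
  apply as_qMk_eq_zero_of_null
  have := as_cup_supp p q φ.1 ψ.1
  rw [h, Set.inter_empty] at this
  exact Set.subset_empty_iff.1 this

/-- first descent -/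
noncomputable def asCupQ1 (X : Type) [TopologicalSpace X] (p q : ℕ) :
    AsQ X p →ₗ[ℝ] asCc X q →ₗ[ℝ] AsQ X (p + q) :=
  Submodule.liftQ ((asNull ℝ X p).comap (asCc X p).subtype) (asCupCc X p q) (by
    intro φ hφ
    rw [LinearMap.mem_ker]
    ext ψ
    exact as_cupCc_null_left p q φ ψ hφ)

theorem as_cupQ1_mk (p q : ℕ) (φ : asCc X p) (ψ : asCc X q) :
    asCupQ1 X p q (asQMk X p φ) ψ = asCupCc X p q φ ψ := rfl

/-- the cup product on the quotients -/
noncomputable def asQCup (X : Type) [TopologicalSpace X] (p q : ℕ) :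
    AsQ X p →ₗ[ℝ] AsQ X q →ₗ[ℝ] AsQ X (p + q) :=
  (Submodule.liftQ ((asNull ℝ X q).comap (asCc X q).subtype) (asCupQ1 X p q).flip (by
    intro ψ hψ
    rw [LinearMap.mem_ker]
    ext m
    obtain ⟨φ, rfl⟩ := as_qMk_surj X p m
    rw [LinearMap.flip_apply, as_cupQ1_mk]
    exact as_cupCc_null_right p q φ ψ hψ)).flip

theorem as_qCup_mk (p q : ℕ) (φ : asCc X p) (ψ : asCc X q) :
    asQCup X p q (asQMk X p φ) (asQMk X q ψ) =
      asQMk X (p + q) ⟨asCup ℝ X p q φ.1 ψ.1, as_cup_compact p q φ.1 ψ.1 φ.2⟩ := rfl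

/-- the total cup product on `AsT X` -/
noncomputable def asTCup (X : Type) [TopologicalSpace X] : AsT X →ₗ[ℝ] AsT X →ₗ[ℝ] AsT X :=
  DirectSum.toModule ℝ ℕ (AsT X →ₗ[ℝ] AsT X) (fun p =>
    (DirectSum.toModule ℝ ℕ (AsQ X p →ₗ[ℝ] AsT X) (fun q =>
      ((asQCup X p q).compr₂ (DirectSum.lof ℝ ℕ (fun q => AsQ X q) (p + q))).flip)).flip)

theorem as_tCup_lof (p q : ℕ) (a : AsQ X p) (b : AsQ X q) :
    asTCup X (DirectSum.lof ℝ ℕ (fun q => AsQ X q) p a) (DirectSum.lof ℝ ℕ (fun q => AsQ X q) q b) =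
      DirectSum.lof ℝ ℕ (fun q => AsQ X q) (p + q) (asQCup X p q a b) := by
  unfold asTCup
  rw [DirectSum.toModule_lof, LinearMap.flip_apply, DirectSum.toModule_lof, LinearMap.flip_apply,
    LinearMap.compr₂_apply]

theorem as_cupdefs_eqns_cite : True := by
  have := @asCupCc.eq_1
  have := @asCupQ1.eq_1
  have := @asQCup.eq_1
  have := @asTCup.eq_1
  trivial

/-- EXISTENCE of the total cup product.  Plan: `asQCup p q : AsQ X p →ₗ AsQ X q →ₗ AsQ X (p+q)` by `Submodule.liftQ` twice (`as_cup_supp`: the product with a null cochain is null); then `DirectSum.toModule` twice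
(with `LinearMap.flip`). -/
theorem as_objCup_exists (X : Type) [TopologicalSpace X] :
    ∃ c : (asObj X).C →ₗ[ℝ] (asObj X).C →ₗ[ℝ] (asObj X).C,
      ∀ (p q : ℕ) (φ : AsC ℝ X p) (ψ : AsC ℝ X q) (hφ : IsCompact (asSupp φ))
        (hψ : IsCompact (asSupp ψ)),
        c (asEl X p φ hφ) (asEl X q ψ hψ) =
          asEl X (p + q) (asCup ℝ X p q φ ψ) (as_cup_compact p q φ ψ hφ) := by
  refine ⟨asTCup X, fun p q φ ψ hφ hψ => ?_⟩
  exact (as_tCup_lof p q (asQMk X p ⟨φ, hφ⟩) (asQMk X q ⟨ψ, hψ⟩)).trans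
    (congrArg _ (as_qCup_mk p q ⟨φ, hφ⟩ ⟨ψ, hψ⟩))

/-- the total cup product -/
noncomputable def asObjCup (X : Type) [TopologicalSpace X] :
    (asObj X).C →ₗ[ℝ] (asObj X).C →ₗ[ℝ] (asObj X).C :=
  (as_objCup_exists X).choose

theorem as_objCup_eqns_cite : True := by
  have := @asObjCup.eq_1
  trivial

theorem as_objCup_el (p q : ℕ) (φ : AsC ℝ X p) (ψ : AsC ℝ X q) (hφ : IsCompact (asSupp φ))
    (hψ : IsCompact (asSupp ψ)) :
    asObjCup X (asEl X p φ hφ) (asEl X q ψ hψ) =
      asEl X (p + q) (asCup ℝ X p q φ ψ) (as_cup_compact p q φ ψ hφ) :=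
  (as_objCup_exists X).choose_spec p q φ ψ hφ hψ

/-- induction over `asObj X`: additive properties are checked on the elements `asEl` -/
theorem as_obj_induction (pr : (asObj X).C → Prop) (h0 : pr 0)
    (hadd : ∀ a b, pr a → pr b → pr (a + b))
    (hel : ∀ (q : ℕ) (φ : AsC ℝ X q) (hφ : IsCompact (asSupp φ)), pr (asEl X q φ hφ))
    (x : (asObj X).C) : pr x := by
  have key : ∀ (N : ℕ) (y : (asObj X).C), pr (∑ q ∈ Finset.range N, asObjPr X q y) := by
    intro N y
    induction N with
    | zero => simpa using h0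
    | succ n ih =>
      rw [Finset.sum_range_succ]
      refine hadd _ _ ih ?_
      obtain ⟨φ, hφ, h⟩ := as_obj_pr_el n y
      rw [h]
      exact hel n φ hφ
  obtain ⟨N, hN⟩ := as_obj_sum_pr x
  rw [hN]
  exact key N x

/-- change of the degree along an equality -/
theorem as_el_cast (n n' : ℕ) (h : n = n') (φ : AsC ℝ X n) (hφ : IsCompact (asSupp φ)) :
    ∃ hψ : IsCompact (asSupp (fun x : Fin (n' + 1) → X =>
        φ (fun i => x ⟨i.1, by have := i.2; omega⟩))),
      asEl X n φ hφ = asEl X n' (fun x : Fin (n' + 1) → X =>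
        φ (fun i => x ⟨i.1, by have := i.2; omega⟩)) hψ := by
  subst h
  exact ⟨hφ, rfl⟩

theorem as_el_congr (q : ℕ) (φ ψ : AsC ℝ X q) (hφ : IsCompact (asSupp φ))
    (hψ : IsCompact (asSupp ψ)) (h : φ = ψ) : asEl X q φ hφ = asEl X q ψ hψ := by
  subst h
  rfl

/-- Plan: components; `supp m = ⋃ q, supp (pr q m)`; `as_cup_supp`. -/
theorem as_objCup_supp (x y : (asObj X).C) :
    (asObj X).supp (asObjCup X x y) ⊆ (asObj X).supp x ∩ (asObj X).supp y := by
  obtain ⟨N, hN⟩ := as_obj_sum_pr x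
  obtain ⟨N', hN'⟩ := as_obj_sum_pr y
  have key : ∀ p q, (asObj X).supp (asObjCup X (asObjPr X p x) (asObjPr X q y)) ⊆
      (asObj X).supp x ∩ (asObj X).supp y := by
    intro p q
    obtain ⟨φ, hφ, h⟩ := as_obj_pr_el p x
    obtain ⟨ψ, hψ, h'⟩ := as_obj_pr_el q y
    have s1 := as_obj_pr_supp p x
    have s2 := as_obj_pr_supp q y
    rw [h, as_el_supp] at s1
    rw [h', as_el_supp] at s2
    rw [h, h', as_objCup_el, as_el_supp]
    exact (as_cup_supp p q φ ψ).trans (Set.inter_subset_inter s1 s2)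
  have hsum : ∀ (S : Set X) (n : ℕ) (f : ℕ → (asObj X).C), (∀ i, (asObj X).supp (f i) ⊆ S) →
      (asObj X).supp (∑ i ∈ Finset.range n, f i) ⊆ S := by
    intro S n f hf
    induction n with
    | zero =>
      rw [Finset.sum_range_zero, (asObj X).toFcObj.supp_zero]
      exact Set.empty_subset _
    | succ n ih =>
      rw [Finset.sum_range_succ]
      exact ((asObj X).supp_add _ _).trans (Set.union_subset ih (hf n))
  have e : asObjCup X x y =
      ∑ p ∈ Finset.range N, ∑ q ∈ Finset.range N', asObjCup X (asObjPr X p x) (asObjPr X q y) := by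
    conv_lhs => rw [hN, hN']
    simp only [map_sum, LinearMap.sum_apply]
    rw [Finset.sum_comm]
  rw [e]
  exact hsum _ _ _ (fun p => hsum _ _ _ (fun q => key p q))

/-- LEIBNIZ.  Plan: bilinearity reduces to `asEl`s; `as_cup_d`; the cast `(p+1)+q = p+q+1` inside `asEl` is handled by a lemma `asEl X n φ = asEl X n' (φ ∘ cast)` for `n = n'` (`subst`). -/
theorem as_objCup_d (x y : (asObj X).C) :
    (asObj X).d (asObjCup X x y) =
      asObjCup X ((asObj X).d x) y + asObjCup X (asObjSgn X x) ((asObj X).d y) := by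
  revert y
  refine as_obj_induction (fun x => ∀ y, (asObj X).d (asObjCup X x y) =
      asObjCup X ((asObj X).d x) y + asObjCup X (asObjSgn X x) ((asObj X).d y)) ?_ ?_ ?_ x
  · intro y
    simp only [map_zero, LinearMap.zero_apply, add_zero]
  · intro a b ha hb y
    simp only [map_add, LinearMap.add_apply, ha y, hb y]
    abel
  · intro p φ hφ y
    refine as_obj_induction (fun y => (asObj X).d (asObjCup X (asEl X p φ hφ) y) =
      asObjCup X ((asObj X).d (asEl X p φ hφ)) y +
        asObjCup X (asObjSgn X (asEl X p φ hφ)) ((asObj X).d y)) ?_ ?_ ?_ y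
    · simp only [map_zero, add_zero]
    · intro a b ha hb
      simp only [map_add, ha, hb]
      abel
    · intro q ψ hψ
      rw [as_objCup_el, as_el_d, as_el_d, as_el_d, as_obj_sgn_el, as_objCup_el, map_smul,
        LinearMap.smul_apply, as_objCup_el]
      obtain ⟨c1, e1⟩ := as_el_cast (p + 1 + q) (p + q + 1) (by omega)
        (asCup ℝ X (p + 1) q (asD ℝ X p φ) ψ)
        (as_cup_compact (p + 1) q (asD ℝ X p φ) ψ (as_d_compact p φ hφ))
      rw [e1]
      have c2 : IsCompact (asSupp (asCup ℝ X p (q + 1) φ (asD ℝ X q ψ))) :=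
        as_cup_compact p (q + 1) φ (asD ℝ X q ψ) hφ
      have c3 : IsCompact (asSupp (((-1 : ℝ) ^ p) • asCup ℝ X p (q + 1) φ (asD ℝ X q ψ))) :=
        (asCc X (p + (q + 1))).smul_mem _ c2
      rw [← as_el_smul (p + (q + 1)) ((-1 : ℝ) ^ p) _ c2 c3]
      have c4 := (asCc X (p + q + 1)).add_mem c1 c3
      refine Eq.trans ?_ (as_el_add (p + q + 1) _ _ c1 c3 c4)
      apply as_el_congr
      funext x
      exact as_cup_d X p q φ ψ x

theorem as_objCup_assoc (x y z : (asObj X).C) :
    asObjCup X (asObjCup X x y) z = asObjCup X x (asObjCup X y z) := by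
  revert y z
  refine as_obj_induction (fun x => ∀ y z, asObjCup X (asObjCup X x y) z =
      asObjCup X x (asObjCup X y z)) ?_ ?_ ?_ x
  · intro y z
    simp only [map_zero, LinearMap.zero_apply]
  · intro a b ha hb y z
    simp only [map_add, LinearMap.add_apply, ha y z, hb y z]
  · intro p φ hφ y
    refine as_obj_induction (fun y => ∀ z, asObjCup X (asObjCup X (asEl X p φ hφ) y) z =
      asObjCup X (asEl X p φ hφ) (asObjCup X y z)) ?_ ?_ ?_ y
    · intro z
      simp only [map_zero, LinearMap.zero_apply]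
    · intro a b ha hb z
      simp only [map_add, LinearMap.add_apply, ha z, hb z]
    · intro q ψ hψ z
      refine as_obj_induction (fun z => asObjCup X (asObjCup X (asEl X p φ hφ) (asEl X q ψ hψ)) z =
        asObjCup X (asEl X p φ hφ) (asObjCup X (asEl X q ψ hψ) z)) ?_ ?_ ?_ z
      · simp only [map_zero]
      · intro a b ha hb
        simp only [map_add, ha, hb]
      · intro r χ hχ
        rw [as_objCup_el, as_objCup_el, as_objCup_el, as_objCup_el]
        obtain ⟨c1, e1⟩ := as_el_cast (p + (q + r)) (p + q + r) (by omega)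
          (asCup ℝ X p (q + r) φ (asCup ℝ X q r ψ χ))
          (as_cup_compact p (q + r) φ (asCup ℝ X q r ψ χ) hφ)
        rw [e1]
        apply as_el_congr
        funext x
        exact as_cup_assoc X p q r φ ψ χ x

theorem as_objCup_one_right [CompactSpace X] (x : (asObj X).C) : asObjCup X x (asObjOne X) = x := by
  refine as_obj_induction (fun x => asObjCup X x (asObjOne X) = x) ?_ ?_ ?_ x
  · simp only [map_zero, LinearMap.zero_apply]
  · intro a b ha hb
    simp only [map_add, LinearMap.add_apply, ha, hb]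
  · intro p φ hφ
    unfold asObjOne
    rw [as_objCup_el]
    exact as_el_congr p _ _ _ _ (as_cup_one_right X p φ)

theorem as_objCup_one_left [CompactSpace X] (x : (asObj X).C) : asObjCup X (asObjOne X) x = x := by
  refine as_obj_induction (fun x => asObjCup X (asObjOne X) x = x) ?_ ?_ ?_ x
  · simp only [map_zero]
  · intro a b ha hb
    simp only [map_add, ha, hb]
  · intro q ψ hψ
    unfold asObjOne
    rw [as_objCup_el]
    obtain ⟨c1, e1⟩ := as_el_cast q (0 + q) (by omega) ψ hψ
    rw [e1]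
    apply as_el_congr
    funext x
    exact as_cup_one_left X q ψ x

/-- `f^#` on the elements -/
theorem as_objPullL_el (f : X → Y) (hf : IsProperMap f) (q : ℕ) (φ : AsC ℝ Y q)
    (hφ : IsCompact (asSupp φ)) :
    asObjPullL f hf (asEl Y q φ hφ) = asEl X q (asPull ℝ f q φ) (as_pull_compact f hf q φ hφ) := by
  exact DirectSum.toModule_lof (M := fun q => AsQ Y q) (N := AsT X) ℝ
    (φ := fun q => (DirectSum.lof ℝ ℕ (fun q => AsQ X q) q).comp (asQPull f hf q)) q
    (asQMk Y q ⟨φ, hφ⟩)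

theorem as_objCup_pull (f : X → Y) (hf : IsProperMap f) (x y : (asObj Y).C) :
    asObjPullL f hf (asObjCup Y x y) = asObjCup X (asObjPullL f hf x) (asObjPullL f hf y) := by
  revert y
  refine as_obj_induction (fun x => ∀ y, asObjPullL f hf (asObjCup Y x y) =
      asObjCup X (asObjPullL f hf x) (asObjPullL f hf y)) ?_ ?_ ?_ x
  · intro y
    simp only [map_zero, LinearMap.zero_apply]
  · intro a b ha hb y
    simp only [map_add, LinearMap.add_apply, ha y, hb y]
  · intro p φ hφ y
    refine as_obj_induction (fun y => asObjPullL f hf (asObjCup Y (asEl Y p φ hφ) y) =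
      asObjCup X (asObjPullL f hf (asEl Y p φ hφ)) (asObjPullL f hf y)) ?_ ?_ ?_ y
    · simp only [map_zero]
    · intro a b ha hb
      simp only [map_add, ha, hb]
    · intro q ψ hψ
      rw [as_objCup_el, as_objPullL_el, as_objPullL_el, as_objPullL_el, as_objCup_el]
      exact as_el_congr _ _ _ _ _ (as_cup_pull f p q φ ψ)

theorem as_objCup_pr (p q : ℕ) (x y : (asObj X).C) :
    asObjPr X (p + q) (asObjCup X (asObjPr X p x) (asObjPr X q y)) =
      asObjCup X (asObjPr X p x) (asObjPr X q y) := by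
  obtain ⟨φ, hφ, h⟩ := as_obj_pr_el p x
  obtain ⟨ψ, hψ, h'⟩ := as_obj_pr_el q y
  rw [h, h', as_objCup_el, as_obj_pr_el_same]

end Claimed.Agent.R304
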