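/-
Row 304 (S0559).  Owner: helper138.  PACKAGE AsSusp (~1300 lines): THE SUSPENSION ISOMORPHISM for compact pairs
      `AsH k P A q  ≃  AsH k (P × I) (A × I ∪ P × {0,1}) (q+1)`          (`P` compact Hausdorff, `A` closed),
induced by the explicit cochain map `σ φ = δ (1_{t<1/2} · π^# φ)`.
NOTATION: `U = Aᶜ`, `π = Prod.fst`, `σ_t = asSlice P t`, `W₁ = U × (0,1)`, `W₂ = U × [0,1)`, `E = {t < 1/2}`.
-/
import Claimed.Agent.R304.AsExact

set_option autoImplicit false

namespace Claimed.Agent.R304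

open Topology

/-- `A × I ∪ P × {0,1}` -/
def asSuspSet {P : Type} (A : Set P) : Set (P × unitInterval) := {y | y.1 ∈ A ∨ y.2 = 0 ∨ y.2 = 1}

/-- the lower half of the cylinder -/
def asLower (P : Type) : Set (P × unitInterval) := {y | ((y.2 : unitInterval) : ℝ) < 1 / 2}

/-- the suspension on cochains -/
noncomputable def asSig (k : Type) [Field k] (P : Type) (q : ℕ) :
    AsC k P q →ₗ[k] AsC k (P × unitInterval) (q + 1) :=
  (asD k (P × unitInterval) q).comp ((asCut k (asLower P) q).comp (asPull k Prod.fst q))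

theorem as_susp_eqns_cite : True := by
  have := @asSuspSet.eq_1
  have := @asLower.eq_1
  have := @asSig.eq_1
  trivial

variable {k : Type} [Field k]

/-! ### small tools -/

theorem as_supp_subset_of_sub_null {P : Type} [TopologicalSpace P] {q : ℕ} (φ ψ : AsC k P q)
    (h : asSupp (φ - ψ) = ∅) : asSupp φ ⊆ asSupp ψ := by
  intro x hx
  have e : φ = (φ - ψ) + ψ := by abel
  rw [e] at hx
  rcases as_supp_add _ _ hx with h1 | h1
  · rw [h] at h1; exact h1.elim
  · exact h1

theorem as_supp_subset_of_sub_null' {P : Type} [TopologicalSpace P] {q : ℕ} (φ ψ : AsC k P q)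
    (h : asSupp (φ - ψ) = ∅) : asSupp ψ ⊆ asSupp φ := by
  intro x hx
  have e : ψ = φ - (φ - ψ) := by abel
  rw [e] at hx
  rcases as_supp_sub _ _ hx with h1 | h1
  · exact h1
  · rw [h] at h1; exact h1.elim

theorem as_supp_eq_empty_of_cut {P : Type} [TopologicalSpace P] (E : Set P) {q : ℕ} (φ : AsC k P q)
    (h : asSupp φ = ∅) : asSupp (asCut k E q φ) = ∅ := by
  have := as_supp_cut E φ
  rw [h, Set.empty_inter] at this
  exact Set.subset_empty_iff.1 this

/-- the pull back to a slice which the support avoids is null -/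
theorem as_slice_null (P : Type) [TopologicalSpace P] (t : unitInterval) {q : ℕ}
    (m : AsC k (P × unitInterval) q) (h : ∀ y ∈ asSupp m, y.2 ≠ t) :
    asSupp (asPull k (asSlice P t) q m) = ∅ := by
  rw [Set.eq_empty_iff_forall_notMem]
  intro x hx
  exact h _ (as_supp_pull (asSlice P t) (as_slice_cont P t) m hx) rfl

theorem as_slice_supp (P : Type) [TopologicalSpace P] (t : unitInterval) {q : ℕ}
    (m : AsC k (P × unitInterval) q) (x : P) (hx : x ∈ asSupp (asPull k (asSlice P t) q m)) :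
    (x, t) ∈ asSupp m :=
  as_supp_pull (asSlice P t) (as_slice_cont P t) m hx

theorem as_range_slice (P : Type) (t : unitInterval) :
    Set.range (asSlice P t) = {y : P × unitInterval | y.2 = t} := by
  ext y
  constructor
  · rintro ⟨x, rfl⟩; rfl
  · intro hy
    exact ⟨y.1, Prod.ext rfl (Eq.symm hy)⟩

theorem as_range_slice_closed (P : Type) [TopologicalSpace P] (t : unitInterval) :
    IsClosed (Set.range (asSlice P t)) := by
  rw [as_range_slice]
  exact isClosed_singleton.preimage continuous_snd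

theorem as_pull_fst_supp (P : Type) [TopologicalSpace P] {q : ℕ} (φ : AsC k P q)
    (y : P × unitInterval) (hy : y ∈ asSupp (asPull k (Prod.fst : P × unitInterval → P) q φ)) :
    y.1 ∈ asSupp φ :=
  as_supp_pull Prod.fst continuous_fst φ hy

theorem as_lower_closure (P : Type) [TopologicalSpace P] (y : P × unitInterval)
    (hy : y ∈ closure (asLower P)) : ((y.2 : unitInterval) : ℝ) ≤ 1 / 2 := by
  have hc : IsClosed {y : P × unitInterval | ((y.2 : unitInterval) : ℝ) ≤ 1 / 2} :=
    isClosed_le (continuous_subtype_val.comp continuous_snd) continuous_const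
  have hs : asLower P ⊆ {y : P × unitInterval | ((y.2 : unitInterval) : ℝ) ≤ 1 / 2} :=
    fun y (hy : ((y.2 : unitInterval) : ℝ) < 1 / 2) =>
      show ((y.2 : unitInterval) : ℝ) ≤ 1 / 2 from le_of_lt hy
  exact closure_minimal hs hc hy

/-- support of `1_E π^# φ` -/
theorem as_cut_pull_supp (P : Type) [TopologicalSpace P] {q : ℕ} (φ : AsC k P q)
    (y : P × unitInterval)
    (hy : y ∈ asSupp (asCut k (asLower P) q (asPull k Prod.fst q φ))) :
    y.1 ∈ asSupp φ ∧ ((y.2 : unitInterval) : ℝ) ≤ 1 / 2 := by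
  have h := as_supp_cut (asLower P) _ hy
  exact ⟨as_pull_fst_supp P φ y h.1, as_lower_closure P y h.2⟩

theorem as_suspSet_closed {P : Type} [TopologicalSpace P] (A : Set P) (hA : IsClosed A) :
    IsClosed (asSuspSet A) := by
  have e : asSuspSet A = Prod.fst ⁻¹' A ∪ (Prod.snd ⁻¹' {0} ∪ Prod.snd ⁻¹' {1}) := by
    ext y; rfl
  rw [e]
  exact (hA.preimage continuous_fst).union
    ((isClosed_singleton.preimage continuous_snd).union (isClosed_singleton.preimage continuous_snd))

/-- (S1₀) a cocycle of degree `0` supported in `P × [0,1)` is zero. -/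
theorem as_half_zero (P : Type) [TopologicalSpace P] [CompactSpace P] [T2Space P]
    (c : AsC k (P × unitInterval) 0) (hc : ∀ y ∈ asSupp c, y.2 ≠ (1 : unitInterval))
    (hd : asSupp (asD k (P × unitInterval) 0 c) = ∅) : c = 0 :=
  as_vb_zero P 1 c (as_deg0_null _ (as_slice_null P 1 c hc)) hd

/-- (S1) THE HALF-OPEN CYLINDER `U × [0,1)` IS ACYCLIC. -/
theorem as_half (P : Type) [TopologicalSpace P] [CompactSpace P] [T2Space P] (U : Set P)
    (hU : IsOpen U) (q : ℕ) (m : AsC k (P × unitInterval) (q + 1))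
    (hm : ∀ y ∈ asSupp m, y.1 ∈ U ∧ y.2 ≠ (1 : unitInterval))
    (hd : asSupp (asD k (P × unitInterval) (q + 1) m) = ∅) :
    ∃ a : AsC k (P × unitInterval) q, (∀ y ∈ asSupp a, y.1 ∈ U ∧ y.2 ≠ (1 : unitInterval)) ∧
      asSupp (m - asD k (P × unitInterval) q a) = ∅ := by
  set n : AsC k (P × unitInterval) (q + 1) :=
    asPull k Prod.fst (q + 1) (asPull k (asSlice P 1) (q + 1) m) with hn
  have hn0 : asSupp n = ∅ :=
    as_supp_eq_empty_of_pull Prod.fst continuous_fst _ (as_slice_null P 1 m fun y hy => (hm y hy).2)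
  have h0 : asPull k (asSlice P 1) (q + 1) (m - n) = 0 := by
    rw [map_sub, hn, ← as_pull_comp]
    have : (Prod.fst ∘ asSlice P 1 : P → P) = id := rfl
    rw [this, as_pull_id, sub_self]
  have hsub : asSupp (m - n) ⊆ asSupp m := by
    intro y hy
    rcases as_supp_sub _ _ hy with h1 | h1
    · exact h1
    · rw [hn0] at h1; exact h1.elim
  have hmU : Prod.fst '' asSupp (m - n) ⊆ U := by
    rintro _ ⟨y, hy, rfl⟩
    exact (hm y (hsub hy)).1
  have hd' : asSupp (asD k (P × unitInterval) (q + 1) (m - n)) = ∅ := by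
    rw [map_sub]
    exact as_supp_eq_empty_of_sub _ _ hd (as_supp_eq_empty_of_d n hn0)
  obtain ⟨a₀, ha0, haU, hnull⟩ := as_vb P 1 U hU q (m - n) h0 hmU hd'
  have hnull' : asSupp (m - asD k (P × unitInterval) q a₀) = ∅ := by
    have e : m - asD k (P × unitInterval) q a₀ = (m - n - asD k (P × unitInterval) q a₀) + n := by
      abel
    rw [e]
    exact as_supp_eq_empty_of_add _ _ hnull hn0
  have hrel : a₀ ∈ asRelSub k (P × unitInterval) (Set.range (asSlice P 1)) q :=
    (as_relSub_range (asSlice P 1) q a₀).2 ha0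
  have hdis : Disjoint (asSupp (asD k (P × unitInterval) q a₀)) (Set.range (asSlice P 1)) := by
    rw [Set.disjoint_left]
    rintro y hy ⟨x, rfl⟩
    exact (hm _ (as_supp_subset_of_sub_null' _ _ hnull' hy)).2 rfl
  cases q with
  | zero =>
    have h1 := as_taut_zero (P × unitInterval) (Set.range (asSlice P 1)) a₀ hrel hdis
    refine ⟨a₀, fun y hy => ⟨haU ⟨y, hy, rfl⟩, fun h => ?_⟩, hnull'⟩
    exact Set.disjoint_left.1 h1 hy ⟨y.1, Prod.ext rfl h.symm⟩
  | succ q =>
    obtain ⟨b, -, hbU, hb⟩ := as_taut (P × unitInterval) (Set.range (asSlice P 1)) (Prod.fst ⁻¹' U)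
      (as_range_slice_closed P 1) (hU.preimage continuous_fst) q a₀ hrel
      (fun y hy => haU ⟨y, hy, rfl⟩) hdis
    refine ⟨a₀ - asD k (P × unitInterval) q b, fun y hy => ⟨?_, fun h => ?_⟩, ?_⟩
    · rcases as_supp_sub _ _ hy with h1 | h1
      · exact haU ⟨y, h1, rfl⟩
      · exact hbU (as_supp_d b h1)
    · exact Set.disjoint_left.1 hb hy ⟨y.1, Prod.ext rfl h.symm⟩
    · rw [map_sub, as_d_d, sub_zero]
      exact hnull'

/-- `frontier (asLower P) ⊆ {t = 1/2}` -/
theorem as_lower_frontier (P : Type) [TopologicalSpace P] (y : P × unitInterval)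
    (hy : y ∈ frontier (asLower P)) : ((y.2 : unitInterval) : ℝ) = 1 / 2 :=
  frontier_lt_subset_eq (f := fun y : P × unitInterval => ((y.2 : unitInterval) : ℝ))
    (g := fun _ => (1 / 2 : ℝ)) (continuous_subtype_val.comp continuous_snd) continuous_const hy

/-- `σ_0^# (1_E · π^# φ) = φ` -/
theorem as_slice_cut_pull (P : Type) (q : ℕ) (φ : AsC k P q) :
    asPull k (asSlice P 0) q (asCut k (asLower P) q (asPull k Prod.fst q φ)) = φ := by
  funext x
  have h : asSlice P 0 (x 0) ∈ asLower P := by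
    show (((0 : unitInterval) : unitInterval) : ℝ) < 1 / 2
    norm_num
  show asCut k (asLower P) q (asPull k Prod.fst q φ) (fun j => asSlice P 0 (x j)) = φ x
  rw [as_cut_apply, if_pos h]
  rfl

/-- the commutator `[δ, 1_E] π^# ψ` -/
theorem as_comm_supp (P : Type) [TopologicalSpace P] (q : ℕ) (ψ : AsC k P q) (y : P × unitInterval)
    (hy : y ∈ asSupp (asD k (P × unitInterval) q (asCut k (asLower P) q (asPull k Prod.fst q ψ))
      - asCut k (asLower P) (q + 1) (asD k (P × unitInterval) q (asPull k Prod.fst q ψ)))) :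
    y.1 ∈ asSupp ψ ∧ ((y.2 : unitInterval) : ℝ) = 1 / 2 := by
  have h := as_supp_comm_cut (asLower P) (asPull k Prod.fst q ψ) hy
  exact ⟨as_pull_fst_supp P ψ y h.1, as_lower_frontier P y h.2⟩

/-- (S2a) support of `σ φ`: if `δ φ` is null, `asSupp (σ φ) ⊆ asSupp φ × {1/2}`. -/
theorem as_sig_supp (P : Type) [TopologicalSpace P] (q : ℕ) (φ : AsC k P q)
    (hd : asSupp (asD k P q φ) = ∅) (y : P × unitInterval) (hy : y ∈ asSupp (asSig k P q φ)) :
    y.1 ∈ asSupp φ ∧ ((y.2 : unitInterval) : ℝ) = 1 / 2 := by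
  have hnull : asSupp (asCut k (asLower P) (q + 1)
      (asD k (P × unitInterval) q (asPull k Prod.fst q φ))) = ∅ := by
    rw [← as_pull_d]
    exact as_supp_eq_empty_of_cut _ _ (as_supp_eq_empty_of_pull Prod.fst continuous_fst _ hd)
  apply as_comm_supp P q φ y
  have e : asSig k P q φ = (asD k (P × unitInterval) q (asCut k (asLower P) q (asPull k Prod.fst q φ))
      - asCut k (asLower P) (q + 1) (asD k (P × unitInterval) q (asPull k Prod.fst q φ)))
      + asCut k (asLower P) (q + 1) (asD k (P × unitInterval) q (asPull k Prod.fst q φ)) := by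
    rw [sub_add_cancel]; rfl
  rw [e] at hy
  rcases as_supp_add _ _ hy with h1 | h1
  · exact h1
  · rw [hnull] at h1; exact h1.elim

/-- a point at height `1/2` over the complement of `A` is not in `asSuspSet A` -/
theorem as_not_mem_suspSet {P : Type} (A : Set P) (y : P × unitInterval) (h1 : y.1 ∉ A)
    (h2 : ((y.2 : unitInterval) : ℝ) = 1 / 2) : y ∉ asSuspSet A := by
  rintro (h | h | h)
  · exact h1 h
  · rw [h] at h2; norm_num at h2
  · rw [h] at h2; norm_num at h2

theorem as_sig_d (P : Type) (q : ℕ) (φ : AsC k P q) :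
    asD k (P × unitInterval) (q + 1) (asSig k P q φ) = 0 :=
  as_d_d _ _ _

theorem as_sig_null (P : Type) [TopologicalSpace P] (q : ℕ) (η : AsC k P q) (h : asSupp η = ∅) :
    asSupp (asSig k P q η) = ∅ :=
  as_supp_eq_empty_of_d _ (as_supp_eq_empty_of_cut _ _
    (as_supp_eq_empty_of_pull Prod.fst continuous_fst _ h))

theorem as_sig_Z (P : Type) [TopologicalSpace P] (A : Set P) (q : ℕ) (φ : AsC k P q)
    (h : φ ∈ asZ k P A q) : asSig k P q φ ∈ asZ k (P × unitInterval) (asSuspSet A) (q + 1) := by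
  rw [as_mem_Z_iff] at h ⊢
  refine ⟨?_, ?_⟩
  · rw [Set.disjoint_left]
    intro y hy
    obtain ⟨h1, h2⟩ := as_sig_supp P q φ h.2 y hy
    exact as_not_mem_suspSet A y (Set.disjoint_left.1 h.1 h1) h2
  · rw [as_sig_d]
    exact as_supp_zero _

/-- (S2b) -/
theorem as_sig_B (P : Type) [TopologicalSpace P] (A : Set P) (q : ℕ) (φ : AsC k P q)
    (h : φ ∈ asB k P A q) : asSig k P q φ ∈ asB k (P × unitInterval) (asSuspSet A) (q + 1) := by
  cases q with
  | zero =>
    rw [as_mem_B_zero] at h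
    rw [h, map_zero]
    exact Submodule.zero_mem _
  | succ q =>
    rw [as_mem_B_succ] at h ⊢
    obtain ⟨ψ, hψ, hη⟩ := h
    set κ : AsC k (P × unitInterval) (q + 1) :=
      asD k (P × unitInterval) q (asCut k (asLower P) q (asPull k Prod.fst q ψ))
      - asCut k (asLower P) (q + 1) (asD k (P × unitInterval) q (asPull k Prod.fst q ψ)) with hκ
    refine ⟨-κ, ?_, ?_⟩
    · rw [Set.disjoint_left]
      intro y hy
      obtain ⟨h1, h2⟩ := as_comm_supp P q ψ y (as_supp_neg κ hy)
      exact as_not_mem_suspSet A y (Set.disjoint_left.1 hψ h1) h2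
    · have e1 : asSig k P (q + 1) (asD k P q ψ) = asD k (P × unitInterval) (q + 1) (-κ) := by
        rw [map_neg, hκ, map_sub, as_d_d, zero_sub, neg_neg, ← as_pull_d]
        rfl
      have e2 : asSig k P (q + 1) φ - asD k (P × unitInterval) (q + 1) (-κ)
          = asSig k P (q + 1) (φ - asD k P q ψ) := by
        rw [map_sub, e1]
      rw [e2]
      exact as_sig_null P (q + 1) _ hη

/-- points off `asSuspSet A` -/
theorem as_off_suspSet {P : Type} (A : Set P) (y : P × unitInterval) (h : y ∉ asSuspSet A) :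
    y.1 ∈ Aᶜ ∧ y.2 ≠ 0 ∧ y.2 ≠ 1 :=
  ⟨fun h1 => h (Or.inl h1), fun h1 => h (Or.inr (Or.inl h1)), fun h1 => h (Or.inr (Or.inr h1))⟩

theorem as_ne_one_of_le_half (t : unitInterval) (h : (t : ℝ) ≤ 1 / 2) : t ≠ 1 := by
  rintro rfl
  norm_num at h

/-- (S3) INJECTIVITY. -/
theorem as_sig_inj (P : Type) [TopologicalSpace P] [CompactSpace P] [T2Space P] (A : Set P)
    (hA : IsClosed A) (q : ℕ) (m₀ : AsC k P q) (h : m₀ ∈ asZ k P A q)
    (hB : asSig k P q m₀ ∈ asB k (P × unitInterval) (asSuspSet A) (q + 1)) : m₀ ∈ asB k P A q := by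
  rw [as_mem_Z_iff] at h
  rw [as_mem_B_succ] at hB
  obtain ⟨s, hs, hnull⟩ := hB
  set c : AsC k (P × unitInterval) q := asCut k (asLower P) q (asPull k Prod.fst q m₀) - s with hc
  have hcd : asSupp (asD k (P × unitInterval) q c) = ∅ := by
    rw [hc, map_sub]; exact hnull
  have hcs : ∀ y ∈ asSupp c, y.1 ∈ Aᶜ ∧ y.2 ≠ (1 : unitInterval) := by
    intro y hy
    rcases as_supp_sub _ _ hy with h1 | h1
    · obtain ⟨h2, h3⟩ := as_cut_pull_supp P m₀ y h1
      exact ⟨Set.disjoint_left.1 h.1 h2, as_ne_one_of_le_half _ h3⟩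
    · obtain ⟨h2, -, h3⟩ := as_off_suspSet A y (Set.disjoint_left.1 hs h1)
      exact ⟨h2, h3⟩
  have hs0 : asSupp (asPull k (asSlice P 0) q s) = ∅ :=
    as_slice_null P 0 s fun y hy => (as_off_suspSet A y (Set.disjoint_left.1 hs hy)).2.1
  have hc0 : asPull k (asSlice P 0) q c = m₀ - asPull k (asSlice P 0) q s := by
    rw [hc, map_sub, as_slice_cut_pull]
  cases q with
  | zero =>
    rw [as_mem_B_zero]
    have hz := as_half_zero P c (fun y hy => (hcs y hy).2) hcd
    rw [hz, map_zero, as_deg0_null _ hs0, sub_zero] at hc0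
    exact hc0.symm
  | succ q =>
    rw [as_mem_B_succ]
    obtain ⟨b, hb, hbn⟩ := as_half P Aᶜ hA.isOpen_compl q c hcs hcd
    refine ⟨asPull k (asSlice P 0) q b, ?_, ?_⟩
    · rw [Set.disjoint_left]
      intro x hx hxA
      exact (hb _ (as_slice_supp P 0 b x hx)).1 hxA
    · have e : m₀ - asD k P q (asPull k (asSlice P 0) q b)
          = asPull k (asSlice P 0) (q + 1) (c - asD k (P × unitInterval) q b)
            + asPull k (asSlice P 0) (q + 1) s := by
        rw [map_sub, hc0, as_pull_d]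
        abel
      rw [e]
      exact as_supp_eq_empty_of_add _ _
        (as_supp_eq_empty_of_pull _ (as_slice_cont P 0) _ hbn) hs0

/-- (S4) SURJECTIVITY. -/
theorem as_sig_surj (P : Type) [TopologicalSpace P] [CompactSpace P] [T2Space P] (A : Set P)
    (hA : IsClosed A) (q : ℕ) (w : AsC k (P × unitInterval) (q + 1))
    (h : w ∈ asZ k (P × unitInterval) (asSuspSet A) (q + 1)) :
    ∃ m₀ ∈ asZ k P A q, w - asSig k P q m₀ ∈ asB k (P × unitInterval) (asSuspSet A) (q + 1) := by
  rw [as_mem_Z_iff] at h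
  have hw : ∀ y ∈ asSupp w, y.1 ∈ Aᶜ ∧ y.2 ≠ 0 ∧ y.2 ≠ 1 :=
    fun y hy => as_off_suspSet A y (Set.disjoint_left.1 h.1 hy)
  obtain ⟨v, hv, hvn⟩ := as_half P Aᶜ hA.isOpen_compl q w
    (fun y hy => ⟨(hw y hy).1, (hw y hy).2.2⟩) h.2
  set m₀ : AsC k P q := asPull k (asSlice P 0) q v with hm₀
  have hm₀s : ∀ x ∈ asSupp m₀, x ∈ Aᶜ := fun x hx => (hv _ (as_slice_supp P 0 v x hx)).1
  have hm₀d : asSupp (asD k P q m₀) = ∅ := by
    have e : asD k P q m₀ = asPull k (asSlice P 0) (q + 1) w
        - asPull k (asSlice P 0) (q + 1) (w - asD k (P × unitInterval) q v) := by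
      rw [map_sub, as_pull_d]
      abel
    rw [e]
    exact as_supp_eq_empty_of_sub _ _ (as_slice_null P 0 w fun y hy => (hw y hy).2.1)
      (as_supp_eq_empty_of_pull _ (as_slice_cont P 0) _ hvn)
  have hm₀Z : m₀ ∈ asZ k P A q := by
    rw [as_mem_Z_iff]
    exact ⟨Set.disjoint_left.2 fun x hx hxA => hm₀s x hx hxA, hm₀d⟩
  refine ⟨m₀, hm₀Z, ?_⟩
  set y₀ : AsC k (P × unitInterval) q := v - asCut k (asLower P) q (asPull k Prod.fst q m₀) with hy₀
  have hy0 : asPull k (asSlice P 0) q y₀ = 0 := by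
    rw [hy₀, map_sub, as_slice_cut_pull, sub_self]
  have hys : ∀ y ∈ asSupp y₀, y.1 ∈ Aᶜ ∧ y.2 ≠ (1 : unitInterval) := by
    intro y hy
    rcases as_supp_sub _ _ hy with h1 | h1
    · exact hv y h1
    · obtain ⟨h2, h3⟩ := as_cut_pull_supp P m₀ y h1
      exact ⟨hm₀s _ h2, as_ne_one_of_le_half _ h3⟩
  have hyd : asD k (P × unitInterval) q y₀ = asD k (P × unitInterval) q v - asSig k P q m₀ := by
    rw [hy₀, map_sub]; rfl
  have hdis : Disjoint (asSupp (asD k (P × unitInterval) q y₀)) (Set.range (asSlice P 0)) := by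
    rw [Set.disjoint_left]
    rintro y hy ⟨x, rfl⟩
    rw [hyd] at hy
    rcases as_supp_sub _ _ hy with h1 | h1
    · exact (hw _ (as_supp_subset_of_sub_null' _ _ hvn h1)).2.1 rfl
    · have := (as_sig_supp P q m₀ hm₀d _ h1).2
      have h0 : (((asSlice P 0 x).2 : unitInterval) : ℝ) = 0 := rfl
      rw [h0] at this
      norm_num at this
  have hrel : y₀ ∈ asRelSub k (P × unitInterval) (Set.range (asSlice P 0)) q :=
    (as_relSub_range (asSlice P 0) q y₀).2 hy0
  have hfin : ∀ s : AsC k (P × unitInterval) q,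
      (∀ y ∈ asSupp s, y.1 ∈ Aᶜ ∧ y.2 ≠ (1 : unitInterval)) →
      Disjoint (asSupp s) (Set.range (asSlice P 0)) →
      asD k (P × unitInterval) q s = asD k (P × unitInterval) q y₀ →
      w - asSig k P q m₀ ∈ asB k (P × unitInterval) (asSuspSet A) (q + 1) := by
    intro s hs1 hs2 hs3
    rw [as_mem_B_succ]
    refine ⟨s, ?_, ?_⟩
    · rw [Set.disjoint_left]
      rintro y hy (hyA | hy0 | hy1)
      · exact (hs1 y hy).1 hyA
      · exact Set.disjoint_left.1 hs2 hy ⟨y.1, Prod.ext rfl hy0.symm⟩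
      · exact (hs1 y hy).2 hy1
    · rw [hs3, hyd]
      have e : w - asSig k P q m₀ - (asD k (P × unitInterval) q v - asSig k P q m₀)
          = w - asD k (P × unitInterval) q v := by abel
      rw [e]
      exact hvn
  cases q with
  | zero =>
    exact hfin y₀ hys (as_taut_zero (P × unitInterval) (Set.range (asSlice P 0)) y₀ hrel hdis) rfl
  | succ q =>
    have hO : IsOpen {y : P × unitInterval | y.1 ∈ Aᶜ ∧ y.2 ≠ (1 : unitInterval)} :=
      (hA.isOpen_compl.preimage continuous_fst).inter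
        ((isClosed_singleton (x := (1 : unitInterval))).isOpen_compl.preimage continuous_snd)
    obtain ⟨a, -, haO, ha⟩ := as_taut (P × unitInterval) (Set.range (asSlice P 0))
      {y : P × unitInterval | y.1 ∈ Aᶜ ∧ y.2 ≠ (1 : unitInterval)}
      (as_range_slice_closed P 0) hO q y₀ hrel hys hdis
    refine hfin (y₀ - asD k (P × unitInterval) q a) ?_ ha ?_
    · intro y hy
      rcases as_supp_sub _ _ hy with h1 | h1
      · exact hys y h1
      · exact haO (as_supp_d a h1)
    · rw [map_sub, as_d_d, sub_zero]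

/-- the suspension on cohomology -/
noncomputable def asSigH (k : Type) [Field k] (P : Type) [TopologicalSpace P] (A : Set P) (q : ℕ) :
    AsH k P A q →ₗ[k] AsH k (P × unitInterval) (asSuspSet A) (q + 1) :=
  Submodule.mapQ _ _ ((asSig k P q).restrict (fun φ h => as_sig_Z P A q φ h))
    (fun φ h => as_sig_B P A q φ.1 h)

theorem as_sigH_eqns_cite : True := by
  have := @asSigH.eq_1
  trivial

theorem as_sigH_cls (P : Type) [TopologicalSpace P] (A : Set P) (q : ℕ) (φ : asZ k P A q) :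
    asSigH k P A q (asCls k P A q φ)
      = asCls k (P × unitInterval) (asSuspSet A) (q + 1) ⟨asSig k P q φ.1, as_sig_Z P A q φ.1 φ.2⟩ :=
  rfl

/-- EXPORT. -/
theorem as_susp (P : Type) [TopologicalSpace P] [CompactSpace P] [T2Space P] (A : Set P)
    (hA : IsClosed A) (q : ℕ) :
    Nonempty (AsH k P A q ≃ₗ[k] AsH k (P × unitInterval) (asSuspSet A) (q + 1)) := by
  refine ⟨LinearEquiv.ofBijective (asSigH k P A q) ⟨?_, ?_⟩⟩
  · rw [← LinearMap.ker_eq_bot, LinearMap.ker_eq_bot']
    intro u hu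
    obtain ⟨φ, rfl⟩ := as_cls_surj P A q u
    rw [as_sigH_cls, as_cls_eq_zero] at hu
    rw [as_cls_eq_zero]
    exact as_sig_inj P A hA q φ.1 φ.2 hu
  · intro u
    obtain ⟨w, rfl⟩ := as_cls_surj (P × unitInterval) (asSuspSet A) (q + 1) u
    obtain ⟨m₀, hm₀, hB⟩ := as_sig_surj P A hA q w.1 w.2
    refine ⟨asCls k P A q ⟨m₀, hm₀⟩, ?_⟩
    rw [as_sigH_cls, as_cls_eq_iff]
    have := Submodule.neg_mem _ hB
    rwa [neg_sub] at this

/-- degree `0` of a suspension vanishes. -/
theorem as_susp_zero (P : Type) [TopologicalSpace P] [CompactSpace P] [T2Space P] (A : Set P)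
    (u : AsH k (P × unitInterval) (asSuspSet A) 0) : u = 0 := by
  obtain ⟨c, rfl⟩ := as_cls_surj (P × unitInterval) (asSuspSet A) 0 u
  have h := (as_mem_Z_iff _ _ _ _).1 c.2
  rw [as_cls_eq_zero, as_mem_B_zero]
  exact as_half_zero P c.1
    (fun y hy => (as_off_suspSet A y (Set.disjoint_left.1 h.1 hy)).2.2) h.2

end Claimed.Agent.R304
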