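/-
Row 304 (S0559).  Owner: helper203.  Helper library of the package AsBoxes:
 1. `asb_transfer`      : a linear map which induces an isomorphism on the homology of sections transports `AcycAt` and `AsGenAt`;
 2. the dictionary between cycles / boundaries of `asObj X` over `U` and the raw groups `asZ ℝ X Uᶜ q`, `asB ℝ X Uᶜ q` (`X` compact);
 3. `asb_graded0`, `asb_graded1` : the hypotheses of `asb_transfer` checked on raw cochains, for maps of degree `0` and `1`.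
-/
import Claimed.Agent.R304.AsCup
import Claimed.Agent.R304.AsSusp

set_option autoImplicit false

namespace Claimed.Agent.R304

open Topology

/-! ### 1. the abstract transfer -/

section Abstract

variable {X Y : Type} [TopologicalSpace X] [TopologicalSpace Y]

/-- the hypotheses: `T` maps cycles to cycles, boundaries to boundaries, and is bijective on homology -/
structure AsbQis (A : FcD X) (B : FcD Y) (U : Set X) (V : Set Y) (T : A.C →ₗ[ℝ] B.C) : Prop where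
  cyc : ∀ m, A.supp m ⊆ U → A.d m = 0 → B.supp (T m) ⊆ V ∧ B.d (T m) = 0
  bd : ∀ m, A.supp m ⊆ U → ∃ n, B.supp n ⊆ V ∧ B.d n = T (A.d m)
  inj : ∀ m, A.supp m ⊆ U → A.d m = 0 → (∃ n, B.supp n ⊆ V ∧ B.d n = T m) →
    ∃ m', A.supp m' ⊆ U ∧ A.d m' = m
  surj : ∀ n, B.supp n ⊆ V → B.d n = 0 →
    ∃ m n', A.supp m ⊆ U ∧ A.d m = 0 ∧ B.supp n' ⊆ V ∧ n = T m + B.d n'

theorem asb_transfer_acyc {A : FcD X} {B : FcD Y} {U : Set X} {V : Set Y} {T : A.C →ₗ[ℝ] B.C}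
    (h : AsbQis A B U V T) : A.AcycAt U ↔ B.AcycAt V := by
  constructor
  · intro hA n hn hd
    obtain ⟨m, n', hm, hdm, hn', rfl⟩ := h.surj n hn hd
    obtain ⟨m', hm', rfl⟩ := hA m hm hdm
    obtain ⟨n'', hn'', e⟩ := h.bd m' hm'
    refine ⟨n'' + n', (B.supp_add _ _).trans (Set.union_subset hn'' hn'), ?_⟩
    rw [map_add, e]
  · intro hB m hm hd
    obtain ⟨h1, h2⟩ := h.cyc m hm hd
    exact h.inj m hm hd (hB _ h1 h2)

theorem asb_transfer_gen {A : FcD X} {B : FcD Y} {U : Set X} {V : Set Y} {T : A.C →ₗ[ℝ] B.C}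
    (h : AsbQis A B U V T) (c : A.C) (hc : AsGenAt A U c) : AsGenAt B V (T c) := by
  obtain ⟨c1, c2, c3, c4⟩ := hc
  obtain ⟨h1, h2⟩ := h.cyc c c1 c2
  refine ⟨h1, h2, ?_, ?_⟩
  · intro n hn e
    obtain ⟨m', hm', e'⟩ := h.inj c c1 c2 ⟨n, hn, e⟩
    exact c3 m' hm' e'
  · intro n hn hd
    obtain ⟨m, n', hm, hdm, hn', rfl⟩ := h.surj n hn hd
    obtain ⟨t, m', hm', rfl⟩ := c4 m hm hdm
    obtain ⟨n'', hn'', e⟩ := h.bd m' hm'
    refine ⟨t, n'' + n', (B.supp_add _ _).trans (Set.union_subset hn'' hn'), ?_⟩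
    rw [map_add, map_add, map_smul, e, add_assoc]

end Abstract

/-! ### 2. the dictionary -/

section Dict

variable {X Y : Type} [TopologicalSpace X] [TopologicalSpace Y]

theorem asb_cpt [CompactSpace X] {q : ℕ} (φ : AsC ℝ X q) : IsCompact (asSupp φ) :=
  (as_supp_closed φ).isCompact

theorem asb_el_eq_zero (q : ℕ) (φ : AsC ℝ X q) (hφ : IsCompact (asSupp φ)) :
    asEl X q φ hφ = 0 ↔ asSupp φ = ∅ := by
  rw [← (asObj X).supp_empty_iff, as_el_supp]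

theorem asb_el_sub (q : ℕ) (φ ψ : AsC ℝ X q) (hφ : IsCompact (asSupp φ)) (hψ : IsCompact (asSupp ψ))
    (h : IsCompact (asSupp (φ - ψ))) : asEl X q (φ - ψ) h = asEl X q φ hφ - asEl X q ψ hψ := by
  rw [eq_sub_iff_add_eq, ← as_el_add q (φ - ψ) ψ h hψ (by rwa [sub_add_cancel])]
  congr 1
  abel

/-- cycles over `U` -/
def asbZ (A : FcD X) (U : Set X) : Submodule ℝ A.C := A.sec U ⊓ LinearMap.ker A.d

/-- boundaries over `U` -/
def asbB (A : FcD X) (U : Set X) : Submodule ℝ A.C := (A.sec U).map A.d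

theorem asb_lib_eqns_cite : True := by
  have := @asbZ.eq_1
  have := @asbB.eq_1
  trivial

theorem asb_mem_sec (A : FcD X) (U : Set X) (m : A.C) : m ∈ A.sec U ↔ A.supp m ⊆ U := Iff.rfl

theorem asb_mem_Z (A : FcD X) (U : Set X) (m : A.C) : m ∈ asbZ A U ↔ A.supp m ⊆ U ∧ A.d m = 0 := Iff.rfl

theorem asb_mem_B (A : FcD X) (U : Set X) (m : A.C) :
    m ∈ asbB A U ↔ ∃ m', A.supp m' ⊆ U ∧ A.d m' = m := Iff.rfl

theorem asb_pr_sec (U : Set X) (q : ℕ) (m : (asObj X).C) (h : m ∈ (asObj X).sec U) :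
    asObjPr X q m ∈ (asObj X).sec U := (as_obj_pr_supp q m).trans h

theorem asb_pr_Z (U : Set X) (q : ℕ) (m : (asObj X).C) (h : m ∈ asbZ (asObj X) U) :
    asObjPr X q m ∈ asbZ (asObj X) U := by
  refine ⟨asb_pr_sec U q m h.1, ?_⟩
  have h2 : (asObj X).d m = 0 := h.2
  show (asObj X).d (asObjPr X q m) = 0
  rw [← as_obj_pr_d, h2, map_zero]

theorem asb_pr_B (U : Set X) (q : ℕ) (m : (asObj X).C) (h : m ∈ asbB (asObj X) U) :
    asObjPr X q m ∈ asbB (asObj X) U := by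
  obtain ⟨m', hm', rfl⟩ := h
  cases q with
  | zero =>
    rw [as_obj_pr_d_zero]
    exact Submodule.zero_mem _
  | succ q =>
    rw [as_obj_pr_d]
    exact ⟨_, asb_pr_sec U q m' hm', rfl⟩

/-- a submodule contains `m` as soon as it contains all the components of `m` -/
theorem asb_mem_of_pr (S : Submodule ℝ (asObj X).C) (m : (asObj X).C) (h : ∀ q, asObjPr X q m ∈ S) :
    m ∈ S := by
  obtain ⟨N, hN⟩ := as_obj_sum_pr m
  rw [hN]
  exact Submodule.sum_mem _ (fun q _ => h q)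

/-- induction over the homogeneous elements of a graded submodule -/
theorem asb_ind (S : Submodule ℝ (asObj X).C) (hS : ∀ q m, m ∈ S → asObjPr X q m ∈ S)
    (W : Submodule ℝ (asObj X).C)
    (hel : ∀ (q : ℕ) (φ : AsC ℝ X q) (hφ : IsCompact (asSupp φ)), asEl X q φ hφ ∈ S → asEl X q φ hφ ∈ W) :
    S ≤ W := by
  intro m hm
  refine asb_mem_of_pr W m (fun q => ?_)
  obtain ⟨φ, hφ, e⟩ := as_obj_pr_el q m
  have := hS q m hm
  rw [e] at this ⊢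
  exact hel q φ hφ this

theorem asb_el_mem_sec (U : Set X) (q : ℕ) (φ : AsC ℝ X q) (hφ : IsCompact (asSupp φ)) :
    asEl X q φ hφ ∈ (asObj X).sec U ↔ Disjoint (asSupp φ) Uᶜ := by
  rw [asb_mem_sec, as_el_supp, Set.disjoint_compl_right_iff_subset]

theorem asb_el_mem_Z (U : Set X) (q : ℕ) (φ : AsC ℝ X q) (hφ : IsCompact (asSupp φ)) :
    asEl X q φ hφ ∈ asbZ (asObj X) U ↔ φ ∈ asZ ℝ X Uᶜ q := by
  rw [asb_mem_Z, as_mem_Z_iff, as_el_supp, as_el_d, asb_el_eq_zero, Set.disjoint_compl_right_iff_subset]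

theorem asb_el_mem_B [CompactSpace X] (U : Set X) (q : ℕ) (φ : AsC ℝ X q) (hφ : IsCompact (asSupp φ)) :
    asEl X q φ hφ ∈ asbB (asObj X) U ↔ φ ∈ asB ℝ X Uᶜ q := by
  constructor
  · intro h
    have h' := asb_pr_B U q _ h
    obtain ⟨m', hm', e⟩ := h
    cases q with
    | zero =>
      have e2 := as_obj_pr_d_zero m'
      rw [e, as_obj_pr_el_same, asb_el_eq_zero] at e2
      exact e2
    | succ q =>
      have e2 := as_obj_pr_d q m'
      obtain ⟨ψ, hψ, e3⟩ := as_obj_pr_el q m'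
      rw [e, as_obj_pr_el_same, e3, as_el_d, as_el_eq_iff] at e2
      refine (as_mem_B_succ _ _ _ _).2 ⟨ψ, ?_, e2⟩
      rw [← asb_el_mem_sec U q ψ hψ, ← e3]
      exact asb_pr_sec U q m' hm'
  · intro h
    cases q with
    | zero =>
      have : asEl X 0 φ hφ = 0 := (asb_el_eq_zero 0 φ hφ).2 h
      rw [this]
      exact Submodule.zero_mem _
    | succ q =>
      obtain ⟨ψ, hψ, e⟩ := (as_mem_B_succ _ _ _ _).1 h
      refine ⟨asEl X q ψ (asb_cpt ψ), (asb_el_mem_sec U q ψ _).2 hψ, ?_⟩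
      rw [as_el_d, as_el_eq_iff]
      have e' : asD ℝ X q ψ - φ = -(φ - asD ℝ X q ψ) := by abel
      rw [e', ← Set.subset_empty_iff, ← e]
      exact as_supp_neg _

end Dict

/-! ### 3. graded maps -/

section Graded

variable {X Y W : Type} [TopologicalSpace X] [TopologicalSpace Y] [TopologicalSpace W]

/-- a family of raw linear maps of degree `r` which induces an isomorphism `AsH ℝ X A q ≃ AsH ℝ Y A' (q + r)` (and `AsH ℝ Y A' q = 0` for `q < r`) -/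
structure AsbRaw (A : Set X) (A' : Set Y) (r : ℕ) (τ : ∀ q, AsC ℝ X q →ₗ[ℝ] AsC ℝ Y (q + r)) : Prop where
  Z : ∀ q φ, φ ∈ asZ ℝ X A q → τ q φ ∈ asZ ℝ Y A' (q + r)
  B : ∀ q φ, φ ∈ asB ℝ X A q → τ q φ ∈ asB ℝ Y A' (q + r)
  inj : ∀ q φ, φ ∈ asZ ℝ X A q → τ q φ ∈ asB ℝ Y A' (q + r) → φ ∈ asB ℝ X A q
  surj : ∀ q ψ, ψ ∈ asZ ℝ Y A' (q + r) → ∃ φ ∈ asZ ℝ X A q, ψ - τ q φ ∈ asB ℝ Y A' (q + r)
  low : ∀ q, q < r → ∀ ψ, ψ ∈ asZ ℝ Y A' q → ψ ∈ asB ℝ Y A' q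

/-- composition with a family of degree `0` -/
theorem AsbRaw.comp0 {A : Set X} {A' : Set Y} {A'' : Set W} {r : ℕ}
    {τ : ∀ q, AsC ℝ X q →ₗ[ℝ] AsC ℝ Y (q + r)} {σ : ∀ q, AsC ℝ Y q →ₗ[ℝ] AsC ℝ W (q + 0)}
    (h : AsbRaw A A' r τ) (h' : AsbRaw A' A'' 0 σ) :
    AsbRaw A A'' r (fun q => (σ (q + r)).comp (τ q)) where
  Z q φ hφ := h'.Z _ _ (h.Z q φ hφ)
  B q φ hφ := h'.B _ _ (h.B q φ hφ)
  inj q φ hφ hB := h.inj q φ hφ (h'.inj _ _ (h.Z q φ hφ) hB)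
  surj q ψ hψ := by
    obtain ⟨ψ', hψ', e'⟩ := h'.surj (q + r) ψ hψ
    obtain ⟨φ, hφ, e⟩ := h.surj q ψ' hψ'
    refine ⟨φ, hφ, ?_⟩
    have := Submodule.add_mem _ e' (h'.B _ _ e)
    rw [map_sub, sub_add_sub_cancel] at this
    exact this
  low q hq ψ hψ := by
    obtain ⟨ψ', hψ', e'⟩ := h'.surj q ψ hψ
    have := Submodule.add_mem _ e' (h'.B _ _ (h.low q hq ψ' hψ'))
    simpa using this

theorem asb_homog [CompactSpace X] [CompactSpace Y] (r : ℕ)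
    (T : (asObj X).C →ₗ[ℝ] (asObj Y).C) (τ : ∀ q, AsC ℝ X q →ₗ[ℝ] AsC ℝ Y (q + r))
    (hT : ∀ q (φ : AsC ℝ X q), T (asEl X q φ (asb_cpt φ)) = asEl Y (q + r) (τ q φ) (asb_cpt _))
    (q : ℕ) (m : (asObj X).C) : asObjPr Y (q + r) (T m) = T (asObjPr X q m) := by
  have key : (⊤ : Submodule ℝ (asObj X).C) ≤
      LinearMap.ker ((asObjPr Y (q + r)).comp T - T.comp (asObjPr X q)) := by
    refine asb_ind ⊤ (fun _ _ _ => trivial) _ (fun q' φ hφ _ => ?_)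
    rw [LinearMap.mem_ker, LinearMap.sub_apply, LinearMap.comp_apply, LinearMap.comp_apply, sub_eq_zero]
    rw [hT q' φ]
    by_cases hq : q = q'
    · subst hq
      rw [as_obj_pr_el_same, as_obj_pr_el_same, hT]
    · rw [as_obj_pr_el_ne (q + r) (q' + r) (by omega), as_obj_pr_el_ne q q' hq, map_zero]
  have := key (show m ∈ ⊤ from trivial)
  rw [LinearMap.mem_ker, LinearMap.sub_apply, LinearMap.comp_apply, LinearMap.comp_apply, sub_eq_zero] at this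
  exact this

theorem asb_graded [CompactSpace X] [CompactSpace Y] (r : ℕ) (U : Set X) (V : Set Y)
    (T : (asObj X).C →ₗ[ℝ] (asObj Y).C) (τ : ∀ q, AsC ℝ X q →ₗ[ℝ] AsC ℝ Y (q + r))
    (hT : ∀ q (φ : AsC ℝ X q), T (asEl X q φ (asb_cpt φ)) = asEl Y (q + r) (τ q φ) (asb_cpt _))
    (h : AsbRaw Uᶜ Vᶜ r τ) : AsbQis (asObj X) (asObj Y) U V T := by
  have hcyc : asbZ (asObj X) U ≤ (asbZ (asObj Y) V).comap T := by
    refine asb_ind _ (asb_pr_Z U) _ (fun q φ hφ hm => ?_)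
    rw [Submodule.mem_comap, hT q φ, asb_el_mem_Z]
    exact h.Z q φ ((asb_el_mem_Z U q φ hφ).1 hm)
  have hbd : (asObj X).sec U ≤ (asbB (asObj Y) V).comap (T.comp (asObj X).d) := by
    refine asb_ind _ (asb_pr_sec U) _ (fun q φ hφ hm => ?_)
    rw [Submodule.mem_comap, LinearMap.comp_apply, as_el_d, hT (q + 1), asb_el_mem_B]
    refine h.B (q + 1) _ ((as_mem_B_succ _ _ _ _).2 ⟨φ, (asb_el_mem_sec U q φ hφ).1 hm, ?_⟩)
    rw [sub_self, as_supp_zero]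
  have hsurj : asbZ (asObj Y) V ≤ (asbZ (asObj X) U).map T ⊔ asbB (asObj Y) V := by
    refine asb_ind _ (asb_pr_Z V) _ (fun p ψ hψ hm => ?_)
    have hψZ := (asb_el_mem_Z V p ψ hψ).1 hm
    rcases lt_or_ge p r with hp | hp
    · exact Submodule.mem_sup_right ((asb_el_mem_B V p ψ hψ).2 (h.low p hp ψ hψZ))
    · obtain ⟨q, rfl⟩ := Nat.exists_eq_add_of_le' hp
      obtain ⟨φ, hφ, e⟩ := h.surj q ψ hψZ
      have e1 : asEl Y (q + r) ψ hψ = T (asEl X q φ (asb_cpt φ)) +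
          asEl Y (q + r) (ψ - τ q φ) (asb_cpt _) := by
        rw [hT, asb_el_sub (q + r) ψ (τ q φ) hψ (asb_cpt _)]
        abel
      rw [e1]
      exact Submodule.add_mem_sup ⟨_, (asb_el_mem_Z U q φ _).2 hφ, rfl⟩ ((asb_el_mem_B V _ _ _).2 e)
  refine ⟨fun m hm hd => hcyc ⟨hm, hd⟩, fun m hm => hbd hm, ?_, ?_⟩
  · rintro m hm hd hB
    have hB' : T m ∈ asbB (asObj Y) V := hB
    have hZ' : m ∈ asbZ (asObj X) U := ⟨hm, hd⟩
    show m ∈ asbB (asObj X) U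
    refine asb_mem_of_pr _ m (fun q => ?_)
    have h1 := asb_pr_B V (q + r) _ hB'
    have h2 := asb_pr_Z U q m hZ'
    rw [asb_homog r T τ hT] at h1
    obtain ⟨φ, hφ, e⟩ := as_obj_pr_el q m
    rw [e] at h1 h2 ⊢
    rw [hT, asb_el_mem_B] at h1
    rw [asb_el_mem_Z] at h2
    exact (asb_el_mem_B U q φ hφ).2 (h.inj q φ h2 h1)
  · intro n hn hd
    obtain ⟨a, ⟨m, hm, rfl⟩, b, ⟨n', hn', rfl⟩, e⟩ := Submodule.mem_sup.1 (hsurj ⟨hn, hd⟩)
    exact ⟨m, n', hm.1, hm.2, hn', e.symm⟩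

end Graded

/-! ### 4. pull backs and excision -/

section Maps

variable {X Y W : Type} [TopologicalSpace X] [TopologicalSpace Y] [TopologicalSpace W]

theorem asb_tMap_el (T : ∀ q, AsQ X q →ₗ[ℝ] AsQ Y q) (q : ℕ) (φ : AsC ℝ X q)
    (hφ : IsCompact (asSupp φ)) :
    asTMap T (asEl X q φ hφ) = DirectSum.lof ℝ ℕ (fun q => AsQ Y q) q (T q (asQMk X q ⟨φ, hφ⟩)) := by
  unfold asTMap asEl
  rw [DirectSum.toModule_lof]
  rfl

theorem asb_pullL_el (f : X → Y) (hf : IsProperMap f) (q : ℕ) (φ : AsC ℝ Y q)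
    (hφ : IsCompact (asSupp φ)) (h' : IsCompact (asSupp (asPull ℝ f q φ))) :
    asObjPullL f hf (asEl Y q φ hφ) = asEl X q (asPull ℝ f q φ) h' :=
  asb_tMap_el (fun q => asQPull f hf q) q φ hφ

theorem asb_raw_exc [CompactSpace X] [CompactSpace Y] [T2Space Y] (g : X → Y) (s : Y → X) (A₂ : Set Y)
    (h : AsRelHomeo g s A₂) : AsbRaw A₂ (g ⁻¹' A₂) 0 (fun q => asPull ℝ g q) where
  Z q φ hφ := as_pull_Z g h.cont (g ⁻¹' A₂) A₂ (fun _ hx => hx) q φ hφ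
  B q φ hφ := as_pull_B g h.cont (g ⁻¹' A₂) A₂ (fun _ hx => hx) q φ hφ
  inj q φ hφ hB := by
    have h1 := (as_exc_bij (k := ℝ) g s A₂ h q).1
    have h2 : asMapH ℝ g h.cont (g ⁻¹' A₂) A₂ (fun _ hx => hx) q (asCls ℝ Y A₂ q ⟨φ, hφ⟩) =
        asMapH ℝ g h.cont (g ⁻¹' A₂) A₂ (fun _ hx => hx) q 0 := by
      rw [map_zero]
      exact (as_cls_eq_zero X (g ⁻¹' A₂) q ⟨asPull ℝ g q φ,
        as_pull_Z g h.cont (g ⁻¹' A₂) A₂ (fun _ hx => hx) q φ hφ⟩).2 hB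
    exact (as_cls_eq_zero Y A₂ q ⟨φ, hφ⟩).1 (h1 h2)
  surj q ψ hψ := by
    obtain ⟨u, hu⟩ := (as_exc_bij (k := ℝ) g s A₂ h q).2 (asCls ℝ X (g ⁻¹' A₂) q ⟨ψ, hψ⟩)
    obtain ⟨φ, rfl⟩ := as_cls_surj Y A₂ q u
    refine ⟨φ.1, φ.2, ?_⟩
    exact (as_cls_eq_iff X (g ⁻¹' A₂) q ⟨ψ, hψ⟩ ⟨asPull ℝ g q φ.1,
        as_pull_Z g h.cont (g ⁻¹' A₂) A₂ (fun _ hx => hx) q φ.1 φ.2⟩).1 hu.symm
  low q hq := absurd hq (Nat.not_lt_zero q)

/-- the transfer along a relative homeomorphism -/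
theorem asb_qis_exc [CompactSpace X] [CompactSpace Y] [T2Space Y] (g : X → Y) (s : Y → X) (A₂ : Set Y)
    (h : AsRelHomeo g s A₂) (hp : IsProperMap g) :
    AsbQis (asObj Y) (asObj X) A₂ᶜ (g ⁻¹' A₂)ᶜ (asObjPullL g hp) := by
  refine asb_graded 0 A₂ᶜ (g ⁻¹' A₂)ᶜ _ (fun q => asPull ℝ g q) (fun q φ => asb_pullL_el g hp q φ _ _) ?_
  rw [compl_compl, compl_compl]
  exact asb_raw_exc g s A₂ h

end Maps

end Claimed.Agent.R304
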