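/-
Row 304 (S0559).  Owner: helper138.  PACKAGE AsBoxes (~1800 lines): `H(AS(cube)(box))` for ALL relatively o-p-e-n boxes of the cube `[-1,1]^n` (`= EhCb n`).

`asBx n a b = {x | ∀ i, a i < x i < b i}`, `a b : Fin n → ℝ` ARBITRARY reals: the coordinate `i` is
   FULL        if `a i < -1` and `1 < b i`         (the factor is `[-1,1]`),
   HALF-O-P-E-N if exactly one of these holds       (the factor is `[-1, b)` or `(a, 1]`, or empty),
   INNER       if `-1 ≤ a i` and `b i ≤ 1`          (the factor is `(a, b)`).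
These boxes form a basis of the cube which is closed under finite intersections (`as_bx_inter`, `as_bx_basis`).
EXPORTS:  `as_bx_half` (some coordinate half-o-p-e-n: acyclic), `as_bx_gen` (otherwise one dimensional, in degree = number of inner coordinates),
          `as_bx_mono` (a smaller box of the same type induces an isomorphism), `as_bx_point` (ONE cycle which generates all boxes of a given type around a given point).
-/
import Claimed.Agent.R304.AsCup
import Claimed.Agent.R304.AsSusp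
import Claimed.Agent.R304.AsBoxesLib

set_option autoImplicit false

namespace Claimed.Agent.R304

open Topology

/-- the interval `[-1,1]` -/
abbrev AsIv : Type := Set.Icc (-1 : ℝ) 1

/-- relatively o-p-e-n boxes of the cube `[-1,1]^n` -/
def asBx (n : ℕ) (a b : Fin n → ℝ) : Set (Fin n → AsIv) := {x | ∀ i, a i < (x i : ℝ) ∧ (x i : ℝ) < b i}

/-- `U × (a,b)` in `P × [-1,1]` -/
def asCyl {P : Type} (U : Set P) (a b : ℝ) : Set (P × AsIv) :=
  {y | y.1 ∈ U ∧ a < (y.2 : ℝ) ∧ (y.2 : ℝ) < b}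

/-- the cut-off operator of `asObj X` -/
noncomputable def asObjCutL (X : Type) [TopologicalSpace X] (E : Set X) :
    (asObj X).C →ₗ[ℝ] (asObj X).C :=
  asTMap (fun q => asQCut X E q)

/-- the suspension at the level `t₀`: `c ↦ d (1_{t < t₀} · π^# c)` -/
noncomputable def asObjSig (P : Type) [TopologicalSpace P] (t₀ : ℝ) :
    (asObj P).C →ₗ[ℝ] (asObj (P × AsIv)).C :=
  (asObj (P × AsIv)).d ∘ₗ asObjCutL (P × AsIv) {y | (y.2 : ℝ) < t₀} ∘ₗ
    asObjPullL (Prod.fst : P × AsIv → P) isProperMap_fst_of_compactSpace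

theorem as_boxes_eqns_cite : True := by
  have := @asBx.eq_1
  have := @asCyl.eq_1
  have := @asObjCutL.eq_1
  have := @asObjSig.eq_1
  trivial

/-! ### the boxes -/

theorem as_bx_isOpen (n : ℕ) (a b : Fin n → ℝ) : IsOpen (asBx n a b) := by
  have e : asBx n a b = ⋂ i : Fin n, {x : Fin n → AsIv | a i < (x i : ℝ) ∧ (x i : ℝ) < b i} := by
    ext x
    simp [asBx]
  rw [e]
  refine isOpen_iInter_of_finite (fun i => ?_)
  have hc : Continuous (fun x : Fin n → AsIv => ((x i : AsIv) : ℝ)) :=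
    continuous_subtype_val.comp (continuous_apply i)
  exact (isOpen_lt continuous_const hc).inter (isOpen_lt hc continuous_const)

theorem as_bx_inter (n : ℕ) (a b a' b' : Fin n → ℝ) :
    asBx n a b ∩ asBx n a' b' = asBx n (fun i => max (a i) (a' i)) (fun i => min (b i) (b' i)) := by
  ext x
  simp only [asBx, Set.mem_inter_iff, Set.mem_ofPred_eq, max_lt_iff, lt_min_iff]
  constructor
  · rintro ⟨h1, h2⟩ i
    exact ⟨⟨(h1 i).1, (h2 i).1⟩, (h1 i).2, (h2 i).2⟩
  · intro h
    exact ⟨fun i => ⟨(h i).1.1, (h i).2.1⟩, fun i => ⟨(h i).1.2, (h i).2.2⟩⟩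

/-- Plan: `isOpen_pi_iff` and the order topology / metric of `[-1,1]`: `x ∈ U` has a product neighbourhood `∏ (x i - ε, x i + ε)`. -/
theorem as_bx_basis (n : ℕ) (U : Set (Fin n → AsIv)) (hU : IsOpen U) (x : Fin n → AsIv) (hx : x ∈ U) :
    ∃ a b : Fin n → ℝ, x ∈ asBx n a b ∧ asBx n a b ⊆ U := by
  obtain ⟨ε, hε, hball⟩ := Metric.isOpen_iff.1 hU x hx
  refine ⟨fun i => (x i : ℝ) - ε, fun i => (x i : ℝ) + ε, fun i => ⟨by simp [hε], by simp [hε]⟩, ?_⟩
  intro y hy
  apply hball
  rw [Metric.mem_ball, dist_pi_lt_iff hε]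
  intro i
  rw [Subtype.dist_eq, Real.dist_eq, abs_lt]
  have := hy i
  constructor <;> linarith [this.1, this.2]

theorem as_bx_univ (n : ℕ) : asBx n (fun _ => -2) (fun _ => 2) = Set.univ := by
  ext x
  simp only [asBx, Set.mem_ofPred_eq, Set.mem_univ, iff_true]
  intro i
  have := (x i).2
  constructor <;> linarith [this.1, this.2]

/-! ### transfer along relative homeomorphisms -/

section Transfer

variable {P₁ P₂ : Type} [TopologicalSpace P₁] [TopologicalSpace P₂] [CompactSpace P₁] [T2Space P₁]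
  [CompactSpace P₂] [T2Space P₂]

/-- (X1) Plan: `as_obj_acycAt_iff_H` on both sides and `as_exc_bij`. -/
theorem as_obj_exc_acyc (g : P₁ → P₂) (s : P₂ → P₁) (A₂ : Set P₂) (h : AsRelHomeo g s A₂) :
    (asObj P₂).AcycAt A₂ᶜ ↔ (asObj P₁).AcycAt (g ⁻¹' A₂)ᶜ :=
  asb_transfer_acyc (asb_qis_exc g s A₂ h h.cont.isProperMap)

/-- (X2) Plan: `g^#` is a bijection `AS(P₂)(A₂ᶜ) → AS(P₁)((g⁻¹A₂)ᶜ)` commuting with `d` (`as_exc_lift`, `as_exc_null`, by components). -/
theorem as_obj_exc_gen (g : P₁ → P₂) (s : P₂ → P₁) (A₂ : Set P₂) (h : AsRelHomeo g s A₂)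
    (c : (asObj P₂).C) (hc : AsGenAt (asObj P₂) A₂ᶜ c) :
    AsGenAt (asObj P₁) (g ⁻¹' A₂)ᶜ (asObjPullL g h.cont.isProperMap c) :=
  asb_transfer_gen (asb_qis_exc g s A₂ h h.cont.isProperMap) c hc

end Transfer

/-! ### reparametrisations of intervals -/

theorem asb_neg_one_le_one : (-1 : ℝ) ≤ 1 := by norm_num

/-- the reflection of `[-1,1]` -/
def asbNeg (t : AsIv) : AsIv := ⟨-(t : ℝ), by
  have := t.2
  constructor <;> linarith [this.1, this.2]⟩

theorem asb_neg_cont : Continuous asbNeg :=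
  Continuous.subtype_mk (continuous_subtype_val.neg) _

theorem asb_neg_neg (t : AsIv) : asbNeg (asbNeg t) = t := Subtype.ext (neg_neg _)

theorem asb_neg_eqns_cite : True := by
  have := @asbNeg.eq_1
  trivial

/-- (R1) INNER interval.  Plan: `γ t = projIcc 0 1 (piecewise linear: a ↦ 0, t₀ ↦ 1/2, b ↦ 1)`, `s u` = the inverse piecewise linear map. -/
theorem as_reparam_inner (a t₀ b : ℝ) (ha : -1 ≤ a) (h1 : a < t₀) (h2 : t₀ < b) (hb : b ≤ 1) :
    ∃ (γ : AsIv → unitInterval) (s : unitInterval → AsIv), Continuous γ ∧ Continuous s ∧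
      (∀ t : AsIv, (γ t ≠ 0 ∧ γ t ≠ 1) ↔ (a < (t : ℝ) ∧ (t : ℝ) < b)) ∧
      (∀ t : AsIv, a < (t : ℝ) → (t : ℝ) < b → s (γ t) = t) ∧
      (∀ u : unitInterval, u ≠ 0 → u ≠ 1 → γ (s u) = u) ∧
      ∀ t : AsIv, ((γ t : unitInterval) : ℝ) < 1 / 2 ↔ (t : ℝ) < t₀ := by
  set p := t₀ - a with hp
  set r := b - t₀ with hr
  have hp0 : 0 < p := by rw [hp]; linarith
  have hr0 : 0 < r := by rw [hr]; linarith
  set f : ℝ → ℝ := fun t => (min t t₀ - a) / (2 * p) + (max t t₀ - t₀) / (2 * r) with hf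
  set k : ℝ → ℝ := fun u => a + 2 * p * min u (1 / 2) + 2 * r * (max u (1 / 2) - 1 / 2) with hk
  have fl : ∀ t, t ≤ t₀ → f t = (t - a) / (2 * p) := by
    intro t ht
    simp only [hf, min_eq_left ht, max_eq_right ht, sub_self, zero_div, add_zero]
  have fr : ∀ t, t₀ ≤ t → f t = 1 / 2 + (t - t₀) / (2 * r) := by
    intro t ht
    simp only [hf, min_eq_right ht, max_eq_left ht]
    congr 1
    rw [← hp]
    field_simp
  have kl : ∀ u, u ≤ 1 / 2 → k u = a + 2 * p * u := by
    intro u hu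
    simp only [hk, min_eq_left hu, max_eq_right hu, sub_self, mul_zero, add_zero]
  have kr : ∀ u, 1 / 2 ≤ u → k u = t₀ + 2 * r * (u - 1 / 2) := by
    intro u hu
    simp only [hk, min_eq_right hu, max_eq_left hu]
    rw [hp]; ring
  have hkf : ∀ t, k (f t) = t := by
    intro t
    rcases le_total t t₀ with ht | ht
    · rw [fl t ht, kl]
      · field_simp; ring
      · rw [div_le_iff₀ (by positivity)]
        rw [hp]; linarith
    · rw [fr t ht, kr]
      · field_simp; ring
      · have : 0 ≤ (t - t₀) / (2 * r) := div_nonneg (by linarith) (by positivity)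
        linarith
  have hfk : ∀ u, f (k u) = u := by
    intro u
    rcases le_total u (1 / 2) with hu | hu
    · rw [kl u hu, fl]
      · field_simp; ring
      · rw [hp]; rw [hp] at hp0; nlinarith
    · rw [kr u hu, fr]
      · field_simp; ring
      · nlinarith
  have hmono : StrictMono f := by
    refine Monotone.strictMono_of_injective ?_ (Function.LeftInverse.injective hkf)
    intro x y hxy
    simp only [hf]
    gcongr
  have fa : f a = 0 := by rw [fl a h1.le, sub_self, zero_div]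
  have ft : f t₀ = 1 / 2 := by rw [fr t₀ le_rfl, sub_self, zero_div, add_zero]
  have fb : f b = 1 := by
    rw [fr b h2.le, ← hr]
    field_simp
    norm_num
  have hfc : Continuous f := by simp only [hf]; fun_prop
  have hkc : Continuous k := by simp only [hk]; fun_prop
  refine ⟨fun t => Set.projIcc 0 1 zero_le_one (f t),
    fun u => Set.projIcc (-1) 1 asb_neg_one_le_one (k u),
    continuous_projIcc.comp (hfc.comp continuous_subtype_val),
    continuous_projIcc.comp (hkc.comp continuous_subtype_val), ?_, ?_, ?_, ?_⟩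
  · intro t
    have e1 : (1 : unitInterval) = ⟨1, Set.right_mem_Icc.2 zero_le_one⟩ := rfl
    have e0 : (0 : unitInterval) = ⟨0, Set.left_mem_Icc.2 zero_le_one⟩ := rfl
    rw [Ne, Ne, e1, e0, Set.projIcc_eq_right zero_lt_one, Set.projIcc_eq_left zero_lt_one, not_le, not_le]
    have q1 : 0 < f t ↔ a < (t : ℝ) := by
      conv_lhs => rw [← fa]
      exact hmono.lt_iff_lt
    have q2 : f t < 1 ↔ (t : ℝ) < b := by
      have := hmono.lt_iff_lt (a := (t : ℝ)) (b := b)
      rwa [fb] at this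
    rw [q1, q2]
  · intro t hta htb
    have hm : f t ∈ Set.Icc (0 : ℝ) 1 := by
      have q1 := hmono.monotone hta.le
      have q2 := hmono.monotone htb.le
      rw [fa] at q1
      rw [fb] at q2
      exact ⟨q1, q2⟩
    simp only [Set.projIcc_of_mem zero_le_one hm]
    rw [hkf, Set.projIcc_val]
  · intro u _ _
    have hm : k u ∈ Set.Icc (-1 : ℝ) 1 := by
      have h0 : f a ≤ f (k u) := by rw [hfk, fa]; exact u.2.1
      have h1 : f (k u) ≤ f b := by rw [hfk, fb]; exact u.2.2
      rw [hmono.le_iff_le] at h0 h1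
      exact ⟨ha.trans h0, h1.trans hb⟩
    simp only [Set.projIcc_of_mem asb_neg_one_le_one hm]
    rw [hfk, Set.projIcc_val]
  · intro t
    rw [Set.coe_projIcc, ← hmono.lt_iff_lt (a := (t : ℝ)), ft]
    constructor
    · intro h
      by_contra hcon
      rw [not_lt] at hcon
      have : (1 : ℝ) / 2 ≤ min 1 (f t) := le_min (by norm_num) hcon
      exact absurd (lt_of_le_of_lt (this.trans (le_max_right _ _)) h) (lt_irrefl _)
    · intro h
      exact max_lt (by norm_num) (lt_of_le_of_lt (min_le_right _ _) h)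

/-- (R2) HALF-O-P-E-N interval `[-1, b)`, `-1 < b ≤ 1`. -/
theorem as_reparam_lower (b : ℝ) (h1 : -1 < b) (hb : b ≤ 1) :
    ∃ (γ : AsIv → unitInterval) (s : unitInterval → AsIv), Continuous γ ∧ Continuous s ∧
      (∀ t : AsIv, γ t ≠ 1 ↔ (t : ℝ) < b) ∧ (∀ t : AsIv, (t : ℝ) < b → s (γ t) = t) ∧
      ∀ u : unitInterval, u ≠ 1 → γ (s u) = u := by
  have hc : 0 < b + 1 := by linarith
  refine ⟨fun t => Set.projIcc 0 1 zero_le_one (((t : ℝ) + 1) / (b + 1)),
    fun u => Set.projIcc (-1) 1 asb_neg_one_le_one (-1 + (u : ℝ) * (b + 1)),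
    continuous_projIcc.comp (by fun_prop), continuous_projIcc.comp (by fun_prop), ?_, ?_, ?_⟩
  · intro t
    have e : (1 : unitInterval) = ⟨1, Set.right_mem_Icc.2 zero_le_one⟩ := rfl
    rw [Ne, e, Set.projIcc_eq_right zero_lt_one, le_div_iff₀ hc, not_le]
    constructor <;> intro h <;> linarith
  · intro t ht
    have hm : ((t : ℝ) + 1) / (b + 1) ∈ Set.Icc (0 : ℝ) 1 := by
      constructor
      · have := t.2.1
        exact div_nonneg (by linarith) hc.le
      · rw [div_le_one hc]; linarith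
    simp only [Set.projIcc_of_mem zero_le_one hm]
    have e : -1 + ((t : ℝ) + 1) / (b + 1) * (b + 1) = t := by
      field_simp
      ring
    rw [e, Set.projIcc_val]
  · intro u _
    have hm : -1 + (u : ℝ) * (b + 1) ∈ Set.Icc (-1 : ℝ) 1 := by
      have h0 := u.2.1
      have h1 := u.2.2
      constructor
      · nlinarith
      · nlinarith
    simp only [Set.projIcc_of_mem asb_neg_one_le_one hm]
    have e : (-1 + (u : ℝ) * (b + 1) + 1) / (b + 1) = u := by
      field_simp
      ring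
    rw [e, Set.projIcc_val]

/-- (R3) HALF-O-P-E-N interval `(a, 1]`, `-1 ≤ a < 1` (compose (R2) with `t ↦ -t`). -/
theorem as_reparam_upper (a : ℝ) (h1 : -1 ≤ a) (ha : a < 1) :
    ∃ (γ : AsIv → unitInterval) (s : unitInterval → AsIv), Continuous γ ∧ Continuous s ∧
      (∀ t : AsIv, γ t ≠ 1 ↔ a < (t : ℝ)) ∧ (∀ t : AsIv, a < (t : ℝ) → s (γ t) = t) ∧
      ∀ u : unitInterval, u ≠ 1 → γ (s u) = u := by
  obtain ⟨γ, s, hγ, hs, p1, p2, p3⟩ := as_reparam_lower (-a) (by linarith) (by linarith)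
  refine ⟨fun t => γ (asbNeg t), fun u => asbNeg (s u), hγ.comp asb_neg_cont, asb_neg_cont.comp hs,
    ?_, ?_, ?_⟩
  · intro t
    rw [p1]
    show -(t : ℝ) < -a ↔ _
    exact neg_lt_neg_iff
  · intro t ht
    show asbNeg (s (γ (asbNeg t))) = t
    rw [p2 _ (show -(t : ℝ) < -a from neg_lt_neg ht), asb_neg_neg]
  · intro u hu
    show γ (asbNeg (asbNeg (s u))) = u
    rw [asb_neg_neg, p3 u hu]

/-! ### cylinders over a compact Hausdorff space -/

section Cyl

variable (P : Type) [TopologicalSpace P] [CompactSpace P] [T2Space P]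

theorem asb_acyc_empty {X : Type} [TopologicalSpace X] (A : FcD X) : A.AcycAt ∅ := by
  intro m hm _
  have : m = 0 := (A.supp_empty_iff m).1 (Set.subset_empty_iff.1 hm)
  refine ⟨0, ?_, ?_⟩
  · rw [A.supp_zero]
  · rw [this, map_zero]

omit [CompactSpace P] [T2Space P] in
/-- `id × γ` is a relative homeomorphism -/
theorem asb_cyl_relHomeo (γ : AsIv → unitInterval) (s : unitInterval → AsIv) (hγ : Continuous γ)
    (hs : Continuous s) (A₂ : Set (P × unitInterval)) (hA : IsClosed A₂)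
    (h2 : ∀ x : P × AsIv, (x.1, γ x.2) ∉ A₂ → s (γ x.2) = x.2)
    (h3 : ∀ y : P × unitInterval, y ∉ A₂ → γ (s y.2) = y.2) :
    AsRelHomeo (fun x : P × AsIv => (x.1, γ x.2)) (fun y : P × unitInterval => (y.1, s y.2)) A₂ where
  cont := by fun_prop
  closed := hA
  right_inv y hy := Prod.ext rfl (h3 y hy)
  left_inv x hx := Prod.ext rfl (h2 x hx)
  cont_s y _ := by
    have : Continuous (fun y : P × unitInterval => (y.1, s y.2)) := by fun_prop
    exact this.continuousAt

/-- the half-o-p-e-n cylinder `U × [0,1)` over the unit interval -/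
theorem asb_half_unit (U : Set P) (hU : IsOpen U) :
    (asObj (P × unitInterval)).AcycAt {y | y.1 ∉ U ∨ y.2 = 1}ᶜ := by
  have hsub : ∀ {q : ℕ} (φ : AsC ℝ (P × unitInterval) q), asSupp φ ⊆ {y | y.1 ∉ U ∨ y.2 = 1}ᶜ →
      ∀ y ∈ asSupp φ, y.1 ∈ U ∧ y.2 ≠ (1 : unitInterval) := by
    intro q φ h y hy
    have := h hy
    simp only [Set.mem_compl_iff, Set.mem_ofPred_eq, not_or, not_not] at this
    exact this
  rw [as_obj_acycAt_iff]
  constructor
  · intro φ _ hs hd
    rw [as_half_zero P φ (fun y hy => (hsub φ hs y hy).2) hd, as_supp_zero]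
  · intro q φ _ hs hd
    obtain ⟨a, ha, e⟩ := as_half P U hU q φ (hsub φ hs) hd
    refine ⟨a, asb_cpt a, ?_, e⟩
    intro y hy
    have := ha y hy
    simp only [Set.mem_compl_iff, Set.mem_ofPred_eq, not_or, not_not]
    exact this

theorem asb_cyl_half_aux (U : Set P) (hU : IsOpen U) (J : Set AsIv) (γ : AsIv → unitInterval)
    (s : unitInterval → AsIv) (hγ : Continuous γ) (hs : Continuous s) (h1 : ∀ t, γ t ≠ 1 ↔ t ∈ J)
    (h2 : ∀ t ∈ J, s (γ t) = t) (h3 : ∀ u, u ≠ 1 → γ (s u) = u) :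
    (asObj (P × AsIv)).AcycAt {y | y.1 ∈ U ∧ y.2 ∈ J} := by
  have hA : IsClosed {y : P × unitInterval | y.1 ∉ U ∨ y.2 = 1} := by
    refine IsClosed.union ?_ ?_
    · exact hU.isClosed_compl.preimage continuous_fst
    · exact isClosed_singleton.preimage continuous_snd
  have hrel := asb_cyl_relHomeo P γ s hγ hs _ hA
    (fun x hx => h2 _ ((h1 _).1 (fun h => hx (Or.inr h)))) (fun y hy => h3 _ (fun h => hy (Or.inr h)))
  have := (as_obj_exc_acyc _ _ _ hrel).1 (asb_half_unit P U hU)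
  convert this using 1
  ext y
  simp only [Set.mem_ofPred_eq, Set.mem_compl_iff, Set.mem_preimage, not_or, not_not]
  rw [← h1]

/-- (K1) HALF-O-P-E-N CYLINDERS ARE ACYCLIC.  Plan: if the interval is empty, `AcycAt ∅`.  Otherwise `g = id × γ` with `γ` from (R2)/(R3) is a relative homeomorphism onto `(P × I, (U × [0,1))ᶜ)`; (X1); `as_obj_acycAt_iff`, `as_half`, `as_half_zero`. -/
theorem as_cyl_half (U : Set P) (hU : IsOpen U) (a b : ℝ)
    (h : (a < -1 ∧ b ≤ 1) ∨ (-1 ≤ a ∧ 1 < b)) : (asObj (P × AsIv)).AcycAt (asCyl U a b) := by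
  rcases h with ⟨ha, hb⟩ | ⟨ha, hb⟩
  · by_cases hb1 : -1 < b
    · obtain ⟨γ, s, hγ, hs, p1, p2, p3⟩ := as_reparam_lower b hb1 hb
      have := asb_cyl_half_aux P U hU {t | (t : ℝ) < b} γ s hγ hs p1 p2 p3
      convert this using 1
      ext y
      simp only [asCyl, Set.mem_ofPred_eq]
      have := y.2.2.1
      constructor
      · rintro ⟨h1, _, h3⟩; exact ⟨h1, h3⟩
      · rintro ⟨h1, h3⟩; exact ⟨h1, by linarith, h3⟩
    · have e : asCyl U a b = ∅ := by
        ext y
        simp only [asCyl, Set.mem_ofPred_eq, Set.mem_empty_iff_false, iff_false]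
        rintro ⟨_, _, h3⟩
        have := y.2.2.1
        linarith
      rw [e]
      exact asb_acyc_empty _
  · by_cases ha1 : a < 1
    · obtain ⟨γ, s, hγ, hs, p1, p2, p3⟩ := as_reparam_upper a ha ha1
      have := asb_cyl_half_aux P U hU {t | a < (t : ℝ)} γ s hγ hs p1 p2 p3
      convert this using 1
      ext y
      simp only [asCyl, Set.mem_ofPred_eq]
      have := y.2.2.2
      constructor
      · rintro ⟨h1, h2, _⟩; exact ⟨h1, h2⟩
      · rintro ⟨h1, h3⟩; exact ⟨h1, h3, by linarith⟩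
    · have e : asCyl U a b = ∅ := by
        ext y
        simp only [asCyl, Set.mem_ofPred_eq, Set.mem_empty_iff_false, iff_false]
        rintro ⟨_, h2, _⟩
        have := y.2.2.2
        linarith
      rw [e]
      exact asb_acyc_empty _

/-- the full cylinder over the unit interval -/
theorem asb_raw_full_unit (U : Set P) (hU : IsOpen U) :
    AsbRaw Uᶜ {y : P × unitInterval | y.1 ∉ U} 0 (fun q => asPull ℝ Prod.fst q) where
  Z q φ hφ := as_pull_Z Prod.fst continuous_fst _ Uᶜ (fun _ hy => hy) q φ hφ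
  B q φ hφ := as_pull_B Prod.fst continuous_fst _ Uᶜ (fun _ hy => hy) q φ hφ
  inj q φ _ hB := as_pull_B (asSlice P 0) (as_slice_cont P 0) Uᶜ {y : P × unitInterval | y.1 ∉ U}
    (fun _ hx => hx) q _ hB
  surj q ψ hψ := by
    have hφ := as_pull_Z (asSlice P 0) (as_slice_cont P 0) Uᶜ {y : P × unitInterval | y.1 ∉ U}
      (fun _ hx => hx) q ψ hψ
    refine ⟨asPull ℝ (asSlice P 0) q ψ, hφ, ?_⟩
    set π : P × unitInterval → P := Prod.fst with hπ
    have hsψ : ∀ y ∈ asSupp ψ, y.1 ∈ U := by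
      intro y hy
      by_contra hcon
      exact Set.disjoint_left.1 hψ.1 hy hcon
    have hdψ : asSupp (asD ℝ (P × unitInterval) q ψ) = ∅ := hψ.2
    set m : AsC ℝ (P × unitInterval) q := ψ - asPull ℝ π q (asPull ℝ (asSlice P 0) q ψ) with hm
    have hπσ : π ∘ asSlice P 0 = id := rfl
    have h0 : asPull ℝ (asSlice P 0) q m = 0 := by
      rw [hm, map_sub, ← as_pull_comp, hπσ, as_pull_id, sub_self]
    have hsupp : Prod.fst '' asSupp m ⊆ U := by
      rintro _ ⟨y, hy, rfl⟩
      rcases as_supp_sub _ _ hy with h | h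
      · exact hsψ y h
      · have h1 := as_supp_pull π continuous_fst _ h
        have h2 := as_supp_pull (asSlice P 0) (as_slice_cont P 0) _ h1
        exact hsψ (asSlice P 0 (π y)) h2
    have hdm : asSupp (asD ℝ (P × unitInterval) q m) = ∅ := by
      rw [hm, map_sub, ← as_pull_d, ← as_pull_d]
      rw [Set.eq_empty_iff_forall_notMem]
      intro y hy
      rcases as_supp_sub _ _ hy with h | h
      · rw [hdψ] at h; exact h
      · have h1 := as_supp_pull π continuous_fst _ h
        have h2 := as_supp_pull (asSlice P 0) (as_slice_cont P 0) _ h1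
        rw [hdψ] at h2; exact h2
    show m ∈ asB ℝ (P × unitInterval) {y : P × unitInterval | y.1 ∉ U} q
    clear_value m
    cases q with
    | zero => exact (as_mem_B_zero _ _ _).2 (as_vb_zero P 0 m h0 hdm)
    | succ q =>
      obtain ⟨a, _, haU, ha⟩ := as_vb P 0 U hU q m h0 hsupp hdm
      refine (as_mem_B_succ _ _ _ _).2 ⟨a, ?_, ha⟩
      rw [Set.disjoint_left]
      intro y hy hyU
      exact hyU (haU ⟨y, hy, rfl⟩)
  low q hq := absurd hq (Nat.not_lt_zero q)

/-- the affine homeomorphism `[-1,1] → [0,1]` -/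
noncomputable def asbAff (t : AsIv) : unitInterval := ⟨((t : ℝ) + 1) / 2, by
  have := t.2
  constructor <;> linarith [this.1, this.2]⟩

/-- the inverse of `asbAff` -/
noncomputable def asbAffInv (u : unitInterval) : AsIv := ⟨2 * (u : ℝ) - 1, by
  have := u.2
  constructor <;> linarith [this.1, this.2]⟩

theorem asb_aff_eqns_cite : True := by
  have := @asbAff.eq_1
  have := @asbAffInv.eq_1
  trivial

theorem asb_aff_cont : Continuous asbAff := Continuous.subtype_mk (by fun_prop) _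

theorem asb_affInv_cont : Continuous asbAffInv := Continuous.subtype_mk (by fun_prop) _

theorem asb_aff_inv (t : AsIv) : asbAffInv (asbAff t) = t := by
  apply Subtype.ext
  show 2 * (((t : ℝ) + 1) / 2) - 1 = t
  ring

theorem asb_inv_aff (u : unitInterval) : asbAff (asbAffInv u) = u := by
  apply Subtype.ext
  show (2 * (u : ℝ) - 1 + 1) / 2 = u
  ring

theorem asb_raw_full (U : Set P) (hU : IsOpen U) (a b : ℝ) (ha : a < -1) (hb : 1 < b) :
    AsbRaw Uᶜ (asCyl U a b)ᶜ 0 (fun q => asPull ℝ (Prod.fst : P × AsIv → P) q) := by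
  have hA : IsClosed {y : P × unitInterval | y.1 ∉ U} := hU.isClosed_compl.preimage continuous_fst
  have hrel := asb_cyl_relHomeo P asbAff asbAffInv asb_aff_cont asb_affInv_cont _ hA
    (fun x _ => asb_aff_inv _) (fun y _ => asb_inv_aff _)
  have := (asb_raw_full_unit P U hU).comp0 (asb_raw_exc _ _ _ hrel)
  convert this using 1
  · ext y
    simp only [asCyl, Set.mem_compl_iff, Set.mem_ofPred_eq, Set.mem_preimage]
    have h1 := y.2.2.1
    have h2 := y.2.2.2
    constructor
    · intro h hU'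
      exact h ⟨hU', by linarith, by linarith⟩
    · intro h h'
      exact h h'.1
  · funext q
    rfl

theorem asb_qis_full (U : Set P) (hU : IsOpen U) (a b : ℝ) (ha : a < -1) (hb : 1 < b) :
    AsbQis (asObj P) (asObj (P × AsIv)) U (asCyl U a b)
      (asObjPullL (Prod.fst : P × AsIv → P) isProperMap_fst_of_compactSpace) :=
  asb_graded 0 U (asCyl U a b) _ (fun q => asPull ℝ (Prod.fst : P × AsIv → P) q)
    (fun q φ => asb_pullL_el _ _ q φ _ _) (asb_raw_full P U hU a b ha hb)

/-- (K2a) FULL cylinders: `π^#` is a quasi-isomorphism `AS(P)(U) → AS(P × [-1,1])(U × [-1,1])`; acyclic case.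
Plan: transport to `P × unitInterval` by the affine homeomorphism; a cycle `m` supported in `U × I`: `m - π^# σ_0^# m` is a cycle in `asVBSub`, `as_vb` (`as_vb_zero`): it is a boundary with support over `U`;
`σ_0^# m` is a cycle of `AS(P)(U)`, hence a boundary. -/
theorem as_cyl_full_acyc (U : Set P) (hU : IsOpen U) (a b : ℝ) (ha : a < -1) (hb : 1 < b)
    (h : (asObj P).AcycAt U) : (asObj (P × AsIv)).AcycAt (asCyl U a b) := by
  exact (asb_transfer_acyc (asb_qis_full P U hU a b ha hb)).1 h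

/-- (K2b) FULL cylinders, generator.  Plan: as (K2a); `π^# c` is not a boundary because `σ_0^# π^# c = c`. -/
theorem as_cyl_full_gen (U : Set P) (hU : IsOpen U) (a b : ℝ) (ha : a < -1) (hb : 1 < b)
    (c : (asObj P).C) (h : AsGenAt (asObj P) U c) :
    AsGenAt (asObj (P × AsIv)) (asCyl U a b)
      (asObjPullL (Prod.fst : P × AsIv → P) isProperMap_fst_of_compactSpace c) := by
  exact asb_transfer_gen (asb_qis_full P U hU a b ha hb) c h

theorem asb_raw_susp (U : Set P) (hU : IsOpen U) :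
    AsbRaw Uᶜ (asSuspSet Uᶜ) 1 (fun q => asSig ℝ P q) where
  Z q φ hφ := as_sig_Z P Uᶜ q φ hφ
  B q φ hφ := as_sig_B P Uᶜ q φ hφ
  inj q φ hφ hB := as_sig_inj P Uᶜ hU.isClosed_compl q φ hφ hB
  surj q ψ hψ := as_sig_surj P Uᶜ hU.isClosed_compl q ψ hψ
  low q hq ψ hψ := by
    obtain rfl : q = 0 := by omega
    exact (as_cls_eq_zero _ _ 0 ⟨ψ, hψ⟩).1 (as_susp_zero P Uᶜ _)

/-- the raw suspension at the level `t₀` -/
noncomputable def asbSig (t₀ : ℝ) (q : ℕ) : AsC ℝ P q →ₗ[ℝ] AsC ℝ (P × AsIv) (q + 1) :=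
  (asD ℝ (P × AsIv) q).comp
    ((asCut ℝ {y : P × AsIv | (y.2 : ℝ) < t₀} q).comp (asPull ℝ (Prod.fst : P × AsIv → P) q))

theorem asb_sig_eqns_cite : True := by
  have := @asbSig.eq_1
  trivial

theorem asb_raw_inner (U : Set P) (hU : IsOpen U) (a t₀ b : ℝ) (ha : -1 ≤ a) (h1 : a < t₀)
    (h2 : t₀ < b) (hb : b ≤ 1) : AsbRaw Uᶜ (asCyl U a b)ᶜ 1 (fun q => asbSig P t₀ q) := by
  obtain ⟨γ, s, hγ, hs, p1, p2, p3, p4⟩ := as_reparam_inner a t₀ b ha h1 h2 hb
  have hrel := asb_cyl_relHomeo P γ s hγ hs (asSuspSet Uᶜ) (as_suspSet_closed _ hU.isClosed_compl)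
    (fun x hx => by
      have h := (p1 x.2).1 ⟨fun h => hx (Or.inr (Or.inl h)), fun h => hx (Or.inr (Or.inr h))⟩
      exact p2 _ h.1 h.2)
    (fun y hy => p3 _ (fun h => hy (Or.inr (Or.inl h))) (fun h => hy (Or.inr (Or.inr h))))
  have := (asb_raw_susp P U hU).comp0 (asb_raw_exc _ _ _ hrel)
  convert this using 1
  · ext y
    simp only [asCyl, asSuspSet, Set.mem_compl_iff, Set.mem_ofPred_eq, Set.mem_preimage]
    rw [← p1]
    tauto
  · funext q
    have e : (fun x : P × AsIv => (x.1, γ x.2)) ⁻¹' asLower P = {y : P × AsIv | (y.2 : ℝ) < t₀} := by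
      ext y
      exact p4 y.2
    apply LinearMap.ext
    intro φ
    show _ = asPull ℝ (fun x : P × AsIv => (x.1, γ x.2)) (q + 1) (asD ℝ _ q (asCut ℝ (asLower P) q
      (asPull ℝ Prod.fst q φ)))
    rw [as_pull_d, as_pull_cut, e]
    rfl

omit [CompactSpace P] [T2Space P] in
theorem asb_cutL_el (E : Set P) (q : ℕ) (φ : AsC ℝ P q) (hφ : IsCompact (asSupp φ))
    (h' : IsCompact (asSupp (asCut ℝ E q φ))) :
    asObjCutL P E (asEl P q φ hφ) = asEl P q (asCut ℝ E q φ) h' :=
  asb_tMap_el (fun q => asQCut P E q) q φ hφ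

theorem asb_sig_el (t₀ : ℝ) (q : ℕ) (φ : AsC ℝ P q) (hφ : IsCompact (asSupp φ))
    (h' : IsCompact (asSupp (asbSig P t₀ q φ))) :
    asObjSig P t₀ (asEl P q φ hφ) = asEl (P × AsIv) (q + 1) (asbSig P t₀ q φ) h' := by
  unfold asObjSig
  rw [LinearMap.comp_apply, LinearMap.comp_apply, asb_pullL_el _ _ q φ hφ (asb_cpt _),
    asb_cutL_el _ _ q _ _ (asb_cpt _), as_el_d]
  rfl

theorem asb_qis_inner (U : Set P) (hU : IsOpen U) (a t₀ b : ℝ) (ha : -1 ≤ a) (h1 : a < t₀)
    (h2 : t₀ < b) (hb : b ≤ 1) :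
    AsbQis (asObj P) (asObj (P × AsIv)) U (asCyl U a b) (asObjSig P t₀) :=
  asb_graded 1 U (asCyl U a b) _ (fun q => asbSig P t₀ q)
    (fun q φ => asb_sig_el P t₀ q φ _ _) (asb_raw_inner P U hU a t₀ b ha h1 h2 hb)

/-- (K3a) INNER cylinders, acyclic case.  Plan: empty if `b ≤ a`.  Otherwise (R1), (X1), `as_obj_acycAt_iff_H`, `as_susp`, `as_susp_zero`  (`asSuspSet Uᶜ = (U × (0,1))ᶜ`). -/
theorem as_cyl_inner_acyc (U : Set P) (hU : IsOpen U) (a b : ℝ) (ha : -1 ≤ a) (hb : b ≤ 1)
    (h : (asObj P).AcycAt U) : (asObj (P × AsIv)).AcycAt (asCyl U a b) := by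
  by_cases hab : a < b
  · exact (asb_transfer_acyc (asb_qis_inner P U hU a ((a + b) / 2) b ha (by linarith) (by linarith) hb)).1 h
  · have e : asCyl U a b = ∅ := by
      ext y
      simp only [asCyl, Set.mem_ofPred_eq, Set.mem_empty_iff_false, iff_false]
      rintro ⟨_, h2, h3⟩
      linarith
    rw [e]
    exact asb_acyc_empty _

/-- (K3b) INNER cylinders, generator: THE SAME cycle `asObjSig P t₀ c` for all `(a,b) ∋ t₀`.
Plan: (R1) with the level `t₀`, `g = id × γ`; `g^# (asSig φ) = δ (1_{t<t₀} π^# φ)` (`as_pull_d`, `as_pull_cut`, last clause of (R1)); `as_sig_inj`, `as_sig_surj`, `as_susp_zero` give `AsGenAt` on `P × I` for `[asSig φ]`; (X2). -/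
theorem as_cyl_inner_gen (U : Set P) (hU : IsOpen U) (a t₀ b : ℝ) (ha : -1 ≤ a) (h1 : a < t₀)
    (h2 : t₀ < b) (hb : b ≤ 1) (c : (asObj P).C) (h : AsGenAt (asObj P) U c) :
    AsGenAt (asObj (P × AsIv)) (asCyl U a b) (asObjSig P t₀ c) := by
  exact asb_transfer_gen (asb_qis_inner P U hU a t₀ b ha h1 h2 hb) c h

theorem as_objSig_pr (t₀ : ℝ) (q : ℕ) (c : (asObj P).C) (h : asObjPr P q c = c) :
    asObjPr (P × AsIv) (q + 1) (asObjSig P t₀ c) = asObjSig P t₀ c := by
  obtain ⟨φ, hφ, e⟩ := as_obj_pr_el q c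
  rw [h] at e
  rw [e, asb_sig_el P t₀ q φ hφ (asb_cpt _), as_obj_pr_el_same]

theorem as_objPullL_pr {P' : Type} [TopologicalSpace P'] (f : P' → P) (hf : IsProperMap f) (q : ℕ)
    (c : (asObj P).C) (h : asObjPr P q c = c) : asObjPr P' q (asObjPullL f hf c) = asObjPullL f hf c := by
  obtain ⟨φ, hφ, e⟩ := as_obj_pr_el q c
  rw [h] at e
  rw [e, asb_pullL_el f hf q φ hφ (as_pull_compact f hf q φ hφ), as_obj_pr_el_same]

end Cyl

/-! ### the cube -/

/-- splitting off the coordinate `i₀` -/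
def asbSplit (n : ℕ) (i₀ : Fin (n + 1)) : (Fin (n + 1) → AsIv) ≃ₜ (Fin n → AsIv) × AsIv where
  toFun x := (fun i => x (i₀.succAbove i), x i₀)
  invFun y := i₀.insertNth (α := fun _ => AsIv) y.2 y.1
  left_inv x := by
    funext j
    refine Fin.succAboveCases i₀ ?_ (fun i => ?_) j
    · simp
    · simp
  right_inv y := by
    apply Prod.ext
    · funext i
      simp
    · simp
  continuous_toFun := by fun_prop
  continuous_invFun := Continuous.finInsertNth (A := fun _ => AsIv) i₀ continuous_snd continuous_fst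

theorem asb_split_eqns_cite : True := by
  have := @asbSplit.eq_1
  trivial

/-- splitting off the coordinate `i₀`.  Plan: `Fin.insertNthEquiv` / `Equiv.piFinSuccAbove` is a homeomorphism (continuity coordinatewise). -/
theorem as_bx_split (n : ℕ) (i₀ : Fin (n + 1)) :
    ∃ h : (Fin (n + 1) → AsIv) ≃ₜ (Fin n → AsIv) × AsIv, ∀ a b : Fin (n + 1) → ℝ,
      asBx (n + 1) a b =
        h ⁻¹' asCyl (asBx n (fun i => a (i₀.succAbove i)) (fun i => b (i₀.succAbove i))) (a i₀) (b i₀) := by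
  refine ⟨asbSplit n i₀, fun a b => ?_⟩
  ext x
  show (∀ i, a i < (x i : ℝ) ∧ (x i : ℝ) < b i) ↔
    (∀ i, a (i₀.succAbove i) < (x (i₀.succAbove i) : ℝ) ∧ (x (i₀.succAbove i) : ℝ) < b (i₀.succAbove i)) ∧
      a i₀ < (x i₀ : ℝ) ∧ (x i₀ : ℝ) < b i₀
  rw [Fin.forall_iff_succAbove i₀, and_comm]

theorem asb_homeo_rel {P₁ P₂ : Type} [TopologicalSpace P₁] [TopologicalSpace P₂] (h : P₁ ≃ₜ P₂)
    (V : Set P₂) (hV : IsOpen V) : AsRelHomeo h h.symm Vᶜ where
  cont := h.continuous
  closed := hV.isClosed_compl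
  right_inv y _ := h.apply_symm_apply y
  left_inv x _ := h.symm_apply_apply x
  cont_s _ _ := h.symm.continuous.continuousAt

theorem asb_qis_homeo {P₁ P₂ : Type} [TopologicalSpace P₁] [TopologicalSpace P₂] [CompactSpace P₁]
    [CompactSpace P₂] [T2Space P₂] (h : P₁ ≃ₜ P₂) (V : Set P₂) (hV : IsOpen V) :
    AsbQis (asObj P₂) (asObj P₁) V (h ⁻¹' V) (asObjPullL h h.isProperMap) := by
  have := asb_qis_exc h h.symm Vᶜ (asb_homeo_rel h V hV) h.isProperMap
  rwa [Set.preimage_compl, compl_compl, compl_compl] at this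

/-- transport of `AcycAt`, `AsGenAt` along a homeomorphism (special case of (X1), (X2) with `A₂ = Vᶜ`) -/
theorem as_obj_homeo_acyc {P₁ P₂ : Type} [TopologicalSpace P₁] [TopologicalSpace P₂] [CompactSpace P₁]
    [T2Space P₁] [CompactSpace P₂] [T2Space P₂] (h : P₁ ≃ₜ P₂) (V : Set P₂) (hV : IsOpen V)
    (hac : (asObj P₂).AcycAt V) : (asObj P₁).AcycAt (h ⁻¹' V) := by
  exact (asb_transfer_acyc (asb_qis_homeo h V hV)).1 hac

theorem as_obj_homeo_gen {P₁ P₂ : Type} [TopologicalSpace P₁] [TopologicalSpace P₂] [CompactSpace P₁]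
    [T2Space P₁] [CompactSpace P₂] [T2Space P₂] (h : P₁ ≃ₜ P₂) (V : Set P₂) (hV : IsOpen V)
    (c : (asObj P₂).C) (hc : AsGenAt (asObj P₂) V c) :
    AsGenAt (asObj P₁) (h ⁻¹' V) (asObjPullL h h.isProperMap c) := by
  exact asb_transfer_gen (asb_qis_homeo h V hV) c hc

theorem asb_cyl_isOpen {P : Type} [TopologicalSpace P] (U : Set P) (hU : IsOpen U) (a b : ℝ) :
    IsOpen (asCyl U a b) := by
  have hc : Continuous (fun y : P × AsIv => ((y.2 : AsIv) : ℝ)) :=
    continuous_subtype_val.comp continuous_snd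
  exact (hU.preimage continuous_fst).inter
    ((isOpen_lt continuous_const hc).inter (isOpen_lt hc continuous_const))

/-- **(B1)** a box with a half-o-p-e-n coordinate is acyclic.  Plan: `n = n'+1`; `as_bx_split` at `i₀`, (K1), `as_obj_homeo_acyc`. -/
theorem as_bx_half (n : ℕ) (a b : Fin n → ℝ) (i₀ : Fin n)
    (h : (a i₀ < -1 ∧ b i₀ ≤ 1) ∨ (-1 ≤ a i₀ ∧ 1 < b i₀)) :
    (asObj (Fin n → AsIv)).AcycAt (asBx n a b) := by
  cases n with
  | zero => exact i₀.elim0
  | succ n =>
    obtain ⟨e, he⟩ := as_bx_split n i₀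
    rw [he a b]
    exact as_obj_homeo_acyc e _ (asb_cyl_isOpen _ (as_bx_isOpen _ _ _) _ _)
      (as_cyl_half _ _ (as_bx_isOpen _ _ _) _ _ h)

theorem asb_cube (n : ℕ) :
    AsGenAt (asObj (Fin n → AsIv)) Set.univ (asObjOne (Fin n → AsIv)) := by
  have hI : ∀ (x : Fin n → AsIv) (t : unitInterval) (i : Fin n),
      (1 - (t : ℝ)) * ((x i : AsIv) : ℝ) ∈ Set.Icc (-1 : ℝ) 1 := by
    intro x t i
    have h0 := t.2.1
    have h1 := t.2.2
    have hx := (x i).2
    constructor
    · nlinarith [hx.1]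
    · nlinarith [hx.2]
  let H : C((Fin n → AsIv) × unitInterval, Fin n → AsIv) :=
    ⟨fun y i => ⟨_, hI y.1 y.2 i⟩, by
      refine continuous_pi (fun i => ?_)
      refine Continuous.subtype_mk ?_ _
      have h1 : Continuous (fun y : (Fin n → AsIv) × unitInterval => ((y.1 i : AsIv) : ℝ)) :=
        continuous_subtype_val.comp ((continuous_apply i).comp continuous_fst)
      have h2 : Continuous (fun y : (Fin n → AsIv) × unitInterval => ((y.2 : unitInterval) : ℝ)) :=
        continuous_subtype_val.comp continuous_snd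
      exact (continuous_const.sub h2).mul h1⟩
  refine as_obj_contr H (fun _ => ⟨0, by norm_num⟩) ?_ ?_
  · intro x
    funext i
    apply Subtype.ext
    show (1 - ((0 : unitInterval) : ℝ)) * ((x i : AsIv) : ℝ) = _
    simp
  · intro x
    funext i
    apply Subtype.ext
    show (1 - ((1 : unitInterval) : ℝ)) * ((x i : AsIv) : ℝ) = _
    simp

theorem asb_card_succ (n : ℕ) (p : Fin (n + 1) → Prop) [DecidablePred p] :
    (Finset.univ.filter p).card =
      (Finset.univ.filter (fun i : Fin n => p i.castSucc)).card + if p (Fin.last n) then 1 else 0 := by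
  rw [Finset.card_filter, Finset.card_filter, Fin.sum_univ_castSucc]

/-- **(B0)** ONE cycle which generates `H(AS(cube)(B))` for ALL boxes `B` whose set of full coordinates is `F` and whose inner coordinates contain `z i`.
Plan: induction on `n`.  `n = 0`: the cube is a point, `c = asObjOne`, `as_obj_contr` (constant homotopy), every `asBx 0 a b = univ`.
`n+1`: `as_bx_split` at `i₀ = Fin.last n`; `c'` for `F ∘ castSucc`, `z ∘ castSucc`; `c = h^# (π^# c')` if `F (last n)` ((K2b)), `c = h^# (asObjSig _ (z (last n)) c')` otherwise ((K3b)); `as_obj_homeo_gen`;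
degrees: `as_objSig_pr`, `as_objPullL_pr`, `Finset.card` of the filter over `Fin (n+1)` (`Fin.univ_castSuccEmb`/`Finset.filter` + `Fin.sum_univ_castSucc` for the indicator). -/
theorem as_bx_point (n : ℕ) (F : Fin n → Prop) [DecidablePred F] (z : Fin n → ℝ) :
    ∃ c : (asObj (Fin n → AsIv)).C,
      asObjPr (Fin n → AsIv) (Finset.univ.filter (fun i => ¬ F i)).card c = c ∧
      ∀ a b : Fin n → ℝ, (∀ i, F i → a i < -1 ∧ 1 < b i) →
        (∀ i, ¬ F i → -1 ≤ a i ∧ a i < z i ∧ z i < b i ∧ b i ≤ 1) →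
        AsGenAt (asObj (Fin n → AsIv)) (asBx n a b) c := by
  induction n with
  | zero =>
    refine ⟨asObjOne _, ?_, fun a b _ _ => ?_⟩
    · have e : (Finset.univ.filter (fun i : Fin 0 => ¬ F i)).card = 0 := by simp
      rw [e]
      exact as_obj_pr_el_same 0 _ _
    · have e : asBx 0 a b = Set.univ := by
        ext x
        simp [asBx]
      rw [e]
      exact asb_cube 0
  | succ n ih =>
    obtain ⟨c', hpr, hgen⟩ := ih (fun i => F i.castSucc) (fun i => z i.castSucc)
    obtain ⟨e, he⟩ := as_bx_split n (Fin.last n)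
    have hcard := asb_card_succ n (fun i => ¬ F i)
    by_cases hF : F (Fin.last n)
    · refine ⟨asObjPullL e e.isProperMap (asObjPullL (Prod.fst : (Fin n → AsIv) × AsIv → (Fin n → AsIv))
        isProperMap_fst_of_compactSpace c'), ?_, fun a b h1 h2 => ?_⟩
      · rw [hcard, if_neg (not_not.2 hF), add_zero]
        exact as_objPullL_pr _ _ _ _ _ (as_objPullL_pr _ _ _ _ _ hpr)
      · rw [he a b]
        refine as_obj_homeo_gen e _ (asb_cyl_isOpen _ (as_bx_isOpen _ _ _) _ _) _ ?_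
        refine as_cyl_full_gen _ _ (as_bx_isOpen _ _ _) _ _ (h1 _ hF).1 (h1 _ hF).2 c' ?_
        refine hgen _ _ (fun i hi => ?_) (fun i hi => ?_)
        · rw [Fin.succAbove_last]; exact h1 _ hi
        · rw [Fin.succAbove_last]; exact h2 _ hi
    · refine ⟨asObjPullL e e.isProperMap (asObjSig (Fin n → AsIv) (z (Fin.last n)) c'), ?_,
        fun a b h1 h2 => ?_⟩
      · rw [hcard, if_pos hF]
        exact as_objPullL_pr _ _ _ _ _ (as_objSig_pr _ _ _ _ hpr)
      · rw [he a b]
        refine as_obj_homeo_gen e _ (asb_cyl_isOpen _ (as_bx_isOpen _ _ _) _ _) _ ?_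
        obtain ⟨q1, q2, q3, q4⟩ := h2 _ hF
        refine as_cyl_inner_gen _ _ (as_bx_isOpen _ _ _) _ _ _ q1 q2 q3 q4 c' ?_
        refine hgen _ _ (fun i hi => ?_) (fun i hi => ?_)
        · rw [Fin.succAbove_last]; exact h1 _ hi
        · rw [Fin.succAbove_last]; exact h2 _ hi

/-- **(B2)** a nonempty box without half-o-p-e-n coordinates: one dimensional, in degree = number of inner coordinates.  Plan: (B0) with `F i = (a i < -1)`, `z i = (a i + b i)/2`. -/
theorem as_bx_gen (n : ℕ) (a b : Fin n → ℝ)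
    (h : ∀ i, (a i < -1 ∧ 1 < b i) ∨ (-1 ≤ a i ∧ a i < b i ∧ b i ≤ 1)) :
    ∃ c : (asObj (Fin n → AsIv)).C, AsGenAt (asObj (Fin n → AsIv)) (asBx n a b) c ∧
      asObjPr (Fin n → AsIv) (Finset.univ.filter (fun i => -1 ≤ a i)).card c = c := by
  obtain ⟨c, hpr, hgen⟩ := as_bx_point n (fun i => a i < -1) (fun i => (a i + b i) / 2)
  refine ⟨c, hgen a b (fun i hi => ?_) (fun i hi => ?_), ?_⟩
  · rcases h i with h' | h'
    · exact h'
    · exact absurd hi (not_lt.2 h'.1)
  · rcases h i with h' | h'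
    · exact absurd h'.1 hi
    · exact ⟨h'.1, by linarith [h'.2.1], by linarith [h'.2.1], h'.2.2⟩
  · have e : (Finset.univ.filter (fun i => -1 ≤ a i)) = (Finset.univ.filter (fun i => ¬ a i < -1)) := by
      apply Finset.filter_congr
      intro i _
      exact not_lt.symm
    rw [e]
    exact hpr

/-- **(B3)** a smaller box of the same type induces an isomorphism.
Plan: (B0) with `z` = centre of the small box gives `c₀` generating both.  `c = t • c₀ + d m'` in the small box, `t ≠ 0` (else `c` is a boundary).  In the big box `c` is a cycle and not a boundary (else `c₀` is one): `as_genAt_of_not_bd`. -/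
theorem as_bx_mono (n : ℕ) (a b a' b' : Fin n → ℝ)
    (h : ∀ i, (a i < -1 ∧ 1 < b i ∧ a' i < -1 ∧ 1 < b' i) ∨
      (-1 ≤ a i ∧ a i ≤ a' i ∧ a' i < b' i ∧ b' i ≤ b i ∧ b i ≤ 1))
    (c : (asObj (Fin n → AsIv)).C) (hc : AsGenAt (asObj (Fin n → AsIv)) (asBx n a' b') c) :
    AsGenAt (asObj (Fin n → AsIv)) (asBx n a b) c := by
  obtain ⟨c₀, _, hgen⟩ := as_bx_point n (fun i => a i < -1) (fun i => (a' i + b' i) / 2)
  have hsmall : AsGenAt (asObj (Fin n → AsIv)) (asBx n a' b') c₀ := by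
    refine hgen a' b' (fun i hi => ?_) (fun i hi => ?_)
    · rcases h i with h' | h'
      · exact ⟨h'.2.2.1, h'.2.2.2⟩
      · exact absurd hi (not_lt.2 h'.1)
    · rcases h i with h' | h'
      · exact absurd h'.1 hi
      · obtain ⟨q1, q2, q3, q4, q5⟩ := h'
        exact ⟨by linarith, by linarith, by linarith, by linarith⟩
  have hbig : AsGenAt (asObj (Fin n → AsIv)) (asBx n a b) c₀ := by
    refine hgen a b (fun i hi => ?_) (fun i hi => ?_)
    · rcases h i with h' | h'
      · exact ⟨h'.1, h'.2.1⟩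
      · exact absurd hi (not_lt.2 h'.1)
    · rcases h i with h' | h'
      · exact absurd h'.1 hi
      · obtain ⟨q1, q2, q3, q4, q5⟩ := h'
        exact ⟨by linarith, by linarith, by linarith, by linarith⟩
  have hsub : asBx n a' b' ⊆ asBx n a b := by
    intro x hx i
    have hx' := hx i
    have hxi := (x i).2
    rcases h i with h' | h'
    · exact ⟨by linarith [hxi.1, h'.1], by linarith [hxi.2, h'.2.1]⟩
    · obtain ⟨q1, q2, q3, q4, q5⟩ := h'
      exact ⟨by linarith [hx'.1], by linarith [hx'.2]⟩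
  refine as_genAt_of_not_bd _ _ c₀ c hbig (hc.1.trans hsub) hc.2.1 ?_
  intro m' hm' e
  obtain ⟨t, m'', hm'', e'⟩ := hc.2.2.2 c₀ hsmall.1 hsmall.2.1
  refine hbig.2.2.1 (t • m' + m'') ?_ ?_
  · exact ((asObj _).supp_add _ _).trans
      (Set.union_subset (((asObj _).supp_smul t m').trans hm') (hm''.trans hsub))
  · rw [map_add, map_smul, e, e']

/-- the whole cube: `H = ℝ · 1` -/
theorem as_bx_cube (n : ℕ) :
    AsGenAt (asObj (Fin n → AsIv)) Set.univ (asObjOne (Fin n → AsIv)) :=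
  asb_cube n

/-- CLOSED BOXES `K = ∏ [a i, b i]` (as subspaces) have the cohomology of a point.  Plan: `as_obj_contr` with the straight line homotopy to a point of the convex set `K`. -/
theorem as_bx_closed (n : ℕ) (a b : Fin n → ℝ) (K : Set (Fin n → AsIv))
    (hK : K = {x | ∀ i, a i ≤ (x i : ℝ) ∧ (x i : ℝ) ≤ b i}) (hne : K.Nonempty) :
    ∃ _ : CompactSpace K, AsGenAt (asObj K) Set.univ (asObjOne K) := by
  have hcl : IsClosed K := by
    have e : K = ⋂ i : Fin n, {x : Fin n → AsIv | a i ≤ (x i : ℝ) ∧ (x i : ℝ) ≤ b i} := by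
      rw [hK]
      ext x
      simp
    rw [e]
    refine isClosed_iInter (fun i => ?_)
    have hc : Continuous (fun x : Fin n → AsIv => ((x i : AsIv) : ℝ)) :=
      continuous_subtype_val.comp (continuous_apply i)
    exact (isClosed_le continuous_const hc).inter (isClosed_le hc continuous_const)
  have hcpt : CompactSpace K := isCompact_iff_compactSpace.1 hcl.isCompact
  refine ⟨hcpt, ?_⟩
  obtain ⟨z, hz⟩ := hne
  have hmemK : ∀ x : Fin n → AsIv, x ∈ K ↔ ∀ i, a i ≤ (x i : ℝ) ∧ (x i : ℝ) ≤ b i := by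
    intro x
    rw [hK]
    rfl
  -- the straight line homotopy
  have hI : ∀ (x : K) (t : unitInterval) (i : Fin n),
      (1 - (t : ℝ)) * ((x.1 i : AsIv) : ℝ) + (t : ℝ) * ((z i : AsIv) : ℝ) ∈ Set.Icc (-1 : ℝ) 1 := by
    intro x t i
    have h0 := t.2.1
    have h1 := t.2.2
    have hx := (x.1 i).2
    have hz' := (z i).2
    constructor
    · nlinarith [hx.1, hz'.1]
    · nlinarith [hx.2, hz'.2]
  have hKm : ∀ (x : K) (t : unitInterval),
      (fun i => (⟨(1 - (t : ℝ)) * ((x.1 i : AsIv) : ℝ) + (t : ℝ) * ((z i : AsIv) : ℝ), hI x t i⟩ : AsIv)) ∈ K := by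
    intro x t
    rw [hmemK]
    intro i
    have h0 := t.2.1
    have h1 := t.2.2
    have hx := (hmemK x.1).1 x.2 i
    have hz' := (hmemK z).1 hz i
    show a i ≤ (1 - (t : ℝ)) * ((x.1 i : AsIv) : ℝ) + (t : ℝ) * ((z i : AsIv) : ℝ) ∧
      (1 - (t : ℝ)) * ((x.1 i : AsIv) : ℝ) + (t : ℝ) * ((z i : AsIv) : ℝ) ≤ b i
    constructor
    · nlinarith [hx.1, hz'.1]
    · nlinarith [hx.2, hz'.2]
  let H : C(K × unitInterval, K) :=
    ⟨fun y => ⟨_, hKm y.1 y.2⟩, by
      refine Continuous.subtype_mk ?_ _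
      refine continuous_pi (fun i => ?_)
      refine Continuous.subtype_mk ?_ _
      have h1 : Continuous (fun y : K × unitInterval => ((y.1.1 i : AsIv) : ℝ)) :=
        continuous_subtype_val.comp ((continuous_apply i).comp (continuous_subtype_val.comp continuous_fst))
      have h2 : Continuous (fun y : K × unitInterval => ((y.2 : unitInterval) : ℝ)) :=
        continuous_subtype_val.comp continuous_snd
      exact ((continuous_const.sub h2).mul h1).add (h2.mul continuous_const)⟩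
  refine as_obj_contr H ⟨z, hz⟩ ?_ ?_
  · intro x
    apply Subtype.ext
    funext i
    apply Subtype.ext
    show (1 - ((0 : unitInterval) : ℝ)) * ((x.1 i : AsIv) : ℝ) + ((0 : unitInterval) : ℝ) * ((z i : AsIv) : ℝ) = _
    simp
  · intro x
    apply Subtype.ext
    funext i
    apply Subtype.ext
    show (1 - ((1 : unitInterval) : ℝ)) * ((x.1 i : AsIv) : ℝ) + ((1 : unitInterval) : ℝ) * ((z i : AsIv) : ℝ) = _
    simp

end Claimed.Agent.R304
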