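/-
Row 304 (S0559, Hilbert-Smith).  Owner: helper138.
INTERFACE  layer S (FC model, helper154)  ->  Newman theorems (and "top cohomology of a connected chart").

`NmCoh k` = "a compactly supported cohomology theory with coefficients in the field `k` on locally compact
Hausdorff spaces (in `Type`)": contravariant for proper maps (`pull`), covariant for inclusions of
o-p-e-n subsets (`ext`).  There is NO boundary operator in the interface: the two places where the long exact
sequences are used beyond exactness in the middle are phrased as "if the next group vanishes then the map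
is onto" (`restr_surj`, `mv_surj`).

Intended model: `H q X` = `q`-th cohomology of the Alexander-Spanier cochains of `X` with compact supports
(`H^q (AS(X)(X))` in the FC model).  All axioms carry the hypotheses `[T2Space] [LocallyCompactSpace]`; the DATA
`H`, `pull`, `ext` are total (for spaces that are not locally compact Hausdorff the instance may put `0`, by a
classical case distinction).

EXPORT WANTED FROM LAYER S:   `nm_coh_exists (k) [Field k] : Nonempty (NmCoh k)`   (file `NmInst.lean`).
Everything else in the files `Nm*.lean` is proved from an arbitrary `C : NmCoh k`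
(also: a smaller box carries the whole top group, `nm_box_nested` in `NmEuclid.lean`, by homotopy invariance).
-/
import Mathlib

set_option autoImplicit false

namespace Claimed.Agent.R304

open Topology

/-- the box `∏ (a i, b i)` in euclidean space -/
def nmBox (n : ℕ) (a b : Fin n → ℝ) : Set (EuclideanSpace ℝ (Fin n)) :=
  {x | ∀ i, a i < x i ∧ x i < b i}

/-- a compactly supported cohomology theory over the field `k` (see the header) -/
structure NmCoh (k : Type) [Field k] where
  /-- the groups `H^q_c(X; k)` -/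
  H : ℕ → (X : Type) → [TopologicalSpace X] → Type
  [acg : ∀ (q : ℕ) (X : Type) [TopologicalSpace X], AddCommGroup (H q X)]
  [mod : ∀ (q : ℕ) (X : Type) [TopologicalSpace X], Module k (H q X)]
  /-- pull back along a proper map -/
  pull : ∀ (q : ℕ) {X Y : Type} [TopologicalSpace X] [TopologicalSpace Y] (f : X → Y),
    IsProperMap f → (H q Y →ₗ[k] H q X)
  /-- extension by zero along an embedding onto an o-p-e-n subset -/
  ext : ∀ (q : ℕ) {U X : Type} [TopologicalSpace U] [TopologicalSpace X] (j : U → X),
    IsOpenEmbedding j → (H q U →ₗ[k] H q X)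
  pull_id : ∀ (q : ℕ) (X : Type) [TopologicalSpace X] [T2Space X] [LocallyCompactSpace X]
    (u : H q X), pull q (id : X → X) isProperMap_id u = u
  pull_comp : ∀ (q : ℕ) {X Y Z : Type} [TopologicalSpace X] [TopologicalSpace Y] [TopologicalSpace Z]
    [T2Space X] [LocallyCompactSpace X] [T2Space Y] [LocallyCompactSpace Y]
    [T2Space Z] [LocallyCompactSpace Z] (f : X → Y) (g : Y → Z) (hf : IsProperMap f)
    (hg : IsProperMap g) (u : H q Z),
    pull q (g ∘ f) (hg.comp hf) u = pull q f hf (pull q g hg u)
  ext_id : ∀ (q : ℕ) (X : Type) [TopologicalSpace X] [T2Space X] [LocallyCompactSpace X]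
    (u : H q X), ext q (id : X → X) IsOpenEmbedding.id u = u
  ext_comp : ∀ (q : ℕ) {X Y Z : Type} [TopologicalSpace X] [TopologicalSpace Y] [TopologicalSpace Z]
    [T2Space X] [LocallyCompactSpace X] [T2Space Y] [LocallyCompactSpace Y]
    [T2Space Z] [LocallyCompactSpace Z] (f : X → Y) (g : Y → Z) (hf : IsOpenEmbedding f)
    (hg : IsOpenEmbedding g) (u : H q X),
    ext q (g ∘ f) (hg.comp hf) u = ext q g hg (ext q f hf u)
  /-- base change for a cartesian square  `V' → X`, `V → Y`  (horizontal: `j'`, `j`; vertical `f'`, `f`) -/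
  base_change : ∀ (q : ℕ) {X Y V V' : Type} [TopologicalSpace X] [TopologicalSpace Y]
    [TopologicalSpace V] [TopologicalSpace V']
    [T2Space X] [LocallyCompactSpace X] [T2Space Y] [LocallyCompactSpace Y]
    [T2Space V] [LocallyCompactSpace V] [T2Space V'] [LocallyCompactSpace V']
    (f : X → Y) (j : V → Y) (f' : V' → V) (j' : V' → X)
    (hf : IsProperMap f) (hj : IsOpenEmbedding j) (hf' : IsProperMap f') (hj' : IsOpenEmbedding j'),
    (∀ v, f (j' v) = j (f' v)) → Set.range j' = f ⁻¹' Set.range j →
    ∀ u : H q V, pull q f hf (ext q j hj u) = ext q j' hj' (pull q f' hf' u)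
  /-- the empty space has no cohomology -/
  of_isEmpty : ∀ (q : ℕ) (X : Type) [TopologicalSpace X] [IsEmpty X] (u : H q X), u = 0
  /-- exactness of `H(X \ Z) → H(X) → H(Z)` -/
  exact_mid : ∀ (q : ℕ) {U X Z : Type} [TopologicalSpace U] [TopologicalSpace X] [TopologicalSpace Z]
    [T2Space X] [LocallyCompactSpace X] [T2Space U] [LocallyCompactSpace U]
    [T2Space Z] [LocallyCompactSpace Z]
    (j : U → X) (i : Z → X) (hj : IsOpenEmbedding j) (hi : IsClosedEmbedding i),
    Set.range j = (Set.range i)ᶜ → ∀ u : H q X, pull q i hi.isProperMap u = 0 →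
      ∃ w : H q U, ext q j hj w = u
  /-- exactness of `H^q(X) → H^q(Z) → H^{q+1}(X \ Z)` when the last group vanishes -/
  restr_surj : ∀ (q : ℕ) {U X Z : Type} [TopologicalSpace U] [TopologicalSpace X]
    [TopologicalSpace Z] [T2Space X] [LocallyCompactSpace X] [T2Space U] [LocallyCompactSpace U]
    [T2Space Z] [LocallyCompactSpace Z]
    (j : U → X) (i : Z → X) (_hj : IsOpenEmbedding j) (hi : IsClosedEmbedding i),
    Set.range j = (Set.range i)ᶜ → (∀ w : H (q + 1) U, w = 0) →
      ∀ v : H q Z, ∃ u : H q X, pull q i hi.isProperMap u = v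
  /-- exactness of `H^q(U₁) ⊕ H^q(U₂) → H^q(U₁ ∪ U₂) → H^{q+1}(U₁ ∩ U₂)` when the last group vanishes -/
  mv_surj : ∀ (q : ℕ) {U₁ U₂ U₁₂ X : Type} [TopologicalSpace U₁] [TopologicalSpace U₂]
    [TopologicalSpace U₁₂] [TopologicalSpace X]
    [T2Space X] [LocallyCompactSpace X] [T2Space U₁] [LocallyCompactSpace U₁]
    [T2Space U₂] [LocallyCompactSpace U₂] [T2Space U₁₂] [LocallyCompactSpace U₁₂]
    (j₁ : U₁ → X) (j₂ : U₂ → X) (j₁₂ : U₁₂ → X) (hj₁ : IsOpenEmbedding j₁) (hj₂ : IsOpenEmbedding j₂)
    (_hj₁₂ : IsOpenEmbedding j₁₂),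
    Set.range j₁ ∪ Set.range j₂ = Set.univ → Set.range j₁₂ = Set.range j₁ ∩ Set.range j₂ →
    (∀ w : H (q + 1) U₁₂, w = 0) →
      ∀ u : H q X, ∃ (u₁ : H q U₁) (u₂ : H q U₂), u = ext q j₁ hj₁ u₁ + ext q j₂ hj₂ u₂
  /-- compact supports: every class comes from a member of a directed cover by o-p-e-n sets -/
  cont : ∀ (q : ℕ) (X : Type) [TopologicalSpace X] [T2Space X] [LocallyCompactSpace X]
    (ι : Type) [Nonempty ι] (U : ι → Set X) (hU : ∀ i, IsOpen (U i)),
    Directed (· ⊆ ·) U → (⋃ i, U i) = Set.univ →
      ∀ u : H q X, ∃ (i : ι) (w : H q (U i)), ext q (Subtype.val : U i → X) (hU i).isOpenEmbedding_subtypeVal w = u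
  /-- homotopy invariance (universal case) -/
  htpy : ∀ (q : ℕ) (X : Type) [TopologicalSpace X] [T2Space X] [LocallyCompactSpace X]
    (h0 : IsProperMap fun x : X => (x, (0 : unitInterval)))
    (h1 : IsProperMap fun x : X => (x, (1 : unitInterval))) (u : H q (X × unitInterval)),
    pull q (fun x : X => (x, (0 : unitInterval))) h0 u = pull q (fun x : X => (x, (1 : unitInterval))) h1 u
  /-- boxes: vanishing above the dimension -/
  box_vanish : ∀ (n q : ℕ) (a b : Fin n → ℝ), n < q → ∀ u : H q (nmBox n a b), u = 0
  /-- boxes: the top group is a line -/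
  box_top : ∀ (n : ℕ) (a b : Fin n → ℝ), (∀ i, a i < b i) → Module.finrank k (H n (nmBox n a b)) = 1

attribute [instance] NmCoh.acg NmCoh.mod

/-- realises the equation lemmas here (unique names) -/
theorem nm_iface_eqns_cite : True := by
  have := @nmBox.eq_1
  trivial

end Claimed.Agent.R304
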