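/-
Row 304 (S0559).  Owner: helper138.  PACKAGE AsCube (PROVED by helper148): cohomology of the cube relative to its boundary (all degrees), and the fields `box_vanish`, `box_top` of `NmCoh` for the model `AsHc`.
-/
import Claimed.Agent.R304.AsSusp
import Claimed.Agent.R304.NmIface

set_option autoImplicit false

namespace Claimed.Agent.R304

open Topology

/-- the cube `I^n` -/
abbrev AsCube (n : ℕ) : Type := Fin n → unitInterval

/-- the boundary of the cube -/
def asCubeBd (n : ℕ) : Set (AsCube n) := {t | ∃ i, t i = 0 ∨ t i = 1}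

/-- the affine parametrisation of a box, collapsed on the boundary: `I^n → (box)⁺` -/
noncomputable def asBoxMap (n : ℕ) (a b : Fin n → ℝ) (t : AsCube n) : OnePoint (nmBox n a b) :=
  open Classical in
  if h : (WithLp.toLp 2 (fun i => a i + (t i : ℝ) * (b i - a i)) : EuclideanSpace ℝ (Fin n)) ∈ nmBox n a b
  then ((⟨_, h⟩ : nmBox n a b) : OnePoint (nmBox n a b)) else OnePoint.infty

/-- the inverse of `asBoxMap` (junk value at `∞`) -/
noncomputable def asBoxInv (n : ℕ) (a b : Fin n → ℝ) (y : OnePoint (nmBox n a b)) : AsCube n :=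
  y.elim (fun _ => 0)
    (fun x i => Set.projIcc (0 : ℝ) 1 zero_le_one (((x : EuclideanSpace ℝ (Fin n)) i - a i) / (b i - a i)))

theorem as_cube_eqns_cite : True := by
  have := @asCubeBd.eq_1
  have := @asBoxMap.eq_1
  have := @asBoxInv.eq_1
  trivial

variable {k : Type} [Field k]

/-- invariance under homeomorphisms of pairs -/
theorem as_homeo_equiv {P P' : Type} [TopologicalSpace P] [TopologicalSpace P'] (h : P ≃ₜ P')
    (A : Set P) (A' : Set P') (hA : A = h ⁻¹' A') (q : ℕ) :
    Nonempty (AsH k P' A' q ≃ₗ[k] AsH k P A q) := by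
  have h1 : Set.MapsTo h A A' := by
    subst hA
    exact fun x hx => hx
  have h2 : Set.MapsTo h.symm A' A := by
    subst hA
    intro y hy
    show h (h.symm y) ∈ A'
    rw [h.apply_symm_apply]
    exact hy
  refine ⟨LinearEquiv.ofLinearMap (asMapJ k h A A' q) (asMapJ k h.symm A' A q) ?_ ?_⟩
  · refine LinearMap.ext fun u => ?_
    show asMapJ k h A A' q (asMapJ k h.symm A' A q u) = u
    rw [← as_mapJ_comp h h.symm h.continuous h.symm.continuous A A' A h1 h2 q u]
    have e : (h.symm ∘ h : P → P) = id := by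
      funext x
      exact h.symm_apply_apply x
    rw [e]
    exact as_mapJ_id P A q u
  · refine LinearMap.ext fun u => ?_
    show asMapJ k h.symm A' A q (asMapJ k h A A' q u) = u
    rw [← as_mapJ_comp h.symm h h.symm.continuous h.continuous A' A A' h2 h1 q u]
    have e : (h ∘ h.symm : P' → P') = id := by
      funext x
      exact h.apply_symm_apply x
    rw [e]
    exact as_mapJ_id P' A' q u

theorem as_point_zero (P : Type) [TopologicalSpace P] [Unique P] :
    Module.finrank k (AsH k P (∅ : Set P) 0) = 1 := by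
  have hZ : ∀ φ : AsC k P 0, φ ∈ asZ k P (∅ : Set P) 0 := by
    intro φ
    refine (as_mem_Z_iff P ∅ 0 φ).2 ⟨Set.disjoint_empty _, ?_⟩
    have e : asD k P 0 φ = 0 := by
      funext x
      rw [as_d_apply, Fin.sum_univ_two]
      have e1 : (fun j => x ((0 : Fin 2).succAbove j)) = fun j => x ((1 : Fin 2).succAbove j) :=
        Subsingleton.elim _ _
      rw [e1]
      simp
    rw [e]
    exact as_supp_zero 1
  have hne : asCls k P (∅ : Set P) 0 ⟨asOne k P, hZ _⟩ ≠ 0 := by
    intro h0
    rw [as_cls_eq_zero, as_mem_B_zero] at h0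
    have := congrFun h0 (fun _ => default)
    exact one_ne_zero this
  rw [finrank_eq_one_iff_of_nonzero' _ hne]
  intro w
  obtain ⟨φ, rfl⟩ := as_cls_surj P (∅ : Set P) 0 w
  refine ⟨φ.1 (fun _ => default), ?_⟩
  rw [← map_smul]
  congr 1
  apply Subtype.ext
  funext x
  show φ.1 (fun _ => default) * 1 = φ.1 x
  rw [mul_one]
  exact congrArg φ.1 (Subsingleton.elim _ _)

theorem as_point_pos (P : Type) [TopologicalSpace P] [Unique P] (q : ℕ)
    (u : AsH k P (∅ : Set P) (q + 1)) : u = 0 := by
  obtain ⟨φ, rfl⟩ := as_cls_surj P (∅ : Set P) (q + 1) u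
  rw [as_cls_eq_zero, as_mem_B_succ]
  refine ⟨asIns k default q φ.1, Set.disjoint_empty _, ?_⟩
  have hd : asSupp (asD k P (q + 1) φ.1) = ∅ := φ.2.2
  have hv : AsVan (asD k P (q + 1) φ.1) default := by
    by_contra hc
    have : (default : P) ∈ asSupp (asD k P (q + 1) φ.1) := hc
    rw [hd] at this
    exact this
  have := as_stalk_pos default q φ.1 hv
  rw [Set.eq_empty_iff_forall_notMem]
  intro x hx
  rw [Subsingleton.elim x default] at hx
  exact hx this

theorem as_cube_succ (n : ℕ) :
    ∃ h : AsCube (n + 1) ≃ₜ AsCube n × unitInterval, asCubeBd (n + 1) = h ⁻¹' asSuspSet (asCubeBd n) := by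
  let h : AsCube (n + 1) ≃ₜ AsCube n × unitInterval :=
    { toFun := fun t => (fun i => t i.castSucc, t (Fin.last n))
      invFun := fun y => Fin.snoc (α := fun _ => unitInterval) y.1 y.2
      left_inv := by
        intro t
        funext i
        refine Fin.lastCases ?_ (fun j => ?_) i
        · simp
        · simp
      right_inv := by
        intro y
        refine Prod.ext ?_ ?_
        · funext i
          simp
        · simp
      continuous_toFun := by
        refine Continuous.prodMk (continuous_pi fun i => continuous_apply _) (continuous_apply _)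
      continuous_invFun := by
        refine continuous_pi fun i => ?_
        refine Fin.lastCases ?_ (fun j => ?_) i
        · simpa using continuous_snd
        · have e : (fun a : AsCube n × unitInterval =>
              (Fin.snoc (α := fun _ => unitInterval) a.1 a.2 : Fin (n + 1) → unitInterval) j.castSucc) =
              fun a => a.1 j := by
            funext a
            simp
          rw [e]
          exact (continuous_apply j).comp continuous_fst }
  refine ⟨h, ?_⟩
  ext t
  show (∃ i, t i = 0 ∨ t i = 1) ↔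
    ((∃ i : Fin n, t i.castSucc = 0 ∨ t i.castSucc = 1) ∨ t (Fin.last n) = 0 ∨ t (Fin.last n) = 1)
  constructor
  · rintro ⟨i, hi⟩
    revert hi
    refine Fin.lastCases ?_ (fun j => ?_) i
    · exact fun hi => Or.inr hi
    · exact fun hi => Or.inl ⟨j, hi⟩
  · rintro (⟨i, hi⟩ | hi)
    · exact ⟨_, hi⟩
    · exact ⟨_, hi⟩

theorem as_cubeBd_closed (n : ℕ) : IsClosed (asCubeBd n) := by
  have e : asCubeBd n = ⋃ i : Fin n, ({t | t i = 0} ∪ {t | t i = 1}) := by
    ext t
    simp [asCubeBd]
  rw [e]
  refine isClosed_iUnion_of_finite fun i => IsClosed.union ?_ ?_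
  · exact isClosed_eq (continuous_apply i) continuous_const
  · exact isClosed_eq (continuous_apply i) continuous_const

theorem as_cubeBd_zero : asCubeBd 0 = ∅ := by
  ext t
  simp [asCubeBd]

theorem as_cube_step (n q : ℕ) :
    Nonempty (AsH k (AsCube n) (asCubeBd n) q ≃ₗ[k] AsH k (AsCube (n + 1)) (asCubeBd (n + 1)) (q + 1)) := by
  obtain ⟨h, hh⟩ := as_cube_succ n
  obtain ⟨e1⟩ := as_susp (k := k) (AsCube n) (asCubeBd n) (as_cubeBd_closed n) q
  obtain ⟨e2⟩ := as_homeo_equiv (k := k) h (asCubeBd (n + 1)) (asSuspSet (asCubeBd n)) hh (q + 1)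
  exact ⟨e1.trans e2⟩

theorem as_cube_top (n : ℕ) : Module.finrank k (AsH k (AsCube n) (asCubeBd n) n) = 1 := by
  induction n with
  | zero =>
    rw [as_cubeBd_zero]
    exact as_point_zero (AsCube 0)
  | succ n ih =>
    obtain ⟨e⟩ := as_cube_step (k := k) n n
    rw [← e.finrank_eq]
    exact ih

theorem as_cube_other (n q : ℕ) (hq : q ≠ n) (u : AsH k (AsCube n) (asCubeBd n) q) : u = 0 := by
  induction n generalizing q with
  | zero =>
    cases q with
    | zero => exact (hq rfl).elim
    | succ q =>
      revert u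
      rw [as_cubeBd_zero]
      exact fun u => as_point_pos (AsCube 0) q u
  | succ n ih =>
    cases q with
    | zero =>
      obtain ⟨h, hh⟩ := as_cube_succ n
      obtain ⟨e2⟩ := as_homeo_equiv (k := k) h (asCubeBd (n + 1)) (asSuspSet (asCubeBd n)) hh 0
      have := as_susp_zero (AsCube n) (asCubeBd n) (e2.symm u)
      exact e2.symm.map_eq_zero_iff.1 this
    | succ q =>
      obtain ⟨e⟩ := as_cube_step (k := k) n q
      have := ih q (fun h => hq (by rw [h])) (e.symm u)
      exact e.symm.map_eq_zero_iff.1 this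

/-- the affine parametrisation -/
noncomputable def asBoxAff (n : ℕ) (a b : Fin n → ℝ) (t : AsCube n) : EuclideanSpace ℝ (Fin n) :=
  WithLp.toLp 2 (fun i => a i + (t i : ℝ) * (b i - a i))

theorem as_boxAff_eqns_cite : True := by
  have := @asBoxAff.eq_1
  trivial

theorem as_boxAff_apply (n : ℕ) (a b : Fin n → ℝ) (t : AsCube n) (i : Fin n) :
    asBoxAff n a b t i = a i + (t i : ℝ) * (b i - a i) := rfl

theorem as_boxAff_cont (n : ℕ) (a b : Fin n → ℝ) : Continuous (asBoxAff n a b) := by
  unfold asBoxAff
  refine (PiLp.continuous_toLp 2 _).comp (continuous_pi fun i => ?_)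
  exact continuous_const.add ((continuous_subtype_val.comp (continuous_apply i)).mul continuous_const)

theorem as_boxAff_mem (n : ℕ) (a b : Fin n → ℝ) (hab : ∀ i, a i < b i) (t : AsCube n) :
    asBoxAff n a b t ∈ nmBox n a b ↔ t ∉ asCubeBd n := by
  show (∀ i, a i < asBoxAff n a b t i ∧ asBoxAff n a b t i < b i) ↔ ¬ ∃ i, t i = 0 ∨ t i = 1
  rw [not_exists]
  refine forall_congr' fun i => ?_
  rw [as_boxAff_apply]
  have hi : 0 < b i - a i := sub_pos.2 (hab i)
  have h0 : (0 : ℝ) ≤ t i := (t i).2.1
  have h1 : (t i : ℝ) ≤ 1 := (t i).2.2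
  constructor
  · rintro ⟨h2, h3⟩ (h | h)
    · rw [h] at h2
      simp at h2
    · rw [h] at h3
      simp at h3
  · intro h
    have h0' : (0 : ℝ) < t i := lt_of_le_of_ne h0 (fun e => h (Or.inl (Subtype.ext e.symm)))
    have h1' : (t i : ℝ) < 1 := lt_of_le_of_ne h1 (fun e => h (Or.inr (Subtype.ext e)))
    constructor
    · nlinarith
    · nlinarith

theorem as_boxMap_of_mem (n : ℕ) (a b : Fin n → ℝ) (t : AsCube n) (h : asBoxAff n a b t ∈ nmBox n a b) :
    asBoxMap n a b t = ((⟨asBoxAff n a b t, h⟩ : nmBox n a b) : OnePoint (nmBox n a b)) := by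
  unfold asBoxMap
  exact dif_pos h

theorem as_boxMap_of_not (n : ℕ) (a b : Fin n → ℝ) (t : AsCube n) (h : asBoxAff n a b t ∉ nmBox n a b) :
    asBoxMap n a b t = OnePoint.infty := by
  unfold asBoxMap
  exact dif_neg h

theorem as_box_isOpen (n : ℕ) (a b : Fin n → ℝ) : IsOpen (nmBox n a b) := by
  have e : nmBox n a b = ⋂ i : Fin n, ({x | a i < x i} ∩ {x | x i < b i}) := by
    ext x
    simp [nmBox]
  rw [e]
  refine isOpen_iInter_of_finite fun i => IsOpen.inter ?_ ?_
  · exact isOpen_lt continuous_const (EuclideanSpace.proj i).continuous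
  · exact isOpen_lt (EuclideanSpace.proj i).continuous continuous_const

theorem as_boxMap_eq_coll (n : ℕ) (a b : Fin n → ℝ) (t : AsCube n) :
    asBoxMap n a b t = asColl (Subtype.val : nmBox n a b → EuclideanSpace ℝ (Fin n))
      ((asBoxAff n a b t : EuclideanSpace ℝ (Fin n)) : OnePoint (EuclideanSpace ℝ (Fin n))) := by
  by_cases h : asBoxAff n a b t ∈ nmBox n a b
  · rw [as_boxMap_of_mem n a b t h]
    exact (as_coll_coe (Subtype.val : nmBox n a b → EuclideanSpace ℝ (Fin n))
      Subtype.val_injective ⟨_, h⟩).symm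
  · rw [as_boxMap_of_not n a b t h]
    refine (as_coll_of_not _ _ ?_).symm
    rw [Subtype.range_val]
    exact h

theorem as_boxMap_cont (n : ℕ) (a b : Fin n → ℝ) : Continuous (asBoxMap n a b) := by
  have e : asBoxMap n a b = fun t => asColl (Subtype.val : nmBox n a b → EuclideanSpace ℝ (Fin n))
      ((asBoxAff n a b t : EuclideanSpace ℝ (Fin n)) : OnePoint (EuclideanSpace ℝ (Fin n))) :=
    funext (as_boxMap_eq_coll n a b)
  rw [e]
  exact (as_coll_cont _ (as_box_isOpen n a b).isOpenEmbedding_subtypeVal).comp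
    (OnePoint.continuous_coe.comp (as_boxAff_cont n a b))

theorem as_boxInv_coe (n : ℕ) (a b : Fin n → ℝ) (x : nmBox n a b) (i : Fin n) :
    asBoxInv n a b (x : OnePoint (nmBox n a b)) i =
      Set.projIcc (0 : ℝ) 1 zero_le_one (((x : EuclideanSpace ℝ (Fin n)) i - a i) / (b i - a i)) := rfl

theorem as_box_relHomeo (n : ℕ) (a b : Fin n → ℝ) (hab : ∀ i, a i < b i) :
    AsRelHomeo (asBoxMap n a b) (asBoxInv n a b) ({OnePoint.infty} : Set (OnePoint (nmBox n a b))) := by
  refine ⟨as_boxMap_cont n a b, OnePoint.isClosed_infty, ?_, ?_, ?_⟩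
  · intro y hy
    induction y using OnePoint.rec with
    | infty => exact (hy rfl).elim
    | coe x =>
      have e : asBoxAff n a b (asBoxInv n a b (x : OnePoint (nmBox n a b))) = x.1 := by
        ext i
        rw [as_boxAff_apply, as_boxInv_coe]
        have hi : 0 < b i - a i := sub_pos.2 (hab i)
        have hx := x.2 i
        have h0 : 0 ≤ ((x : EuclideanSpace ℝ (Fin n)) i - a i) / (b i - a i) :=
          div_nonneg (by linarith [hx.1]) hi.le
        have h1 : ((x : EuclideanSpace ℝ (Fin n)) i - a i) / (b i - a i) ≤ 1 := by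
          rw [div_le_one hi]
          linarith [hx.2]
        rw [Set.projIcc_of_mem zero_le_one ⟨h0, h1⟩]
        show a i + ((x : EuclideanSpace ℝ (Fin n)) i - a i) / (b i - a i) * (b i - a i) = _
        rw [div_mul_cancel₀ _ hi.ne']
        ring
      have hm : asBoxAff n a b (asBoxInv n a b (x : OnePoint (nmBox n a b))) ∈ nmBox n a b := by
        rw [e]
        exact x.2
      rw [as_boxMap_of_mem n a b _ hm]
      congr 1
      exact Subtype.ext e
  · intro t ht
    have hm : asBoxAff n a b t ∈ nmBox n a b := by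
      by_contra hc
      exact ht (as_boxMap_of_not n a b t hc)
    rw [as_boxMap_of_mem n a b t hm]
    funext i
    rw [as_boxInv_coe]
    show Set.projIcc (0 : ℝ) 1 zero_le_one ((asBoxAff n a b t i - a i) / (b i - a i)) = t i
    have hi : 0 < b i - a i := sub_pos.2 (hab i)
    have e : (asBoxAff n a b t i - a i) / (b i - a i) = t i := by
      rw [as_boxAff_apply]
      field_simp
      ring
    rw [e]
    exact Set.projIcc_val zero_le_one (t i)
  · intro y hy
    induction y using OnePoint.rec with
    | infty => exact (hy rfl).elim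
    | coe x =>
      rw [OnePoint.continuousAt_coe]
      have hc : Continuous (asBoxInv n a b ∘ ((↑) : nmBox n a b → OnePoint (nmBox n a b))) := by
        refine continuous_pi fun i => ?_
        show Continuous fun x : nmBox n a b =>
          Set.projIcc (0 : ℝ) 1 zero_le_one (((x : EuclideanSpace ℝ (Fin n)) i - a i) / (b i - a i))
        refine continuous_projIcc.comp ?_
        refine Continuous.div_const ?_ _
        exact (((EuclideanSpace.proj i).continuous).comp continuous_subtype_val).sub continuous_const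
      exact hc.continuousAt

theorem as_box_preimage (n : ℕ) (a b : Fin n → ℝ) (hab : ∀ i, a i < b i) :
    asBoxMap n a b ⁻¹' ({OnePoint.infty} : Set (OnePoint (nmBox n a b))) = asCubeBd n := by
  ext t
  show asBoxMap n a b t = OnePoint.infty ↔ _
  by_cases h : asBoxAff n a b t ∈ nmBox n a b
  · rw [as_boxMap_of_mem n a b t h]
    have := (as_boxAff_mem n a b hab t).1 h
    simp [this]
  · rw [as_boxMap_of_not n a b t h]
    have : t ∈ asCubeBd n := by
      by_contra hc
      exact h ((as_boxAff_mem n a b hab t).2 hc)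
    simp [this]

theorem as_box_equiv (n : ℕ) (a b : Fin n → ℝ) (hab : ∀ i, a i < b i) (q : ℕ) :
    Nonempty (AsHc k q (nmBox n a b) ≃ₗ[k] AsH k (AsCube n) (asCubeBd n) q) := by
  have : LocallyCompactSpace (nmBox n a b) := (as_box_isOpen n a b).locallyCompactSpace
  rw [← as_box_preimage n a b hab]
  exact ⟨LinearEquiv.ofBijective _ (as_exc_bij (k := k) (asBoxMap n a b) (asBoxInv n a b) _
    (as_box_relHomeo n a b hab) q)⟩

theorem as_hc_box_other (n q : ℕ) (a b : Fin n → ℝ) (hq : q ≠ n) (u : AsHc k q (nmBox n a b)) : u = 0 := by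
  by_cases hab : ∀ i, a i < b i
  · obtain ⟨e⟩ := as_box_equiv (k := k) n a b hab q
    exact e.map_eq_zero_iff.1 (as_cube_other n q hq (e u))
  · rw [not_forall] at hab
    obtain ⟨i, hi⟩ := hab
    have : IsEmpty (nmBox n a b) := ⟨fun x => hi ((x.2 i).1.trans (x.2 i).2)⟩
    exact as_hc_of_isEmpty q _ u

theorem as_hc_box_top (n : ℕ) (a b : Fin n → ℝ) (hab : ∀ i, a i < b i) :
    Module.finrank k (AsHc k n (nmBox n a b)) = 1 := by
  obtain ⟨e⟩ := as_box_equiv (k := k) n a b hab n
  rw [e.finrank_eq]
  exact as_cube_top n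

end Claimed.Agent.R304
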