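/-
Row 304, block A1.  Package CaPow.  Owner: helper181.

`caPow p ζ z = ζ ^ z` for a `p`-power root of unity `ζ : Circle` and `z : ℤ_[p]`
(junk value `1` for other `ζ`).
-/
import Mathlib

set_option autoImplicit false

namespace Claimed.Agent.R304

open Classical in
/-- `ζ ^ z` for `ζ` a `p`-power root of unity, `z` a `p`-adic integer. -/
noncomputable def caPow (p : ℕ) [Fact p.Prime] (ζ : Circle) (z : ℤ_[p]) : Circle :=
  if h : ∃ n : ℕ, ζ ^ (p ^ n) = 1 then ζ ^ (PadicInt.toZModPow (Nat.find h) z).val else 1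

theorem ca_pow_congr {ζ : Circle} {N a b : ℕ} (h : ζ ^ N = 1) (hab : (a : ZMod N) = b) :
    ζ ^ a = ζ ^ b := by
  rw [ZMod.natCast_eq_natCast_iff'] at hab
  rw [pow_eq_pow_mod a h, pow_eq_pow_mod b h, hab]

theorem ca_pow_le {ζ : Circle} {p n m : ℕ} (h : ζ ^ (p ^ n) = 1) (hnm : n ≤ m) :
    ζ ^ (p ^ m) = 1 := by
  obtain ⟨k, rfl⟩ := Nat.exists_eq_add_of_le hnm
  rw [pow_add, pow_mul, h, one_pow]

variable {p : ℕ} [Fact p.Prime]

theorem caPow_eq {ζ : Circle} {n : ℕ} (h : ζ ^ (p ^ n) = 1) (z : ℤ_[p]) :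
    caPow p ζ z = ζ ^ (PadicInt.toZModPow n z).val := by
  classical
  have hex : ∃ n : ℕ, ζ ^ (p ^ n) = 1 := ⟨n, h⟩
  rw [caPow, dif_pos hex]
  have hm : ζ ^ (p ^ (Nat.find hex)) = 1 := Nat.find_spec hex
  have hle : Nat.find hex ≤ n := Nat.find_min' hex h
  apply ca_pow_congr hm
  rw [ZMod.natCast_zmod_val, ZMod.natCast_val, PadicInt.cast_toZModPow _ _ hle]

theorem caPow_one_base (z : ℤ_[p]) : caPow p 1 z = 1 := by
  rw [caPow_eq (n := 0) (by simp), one_pow]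

theorem caPow_mem {ζ : Circle} {n : ℕ} (h : ζ ^ (p ^ n) = 1) (z : ℤ_[p]) :
    caPow p ζ z ^ (p ^ n) = 1 := by
  rw [caPow_eq h, ← pow_mul, mul_comm, pow_mul, h, one_pow]

theorem caPow_mul_base {ζ η : Circle} (hζ : ∃ n : ℕ, ζ ^ (p ^ n) = 1)
    (hη : ∃ n : ℕ, η ^ (p ^ n) = 1) (z : ℤ_[p]) :
    caPow p (ζ * η) z = caPow p ζ z * caPow p η z := by
  obtain ⟨n, hn⟩ := hζ
  obtain ⟨m, hm⟩ := hη
  have h1 := ca_pow_le hn (le_max_left n m)
  have h2 := ca_pow_le hm (le_max_right n m)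
  have h3 : (ζ * η) ^ (p ^ max n m) = 1 := by rw [mul_pow, h1, h2, one_mul]
  rw [caPow_eq h1, caPow_eq h2, caPow_eq h3, mul_pow]

theorem caPow_add (ζ : Circle) (z w : ℤ_[p]) :
    caPow p ζ (z + w) = caPow p ζ z * caPow p ζ w := by
  by_cases h : ∃ n : ℕ, ζ ^ (p ^ n) = 1
  · obtain ⟨n, hn⟩ := h
    rw [caPow_eq hn, caPow_eq hn, caPow_eq hn, ← pow_add]
    apply ca_pow_congr hn
    rw [Nat.cast_add, ZMod.natCast_zmod_val, ZMod.natCast_zmod_val, ZMod.natCast_zmod_val, map_add]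
  · simp [caPow, h]

theorem caPow_mul {ζ : Circle} (hζ : ∃ n : ℕ, ζ ^ (p ^ n) = 1) (z w : ℤ_[p]) :
    caPow p ζ (z * w) = caPow p (caPow p ζ z) w := by
  obtain ⟨n, hn⟩ := hζ
  rw [caPow_eq (caPow_mem hn z), caPow_eq hn, caPow_eq hn, ← pow_mul]
  apply ca_pow_congr hn
  rw [Nat.cast_mul, ZMod.natCast_zmod_val, ZMod.natCast_zmod_val, ZMod.natCast_zmod_val, map_mul]

theorem caPow_natCast {ζ : Circle} (hζ : ∃ n : ℕ, ζ ^ (p ^ n) = 1) (k : ℕ) :
    caPow p ζ (k : ℤ_[p]) = ζ ^ k := by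
  obtain ⟨n, hn⟩ := hζ
  rw [caPow_eq hn]
  apply ca_pow_congr hn
  rw [ZMod.natCast_zmod_val, map_natCast]

theorem caPow_continuous (ζ : Circle) : Continuous (caPow p ζ) := by
  by_cases h : ∃ n : ℕ, ζ ^ (p ^ n) = 1
  · obtain ⟨n, hn⟩ := h
    apply IsLocallyConstant.continuous
    rw [IsLocallyConstant.iff_eventually_eq]
    intro z
    have hpos : (0 : ℝ) < (p : ℝ) ^ (-(n : ℤ)) := by
      have : (0 : ℝ) < p := by exact_mod_cast (Fact.out : p.Prime).pos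
      positivity
    filter_upwards [Metric.ball_mem_nhds z hpos] with w hw
    rw [caPow_eq hn, caPow_eq hn]
    have h1 : ‖w - z‖ ≤ (p : ℝ) ^ (-(n : ℤ)) := by
      rw [Metric.mem_ball, dist_eq_norm] at hw
      exact hw.le
    rw [PadicInt.norm_le_pow_iff_mem_span_pow, ← PadicInt.ker_toZModPow, RingHom.mem_ker, map_sub,
      sub_eq_zero] at h1
    rw [h1]
  · have : caPow p ζ = fun _ => 1 := by
      funext z
      simp [caPow, h]
    rw [this]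
    exact continuous_const

end Claimed.Agent.R304
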