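/-
Row 304, block A1.  Package CaAlg.  Owner: helper181.

(C4') a nontrivial commutative group has, for some prime `p`, a nontrivial homomorphism to the
circle all of whose values are `p`-power roots of unity.

Proof.  `d₀ ≠ 1`, `p := (orderOf d₀).minFac` (prime since `orderOf d₀ ≠ 1`; `p ∣ orderOf d₀`, also
when the order is `0`).  `Q := {ζ : Circle | ∃ n, ζ ^ p ^ n = 1}` is a divisible subgroup, so
`Additive Q` is Baer (`Module.Baer.of_divisible`).  `ω` := a primitive `p`-th root of unity.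
`d₀ ^ k ↦ ω ^ k` is well defined on `zpowers d₀`; extend it with
`Module.Baer.extension_property_addMonoidHom`.
-/
import Claimed.Agent.R304.CaPow

set_option autoImplicit false

namespace Claimed.Agent.R304

/-- the Prüfer group inside the circle -/
def caPruf (p : ℕ) : Subgroup Circle where
  carrier := {ζ | ∃ n : ℕ, ζ ^ (p ^ n) = 1}
  mul_mem' := by
    rintro ζ η ⟨n, hn⟩ ⟨m, hm⟩
    refine ⟨max n m, ?_⟩
    rw [mul_pow, ca_pow_le hn (le_max_left n m), ca_pow_le hm (le_max_right n m), one_mul]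
  one_mem' := ⟨0, by simp⟩
  inv_mem' := by
    rintro ζ ⟨n, hn⟩
    exact ⟨n, by rw [inv_pow, hn, inv_one]⟩

theorem ca_circle_root (ζ : Circle) {N : ℕ} (hN : N ≠ 0) : ∃ η : Circle, η ^ N = ζ := by
  refine ⟨Circle.exp (Complex.arg ζ / N), ?_⟩
  apply Circle.ext
  rw [Circle.coe_pow, Circle.coe_exp, ← Complex.exp_nat_mul]
  have h1 : (N : ℂ) * (((Complex.arg (ζ : ℂ) / N : ℝ) : ℂ) * Complex.I)
      = (Complex.arg (ζ : ℂ) : ℂ) * Complex.I := by
    have : (N : ℂ) ≠ 0 := by exact_mod_cast hN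
    push_cast
    field_simp
  rw [h1]
  have := Circle.exp_arg ζ
  exact congrArg Subtype.val this

theorem caPruf_pow_surj {p : ℕ} (hp : p.Prime) {m : ℕ} (hm : m ≠ 0) :
    Function.Surjective (fun a : caPruf p => a ^ m) := by
  rintro ⟨ζ, n, hn⟩
  obtain ⟨k, m', hm', rfl⟩ := Nat.exists_eq_pow_mul_and_not_dvd hm p hp.ne_one
  obtain ⟨η₀, hη₀⟩ := ca_circle_root ζ (N := p ^ k) (pow_ne_zero _ hp.ne_zero)
  have h1 : η₀ ^ (p ^ (k + n)) = 1 := by rw [pow_add, pow_mul, hη₀, hn]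
  have hcop : Nat.Coprime m' (p ^ (k + n)) :=
    Nat.Coprime.pow_right _ ((Nat.Prime.coprime_iff_not_dvd hp).2 hm').symm
  let t : ℕ := ((m' : ZMod (p ^ (k + n)))⁻¹).val
  have : NeZero (p ^ (k + n)) := ⟨pow_ne_zero _ hp.ne_zero⟩
  have h2 : η₀ ^ (t * m') = η₀ ^ 1 := by
    apply ca_pow_congr h1
    rw [Nat.cast_mul, ZMod.natCast_zmod_val, Nat.cast_one, mul_comm]
    exact ZMod.coe_mul_inv_eq_one _ hcop
  refine ⟨⟨η₀ ^ t, k + n, ?_⟩, ?_⟩
  · rw [← pow_mul, mul_comm, pow_mul, h1, one_pow]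
  · apply Subtype.ext
    change (η₀ ^ t) ^ (p ^ k * m') = ζ
    rw [← pow_mul, mul_comm (p ^ k), ← mul_assoc, pow_mul, h2, pow_one, hη₀]

theorem ca_prim_root {p : ℕ} (hp : p.Prime) : ∃ ω : Circle, ω ^ p = 1 ∧ ω ≠ 1 := by
  have h := Complex.isPrimitiveRoot_exp p hp.ne_zero
  have hn : ‖Complex.exp (2 * Real.pi * Complex.I / p)‖ = 1 :=
    Complex.norm_eq_one_of_pow_eq_one h.pow_eq_one hp.ne_zero
  refine ⟨⟨_, mem_sphere_zero_iff_norm.2 hn⟩, ?_, ?_⟩
  · apply Circle.ext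
    exact h.pow_eq_one
  · intro h1
    exact h.ne_one hp.one_lt (congrArg Subtype.val h1)

theorem ca_alg (D : Type*) [CommGroup D] [Nontrivial D] :
    ∃ p : ℕ, p.Prime ∧ ∃ π : D →* Circle, π ≠ 1 ∧ ∀ d, ∃ n : ℕ, π d ^ (p ^ n) = 1 := by
  obtain ⟨d₀, hd₀⟩ := exists_ne (1 : D)
  have hord : orderOf d₀ ≠ 1 := fun h => hd₀ (orderOf_eq_one_iff.1 h)
  set N := orderOf d₀ with hN
  set p := N.minFac with hpdef
  have hp : p.Prime := Nat.minFac_prime hord
  have hpN : p ∣ N := Nat.minFac_dvd N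
  obtain ⟨ω, hω, hω1⟩ := ca_prim_root hp
  let ωQ : caPruf p := ⟨ω, 1, by simpa using hω⟩
  let _ : DivisibleBy (Additive (caPruf p)) ℕ := divisibleByOfSMulRightSurj _ _ (by
    intro m hm x
    obtain ⟨y, hy⟩ := caPruf_pow_surj hp hm (Additive.toMul x)
    exact ⟨Additive.ofMul y, hy⟩)
  let _ : DivisibleBy (Additive (caPruf p)) ℤ := AddGroup.divisibleByIntOfDivisibleByNat _
  have hB : Module.Baer ℤ (Additive (caPruf p)) := Module.Baer.of_divisible _
  let f : ZMod N →+ Additive D := ZMod.lift N ⟨zmultiplesHom _ (Additive.ofMul d₀), by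
    change (N : ℤ) • Additive.ofMul d₀ = 0
    rw [natCast_zsmul, ← ofMul_pow, hN, pow_orderOf_eq_one]
    rfl⟩
  let g : ZMod N →+ Additive (caPruf p) := ZMod.lift N ⟨zmultiplesHom _ (Additive.ofMul ωQ), by
    change (N : ℤ) • Additive.ofMul ωQ = 0
    obtain ⟨c, hc⟩ := hpN
    have h1 : ωQ ^ N = 1 := by
      apply Subtype.ext
      change ω ^ N = 1
      rw [hc, pow_mul, hω, one_pow]
    rw [natCast_zsmul, ← ofMul_pow, h1]
    rfl⟩
  have hf : Function.Injective f := by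
    rw [ZMod.lift_injective]
    intro m hm
    have h1 : d₀ ^ m = 1 := hm
    rw [← orderOf_dvd_iff_zpow_eq_one] at h1
    exact (ZMod.intCast_zmod_eq_zero_iff_dvd m N).2 h1
  obtain ⟨h, hh⟩ := hB.extension_property_addMonoidHom f hf g
  have hf1 : f 1 = Additive.ofMul d₀ := by
    have := ZMod.lift_coe N (A := Additive D) ⟨zmultiplesHom _ (Additive.ofMul d₀), by
      change (N : ℤ) • Additive.ofMul d₀ = 0
      rw [natCast_zsmul, ← ofMul_pow, hN, pow_orderOf_eq_one]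
      rfl⟩ 1
    simpa using this
  have hg1 : g 1 = Additive.ofMul ωQ := by
    have := ZMod.lift_coe N (A := Additive (caPruf p)) ⟨zmultiplesHom _ (Additive.ofMul ωQ), by
      change (N : ℤ) • Additive.ofMul ωQ = 0
      obtain ⟨c, hc⟩ := hpN
      have h1 : ωQ ^ N = 1 := by
        apply Subtype.ext
        change ω ^ N = 1
        rw [hc, pow_mul, hω, one_pow]
      rw [natCast_zsmul, ← ofMul_pow, h1]
      rfl⟩ 1
    simpa using this
  have hhd : h (Additive.ofMul d₀) = Additive.ofMul ωQ := by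
    rw [← hf1, ← hg1, ← hh]
    rfl
  refine ⟨p, hp, (caPruf p).subtype.comp (MonoidHom.toAdditive.symm h), ?_, ?_⟩
  · intro hπ
    have h1 := congrArg (fun φ : D →* Circle => φ d₀) hπ
    have h2 : ((Additive.toMul (h (Additive.ofMul d₀)) : caPruf p) : Circle) = 1 := h1
    rw [hhd] at h2
    exact hω1 h2
  · intro d
    exact (Additive.toMul (h (Additive.ofMul d)) : caPruf p).2

end Claimed.Agent.R304
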