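/-
Row 304, block A1.  Package CaEval.  Owner: helper181.

(C3) every abstract homomorphism `ξ : (A →ₜ* Circle) →* Circle` is the evaluation at a point.

Proof.  `D := A →ₜ* Circle`, `G := {ξ : D → Circle | ξ multiplicative}`, a closed subgroup of the
compact group `D → Circle`; `ι : A → G` the evaluation, continuous.  `μ`, `ν` the Haar probability
measures of `A`, `G`.  For `d : D` the function `ev d : C(G, ℂ)` satisfies
`∫ ev d dν = ∫ (ev d ∘ ι) dμ` (both are `1` if `d = 1` and `0` otherwise: a nontrivial character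
has integral zero).  The span of the `ev d` is a star subalgebra separating the points of `G`, so
it is dense (Stone-Weierstrass) and `∫ g dν = ∫ g ∘ ι dμ` for ALL `g : C(G, ℂ)`.
If `ξ ∉ ι(A)` (compact, hence closed) Urysohn gives `g ≥ 0`, `g = 0` on `ι(A)`, `g ξ = 1`:
`0 < ∫ g dν = 0`.
-/
import Mathlib

set_option autoImplicit false

namespace Claimed.Agent.R304
open MeasureTheory

section integrals

variable {X : Type*} [TopologicalSpace X] [CompactSpace X] [MeasurableSpace X] [BorelSpace X]
  (ν : Measure X) [IsFiniteMeasure ν]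

theorem ca_integrable (g : C(X, ℂ)) : Integrable g ν :=
  g.continuous.integrable_of_hasCompactSupport (HasCompactSupport.of_compactSpace g)

theorem ca_integral_continuous : Continuous fun g : C(X, ℂ) => ∫ x, g x ∂ν := by
  apply LipschitzWith.continuous (K := (ν Set.univ).toNNReal)
  apply LipschitzWith.of_dist_le_mul
  intro g h
  rw [dist_eq_norm, dist_eq_norm, ← integral_sub (ca_integrable ν g) (ca_integrable ν h)]
  have := norm_integral_le_of_norm_le_const (μ := ν) (f := fun x => g x - h x) (C := ‖g - h‖)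
    (Filter.Eventually.of_forall fun x => (g - h).norm_coe_le_norm x)
  rw [mul_comm] at this
  exact this

end integrals

section char

variable {K : Type*} [Group K] [MeasurableSpace K] [MeasurableMul K]
  (ν : Measure K) [ν.IsMulLeftInvariant]

theorem ca_integral_char (χ : K → ℂ) (hmul : ∀ x y, χ (x * y) = χ x * χ y) {x₀ : K}
    (h : χ x₀ ≠ 1) : ∫ x, χ x ∂ν = 0 := by
  have h1 : ∫ x, χ (x₀ * x) ∂ν = ∫ x, χ x ∂ν := integral_mul_left_eq_self χ x₀
  simp_rw [hmul] at h1
  rw [integral_const_mul] at h1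
  have h2 : (χ x₀ - 1) * ∫ x, χ x ∂ν = 0 := by rw [sub_mul, h1, one_mul, sub_self]
  exact (mul_eq_zero.1 h2).resolve_left (sub_ne_zero.2 h)

end char

section group

variable (D : Type*) [CommMonoid D]

/-- the group of multiplicative maps `D → Circle` -/
def caG : Subgroup (D → Circle) where
  carrier := {ξ | ∀ x y, ξ (x * y) = ξ x * ξ y}
  mul_mem' := by
    intro ξ η hξ hη x y
    simp [hξ x y, hη x y, mul_mul_mul_comm]
  one_mem' := by
    intro x y
    simp
  inv_mem' := by
    intro ξ hξ x y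
    simp [hξ x y, mul_comm]

theorem caG_isClosed : IsClosed (caG D : Set (D → Circle)) := by
  have : (caG D : Set (D → Circle)) = ⋂ x, ⋂ y, {ξ | ξ (x * y) = ξ x * ξ y} := by
    ext ξ
    simp [caG]
  rw [this]
  refine isClosed_iInter fun x => isClosed_iInter fun y => ?_
  exact isClosed_eq (continuous_apply _) ((continuous_apply x).mul (continuous_apply y))

instance caG_compactSpace : CompactSpace (caG D) :=
  isCompact_iff_compactSpace.1 (caG_isClosed D).isCompact

theorem caG_map_one (ξ : caG D) : ξ.1 1 = 1 := by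
  have := ξ.2 1 1
  rw [mul_one] at this
  exact (mul_eq_left.1 this.symm)

/-- evaluation at `d` as a continuous function on `caG D` -/
def caEv (d : D) : C(caG D, ℂ) :=
  ⟨fun ξ => (ξ.1 d : ℂ),
    continuous_subtype_val.comp ((continuous_apply d).comp continuous_subtype_val)⟩

theorem caEv_apply (d : D) (ξ : caG D) : caEv D d ξ = (ξ.1 d : ℂ) := rfl

theorem caEv_mul (d e : D) : caEv D (d * e) = caEv D d * caEv D e := by
  ext ξ
  simp [caEv_apply, ξ.2 d e]

theorem caEv_one : caEv D 1 = 1 := by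
  ext ξ
  simp [caEv_apply, caG_map_one]

end group

section trig

variable (D : Type*) [CommGroup D]

theorem caG_map_inv (ξ : caG D) (d : D) : ξ.1 d⁻¹ = (ξ.1 d)⁻¹ := by
  have := ξ.2 d⁻¹ d
  rw [inv_mul_cancel, caG_map_one] at this
  exact eq_inv_of_mul_eq_one_left this.symm

theorem caEv_star (d : D) : star (caEv D d) = caEv D d⁻¹ := by
  ext ξ
  rw [ContinuousMap.star_apply, caEv_apply, caEv_apply, caG_map_inv, Circle.coe_inv_eq_conj]
  rfl

/-- trigonometric polynomials on `caG D` -/
def caTrig : StarSubalgebra ℂ C(caG D, ℂ) where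
  carrier := Submodule.span ℂ (Set.range (caEv D))
  mul_mem' := by
    intro f g hf hg
    have h := Submodule.mul_mem_mul hf hg
    rw [Submodule.span_mul_span] at h
    refine Submodule.span_mono ?_ h
    rintro _ ⟨_, ⟨d, rfl⟩, _, ⟨e, rfl⟩, rfl⟩
    exact ⟨d * e, caEv_mul D d e⟩
  one_mem' := Submodule.subset_span ⟨1, caEv_one D⟩
  add_mem' := Submodule.add_mem _
  zero_mem' := Submodule.zero_mem _
  algebraMap_mem' := by
    intro r
    rw [Algebra.algebraMap_eq_smul_one]
    exact Submodule.smul_mem _ _ (Submodule.subset_span ⟨1, caEv_one D⟩)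
  star_mem' := by
    intro f hf
    induction hf using Submodule.span_induction with
    | mem x hx =>
      obtain ⟨d, rfl⟩ := hx
      exact Submodule.subset_span ⟨d⁻¹, (caEv_star D d).symm⟩
    | zero => simp
    | add x y _ _ hx hy =>
      rw [star_add]
      exact Submodule.add_mem _ hx hy
    | smul c x _ hx =>
      rw [star_smul]
      exact Submodule.smul_mem _ _ hx

theorem caTrig_mem {f : C(caG D, ℂ)} :
    f ∈ caTrig D ↔ f ∈ Submodule.span ℂ (Set.range (caEv D)) := Iff.rfl

theorem caTrig_dense : (caTrig D).topologicalClosure = ⊤ := by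
  apply ContinuousMap.starSubalgebra_topologicalClosure_eq_top_of_separatesPoints
  intro ξ η hne
  have : ∃ d, ξ.1 d ≠ η.1 d := by
    by_contra h
    push Not at h
    exact hne (Subtype.ext (funext h))
  obtain ⟨d, hd⟩ := this
  refine ⟨_, ⟨caEv D d, Submodule.subset_span ⟨d, rfl⟩, rfl⟩, ?_⟩
  intro h
  exact hd (Circle.ext h)

end trig

section main

variable {A : Type*} [CommGroup A] [TopologicalSpace A]

/-- the evaluation map `A → caG (A →ₜ* Circle)` -/
noncomputable def caIota (a : A) : caG (A →ₜ* Circle) := ⟨fun χ => χ a, fun _ _ => rfl⟩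

theorem caIota_continuous : Continuous (caIota : A → caG (A →ₜ* Circle)) :=
  Continuous.subtype_mk (continuous_pi fun χ => map_continuous χ) _

theorem caIota_mul (a b : A) : caIota (a * b) = caIota a * caIota b := by
  apply Subtype.ext
  funext χ
  exact map_mul χ a b

variable [IsTopologicalGroup A] [CompactSpace A] [MeasurableSpace A] [BorelSpace A]
  (μ : Measure A) [IsProbabilityMeasure μ] [μ.IsMulLeftInvariant]
  [MeasurableSpace (caG (A →ₜ* Circle))] [BorelSpace (caG (A →ₜ* Circle))]
  (ν : Measure (caG (A →ₜ* Circle))) [IsProbabilityMeasure ν] [ν.IsMulLeftInvariant]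

omit [CompactSpace A] in
theorem ca_int_ev (d : A →ₜ* Circle) :
    ∫ ξ, caEv _ d ξ ∂ν = ∫ a, caEv _ d (caIota a) ∂μ := by
  by_cases hd : d = 1
  · subst hd
    simp [caEv_one]
  · have : ∃ a₀, d a₀ ≠ 1 := by
      by_contra h
      push Not at h
      exact hd (ContinuousMonoidHom.ext h)
    obtain ⟨a₀, ha₀⟩ := this
    rw [ca_integral_char ν (fun ξ => caEv _ d ξ) (x₀ := caIota a₀),
      ca_integral_char μ (fun a => caEv _ d (caIota a)) (x₀ := a₀)]
    · intro x y
      simp [caEv_apply, caIota]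
    · intro h
      exact ha₀ (Circle.ext h)
    · intro x y
      simp [caEv_apply]
    · intro h
      exact ha₀ (Circle.ext h)

theorem ca_int_all (g : C(caG (A →ₜ* Circle), ℂ)) :
    ∫ ξ, g ξ ∂ν = ∫ a, g (caIota a) ∂μ := by
  let ι : C(A, caG (A →ₜ* Circle)) := ⟨caIota, caIota_continuous⟩
  have hclosed : IsClosed {g : C(caG (A →ₜ* Circle), ℂ) | ∫ ξ, g ξ ∂ν = ∫ a, g (caIota a) ∂μ} := by
    apply isClosed_eq (ca_integral_continuous ν)
    exact (ca_integral_continuous μ).comp (ContinuousMap.continuous_precomp ι)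
  have hsub : ((caTrig (A →ₜ* Circle) : Set C(caG (A →ₜ* Circle), ℂ)))
      ⊆ {g | ∫ ξ, g ξ ∂ν = ∫ a, g (caIota a) ∂μ} := by
    intro g hg
    induction hg using Submodule.span_induction with
    | mem x hx =>
      obtain ⟨d, rfl⟩ := hx
      exact ca_int_ev μ ν d
    | zero => simp
    | add x y _ _ hx hy =>
      have hx' : ∫ ξ, x ξ ∂ν = ∫ a, x (caIota a) ∂μ := hx
      have hy' : ∫ ξ, y ξ ∂ν = ∫ a, y (caIota a) ∂μ := hy
      change ∫ ξ, (x ξ + y ξ) ∂ν = ∫ a, (x (caIota a) + y (caIota a)) ∂μ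
      have h2 : ∫ a, (x (caIota a) + y (caIota a)) ∂μ
          = ∫ a, x (caIota a) ∂μ + ∫ a, y (caIota a) ∂μ :=
        integral_add (ca_integrable μ (x.comp ι)) (ca_integrable μ (y.comp ι))
      rw [integral_add (ca_integrable ν x) (ca_integrable ν y), h2, hx', hy']
    | smul c x _ hx =>
      have hx' : ∫ ξ, x ξ ∂ν = ∫ a, x (caIota a) ∂μ := hx
      change ∫ ξ, c * x ξ ∂ν = ∫ a, c * x (caIota a) ∂μ
      rw [integral_const_mul, integral_const_mul, hx']
  have hg : g ∈ (caTrig (A →ₜ* Circle)).topologicalClosure := by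
    rw [caTrig_dense]
    trivial
  exact closure_minimal hsub hclosed hg

end main

theorem ca_haar_prob (K : Type*) [Group K] [TopologicalSpace K] [IsTopologicalGroup K]
    [CompactSpace K] [MeasurableSpace K] [BorelSpace K] :
    ∃ ν : Measure K, IsProbabilityMeasure ν ∧ ν.IsHaarMeasure := by
  refine ⟨Measure.haarMeasure ⊤, ⟨?_⟩, inferInstance⟩
  simpa using Measure.haarMeasure_self (K₀ := (⊤ : TopologicalSpace.PositiveCompacts K))

theorem ca_eval {A : Type*} [CommGroup A] [TopologicalSpace A] [IsTopologicalGroup A]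
    [CompactSpace A] [T2Space A] (ξ : (A →ₜ* Circle) →* Circle) :
    ∃ a : A, ∀ χ : A →ₜ* Circle, χ a = ξ χ := by
  let _ : MeasurableSpace A := borel A
  have : BorelSpace A := ⟨rfl⟩
  let _ : MeasurableSpace (caG (A →ₜ* Circle)) := borel _
  have : BorelSpace (caG (A →ₜ* Circle)) := ⟨rfl⟩
  obtain ⟨μ, hμ1, hμ2⟩ := ca_haar_prob A
  obtain ⟨ν, hν1, hν2⟩ := ca_haar_prob (caG (A →ₜ* Circle))
  let ξ₀ : caG (A →ₜ* Circle) := ⟨ξ, fun x y => map_mul ξ x y⟩
  by_contra hcon
  push Not at hcon
  have hnot : ξ₀ ∉ Set.range (caIota : A → caG (A →ₜ* Circle)) := by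
    rintro ⟨a, ha⟩
    obtain ⟨χ, hχ⟩ := hcon a
    exact hχ (congrFun (congrArg Subtype.val ha) χ)
  have hcl : IsClosed (Set.range (caIota : A → caG (A →ₜ* Circle))) :=
    (isCompact_range caIota_continuous).isClosed
  obtain ⟨f, hf0, hf1, hf01⟩ := exists_continuous_zero_one_of_isClosed hcl
    (isClosed_singleton (x := ξ₀)) (by simpa [Set.disjoint_singleton_right] using hnot)
  let g : C(caG (A →ₜ* Circle), ℂ) := ⟨fun x => (f x : ℂ), by fun_prop⟩
  have h1 := ca_int_all μ ν g
  have h2 : ∫ a, g (caIota a) ∂μ = 0 := by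
    have : ∀ a, g (caIota a) = 0 := by
      intro a
      have : f (caIota a) = 0 := hf0 ⟨a, rfl⟩
      simp [g, this]
    simp [this]
  rw [h2] at h1
  have h3 : ∫ x, g x ∂ν = ((∫ x, f x ∂ν : ℝ) : ℂ) := integral_ofReal
  rw [h3] at h1
  have h4 : ∫ x, f x ∂ν = 0 := by exact_mod_cast h1
  have h5 : 0 < ∫ x, f x ∂ν := by
    apply f.continuous.integral_pos_of_hasCompactSupport_nonneg_nonzero
      (HasCompactSupport.of_compactSpace f) (fun x => (hf01 x).1) (x := ξ₀)
    have : f ξ₀ = 1 := hf1 rfl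
    rw [this]
    exact one_ne_zero
  exact h5.ne' h4

end Claimed.Agent.R304
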