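/-
Row 304, block A1 (export E3 `hs_compact_abelian`).  Package CaGelf.  Owner: helper181.

ABSTRACT GELFAND LEMMA.  `B` a C*-algebra, `L : A →* B` a unitary representation of a commutative
group (`star (L b) = L b⁻¹`), `T : B` commuting with all `L b`, `b ↦ L b * T` norm continuous,
`(L a - 1) * T ≠ 0`.  Then there is a continuous character `χ : A →* Circle` with `χ a ≠ 1`.

Proof.  `P := star T * T` is selfadjoint and commutes with all `L b`.  The closed star subalgebra
`𝔅` generated by `range L ∪ {P}` is a commutative C*-algebra.  `R := (L a - 1) * P ≠ 0`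
(otherwise `star S * S = star (L a - 1) * R = 0` for `S := (L a - 1) * T`).  The Gelfand transform
is isometric, so some character `φ` of `𝔅` has `φ R = (φ (L a) - 1) * φ P ≠ 0`.
`χ b := φ (L b)` has modulus one, is multiplicative, `χ a ≠ 1`, and
`χ b = φ (L b * P) / φ P = φ (star T * (L b * T)) / φ P` is continuous.
-/
import Mathlib

set_option autoImplicit false

namespace Claimed.Agent.R304

theorem ca_gelfand {B : Type*} [CStarAlgebra B] {A : Type*} [CommGroup A] [TopologicalSpace A]
    (L : A →* B) (hL : ∀ b, star (L b) = L b⁻¹) (T : B) (hT : ∀ b, L b * T = T * L b)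
    (hc : Continuous fun b => L b * T) (a : A) (ha : (L a - 1) * T ≠ 0) :
    ∃ χ : A →* Circle, Continuous χ ∧ χ a ≠ 1 := by
  classical
  set P : B := star T * T with hP
  have hsT : ∀ b, L b * star T = star T * L b := by
    intro b
    have := congrArg star (hT b⁻¹)
    simp only [star_mul, hL, inv_inv] at this
    exact this.symm
  have hPc : ∀ b, L b * P = P * L b := by
    intro b
    rw [hP, ← mul_assoc, hsT, mul_assoc, hT, mul_assoc]
  have hPs : star P = P := by simp [hP]
  let s : Set B := Set.range L ∪ {P}
  have hstar : ∀ y ∈ s, star y ∈ s := by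
    rintro y (⟨b, rfl⟩ | rfl)
    · exact Or.inl ⟨b⁻¹, (hL b).symm⟩
    · exact Or.inr hPs
  have hcomm : ∀ x ∈ s, ∀ y ∈ s, x * y = y * x := by
    rintro x (⟨b, rfl⟩ | rfl) y (⟨c, rfl⟩ | rfl)
    · rw [← map_mul, ← map_mul, mul_comm]
    · exact hPc b
    · exact (hPc c).symm
    · rfl
  have hss : s ∪ star s = s := by
    apply Set.union_eq_self_of_subset_right
    intro y hy
    have := hstar _ hy
    simpa using this
  let S : StarSubalgebra ℂ B :=
    StarSubalgebra.centralizer ℂ (StarSubalgebra.centralizer ℂ s : Set B)
  have hScoe : (S : Set B) = s.centralizer.centralizer := by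
    rw [StarSubalgebra.coe_centralizer_centralizer, hss]
  have hclosed : IsClosed (S : Set B) := by
    rw [hScoe]; exact Set.isClosed_centralizer _
  have hScomm : ∀ x y : S, x * y = y * x := by
    intro x y
    apply Subtype.ext
    have hx : (x : B) ∈ s.centralizer.centralizer := by rw [← hScoe]; exact x.2
    have hy : (y : B) ∈ s.centralizer.centralizer := by rw [← hScoe]; exact y.2
    exact Set.centralizer_centralizer_comm_of_comm hcomm _ hx _ hy
  let _ : CommCStarAlgebra S :=
    { StarSubalgebra.cstarAlgebra S (h_closed := hclosed) with mul_comm := hScomm }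
  have hsS : ∀ x ∈ s, x ∈ S := by
    intro x hx
    have : x ∈ (S : Set B) := by rw [hScoe]; exact Set.subset_centralizer_centralizer hx
    exact this
  let Lb : A → S := fun b => ⟨L b, hsS _ (Or.inl ⟨b, rfl⟩)⟩
  let PS : S := ⟨P, hsS _ (Or.inr rfl)⟩
  have hLb_mul : ∀ b c, Lb (b * c) = Lb b * Lb c := fun b c => Subtype.ext (map_mul L b c)
  have hLb_one : Lb 1 = 1 := Subtype.ext (map_one L)
  have hLb_star : ∀ b, star (Lb b) = Lb b⁻¹ := fun b => Subtype.ext (hL b)
  have hR : (Lb a - 1) * PS ≠ 0 := by
    intro h
    have h1 : (L a - 1) * P = 0 := congrArg Subtype.val h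
    apply ha
    rw [← CStarRing.star_mul_self_eq_zero_iff]
    have h2 : star ((L a - 1) * T) * ((L a - 1) * T) = star (L a - 1) * ((L a - 1) * P) := by
      have e1 : star T * star (L a - 1) = star (L a - 1) * star T := by
        simp only [star_sub, star_one, hL, mul_sub, sub_mul, mul_one, one_mul, hsT]
      have e2 : star T * (L a - 1) = (L a - 1) * star T := by
        simp only [mul_sub, sub_mul, mul_one, one_mul, hsT]
      rw [star_mul, e1, hP, mul_assoc, ← mul_assoc (star T), e2, mul_assoc]
    rw [h2, h1, mul_zero]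
  obtain ⟨φ, hφ⟩ : ∃ φ : WeakDual.characterSpace ℂ S, φ ((Lb a - 1) * PS) ≠ 0 := by
    by_contra h
    push Not at h
    apply hR
    have h0 : WeakDual.gelfandTransform ℂ S ((Lb a - 1) * PS) = 0 := by
      ext φ
      exact h φ
    have := (gelfandTransform_isometry (A := S)).injective
    apply this
    rw [h0, map_zero]
  rw [map_mul, map_sub, map_one] at hφ
  have hφP : φ PS ≠ 0 := right_ne_zero_of_mul hφ
  have hφa : φ (Lb a) ≠ 1 := fun h => left_ne_zero_of_mul hφ (by rw [h, sub_self])
  have hnorm : ∀ b, ‖φ (Lb b)‖ = 1 := by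
    intro b
    have h1 : star (φ (Lb b)) * φ (Lb b) = 1 := by
      rw [← map_star, hLb_star, ← map_mul, ← hLb_mul, inv_mul_cancel, hLb_one, map_one]
    have h2 := congrArg norm h1
    rw [CStarRing.norm_star_mul_self, norm_one] at h2
    nlinarith [norm_nonneg (φ (Lb b))]
  let χ : A →* Circle :=
    { toFun := fun b => ⟨φ (Lb b), mem_sphere_zero_iff_norm.2 (hnorm b)⟩
      map_one' := by
        apply Circle.ext
        change φ (Lb 1) = 1
        rw [hLb_one, map_one]
      map_mul' := by
        intro b c
        apply Circle.ext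
        change φ (Lb (b * c)) = φ (Lb b) * φ (Lb c)
        rw [hLb_mul, map_mul] }
  refine ⟨χ, ?_, ?_⟩
  · apply Continuous.subtype_mk
    have hcS : Continuous fun b => Lb b * PS := by
      apply Continuous.subtype_mk
      change Continuous fun b => L b * P
      have : (fun b => L b * P) = fun b => star T * (L b * T) := by
        funext b
        rw [hP, ← mul_assoc, hsT, mul_assoc]
      rw [this]
      exact continuous_const.mul hc
    have hφc : Continuous fun x : S => φ x := map_continuous φ
    have h1 : (fun b => φ (Lb b)) = fun b => φ (Lb b * PS) / φ PS := by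
      funext b
      rw [map_mul, mul_div_cancel_right₀ _ hφP]
    rw [h1]
    exact (hφc.comp hcS).div_const _
  · intro h
    apply hφa
    exact congrArg Subtype.val h

end Claimed.Agent.R304
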