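/-
Row 304, block A1.  Package CaMain.  Owner: helper181.

(C5) conclusion.  `D := A →ₜ* Circle` is nontrivial by `ca_sep`; `ca_alg` gives `p`, `π`.
`f z` := the point of `ca_eval` for `χ ↦ caPow p (π χ) z`.  It is a homomorphism (uniqueness,
`ca_sep`), continuous (`A → (D → Circle)` is a closed embedding).  If `f` is injective we are done.
Otherwise `f z = 1` for some `z = u * p ^ n ≠ 0`, so `a := f 1` satisfies `a ^ p ^ n = 1`, `a ≠ 1`,
and a suitable power of `a` has order `p`.
-/
import Claimed.Agent.R304.CaSep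
import Claimed.Agent.R304.CaEval
import Claimed.Agent.R304.CaAlg
import Claimed.Agent.R304.CaPow

set_option autoImplicit false

namespace Claimed.Agent.R304

theorem ca_order_p {A : Type*} [Group A] (p : ℕ) :
    ∀ (n : ℕ) (a : A), a ≠ 1 → a ^ (p ^ n) = 1 → ∃ b : A, b ≠ 1 ∧ b ^ p = 1 := by
  intro n
  induction n with
  | zero =>
    intro a ha h
    simp at h
    exact absurd h ha
  | succ n ih =>
    intro a ha h
    by_cases h1 : a ^ p = 1
    · exact ⟨a, ha, h1⟩
    · apply ih (a ^ p) h1
      rw [← pow_mul, ← pow_succ']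
      exact h

theorem ca_ext {A : Type*} [CommGroup A] [TopologicalSpace A] [IsTopologicalGroup A]
    [CompactSpace A] [T2Space A] {a b : A} (h : ∀ χ : A →ₜ* Circle, χ a = χ b) : a = b := by
  by_contra hne
  have h1 : a * b⁻¹ ≠ 1 := fun h2 => hne (mul_inv_eq_one.1 h2)
  obtain ⟨χ, hχ⟩ := ca_sep h1
  apply hχ
  rw [map_mul, map_inv, h χ, mul_inv_cancel]

theorem ca_main (A : Type*) [CommGroup A] [TopologicalSpace A] [IsTopologicalGroup A]
    [CompactSpace A] [T2Space A] [Nontrivial A] :
    ∃ p : ℕ, ∃ _ : Fact p.Prime,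
      (∃ a : A, a ≠ 1 ∧ a ^ p = 1) ∨
        (∃ f : Multiplicative ℤ_[p] →* A, Continuous f ∧ Function.Injective f) := by
  classical
  have hD : Nontrivial (A →ₜ* Circle) := by
    obtain ⟨a₀, ha₀⟩ := exists_ne (1 : A)
    obtain ⟨χ₀, hχ₀⟩ := ca_sep ha₀
    refine ⟨χ₀, 1, fun h => hχ₀ ?_⟩
    rw [h]
    rfl
  obtain ⟨p, hp, π, hπ1, hπ⟩ := ca_alg (A →ₜ* Circle)
  have hfact : Fact p.Prime := ⟨hp⟩
  refine ⟨p, hfact, ?_⟩
  let ξ : ℤ_[p] → ((A →ₜ* Circle) →* Circle) := fun z =>
    { toFun := fun χ => caPow p (π χ) z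
      map_one' := by rw [map_one, caPow_one_base]
      map_mul' := by
        intro χ ψ
        rw [map_mul, caPow_mul_base (hπ _) (hπ _)] }
  choose F hF using fun z => ca_eval (ξ z)
  have hF' : ∀ z (χ : A →ₜ* Circle), χ (F z) = caPow p (π χ) z := hF
  have hadd : ∀ z w, F (z + w) = F z * F w := by
    intro z w
    apply ca_ext
    intro χ
    rw [map_mul, hF', hF', hF', caPow_add]
  have hzero : F 0 = 1 := by
    have := hadd 0 0
    rw [add_zero] at this
    exact (mul_eq_left.1 this.symm)
  let f : Multiplicative ℤ_[p] →* A :=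
    { toFun := fun z => F (Multiplicative.toAdd z)
      map_one' := hzero
      map_mul' := fun z w => hadd _ _ }
  have hcont : Continuous f := by
    let e : A → ((A →ₜ* Circle) → Circle) := fun a χ => χ a
    have he : Continuous e := continuous_pi fun χ => map_continuous χ
    have hinj : Function.Injective e := fun a b hab => ca_ext fun χ => congrFun hab χ
    have hemb := he.isClosedEmbedding hinj
    rw [hemb.isInducing.continuous_iff]
    apply continuous_pi
    intro χ
    have : (fun z : Multiplicative ℤ_[p] => (e ∘ f) z χ)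
        = fun z => caPow p (π χ) (Multiplicative.toAdd z) := by
      funext z
      exact hF' _ χ
    rw [this]
    exact (caPow_continuous (π χ)).comp continuous_toAdd
  by_cases hinj : Function.Injective f
  · exact Or.inr ⟨f, hcont, hinj⟩
  · left
    rw [injective_iff_map_eq_one] at hinj
    push Not at hinj
    obtain ⟨x, hx1, hx2⟩ := hinj
    set z : ℤ_[p] := Multiplicative.toAdd x with hz
    have hz0 : z ≠ 0 := fun h => hx2 h
    have hFz : F z = 1 := hx1
    have hspec := PadicInt.unitCoeff_spec hz0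
    set u := PadicInt.unitCoeff hz0 with hu
    set n := z.valuation with hn
    have hpn : (p : ℤ_[p]) ^ n = z * ((u⁻¹ : ℤ_[p]ˣ) : ℤ_[p]) := by
      rw [hspec, mul_comm, ← mul_assoc, Units.inv_mul, one_mul]
    have ha1 : F 1 ≠ 1 := by
      intro h
      apply hπ1
      ext1 χ
      have h1 := hF' 1 χ
      rw [h, map_one] at h1
      have h2 := caPow_natCast (hπ χ) 1
      rw [Nat.cast_one, pow_one] at h2
      rw [← h2, ← h1]
      rfl
    apply ca_order_p p n (F 1) ha1
    apply ca_ext
    intro χ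
    rw [map_pow, map_one, hF']
    have h2 := caPow_natCast (hπ χ) 1
    rw [Nat.cast_one, pow_one] at h2
    rw [h2]
    have h3 := caPow_natCast (hπ χ) (p ^ n)
    rw [← h3, Nat.cast_pow, hpn, caPow_mul (hπ χ), ← hF', hFz, map_one, caPow_one_base]

end Claimed.Agent.R304
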