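/-
Row 304, block A1.  Package CaSep.  Owner: helper181.

(C1) the continuous characters of a compact Hausdorff abelian group separate points.

Proof.  `μ` := Haar measure (borel σ-algebra, local instances), `H := Lp ℂ 2 μ`,
`L b := Lp.compMeasurePreservingₗᵢ (b * ·)` (or `b⁻¹ * ·`), a unitary representation.
`k : C(A, ℂ)` with `k 1 = 1`, `k a = 0` (Urysohn).  `K x := toLp (y ↦ k (x * y))`-like continuous
map `A → H`, `T f := toLp (x ↦ ⟪K x, f⟫)`.  `T` commutes with `L b`; `b ↦ L b ∘ T` is norm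
continuous because `b ↦ (x ↦ K (b x))` is continuous into `C(A, H)`; `(L a - 1) T ≠ 0` by the
equality case of Cauchy-Schwarz and injectivity of `toLp` on continuous functions.
Then `ca_gelfand`.
-/
import Claimed.Agent.R304.CaGelf

set_option autoImplicit false

namespace Claimed.Agent.R304

open scoped InnerProductSpace

section abstract_part

variable {A : Type*} [TopologicalSpace A] [CompactSpace A]
  {H : Type*} [NormedAddCommGroup H] [InnerProductSpace ℂ H]

/-- `f ↦ (x ↦ ⟪F x, f⟫)` as a continuous linear map `H → C(A, ℂ)`. -/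
noncomputable def caPhi (F : C(A, H)) : H →L[ℂ] C(A, ℂ) :=
  LinearMap.mkContinuous
    { toFun := fun f => ⟨fun x => ⟪F x, f⟫_ℂ, by fun_prop⟩
      map_add' := by
        intro f g
        ext x
        simp
      map_smul' := by
        intro c f
        ext x
        simp }
    ‖F‖ (by
      intro f
      rw [ContinuousMap.norm_le _ (by positivity)]
      intro x
      exact (norm_inner_le_norm _ _).trans
        (mul_le_mul_of_nonneg_right (F.norm_coe_le_norm x) (norm_nonneg _)))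

theorem caPhi_apply (F : C(A, H)) (f : H) (x : A) : caPhi F f x = ⟪F x, f⟫_ℂ := rfl

theorem caPhi_norm_le (F : C(A, H)) : ‖caPhi F‖ ≤ ‖F‖ :=
  LinearMap.mkContinuous_norm_le _ (norm_nonneg _) _

theorem caPhi_sub (F G : C(A, H)) : caPhi (F - G) = caPhi F - caPhi G := by
  ext f x
  simp [caPhi_apply]

theorem caPhi_continuous : Continuous (caPhi : C(A, H) → (H →L[ℂ] C(A, ℂ))) := by
  apply LipschitzWith.continuous (K := 1)
  apply LipschitzWith.of_dist_le_mul
  intro F G
  rw [dist_eq_norm, dist_eq_norm, ← caPhi_sub]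
  simpa using caPhi_norm_le (F - G)

end abstract_part

section abstract_sep

variable {A : Type*} [CommGroup A] [TopologicalSpace A] [IsTopologicalGroup A]

/-- left translation as a continuous map -/
def caTr (b : A) : C(A, A) := ⟨fun x => b * x, by fun_prop⟩

@[simp] theorem caTr_apply (b x : A) : caTr b x = b * x := rfl

variable [CompactSpace A]
  {H : Type*} [NormedAddCommGroup H] [InnerProductSpace ℂ H] [CompleteSpace H]

theorem ca_sep_abstract (L : A →* (H →L[ℂ] H))
    (hiso : ∀ b f g, ⟪L b f, L b g⟫_ℂ = ⟪f, g⟫_ℂ)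
    (j : C(A, ℂ) →L[ℂ] H) (hj : Function.Injective j)
    (hLj : ∀ b g, L b (j g) = j (g.comp (caTr b)))
    (k : C(A, ℂ)) (a : A) (hk : k a ≠ k 1) :
    ∃ χ : A →* Circle, Continuous χ ∧ χ a ≠ 1 := by
  have hLL : ∀ b f, L b (L b⁻¹ f) = f := by
    intro b f
    have : L b * L b⁻¹ = 1 := by rw [← map_mul, mul_inv_cancel, map_one]
    exact congrArg (fun S : H →L[ℂ] H => S f) this
  have hadj : ∀ b f g, ⟪f, L b g⟫_ℂ = ⟪L b⁻¹ f, g⟫_ℂ := by
    intro b f g
    rw [← hiso b (L b⁻¹ f) g, hLL]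
  let κ : C(A, C(A, ℂ)) := (k.comp ⟨fun q : A × A => q.1⁻¹ * q.2, by fun_prop⟩).curry
  have hκ : ∀ x, κ x = k.comp (caTr x⁻¹) := fun x => by ext y; rfl
  let K : C(A, H) := ⟨fun x => j (κ x), by fun_prop⟩
  have hK : ∀ x, K x = L x⁻¹ (j k) := by
    intro x
    rw [hLj, ← hκ]
    rfl
  let K₂ : C(A, C(A, H)) := (K.comp ⟨fun q : A × A => q.1 * q.2, by fun_prop⟩).curry
  have hK₂ : ∀ b x, K₂ b x = K (b * x) := fun b x => rfl
  let T : H →L[ℂ] H := j ∘L caPhi K
  have h1 : ∀ b, L b * T = j ∘L caPhi (K₂ b) := by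
    intro b
    ext f
    change L b (j (caPhi K f)) = j (caPhi (K₂ b) f)
    rw [hLj]
    rfl
  have h2 : ∀ b, T * L b = j ∘L caPhi (K₂ b) := by
    intro b
    ext f
    change j (caPhi K (L b f)) = j (caPhi (K₂ b) f)
    congr 1
    ext x
    rw [caPhi_apply, caPhi_apply, hadj, hK₂, hK, hK, mul_inv, map_mul]
    rfl
  apply ca_gelfand L ?_ T (fun b => (h1 b).trans (h2 b).symm) ?_ a ?_
  · intro b
    rw [ContinuousLinearMap.star_eq_adjoint, eq_comm, ContinuousLinearMap.eq_adjoint_iff]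
    intro f g
    rw [hadj]
  · simp_rw [h1]
    exact continuous_const.clm_comp (caPhi_continuous.comp K₂.continuous)
  · intro h
    have e1 : L a * T = T := by
      rw [sub_mul, one_mul, sub_eq_zero] at h
      exact h
    have e2 : j (caPhi (K₂ a) (j k)) = j (caPhi K (j k)) := by
      have := congrArg (fun S : H →L[ℂ] H => S (j k)) ((h1 a).symm.trans e1)
      exact this
    have e3 := congrArg (fun g : C(A, ℂ) => g a⁻¹) (hj e2)
    simp only [caPhi_apply, hK₂, hK, mul_inv_cancel, inv_one, map_one, inv_inv] at e3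
    change ⟪j k, j k⟫_ℂ = ⟪L a (j k), j k⟫_ℂ at e3
    have e4 : ‖L a (j k)‖ = ‖j k‖ := by
      have := hiso a (j k) (j k)
      rw [inner_self_eq_norm_sq_to_K, inner_self_eq_norm_sq_to_K] at this
      have h' : ‖L a (j k)‖ ^ 2 = ‖j k‖ ^ 2 := by exact_mod_cast this
      exact (pow_left_inj₀ (norm_nonneg _) (norm_nonneg _) two_ne_zero).1 h'
    have e5 : ‖L a (j k) - j k‖ ^ 2 = 0 := by
      rw [norm_sub_sq (𝕜 := ℂ), ← e3, e4, inner_self_eq_norm_sq]
      ring
    have e6 : L a (j k) = j k := by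
      have := pow_eq_zero_iff (two_ne_zero) |>.1 e5
      exact sub_eq_zero.1 (norm_eq_zero.1 this)
    rw [hLj] at e6
    have e7 := congrArg (fun g : C(A, ℂ) => g 1) (hj e6)
    simp only [ContinuousMap.comp_apply, caTr_apply, mul_one] at e7
    exact hk e7

end abstract_sep

section concrete
open MeasureTheory


variable {A : Type*} [MeasurableSpace A] (μ : Measure A)

theorem ca_compMP_comp {f₁ f₂ f₃ : A → A} (h₁ : MeasurePreserving f₁ μ μ)
    (h₂ : MeasurePreserving f₂ μ μ) (h₃ : MeasurePreserving f₃ μ μ) (h : f₃ = f₁ ∘ f₂)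
    (g : Lp ℂ 2 μ) :
    Lp.compMeasurePreserving f₂ h₂ (Lp.compMeasurePreserving f₁ h₁ g)
      = Lp.compMeasurePreserving f₃ h₃ g := by
  subst h
  rcases g with ⟨⟨_⟩, _⟩
  rfl

theorem ca_compMP_id {f : A → A} (h₁ : MeasurePreserving f μ μ) (h : f = id) (g : Lp ℂ 2 μ) :
    Lp.compMeasurePreserving f h₁ g = g := by
  subst h
  rcases g with ⟨⟨_⟩, _⟩
  rfl

variable [CommGroup A] [TopologicalSpace A] [IsTopologicalGroup A]
  [BorelSpace A] [μ.IsMulLeftInvariant]

/-- translation operators on `L²` -/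
noncomputable def caL : A →* (Lp ℂ 2 μ →L[ℂ] Lp ℂ 2 μ) where
  toFun b := (Lp.compMeasurePreservingₗᵢ ℂ (fun x => b * x)
    (measurePreserving_mul_left μ b)).toContinuousLinearMap
  map_one' := by
    ext1 g
    exact ca_compMP_id μ _ (by funext x; simp) g
  map_mul' := by
    intro b c
    ext1 g
    exact (ca_compMP_comp μ _ _ _ (by funext x; simp [mul_comm, mul_left_comm]) g).symm


theorem caL_apply (b : A) (g : Lp ℂ 2 μ) :
    caL μ b g = Lp.compMeasurePreserving (fun x => b * x) (measurePreserving_mul_left μ b) g :=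
  rfl

theorem caL_inner (b : A) (f g : Lp ℂ 2 μ) : ⟪caL μ b f, caL μ b g⟫_ℂ = ⟪f, g⟫_ℂ :=
  (Lp.compMeasurePreservingₗᵢ ℂ (fun x => b * x)
    (measurePreserving_mul_left μ b)).inner_map_map f g

theorem caL_toLp [CompactSpace A] [IsFiniteMeasure μ] (b : A) (g : C(A, ℂ)) :
    caL μ b (ContinuousMap.toLp 2 μ ℂ g) = ContinuousMap.toLp 2 μ ℂ (g.comp (caTr b)) := by
  rfl

end concrete

theorem ca_sep {A : Type*} [CommGroup A] [TopologicalSpace A] [IsTopologicalGroup A]
    [CompactSpace A] [T2Space A] {a : A} (ha : a ≠ 1) :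
    ∃ χ : A →ₜ* Circle, χ a ≠ 1 := by
  let _ : MeasurableSpace A := borel A
  have : BorelSpace A := ⟨rfl⟩
  let μ : MeasureTheory.Measure A := MeasureTheory.Measure.haar
  obtain ⟨k, hk⟩ : ∃ k : C(A, ℂ), k a ≠ k 1 := by
    obtain ⟨f, hf0, hf1, -⟩ := exists_continuous_zero_one_of_isClosed (X := A)
      (isClosed_singleton (x := a)) (isClosed_singleton (x := (1 : A))) (by simpa using ha)
    refine ⟨⟨fun x => (f x : ℂ), by fun_prop⟩, ?_⟩
    have h0 : f a = 0 := hf0 rfl
    have h1 : f 1 = 1 := hf1 rfl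
    simp [h0, h1]
  obtain ⟨χ, hχ, hχa⟩ := ca_sep_abstract (caL μ) (caL_inner μ) (ContinuousMap.toLp 2 μ ℂ)
    (ContinuousMap.toLp_injective μ) (caL_toLp μ) k a hk
  exact ⟨⟨χ, hχ⟩, hχa⟩

end Claimed.Agent.R304
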