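/-
Row 304 (S0559, Hilbert-Smith).  Owner: helper138.  SHARED TARGET SPACES (definitions only).

* `S5Sph d`      : the round sphere `S^d` in `ℝ^{d+1}`; `s5North` (= the base point `ξ`), `s5South`;
* `s5Cap d c`    : the cap `{x | c < x_0}` around the north pole (geodesically convex for `0 ≤ c`);
* `S5Close d`    : the close pair space `C_d = {(x₀,x₁) | 0 ≤ ⟨x₀,x₁⟩}` (paper (6.9)), its two projections
                   and the normalised linear homotopy between them;
* `S5Cyc m T`    : the cyclic power `T^m / (ℤ/m)` (functor in `T`), `s5CycMk`, `s5CycMap`, the diagonal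
                   `s5CycDiag : T → S5Cyc m T`.
  The target of helper248's Serre-free route is `S5Cyc m (S5Sph d)`, its close pair space is
  `S5Cyc m (S5Close d)`.
-/
import Mathlib

set_option autoImplicit false

namespace Claimed.Agent.R304

open Topology

/-- the ambient euclidean space of the `d`-sphere -/
abbrev S5E (d : ℕ) : Type := EuclideanSpace ℝ (Fin (d + 1))

/-- the round `d`-sphere -/
abbrev S5Sph (d : ℕ) : Type := Metric.sphere (0 : S5E d) 1

/-- the first basis vector -/
noncomputable def s5e0 (d : ℕ) : S5E d := EuclideanSpace.single 0 1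

theorem s5e0_norm (d : ℕ) : ‖s5e0 d‖ = 1 := by
  simp [s5e0]

/-- the north pole `ξ` (base point of the sphere; value of all tests at infinity) -/
noncomputable def s5North (d : ℕ) : S5Sph d := ⟨s5e0 d, by simp [s5e0_norm]⟩

/-- the south pole (image of the centre of a pinch map) -/
noncomputable def s5South (d : ℕ) : S5Sph d := ⟨-s5e0 d, by simp [s5e0_norm]⟩

/-- the cap `{x | c < x_0}` around the north pole -/
def s5Cap (d : ℕ) (c : ℝ) : Set (S5Sph d) := {x | c < (x : S5E d) 0}

/-- normalisation `v ↦ v/‖v‖` as a map to the sphere (junk value `ξ` at `0`) -/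
noncomputable def s5Nrm (d : ℕ) (v : S5E d) : S5Sph d :=
  if h : v = 0 then s5North d else ⟨‖v‖⁻¹ • v, by
    have : ‖v‖ ≠ 0 := norm_ne_zero_iff.2 h
    simp [norm_smul, this]⟩

/-- the close pair space of the sphere -/
abbrev S5Close (d : ℕ) : Type :=
  {x : S5Sph d × S5Sph d // 0 ≤ inner ℝ (x.1 : S5E d) (x.2 : S5E d)}

/-- first projection of the close pair space -/
def s5CloseFst (d : ℕ) (x : S5Close d) : S5Sph d := x.1.1

/-- second projection of the close pair space -/
def s5CloseSnd (d : ℕ) (x : S5Close d) : S5Sph d := x.1.2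

/-- the normalised linear homotopy from `s5CloseFst` to `s5CloseSnd` -/
noncomputable def s5CloseHtpy (d : ℕ) (x : S5Close d) (r : unitInterval) : S5Sph d :=
  s5Nrm d ((1 - (r : ℝ)) • (x.1.1 : S5E d) + (r : ℝ) • (x.1.2 : S5E d))

/-- the part of the close pair space over a cap -/
def s5CloseCap (d : ℕ) (c : ℝ) : Set (S5Close d) := {x | x.1.1 ∈ s5Cap d c ∧ x.1.2 ∈ s5Cap d c}

/-- the cyclic shift on `T^m` -/
def s5Shift (m : ℕ) (T : Type) (c : ZMod m) (z : ZMod m → T) : ZMod m → T := fun i => z (i + c)

/-- the orbit equivalence relation of the cyclic shift -/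
def s5CycSetoid (m : ℕ) (T : Type) : Setoid (ZMod m → T) where
  r z z' := ∃ c : ZMod m, z' = s5Shift m T c z
  iseqv :=
    { refl := fun z => ⟨0, by funext i; simp [s5Shift]⟩
      symm := by
        rintro z z' ⟨c, rfl⟩
        exact ⟨-c, by funext i; simp [s5Shift, add_assoc]⟩
      trans := by
        rintro z z' z'' ⟨c, rfl⟩ ⟨c', rfl⟩
        exact ⟨c' + c, by funext i; simp [s5Shift, add_assoc]⟩ }

/-- the cyclic power `T^m/(ℤ/m)` -/
def S5Cyc (m : ℕ) (T : Type) : Type := Quotient (s5CycSetoid m T)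

/-- the quotient topology on the cyclic power -/
instance s5CycTop (m : ℕ) (T : Type) [TopologicalSpace T] : TopologicalSpace (S5Cyc m T) :=
  inferInstanceAs (TopologicalSpace (Quotient (s5CycSetoid m T)))

/-- the quotient map -/
def s5CycMk (m : ℕ) (T : Type) (z : ZMod m → T) : S5Cyc m T := Quotient.mk (s5CycSetoid m T) z

/-- functoriality of the cyclic power -/
def s5CycMap (m : ℕ) {T T' : Type} (f : T → T') : S5Cyc m T → S5Cyc m T' :=
  Quotient.map' (s₁ := s5CycSetoid m T) (s₂ := s5CycSetoid m T') (fun z i => f (z i)) (by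
    rintro z z' ⟨c, rfl⟩
    exact ⟨c, rfl⟩)

/-- the diagonal `T → T^m/(ℤ/m)` -/
def s5CycDiag (m : ℕ) (T : Type) (x : T) : S5Cyc m T := s5CycMk m T (fun _ => x)

/-- the image in the cyclic power of the product `A^m` -/
def s5CycSet (m : ℕ) {T : Type} (A : Set T) : Set (S5Cyc m T) :=
  s5CycMk m T '' {z | ∀ i, z i ∈ A}

/-- realises the equation lemmas here (unique names) -/
theorem s5_spaces_eqns_cite : True := by
  have := @s5e0.eq_1
  have := @s5North.eq_1
  have := @s5South.eq_1
  have := @s5Cap.eq_1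
  have := @s5Nrm.eq_1
  have := @s5CloseFst.eq_1
  have := @s5CloseSnd.eq_1
  have := @s5CloseHtpy.eq_1
  have := @s5CloseCap.eq_1
  have := @s5Shift.eq_1
  have := @s5CycSetoid.eq_1
  have := @S5Cyc.eq_1
  have := @s5CycTop.eq_1
  have := @s5CycMk.eq_1
  have := @s5CycMap.eq_1
  have := @s5CycDiag.eq_1
  have := @s5CycSet.eq_1
  trivial

end Claimed.Agent.R304
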