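/-
Row 304 (S0559, Hilbert-Smith).  Owner: helper13.  LAYER E, INTERFACE + BASIC DEFINITIONS (definitions only).

`EhTheory` is the CONSUMER SIDE interface of the "homology theory" `E_r(X) = W_r(T(X))` of the paper (Sec. 2-4).
Everything in the files `Eh*.lean` is proved from an arbitrary `T : EhTheory`; layers S/E-abstract (helper154,
helper248) have to produce ONE term of this structure (and one of `EhCube T`).

MEANING.  `T.Q r X V U = W_r (T_V(X) / T_U(X))`, where `T_V(X)` is the full subcategory of `T(X)` of the objects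
which are supported in a compact subset of the open set `V`.  It is only used for `U ≤ V`.
`T.Q r X V ⊥ = E_r(V)` (paper P3.2), `T.Q r X ⊤ U = W_r(T(X)/T(U))`.

FIELDS                                                   PAPER
* `push`, `push_id`, `push_comp`                         P2.x (compact support pushforward), T3.4 last part
* `bd`, `bd_push`, `exact_mid/rel/sub`                   T3.4 (Witt localisation, natural)
* `htpy`                                                 T2.11, for pairs; homotopies need not be proper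
* `excN`, `dd`, `ext_dd`, `dd_ext`                       P3.5 + T3.6 (excision up to a constant); no naturality of `dd`
* `emb_bij`                                              P3.2 (objects supported in an open subset)
* `sig`, `sig_inj`                                       L4.1 (only this; NO vanishing in odd degrees is used)
Derived in `Eh*.lean` (NOT in the interface): the empty set, additivity, Mayer-Vietoris, contractible sets, P4.9.

`EhCube T` = the fundamental classes of the cubes `[-1,1]^d` relative to a neighbourhood of the boundary, the only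
concrete classes which layer E has to know.  `tot f = T.push f (kap d W)`.
-/
import Mathlib
import Claimed.Agent.R304.S5Spaces

set_option autoImplicit false

namespace Claimed.Agent.R304

open Topology TopologicalSpace

universe u

/-- the admissible spaces of layer E (ONE place to change if layer S needs more) -/
class EhSp (X : Type) [TopologicalSpace X] : Prop where
  t2 : T2Space X
  lc : LocallyCompactSpace X

/-- every locally compact Hausdorff space is admissible -/
instance ehSp_of (X : Type) [TopologicalSpace X] [T2Space X] [LocallyCompactSpace X] : EhSp X :=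
  ⟨inferInstance, inferInstance⟩

/-- open subsets of admissible spaces are admissible -/
instance ehSp_opens (X : Type) [TopologicalSpace X] [h : EhSp X] (V : Opens X) : EhSp V :=
  haveI := h.t2
  haveI := h.lc
  ⟨inferInstance, V.isOpen.locallyCompactSpace⟩

/-- the identity maps `A` to `B` if `A ≤ B` -/
theorem ehMapsId {X : Type} [TopologicalSpace X] {A B : Opens X} (h : A ≤ B) :
    Set.MapsTo (ContinuousMap.id X) (A : Set X) (B : Set X) := fun _ hx => h hx

/-- every map maps `⊥` to everything -/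
theorem ehMapsBot {X Y : Type} [TopologicalSpace X] [TopologicalSpace Y] (f : C(X, Y)) (B : Opens Y) :
    Set.MapsTo f ((⊥ : Opens X) : Set X) (B : Set Y) := fun _ hx => hx.elim

/-- every map maps everything to `⊤` -/
theorem ehMapsTop {X Y : Type} [TopologicalSpace X] [TopologicalSpace Y] (f : C(X, Y)) (A : Opens X) :
    Set.MapsTo f (A : Set X) ((⊤ : Opens Y) : Set Y) := fun _ _ => trivial

/-- enlarge the target -/
theorem ehMapsRight {X Y : Type} [TopologicalSpace X] [TopologicalSpace Y] {f : C(X, Y)} {A : Opens X}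
    {B B' : Opens Y} (h : Set.MapsTo f (A : Set X) (B : Set Y)) (hB : B ≤ B') :
    Set.MapsTo f (A : Set X) (B' : Set Y) := fun _ hx => hB (h hx)

/-- shrink the source -/
theorem ehMapsLeft {X Y : Type} [TopologicalSpace X] [TopologicalSpace Y] {f : C(X, Y)} {A A' : Opens X}
    {B : Opens Y} (hA : A ≤ A') (h : Set.MapsTo f (A' : Set X) (B : Set Y)) :
    Set.MapsTo f (A : Set X) (B : Set Y) := fun _ hx => h (hA hx)

/-- a map maps the preimage of `B` to `B` -/
theorem ehMapsComap {X Y : Type} [TopologicalSpace X] [TopologicalSpace Y] (f : C(X, Y)) (B : Opens Y) :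
    Set.MapsTo f ((Opens.comap f B : Opens X) : Set X) (B : Set Y) := fun _ hx => hx

/-- THE INTERFACE of layer E. -/
structure EhTheory where
  /-- `Q r X V U = W_r(T_V(X)/T_U(X))` -/
  Q : ℤ → (X : Type) → [TopologicalSpace X] → [EhSp X] → Opens X → Opens X → Type u
  /-- the group structure -/
  [grp : ∀ (r : ℤ) (X : Type) [TopologicalSpace X] [EhSp X] (V U : Opens X), AddCommGroup (Q r X V U)]
  /-- pushforward along a map of pairs -/
  push : ∀ (r : ℤ) {X Y : Type} [TopologicalSpace X] [EhSp X] [TopologicalSpace Y] [EhSp Y] (f : C(X, Y))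
    {V U : Opens X} {V' U' : Opens Y}, Set.MapsTo f (V : Set X) (V' : Set Y) →
    Set.MapsTo f (U : Set X) (U' : Set Y) → (Q r X V U →+ Q r Y V' U')
  push_id : ∀ (r : ℤ) {X : Type} [TopologicalSpace X] [EhSp X] {V U : Opens X}
    (hV : Set.MapsTo (ContinuousMap.id X) (V : Set X) (V : Set X))
    (hU : Set.MapsTo (ContinuousMap.id X) (U : Set X) (U : Set X)) (x : Q r X V U),
    push r (ContinuousMap.id X) hV hU x = x
  push_comp : ∀ (r : ℤ) {X Y Z : Type} [TopologicalSpace X] [EhSp X] [TopologicalSpace Y] [EhSp Y]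
    [TopologicalSpace Z] [EhSp Z] (f : C(X, Y)) (g : C(Y, Z))
    {V U : Opens X} {V' U' : Opens Y} {V'' U'' : Opens Z}
    (hV : Set.MapsTo f (V : Set X) (V' : Set Y)) (hU : Set.MapsTo f (U : Set X) (U' : Set Y))
    (hV' : Set.MapsTo g (V' : Set Y) (V'' : Set Z)) (hU' : Set.MapsTo g (U' : Set Y) (U'' : Set Z))
    (hV'' : Set.MapsTo (g.comp f) (V : Set X) (V'' : Set Z))
    (hU'' : Set.MapsTo (g.comp f) (U : Set X) (U'' : Set Z)) (x : Q r X V U),
    push r g hV' hU' (push r f hV hU x) = push r (g.comp f) hV'' hU'' x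
  /-- the boundary map of the localisation sequence -/
  bd : ∀ (r s : ℤ), s + 1 = r → ∀ {X : Type} [TopologicalSpace X] [EhSp X] (V U : Opens X),
    Q r X V U →+ Q s X U ⊥
  bd_push : ∀ (r s : ℤ) (h : s + 1 = r) {X Y : Type} [TopologicalSpace X] [EhSp X] [TopologicalSpace Y]
    [EhSp Y] (f : C(X, Y)) {V U : Opens X} {V' U' : Opens Y}
    (hV : Set.MapsTo f (V : Set X) (V' : Set Y)) (hU : Set.MapsTo f (U : Set X) (U' : Set Y))
    (x : Q r X V U),
    push s f hU (ehMapsBot f ⊥) (bd r s h V U x) = bd r s h V' U' (push r f hV hU x)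
  /-- exactness of `E_r(U) → E_r(V) → Q_r(V,U)` -/
  exact_mid : ∀ (r : ℤ) {X : Type} [TopologicalSpace X] [EhSp X] {V U : Opens X} (hUV : U ≤ V),
    Function.Exact (push r (ContinuousMap.id X) (V := U) (U := ⊥) (V' := V) (U' := ⊥)
        (ehMapsId hUV) (ehMapsId le_rfl))
      (push r (ContinuousMap.id X) (V := V) (U := ⊥) (V' := V) (U' := U) (ehMapsId le_rfl) (ehMapsId bot_le))
  /-- exactness of `E_r(V) → Q_r(V,U) → E_{r-1}(U)` -/
  exact_rel : ∀ (r s : ℤ) (h : s + 1 = r) {X : Type} [TopologicalSpace X] [EhSp X] {V U : Opens X}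
    (_ : U ≤ V),
    Function.Exact
      (push r (ContinuousMap.id X) (V := V) (U := ⊥) (V' := V) (U' := U) (ehMapsId le_rfl) (ehMapsId bot_le))
      (bd r s h V U)
  /-- exactness of `Q_r(V,U) → E_{r-1}(U) → E_{r-1}(V)` -/
  exact_sub : ∀ (r s : ℤ) (h : s + 1 = r) {X : Type} [TopologicalSpace X] [EhSp X] {V U : Opens X}
    (hUV : U ≤ V),
    Function.Exact (bd r s h V U)
      (push s (ContinuousMap.id X) (V := U) (U := ⊥) (V' := V) (U' := ⊥) (ehMapsId hUV) (ehMapsId le_rfl))
  /-- homotopy invariance for homotopies of pairs -/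
  htpy : ∀ (r : ℤ) {X Y : Type} [TopologicalSpace X] [EhSp X] [TopologicalSpace Y] [EhSp Y]
    (H : C(unitInterval × X, Y)) {V U : Opens X} {V' U' : Opens Y}
    (hV : ∀ t, Set.MapsTo (H.curry t) (V : Set X) (V' : Set Y))
    (hU : ∀ t, Set.MapsTo (H.curry t) (U : Set X) (U' : Set Y)) (x : Q r X V U),
    push r (H.curry 0) (hV 0) (hU 0) x = push r (H.curry 1) (hV 1) (hU 1) x
  /-- the excision constant (`2` in the paper, T3.6) -/
  excN : ℕ
  excN_pos : 0 < excN
  /-- dense doubling: the inverse up to `excN` of the excision map `Q_r(V, U ⊓ V) → Q_r(U ⊔ V, U)` -/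
  dd : ∀ (r : ℤ) {X : Type} [TopologicalSpace X] [EhSp X] (V U I W : Opens X), I = U ⊓ V → W = U ⊔ V →
    (Q r X W U →+ Q r X V I)
  ext_dd : ∀ (r : ℤ) {X : Type} [TopologicalSpace X] [EhSp X] (V U I W : Opens X) (hI : I = U ⊓ V)
    (hW : W = U ⊔ V) (x : Q r X W U),
    push r (ContinuousMap.id X) (ehMapsId (hW ▸ le_sup_right)) (ehMapsId (hI ▸ inf_le_left))
      (dd r V U I W hI hW x) = excN • x
  dd_ext : ∀ (r : ℤ) {X : Type} [TopologicalSpace X] [EhSp X] (V U I W : Opens X) (hI : I = U ⊓ V)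
    (hW : W = U ⊔ V) (y : Q r X V I),
    dd r V U I W hI hW
      (push r (ContinuousMap.id X) (ehMapsId (hW ▸ le_sup_right)) (ehMapsId (hI ▸ inf_le_left)) y) = excN • y
  /-- objects supported in an open subset come from that subset -/
  emb_bij : ∀ (r : ℤ) {Y X : Type} [TopologicalSpace Y] [EhSp Y] [TopologicalSpace X] [EhSp X] (j : C(Y, X)),
    IsOpenEmbedding j → ∀ (V U : Opens X), U ≤ V → (V : Set X) ⊆ Set.range j →
    Function.Bijective (push r j (ehMapsComap j V) (ehMapsComap j U))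
  /-- the signature -/
  sig : Q 0 PUnit ⊤ ⊥ →+ ℤ
  sig_inj : Function.Injective sig

attribute [instance] EhTheory.grp

/-! ### Derived notions (any theory) -/

/-- the map to the point -/
def ehPt (X : Type) [TopologicalSpace X] : C(X, PUnit.{1}) := ContinuousMap.const X PUnit.unit

/-- the inclusion of an open subset -/
def ehVal {X : Type} [TopologicalSpace X] (V : Opens X) : C(V, X) := ⟨Subtype.val, continuous_subtype_val⟩

/-- the restriction to an open subset of a function which is continuous there -/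
def ehRes {X Y : Type} [TopologicalSpace X] [TopologicalSpace Y] (f : X → Y) (V : Opens X)
    (hf : ContinuousOn f (V : Set X)) : C(V, Y) := ⟨fun x => f x, hf.comp_continuous continuous_subtype_val (fun x => x.2)⟩

namespace EhTheory

variable (T : EhTheory.{u})

/-- extension of supports `Q_r(V,U) → Q_r(V',U')` for `V ≤ V'`, `U ≤ U'` -/
def ext (r : ℤ) {X : Type} [TopologicalSpace X] [EhSp X] {V U V' U' : Opens X} (hV : V ≤ V') (hU : U ≤ U') :
    T.Q r X V U →+ T.Q r X V' U' :=
  T.push r (ContinuousMap.id X) (ehMapsId hV) (ehMapsId hU)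

/-- the augmentation `E_r(V) → E_r(pt)` -/
def aug (r : ℤ) {X : Type} [TopologicalSpace X] [EhSp X] (V : Opens X) : T.Q r X V ⊥ →+ T.Q r PUnit ⊤ ⊥ :=
  T.push r (ehPt X) (ehMapsTop _ _) (ehMapsBot _ _)

/-- `V` has the groups of a point -/
def IsPt {X : Type} [TopologicalSpace X] [EhSp X] (V : Opens X) : Prop :=
  ∀ r : ℤ, Function.Bijective (T.aug r V)

/-- the comparison `Q_r(V as a space; ⊤, U) → Q_r(X; V, U)` -/
def sub (r : ℤ) {X : Type} [TopologicalSpace X] [EhSp X] (V U : Opens X) :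
    T.Q r V ⊤ (Opens.comap (ehVal V) U) →+ T.Q r X V U :=
  T.push r (ehVal V) (fun x _ => x.2) (ehMapsComap _ _)

theorem sub_bijective (r : ℤ) {X : Type} [TopologicalSpace X] [EhSp X] {V U : Opens X} (hUV : U ≤ V) :
    Function.Bijective (T.sub r V U) := by
  have h := T.emb_bij r (ehVal V) V.isOpen.isOpenEmbedding_subtypeVal V U hUV
    (by intro x hx; exact ⟨⟨x, hx⟩, rfl⟩)
  have htop : Opens.comap (ehVal V) V = ⊤ := by
    ext x
    exact ⟨fun _ => trivial, fun _ => x.2⟩
  have key : ∀ (A : Opens V) (hA : Set.MapsTo (ehVal V) (A : Set V) (V : Set X)), A = ⊤ →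
      Function.Bijective (T.push r (ehVal V) hA (ehMapsComap (ehVal V) U)) →
      Function.Bijective (T.sub r V U) := by
    intro A hA hAtop hb
    subst hAtop
    exact hb
  exact key _ _ htop h

/-- the comparison isomorphism `Q_r(V as a space; ⊤, U) ≃ Q_r(X; V, U)` -/
noncomputable def subEquiv (r : ℤ) {X : Type} [TopologicalSpace X] [EhSp X] {V U : Opens X} (hUV : U ≤ V) :
    T.Q r V ⊤ (Opens.comap (ehVal V) U) ≃+ T.Q r X V U :=
  AddEquiv.ofBijective (T.sub r V U) (T.sub_bijective r hUV)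

/-- pushforward along a PARTIAL map: `f` is any function which is continuous on `V` -/
noncomputable def pushOn (r : ℤ) {X Y : Type} [TopologicalSpace X] [EhSp X] [TopologicalSpace Y] [EhSp Y]
    (f : X → Y) {V U : Opens X} {V' U' : Opens Y} (hUV : U ≤ V) (hf : ContinuousOn f (V : Set X))
    (hV : Set.MapsTo f (V : Set X) (V' : Set Y)) (hU : Set.MapsTo f (U : Set X) (U' : Set Y)) :
    T.Q r X V U →+ T.Q r Y V' U' :=
  (T.push r (ehRes f V hf) (V := ⊤) (U := Opens.comap (ehVal V) U) (fun y _ => hV y.2)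
    (fun _ hy => hU hy)).comp (T.subEquiv r hUV).symm.toAddMonoidHom

end EhTheory

/-! ### Euclidean spaces and cubes -/

/-- `ℝ^j` -/
abbrev EhR (j : ℕ) : Type := Fin j → ℝ

/-- the cube `[-1,1]^j` -/
abbrev EhCb (j : ℕ) : Type := Fin j → Set.Icc (-1 : ℝ) 1

/-- the complement of the origin -/
def ehA (j : ℕ) : Opens (EhR j) := ⟨{x | x ≠ 0}, isOpen_ne⟩

/-- forget the first coordinate -/
def ehTail (j : ℕ) : C(EhR (j + 1), EhR j) := ⟨fun x i => x i.succ, by fun_prop⟩

/-- the first coordinate -/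
def ehHead (j : ℕ) : C(EhR (j + 1), ℝ) := ⟨fun x => x 0, by fun_prop⟩

/-- the complement of the first coordinate axis -/
def ehAx (j : ℕ) : Opens (EhR (j + 1)) := Opens.comap (ehTail j) (ehA j)

theorem ehTail_mapsTo (j : ℕ) :
    Set.MapsTo (ehTail j) (ehAx j : Set (EhR (j + 1))) (ehA j : Set (EhR j)) := fun _ hx => hx

/-- the complement of the closed lower half axis -/
def ehUp (j : ℕ) : Opens (EhR (j + 1)) := ehAx j ⊔ Opens.comap (ehHead j) ⟨Set.Ioi 0, isOpen_Ioi⟩

/-- the complement of the closed upper half axis -/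
def ehDn (j : ℕ) : Opens (EhR (j + 1)) := ehAx j ⊔ Opens.comap (ehHead j) ⟨Set.Iio 0, isOpen_Iio⟩

/-- the hyperplane `x_0 = -1` -/
def ehBot (j : ℕ) : C(EhR j, EhR (j + 1)) :=
  ⟨fun x => Fin.cons (-1) x, by
    refine continuous_pi fun i => ?_
    refine Fin.cases ?_ (fun k => ?_) i
    · simpa using continuous_const
    · simpa using continuous_apply k⟩

/-- the homotopy `(x_0, x') ↦ ((1-t) x_0 - t, x')` from the identity to `ehBot ∘ ehTail` -/
def ehSlide (j : ℕ) : C(unitInterval × EhR (j + 1), EhR (j + 1)) :=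
  ⟨fun p => Fin.cons ((1 - (p.1 : ℝ)) * p.2 0 - (p.1 : ℝ)) (ehTail j p.2), by
    refine continuous_pi fun i => ?_
    refine Fin.cases ?_ (fun k => ?_) i
    · simp only [Fin.cons_zero]
      fun_prop
    · simp only [Fin.cons_succ]
      exact (continuous_apply k).comp ((ehTail j).continuous.comp continuous_snd)⟩

/-- the inclusion of the cube -/
def ehCbIncl (j : ℕ) : C(EhCb j, EhR j) := ⟨fun x i => (x i : ℝ), by fun_prop⟩

/-- the boundary of the cube -/
def ehCbBd (j : ℕ) : Set (EhCb j) := {x | ∃ i, |(x i : ℝ)| = 1}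

/-- the cube minus its centre -/
def ehCbA (j : ℕ) : Opens (EhCb j) := Opens.comap (ehCbIncl j) (ehA j)

theorem ehCbIncl_mapsTo (j : ℕ) :
    Set.MapsTo (ehCbIncl j) (ehCbA j : Set (EhCb j)) (ehA j : Set (EhR j)) := fun _ hx => hx

/-- the cube minus the lower half axis -/
def ehCbUp (j : ℕ) : Opens (EhCb (j + 1)) := Opens.comap (ehCbIncl (j + 1)) (ehUp j)

/-- the bottom face `x_0 = -1` of the cube -/
def ehCbFace (j : ℕ) : C(EhCb j, EhCb (j + 1)) :=
  ⟨fun x => Fin.cons (⟨-1, by simp⟩ : Set.Icc (-1 : ℝ) 1) x, by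
    refine continuous_pi fun i => ?_
    refine Fin.cases ?_ (fun k => ?_) i
    · simpa using continuous_const
    · simpa using continuous_apply k⟩

theorem ehCbBd_subset_A (j : ℕ) : ehCbBd j ⊆ (ehCbA j : Set (EhCb j)) := by
  rintro x ⟨i, hi⟩ h0
  have : (x i : ℝ) = 0 := congrFun h0 i
  rw [this] at hi
  simp at hi

theorem ehCbFace_mapsTo_A (j : ℕ) :
    Set.MapsTo (ehCbFace j) ((⊤ : Opens (EhCb j)) : Set (EhCb j)) (ehCbA (j + 1) : Set (EhCb (j + 1))) := by
  intro x _ h0
  have : ((ehCbFace j x) 0 : ℝ) = 0 := congrFun h0 0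
  simp [ehCbFace] at this

theorem ehCbFace_mapsTo_Up (j : ℕ) :
    Set.MapsTo (ehCbFace j) (ehCbA j : Set (EhCb j)) (ehCbUp j : Set (EhCb (j + 1))) := by
  intro x hx
  refine Or.inl fun h0 => hx ?_
  funext i
  have : ((ehCbFace j x) i.succ : ℝ) = 0 := congrFun h0 i
  simpa [ehCbFace, ehCbIncl] using this

/-- THE SECOND INTERFACE: fundamental classes of cubes relative to a neighbourhood of the boundary.
`kap d r _ W _` is the class in `W_d(T(Cb)/T(W))` of the form `j_! k_{int} → k_{Cb}`. -/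
structure EhCube (T : EhTheory.{u}) where
  kap : ∀ (d : ℕ) (r : ℤ), r = d → ∀ W : Opens (EhCb d), ehCbBd d ⊆ (W : Set (EhCb d)) → T.Q r (EhCb d) ⊤ W
  kap_mono : ∀ (d : ℕ) (r : ℤ) (h : r = d) (W W' : Opens (EhCb d)) (hW : ehCbBd d ⊆ (W : Set (EhCb d)))
    (hW' : ehCbBd d ⊆ (W' : Set (EhCb d))) (hWW' : W ≤ W'),
    T.ext r le_rfl hWW' (kap d r h W hW) = kap d r h W' hW'
  /-- the positive line has signature `±1` -/
  kap_zero : ∀ (h : (0 : ℤ) = (0 : ℕ)) (hW : ehCbBd 0 ⊆ ((⊥ : Opens (EhCb 0)) : Set (EhCb 0))),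
    T.sig (T.aug 0 ⊤ (kap 0 0 h ⊥ hW)) = 1 ∨ T.sig (T.aug 0 ⊤ (kap 0 0 h ⊥ hW)) = -1
  /-- (C1) near the centre of the bottom face the boundary of the cube class is `±` the class of that face -/
  kap_bd : ∀ (d : ℕ) (r s : ℤ) (hr : r = (d + 1 : ℕ)) (hs : s = d) (h : s + 1 = r),
    T.ext s (le_refl (ehCbA (d + 1))) (bot_le : ⊥ ≤ ehCbUp d)
        (T.bd r s h ⊤ (ehCbA (d + 1)) (kap (d + 1) r hr (ehCbA (d + 1)) (ehCbBd_subset_A _))) =
      T.push s (ehCbFace d) (ehCbFace_mapsTo_A d) (ehCbFace_mapsTo_Up d)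
        (kap d s hs (ehCbA d) (ehCbBd_subset_A _)) ∨
    T.ext s (le_refl (ehCbA (d + 1))) (bot_le : ⊥ ≤ ehCbUp d)
        (T.bd r s h ⊤ (ehCbA (d + 1)) (kap (d + 1) r hr (ehCbA (d + 1)) (ehCbBd_subset_A _))) =
      - T.push s (ehCbFace d) (ehCbFace_mapsTo_A d) (ehCbFace_mapsTo_Up d)
        (kap d s hs (ehCbA d) (ehCbBd_subset_A _))

/-! ### The homomorphism `Φ` -/

theorem ehAx_eq_inf (j : ℕ) : ehAx j = ehUp j ⊓ ehDn j := by
  ext x
  constructor
  · intro hx
    exact ⟨Or.inl hx, Or.inl hx⟩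
  · rintro ⟨h1 | h1, h2 | h2⟩
    · exact h1
    · exact h1
    · exact h2
    · exact absurd (lt_trans (show (0 : ℝ) < x 0 from h1) (show x 0 < (0 : ℝ) from h2)) (lt_irrefl _)

theorem ehA_eq_sup (j : ℕ) : ehA (j + 1) = ehUp j ⊔ ehDn j := by
  ext x
  constructor
  · intro hx
    by_cases ht : ehTail j x = 0
    · have h0 : x 0 ≠ 0 := by
        intro h0
        apply hx
        funext i
        refine Fin.cases h0 (fun k => ?_) i
        exact congrFun ht k
      rcases lt_or_gt_of_ne h0 with h | h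
      · exact Or.inr (Or.inr h)
      · exact Or.inl (Or.inr h)
    · exact Or.inl (Or.inl ht)
  · have key : ∀ y : EhR (j + 1), y ∈ ehAx j → y ≠ 0 := by
      intro y hy h0
      apply hy
      subst h0
      rfl
    rintro (h | h) <;> rcases h with h | h
    · exact key x h
    · intro h0
      subst h0
      exact lt_irrefl (0 : ℝ) h
    · exact key x h
    · intro h0
      subst h0
      exact lt_irrefl (0 : ℝ) h

theorem ehA_zero_mapsTo :
    Set.MapsTo (ehPt (EhR 0)) (ehA 0 : Set (EhR 0)) ((⊥ : Opens PUnit) : Set PUnit) := by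
  intro x hx
  exact (hx (Subsingleton.elim _ _)).elim

/-- the chart of the sphere at the south pole: forget the first coordinate -/
def ehChart (d : ℕ) : C(S5Sph d, EhR d) := ⟨fun x i => (x : S5E d) i.succ, by fun_prop⟩

/-- the lower hemisphere -/
def ehLow (d : ℕ) : Opens (S5Sph d) :=
  ⟨{x | (x : S5E d) 0 < 0}, isOpen_lt (by fun_prop) continuous_const⟩

/-- the complement of the south pole -/
def ehNoS (d : ℕ) : Opens (S5Sph d) := ⟨{x | x ≠ s5South d}, isOpen_ne⟩

theorem ehTop_eq_sup (d : ℕ) : (⊤ : Opens (S5Sph d)) = ehNoS d ⊔ ehLow d := by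
  ext x
  constructor
  · intro _
    by_cases h : x = s5South d
    · refine Or.inr ?_
      subst h
      show ((s5South d : S5Sph d) : S5E d) 0 < 0
      simp [s5South, s5e0]
    · exact Or.inl h
  · intro _
    trivial

theorem ehChart_mapsTo (d : ℕ) :
    Set.MapsTo (ehChart d) ((ehNoS d ⊓ ehLow d : Opens (S5Sph d)) : Set (S5Sph d)) (ehA d : Set (EhR d)) := by
  rintro x ⟨hx, hlow⟩ h0
  apply hx
  have hlow' : (x : S5E d) 0 < 0 := hlow
  have hs : ∀ i : Fin d, (x : S5E d) i.succ = 0 := fun i => congrFun h0 i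
  have hn : ‖(x : S5E d)‖ = 1 := by simp
  have hsq : ((x : S5E d) 0) ^ 2 = 1 := by
    have h2 : ‖(x : S5E d)‖ ^ 2 = ∑ i, ‖(x : S5E d) i‖ ^ 2 := EuclideanSpace.norm_sq_eq _
    rw [hn, Fin.sum_univ_succ] at h2
    simp [hs] at h2
    linarith
  have hx0 : (x : S5E d) 0 = -1 := by nlinarith
  apply Subtype.ext
  ext i
  refine Fin.cases ?_ (fun k => ?_) i
  · simp [s5South, s5e0, hx0]
  · simp [s5South, s5e0, hs k]

/-- the straight homotopy from the inclusion of the cube to its translate by `- x0` -/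
def ehTrans (d : ℕ) (x0 : EhCb d) : C(unitInterval × EhCb d, EhR d) :=
  ⟨fun p => ehCbIncl d p.2 - (p.1 : ℝ) • ehCbIncl d x0, by fun_prop⟩

/-- the unit ball of `ℝ^d` (euclidean) -/
def ehBall (d : ℕ) : Opens (EhR d) := ⟨{y | ∑ i, y i ^ 2 < 1}, isOpen_lt (by fun_prop) continuous_const⟩

/-- the point of the lower hemisphere over `y`, as a vector -/
noncomputable def ehChartVec (d : ℕ) (y : EhR d) : S5E d :=
  WithLp.toLp 2 (Fin.cons (-(Real.sqrt (1 - ∑ i, y i ^ 2))) y : Fin (d + 1) → ℝ)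

/-- the inverse of the chart on the unit ball -/
noncomputable def ehChartInv (d : ℕ) (y : EhR d) : S5Sph d :=
  if h : ‖ehChartVec d y‖ = 1 then ⟨ehChartVec d y, by simp [h]⟩ else s5South d

theorem ehLe_noS (d : ℕ) (U : Opens (S5Sph d)) (hU : s5South d ∉ U) : U ≤ ehNoS d :=
  fun _ hx h => hU (h ▸ hx)

namespace EhTheory

variable (T : EhTheory.{u})

/-- the signature in a degree which is equal to `0` -/
def sigr (r : ℤ) (h : r = 0) : T.Q r PUnit ⊤ ⊥ →+ ℤ := h ▸ T.sig

/-- the desuspension `σ = ρ_* ∘ dd ∘ q ∘ ∂ : Q_r(ℝ^{j+1}, ℝ^{j+1} ∖ 0) → Q_{r-1}(ℝ^j, ℝ^j ∖ 0)` -/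
def sus (j : ℕ) (r s : ℤ) (h : s + 1 = r) :
    T.Q r (EhR (j + 1)) ⊤ (ehA (j + 1)) →+ T.Q s (EhR j) ⊤ (ehA j) :=
  (T.push s (ehTail j) (V := ehDn j) (U := ehAx j) (V' := ⊤) (U' := ehA j)
      (ehMapsTop _ _) (ehTail_mapsTo j)).comp
    ((T.dd s (ehDn j) (ehUp j) (ehAx j) (ehA (j + 1)) (ehAx_eq_inf j) (ehA_eq_sup j)).comp
      ((T.ext s (le_refl (ehA (j + 1))) (bot_le : ⊥ ≤ ehUp j)).comp (T.bd r s h ⊤ (ehA (j + 1)))))

/-- `Φ` on the local group of `ℝ^j` at the origin -/
def phiR : ∀ (j : ℕ) (r : ℤ), r = j → (T.Q r (EhR j) ⊤ (ehA j) →+ ℤ)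
  | 0, r, h => (T.sigr r (by simpa using h)).comp
      (T.push r (ehPt (EhR 0)) (V := ⊤) (U := ehA 0) (V' := ⊤) (U' := ⊥) (ehMapsTop _ _) ehA_zero_mapsTo)
  | j + 1, r, h => (phiR j (r - 1) (by rw [h]; push_cast; ring)).comp (T.sus j r (r - 1) (by ring))

/-- `Φ : W_d(T(S^d)/T(U)) → ℤ` for an open set `U` which does not contain the south pole -/
def phi (d : ℕ) (r : ℤ) (h : r = d) (U : Opens (S5Sph d)) (hU : s5South d ∉ U) :
    T.Q r (S5Sph d) ⊤ U →+ ℤ :=
  (T.phiR d r h).comp
    ((T.push r (ehChart d) (V := ehLow d) (U := ehNoS d ⊓ ehLow d) (V' := ⊤) (U' := ehA d)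
        (ehMapsTop _ _) (ehChart_mapsTo d)).comp
      ((T.dd r (ehLow d) (ehNoS d) (ehNoS d ⊓ ehLow d) ⊤ rfl (ehTop_eq_sup d)).comp
        (T.ext r (le_refl ⊤) (ehLe_noS d U hU))))

end EhTheory

/-- the local orientation class of `ℝ^j` at the origin: the image of the cube class -/
def EhCube.loc {T : EhTheory.{u}} (κ : EhCube T) (j : ℕ) (r : ℤ) (h : r = j) : T.Q r (EhR j) ⊤ (ehA j) :=
  T.push r (ehCbIncl j) (V := ⊤) (U := ehCbA j) (V' := ⊤) (U' := ehA j) (ehMapsTop _ _)
    (ehCbIncl_mapsTo j) (κ.kap j r h (ehCbA j) (ehCbBd_subset_A j))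

/-- realises the equation lemmas here (unique names) -/
theorem eh_defs_eqns_cite : True := by
  have := @ehPt.eq_1
  have := @ehVal.eq_1
  have := @ehRes.eq_1
  have := @EhTheory.ext.eq_1.{0}
  have := @EhTheory.aug.eq_1.{0}
  have := @EhTheory.IsPt.eq_1.{0}
  have := @EhTheory.sub.eq_1.{0}
  have := @EhTheory.subEquiv.eq_1.{0}
  have := @EhTheory.pushOn.eq_1.{0}
  have := @ehA.eq_1
  have := @ehTail.eq_1
  have := @ehHead.eq_1
  have := @ehAx.eq_1
  have := @ehUp.eq_1
  have := @ehDn.eq_1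
  have := @ehBot.eq_1
  have := @ehSlide.eq_1
  have := @ehCbIncl.eq_1
  have := @ehCbBd.eq_1
  have := @ehCbA.eq_1
  have := @ehCbUp.eq_1
  have := @ehCbFace.eq_1
  have := @ehChart.eq_1
  have := @ehLow.eq_1
  have := @ehNoS.eq_1
  have := @ehTrans.eq_1
  have := @ehBall.eq_1
  have := @ehChartVec.eq_1
  have := @ehChartInv.eq_1
  have := @EhTheory.sigr.eq_1.{0}
  have := @EhTheory.sus.eq_1.{0}
  have := @EhTheory.phiR.eq_1.{0}
  have := @EhTheory.phiR.eq_2.{0}
  have := @EhTheory.phiR.eq_def.{0}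
  have := @EhTheory.phi.eq_1.{0}
  have := @EhCube.loc.eq_1.{0}
  trivial

end Claimed.Agent.R304
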