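/-
Row 304 (S0559).  Owner: helper13.  PACKAGE EhBasic: formal consequences of `EhTheory`.  SORRY-FREE (helper13).

PLAN PER STATEMENT (T : EhTheory; all proofs are diagram chases with `push_id`, `push_comp`, proof irrelevance).
* eh_ext_refl/eh_ext_ext/eh_push_ext/eh_ext_push/eh_bd_ext: unfold `ext`, use push_id / push_comp / bd_push
  (`ContinuousMap.id_comp`, `ContinuousMap.comp_id` are needed to rewrite the composite map; do it with a helper
  `eh_push_congr` (f = g, then subst)).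
* eh_exact_mid/rel/sub: the three exactness fields rewritten with `ext`  (rfl up to unfolding).
* eh_Q_bot: exact_mid for U = V = ⊥: both maps are the identity, so x = ext x = 0 since x is in the range.
* eh_push_homeo_bij: push along a homeomorphism of pairs is bijective (inverse = push of the inverse).
* eh_sub_apply, eh_pushOn_*: write pushOn f = push (ehRes f V) ∘ sub⁻¹.
    - eq_push: ehRes f V = f ∘ ehVal V, so push (ehRes f V) = push f ∘ sub.
    - congr: ehRes f V = ehRes g V as continuous maps.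
    - comp: ehRes f V factors as ehVal V' ∘ f' with f' : C(V, V'), hence sub_{V'}⁻¹ ∘ push (ehRes f V) = push f';
      then push (ehRes g V') ∘ push f' = push (ehRes (g ∘ f) V).
    - htpy: apply the field htpy on the space V to the map (t, x) ↦ H t x, continuous on I × V since
      (t, x) ↦ (t, x.1) maps into univ ×ˢ V.
    - bd: bd_push for ehVal V and for ehRes f V; note that the comparison for (U, ⊥) goes through the space U while
      bd on the space V produces Q s V (comap U) ⊥: use eh_pushOn_comp/eq_push to identify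
      (state and prove first: sub is natural for bd:  bd (sub x) = push (ehVal V) (bd x)).
* eh_aug_push/eh_aug_ext/eh_aug_pushOn: ehPt ∘ f = ehPt.
* eh_isPt_of_contr: s := const x0 : C(PUnit, X).  aug ∘ push s = id (push_comp, push_id),
  push s ∘ aug = push (const x0 : C(X,X)) = pushOn (H 1) = pushOn (H 0) = pushOn id = id.
* eh_isPt_ext_bij: aug_V ∘ ext = aug_U, two of the three maps are bijective.
* eh_rel_surj: y in Q_r(V,U); bd y in E_s(U) dies in E_s(V) (exact_sub), so aug (bd y) = 0, so bd y = 0, so y comes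
  from E_r(V) (exact_rel).
* eh_rel_lift: take x1 with ext x1 = y, w := aug_U⁻¹ (aug x1), x := x1 - ext w; ext (ext w) = 0 by exact_mid.
* eh_rel_inj: ext x = 0 gives x = ext w (exact_mid), aug w = aug x = 0, so w = 0.
* eh_rel_zero_of_isPt: V pointlike, U nonempty (a in U): every v in E_r(V) is ext (push (const a) (aug v)) because both
  have the same augmentation; so its image in Q_r(V,U) vanishes (exact_mid).
-/
import Claimed.Agent.R304.EhDefs

set_option autoImplicit false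

namespace Claimed.Agent.R304

open Topology TopologicalSpace

universe u

theorem eh_push_congr (T : EhTheory.{u}) (r : ℤ) {X Y : Type} [TopologicalSpace X] [EhSp X]
    [TopologicalSpace Y] [EhSp Y] {f g : C(X, Y)} (hfg : f = g) {V U : Opens X} {V' U' : Opens Y}
    (hV : Set.MapsTo f (V : Set X) (V' : Set Y)) (hU : Set.MapsTo f (U : Set X) (U' : Set Y))
    (hV' : Set.MapsTo g (V : Set X) (V' : Set Y)) (hU' : Set.MapsTo g (U : Set X) (U' : Set Y))
    (x : T.Q r X V U) : T.push r f hV hU x = T.push r g hV' hU' x := by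
  subst hfg
  rfl

/-- composition of pushforwards, with the composite given pointwise -/
theorem eh_push_push (T : EhTheory.{u}) (r : ℤ) {X Y Z : Type} [TopologicalSpace X] [EhSp X]
    [TopologicalSpace Y] [EhSp Y] [TopologicalSpace Z] [EhSp Z] (f : C(X, Y)) (g : C(Y, Z)) (k : C(X, Z))
    (hk : ∀ x, k x = g (f x))
    {V U : Opens X} {V' U' : Opens Y} {V'' U'' : Opens Z}
    (hV : Set.MapsTo f (V : Set X) (V' : Set Y)) (hU : Set.MapsTo f (U : Set X) (U' : Set Y))
    (hV' : Set.MapsTo g (V' : Set Y) (V'' : Set Z)) (hU' : Set.MapsTo g (U' : Set Y) (U'' : Set Z))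
    (hV'' : Set.MapsTo k (V : Set X) (V'' : Set Z)) (hU'' : Set.MapsTo k (U : Set X) (U'' : Set Z))
    (x : T.Q r X V U) :
    T.push r g hV' hU' (T.push r f hV hU x) = T.push r k hV'' hU'' x := by
  have h : k = g.comp f := ContinuousMap.ext hk
  subst h
  exact T.push_comp r f g hV hU hV' hU' hV'' hU'' x

/-- a map which is pointwise the identity induces the identity -/
theorem eh_push_id' (T : EhTheory.{u}) (r : ℤ) {X : Type} [TopologicalSpace X] [EhSp X] (f : C(X, X))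
    (hf : ∀ x, f x = x) {V U : Opens X}
    (hV : Set.MapsTo f (V : Set X) (V : Set X)) (hU : Set.MapsTo f (U : Set X) (U : Set X))
    (x : T.Q r X V U) : T.push r f hV hU x = x := by
  have h : f = ContinuousMap.id X := ContinuousMap.ext hf
  subst h
  exact T.push_id r hV hU x

theorem eh_ext_refl (T : EhTheory.{u}) (r : ℤ) {X : Type} [TopologicalSpace X] [EhSp X] {V U : Opens X}
    (hV : V ≤ V) (hU : U ≤ U) (x : T.Q r X V U) : T.ext r hV hU x = x :=
  T.push_id r _ _ x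

theorem eh_ext_ext (T : EhTheory.{u}) (r : ℤ) {X : Type} [TopologicalSpace X] [EhSp X]
    {V U V' U' V'' U'' : Opens X} (hV : V ≤ V') (hU : U ≤ U') (hV' : V' ≤ V'') (hU' : U' ≤ U'')
    (x : T.Q r X V U) :
    T.ext r hV' hU' (T.ext r hV hU x) = T.ext r (hV.trans hV') (hU.trans hU') x :=
  eh_push_push T r _ _ _ (fun _ => rfl) _ _ _ _ _ _ x

theorem eh_push_ext (T : EhTheory.{u}) (r : ℤ) {X Y : Type} [TopologicalSpace X] [EhSp X]
    [TopologicalSpace Y] [EhSp Y] (f : C(X, Y)) {V U V1 U1 : Opens X} {V' U' : Opens Y}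
    (hV : V ≤ V1) (hU : U ≤ U1)
    (hV1 : Set.MapsTo f (V1 : Set X) (V' : Set Y)) (hU1 : Set.MapsTo f (U1 : Set X) (U' : Set Y))
    (x : T.Q r X V U) :
    T.push r f hV1 hU1 (T.ext r hV hU x) = T.push r f (ehMapsLeft hV hV1) (ehMapsLeft hU hU1) x :=
  eh_push_push T r _ _ _ (fun _ => rfl) _ _ _ _ _ _ x

theorem eh_ext_push (T : EhTheory.{u}) (r : ℤ) {X Y : Type} [TopologicalSpace X] [EhSp X]
    [TopologicalSpace Y] [EhSp Y] (f : C(X, Y)) {V U : Opens X} {V' U' V1 U1 : Opens Y}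
    (hV : Set.MapsTo f (V : Set X) (V' : Set Y)) (hU : Set.MapsTo f (U : Set X) (U' : Set Y))
    (hV1 : V' ≤ V1) (hU1 : U' ≤ U1) (x : T.Q r X V U) :
    T.ext r hV1 hU1 (T.push r f hV hU x) = T.push r f (ehMapsRight hV hV1) (ehMapsRight hU hU1) x :=
  eh_push_push T r _ _ _ (fun _ => rfl) _ _ _ _ _ _ x

theorem eh_bd_ext (T : EhTheory.{u}) (r s : ℤ) (h : s + 1 = r) {X : Type} [TopologicalSpace X] [EhSp X]
    {V U V' U' : Opens X} (hV : V ≤ V') (hU : U ≤ U') (x : T.Q r X V U) :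
    T.ext s hU le_rfl (T.bd r s h V U x) = T.bd r s h V' U' (T.ext r hV hU x) :=
  T.bd_push r s h _ _ _ x

theorem eh_exact_mid (T : EhTheory.{u}) (r : ℤ) {X : Type} [TopologicalSpace X] [EhSp X] {V U : Opens X}
    (hUV : U ≤ V) :
    Function.Exact (T.ext r hUV (le_refl ⊥)) (T.ext r (le_refl V) (bot_le : ⊥ ≤ U)) :=
  T.exact_mid r hUV

theorem eh_exact_rel (T : EhTheory.{u}) (r s : ℤ) (h : s + 1 = r) {X : Type} [TopologicalSpace X] [EhSp X]
    {V U : Opens X} (hUV : U ≤ V) :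
    Function.Exact (T.ext r (le_refl V) (bot_le : ⊥ ≤ U)) (T.bd r s h V U) :=
  T.exact_rel r s h hUV

theorem eh_exact_sub (T : EhTheory.{u}) (r s : ℤ) (h : s + 1 = r) {X : Type} [TopologicalSpace X] [EhSp X]
    {V U : Opens X} (hUV : U ≤ V) :
    Function.Exact (T.bd r s h V U) (T.ext s hUV (le_refl ⊥)) :=
  T.exact_sub r s h hUV

/-- the groups of the empty set vanish -/
theorem eh_Q_bot (T : EhTheory.{u}) (r : ℤ) {X : Type} [TopologicalSpace X] [EhSp X] (x : T.Q r X ⊥ ⊥) :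
    x = 0 := by
  have h := (eh_exact_mid T r (le_refl (⊥ : Opens X)) x).2 ⟨x, eh_ext_refl T r _ _ x⟩
  rwa [eh_ext_refl] at h

/-- a homeomorphism of pairs induces a bijection -/
theorem eh_push_homeo_bij (T : EhTheory.{u}) (r : ℤ) {X Y : Type} [TopologicalSpace X] [EhSp X]
    [TopologicalSpace Y] [EhSp Y] (f : C(X, Y)) (g : C(Y, X)) (hgf : ∀ x, g (f x) = x) (hfg : ∀ y, f (g y) = y)
    {V U : Opens X} {V' U' : Opens Y}
    (hV : Set.MapsTo f (V : Set X) (V' : Set Y)) (hU : Set.MapsTo f (U : Set X) (U' : Set Y))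
    (hV' : Set.MapsTo g (V' : Set Y) (V : Set X)) (hU' : Set.MapsTo g (U' : Set Y) (U : Set X)) :
    Function.Bijective (T.push r f hV hU) := by
  refine Function.bijective_iff_has_inverse.2 ⟨T.push r g hV' hU', fun x => ?_, fun y => ?_⟩
  · rw [eh_push_push T r f g (ContinuousMap.id X) (fun x => (hgf x).symm) hV hU hV' hU'
      (ehMapsId le_rfl) (ehMapsId le_rfl) x]
    exact T.push_id r _ _ x
  · rw [eh_push_push T r g f (ContinuousMap.id Y) (fun y => (hfg y).symm) hV' hU' hV hU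
      (ehMapsId le_rfl) (ehMapsId le_rfl) y]
    exact T.push_id r _ _ y
/-! ### partial maps -/

theorem eh_pushOn_sub (T : EhTheory.{u}) (r : ℤ) {X Y : Type} [TopologicalSpace X] [EhSp X]
    [TopologicalSpace Y] [EhSp Y] (f : X → Y) {V U : Opens X} {V' U' : Opens Y} (hUV : U ≤ V)
    (hf : ContinuousOn f (V : Set X))
    (hV : Set.MapsTo f (V : Set X) (V' : Set Y)) (hU : Set.MapsTo f (U : Set X) (U' : Set Y))
    (y : T.Q r V ⊤ (Opens.comap (ehVal V) U)) :
    T.pushOn r f hUV hf hV hU (T.sub r V U y) =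
      T.push r (ehRes f V hf) (V := ⊤) (U := Opens.comap (ehVal V) U) (fun y _ => hV y.2)
        (fun _ hy => hU hy) y := by
  have h : (T.subEquiv r hUV).symm (T.sub r V U y) = y :=
    (T.subEquiv r hUV).symm_apply_apply y
  simp only [EhTheory.pushOn, AddMonoidHom.comp_apply, AddEquiv.coe_toAddMonoidHom, h]

theorem eh_pushOn_eq_push (T : EhTheory.{u}) (r : ℤ) {X Y : Type} [TopologicalSpace X] [EhSp X]
    [TopologicalSpace Y] [EhSp Y] (f : C(X, Y)) {V U : Opens X} {V' U' : Opens Y} (hUV : U ≤ V)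
    (hf : ContinuousOn f (V : Set X))
    (hV : Set.MapsTo f (V : Set X) (V' : Set Y)) (hU : Set.MapsTo f (U : Set X) (U' : Set Y))
    (x : T.Q r X V U) : T.pushOn r f hUV hf hV hU x = T.push r f hV hU x := by
  obtain ⟨y, rfl⟩ := (T.sub_bijective r hUV).2 x
  rw [eh_pushOn_sub]
  exact (eh_push_push T r (ehVal V) f (ehRes f V hf) (fun _ => rfl) _ _ hV hU _ _ y).symm

theorem eh_pushOn_congr (T : EhTheory.{u}) (r : ℤ) {X Y : Type} [TopologicalSpace X] [EhSp X]
    [TopologicalSpace Y] [EhSp Y] {f g : X → Y} {V U : Opens X} {V' U' : Opens Y} (hUV : U ≤ V)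
    (hfg : Set.EqOn f g (V : Set X))
    (hf : ContinuousOn f (V : Set X))
    (hV : Set.MapsTo f (V : Set X) (V' : Set Y)) (hU : Set.MapsTo f (U : Set X) (U' : Set Y))
    (hg : ContinuousOn g (V : Set X))
    (hV' : Set.MapsTo g (V : Set X) (V' : Set Y)) (hU' : Set.MapsTo g (U : Set X) (U' : Set Y))
    (x : T.Q r X V U) : T.pushOn r f hUV hf hV hU x = T.pushOn r g hUV hg hV' hU' x := by
  obtain ⟨y, rfl⟩ := (T.sub_bijective r hUV).2 x
  rw [eh_pushOn_sub, eh_pushOn_sub]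
  exact eh_push_congr T r (ContinuousMap.ext fun z => hfg z.2) _ _ _ _ y

theorem eh_pushOn_id (T : EhTheory.{u}) (r : ℤ) {X : Type} [TopologicalSpace X] [EhSp X]
    {V U : Opens X} (hUV : U ≤ V) (hf : ContinuousOn (fun x : X => x) (V : Set X))
    (hV : Set.MapsTo (fun x : X => x) (V : Set X) (V : Set X))
    (hU : Set.MapsTo (fun x : X => x) (U : Set X) (U : Set X))
    (x : T.Q r X V U) : T.pushOn r (fun x : X => x) hUV hf hV hU x = x := by
  obtain ⟨y, rfl⟩ := (T.sub_bijective r hUV).2 x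
  rw [eh_pushOn_sub]
  rfl

theorem eh_pushOn_comp (T : EhTheory.{u}) (r : ℤ) {X Y Z : Type} [TopologicalSpace X] [EhSp X]
    [TopologicalSpace Y] [EhSp Y] [TopologicalSpace Z] [EhSp Z] (f : X → Y) (g : Y → Z)
    {V U : Opens X} {V' U' : Opens Y} {V'' U'' : Opens Z} (hUV : U ≤ V) (hUV' : U' ≤ V')
    (hf : ContinuousOn f (V : Set X))
    (hV : Set.MapsTo f (V : Set X) (V' : Set Y)) (hU : Set.MapsTo f (U : Set X) (U' : Set Y))
    (hg : ContinuousOn g (V' : Set Y))
    (hV' : Set.MapsTo g (V' : Set Y) (V'' : Set Z)) (hU' : Set.MapsTo g (U' : Set Y) (U'' : Set Z))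
    (x : T.Q r X V U) :
    T.pushOn r g hUV' hg hV' hU' (T.pushOn r f hUV hf hV hU x) =
      T.pushOn r (g ∘ f) hUV (hg.comp hf hV) (hV'.comp hV) (hU'.comp hU) x := by
  obtain ⟨y, rfl⟩ := (T.sub_bijective r hUV).2 x
  rw [eh_pushOn_sub, eh_pushOn_sub]
  let f' : C(V, V') := ⟨fun z => ⟨f z, hV z.2⟩, (ehRes f V hf).continuous.subtype_mk _⟩
  have hf'U : Set.MapsTo f' ((Opens.comap (ehVal V) U : Opens V) : Set V)
      ((Opens.comap (ehVal V') U' : Opens V') : Set V') := fun z hz => hU hz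
  have h1 : T.push r (ehRes f V hf) (V := ⊤) (U := Opens.comap (ehVal V) U) (V' := V') (U' := U')
      (fun y _ => hV y.2) (fun _ hy => hU hy) y =
      T.sub r V' U' (T.push r f' (V := ⊤) (V' := ⊤) (ehMapsTop _ _) hf'U y) :=
    (eh_push_push T r f' (ehVal V') (ehRes f V hf) (fun _ => rfl) _ _ _ _ _ _ y).symm
  rw [h1, eh_pushOn_sub]
  exact eh_push_push T r f' (ehRes g V' hg) _ (fun _ => rfl) _ _ _ _ _ _ y

/-- homotopy invariance for partial maps -/
theorem eh_pushOn_htpy (T : EhTheory.{u}) (r : ℤ) {X Y : Type} [TopologicalSpace X] [EhSp X]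
    [TopologicalSpace Y] [EhSp Y] (H : unitInterval → X → Y) {V U : Opens X} {V' U' : Opens Y} (hUV : U ≤ V)
    (hH : ContinuousOn (fun p : unitInterval × X => H p.1 p.2) (Set.univ ×ˢ (V : Set X)))
    (hc : ∀ t, ContinuousOn (H t) (V : Set X))
    (hV : ∀ t, Set.MapsTo (H t) (V : Set X) (V' : Set Y)) (hU : ∀ t, Set.MapsTo (H t) (U : Set X) (U' : Set Y))
    (x : T.Q r X V U) :
    T.pushOn r (H 0) hUV (hc 0) (hV 0) (hU 0) x = T.pushOn r (H 1) hUV (hc 1) (hV 1) (hU 1) x := by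
  obtain ⟨y, rfl⟩ := (T.sub_bijective r hUV).2 x
  rw [eh_pushOn_sub, eh_pushOn_sub]
  let Hc : C(unitInterval × V, Y) := ⟨fun p => H p.1 p.2.1,
    hH.comp_continuous (continuous_fst.prodMk (continuous_subtype_val.comp continuous_snd))
      (fun p => ⟨trivial, p.2.2⟩)⟩
  have key := T.htpy r Hc (V := ⊤) (U := Opens.comap (ehVal V) U) (V' := V') (U' := U')
    (fun t z _ => hV t z.2) (fun t _ hz => hU t hz) y
  exact key

theorem eh_bd_pushOn (T : EhTheory.{u}) (r s : ℤ) (h : s + 1 = r) {X Y : Type} [TopologicalSpace X] [EhSp X]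
    [TopologicalSpace Y] [EhSp Y] (f : X → Y) {V U : Opens X} {V' U' : Opens Y} (hUV : U ≤ V)
    (hf : ContinuousOn f (V : Set X))
    (hV : Set.MapsTo f (V : Set X) (V' : Set Y)) (hU : Set.MapsTo f (U : Set X) (U' : Set Y))
    (hfU : ContinuousOn f (U : Set X))
    (hb : Set.MapsTo f ((⊥ : Opens X) : Set X) ((⊥ : Opens Y) : Set Y))
    (x : T.Q r X V U) :
    T.pushOn s f (bot_le : ⊥ ≤ U) hfU hU hb (T.bd r s h V U x) =
      T.bd r s h V' U' (T.pushOn r f hUV hf hV hU x) := by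
  obtain ⟨y, rfl⟩ := (T.sub_bijective r hUV).2 x
  rw [eh_pushOn_sub]
  have h2 := T.bd_push r s h (ehRes f V hf) (V := ⊤) (U := Opens.comap (ehVal V) U) (V' := V') (U' := U')
    (fun y _ => hV y.2) (fun _ hy => hU hy) y
  rw [← h2]
  have h1 : T.bd r s h V U (T.sub r V U y) =
      T.push s (ehVal V) (ehMapsComap _ _) (ehMapsBot _ ⊥) (T.bd r s h ⊤ (Opens.comap (ehVal V) U) y) :=
    (T.bd_push r s h (ehVal V) _ _ y).symm
  rw [h1]
  generalize T.bd r s h ⊤ (Opens.comap (ehVal V) U) y = w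
  rw [← eh_pushOn_eq_push T s (ehVal V) (bot_le : ⊥ ≤ Opens.comap (ehVal V) U)
    (ehVal V).continuous.continuousOn (ehMapsComap _ _) (ehMapsBot _ ⊥) w]
  rw [eh_pushOn_comp]
  exact eh_pushOn_eq_push T s (ehRes f V hf) bot_le _ _ _ w

/-- a partial homeomorphism of pairs induces a bijection -/
theorem eh_pushOn_bij (T : EhTheory.{u}) (r : ℤ) {X Y : Type} [TopologicalSpace X] [EhSp X]
    [TopologicalSpace Y] [EhSp Y] (f : X → Y) (g : Y → X) {V U : Opens X} {V' U' : Opens Y}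
    (hUV : U ≤ V) (hUV' : U' ≤ V')
    (hf : ContinuousOn f (V : Set X))
    (hV : Set.MapsTo f (V : Set X) (V' : Set Y)) (hU : Set.MapsTo f (U : Set X) (U' : Set Y))
    (hg : ContinuousOn g (V' : Set Y))
    (hV' : Set.MapsTo g (V' : Set Y) (V : Set X)) (hU' : Set.MapsTo g (U' : Set Y) (U : Set X))
    (hgf : ∀ x ∈ V, g (f x) = x) (hfg : ∀ y ∈ V', f (g y) = y) :
    Function.Bijective (T.pushOn r f hUV hf hV hU) := by
  refine Function.bijective_iff_has_inverse.2 ⟨T.pushOn r g hUV' hg hV' hU', fun x => ?_, fun y => ?_⟩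
  · rw [eh_pushOn_comp]
    exact (eh_pushOn_congr T r hUV (f := g ∘ f) (g := fun x : X => x) (fun x hx => hgf x hx) _ _ _
      continuousOn_id (fun _ hx => hx) (fun _ hx => hx) x).trans (eh_pushOn_id T r hUV _ _ _ x)
  · rw [eh_pushOn_comp]
    exact (eh_pushOn_congr T r hUV' (f := f ∘ g) (g := fun y : Y => y) (fun y hy => hfg y hy) _ _ _
      continuousOn_id (fun _ hx => hx) (fun _ hx => hx) y).trans (eh_pushOn_id T r hUV' _ _ _ y)
/-! ### augmentation and pointlike sets -/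

theorem eh_aug_push (T : EhTheory.{u}) (r : ℤ) {X Y : Type} [TopologicalSpace X] [EhSp X]
    [TopologicalSpace Y] [EhSp Y] (f : C(X, Y)) {V : Opens X} {V' : Opens Y}
    (hV : Set.MapsTo f (V : Set X) (V' : Set Y))
    (hb : Set.MapsTo f ((⊥ : Opens X) : Set X) ((⊥ : Opens Y) : Set Y)) (x : T.Q r X V ⊥) :
    T.aug r V' (T.push r f hV hb x) = T.aug r V x :=
  eh_push_push T r f (ehPt Y) (ehPt X) (fun _ => rfl) _ _ _ _ _ _ x

theorem eh_aug_ext (T : EhTheory.{u}) (r : ℤ) {X : Type} [TopologicalSpace X] [EhSp X] {V V' : Opens X}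
    (hV : V ≤ V') (x : T.Q r X V ⊥) : T.aug r V' (T.ext r hV le_rfl x) = T.aug r V x :=
  eh_aug_push T r _ _ _ x

theorem eh_aug_pushOn (T : EhTheory.{u}) (r : ℤ) {X Y : Type} [TopologicalSpace X] [EhSp X]
    [TopologicalSpace Y] [EhSp Y] (f : X → Y) {V : Opens X} {V' : Opens Y}
    (hf : ContinuousOn f (V : Set X)) (hV : Set.MapsTo f (V : Set X) (V' : Set Y))
    (hb : Set.MapsTo f ((⊥ : Opens X) : Set X) ((⊥ : Opens Y) : Set Y)) (x : T.Q r X V ⊥) :
    T.aug r V' (T.pushOn r f bot_le hf hV hb x) = T.aug r V x := by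
  obtain ⟨y, rfl⟩ := (T.sub_bijective r (bot_le : ⊥ ≤ V)).2 x
  rw [eh_pushOn_sub]
  have h1 := eh_push_push T r (ehRes f V hf) (ehPt Y) (ehPt V) (fun _ => rfl)
    (V := ⊤) (U := Opens.comap (ehVal V) ⊥) (V' := V') (U' := ⊥) (V'' := ⊤) (U'' := ⊥)
    (fun y _ => hV y.2) (fun _ hy => hb hy) (ehMapsTop _ _) (ehMapsBot _ _) (ehMapsTop _ _)
    (fun _ hy => hy) y
  have h2 := eh_push_push T r (ehVal V) (ehPt X) (ehPt V) (fun _ => rfl)
    (V := ⊤) (U := Opens.comap (ehVal V) ⊥) (V' := V) (U' := ⊥) (V'' := ⊤) (U'' := ⊥)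
    (fun y _ => y.2) (ehMapsComap _ _) (ehMapsTop _ _) (ehMapsBot _ _) (ehMapsTop _ _)
    (fun _ hy => hy) y
  exact h1.trans h2.symm

/-- the class of a point -/
theorem eh_aug_const (T : EhTheory.{u}) (r : ℤ) {X : Type} [TopologicalSpace X] [EhSp X] (V : Opens X)
    (a : X) (ha : a ∈ V) (w : T.Q r PUnit ⊤ ⊥) :
    T.aug r V (T.push r (ContinuousMap.const PUnit a) (V := ⊤) (U := ⊥) (V' := V) (U' := ⊥)
      (fun _ _ => ha) (ehMapsBot _ _) w) = w :=
  (eh_push_push T r (ContinuousMap.const PUnit a) (ehPt X) (ContinuousMap.id PUnit) (fun _ => rfl)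
    _ _ _ _ (ehMapsId le_rfl) (ehMapsId le_rfl) w).trans (T.push_id r _ _ w)

/-- the augmentation is onto for a nonempty set -/
theorem eh_aug_surj (T : EhTheory.{u}) (r : ℤ) {X : Type} [TopologicalSpace X] [EhSp X] (V : Opens X)
    (hne : (V : Set X).Nonempty) : Function.Surjective (T.aug r V) := by
  obtain ⟨a, ha⟩ := hne
  exact fun w => ⟨_, eh_aug_const T r V a ha w⟩

/-- a set with a contraction (a partial homotopy inside the set) is pointlike -/
theorem eh_isPt_of_contr (T : EhTheory.{u}) {X : Type} [TopologicalSpace X] [EhSp X] (V : Opens X) (x0 : X)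
    (hx0 : x0 ∈ V) (H : unitInterval → X → X)
    (hH : ContinuousOn (fun p : unitInterval × X => H p.1 p.2) (Set.univ ×ˢ (V : Set X)))
    (hV : ∀ t, Set.MapsTo (H t) (V : Set X) (V : Set X))
    (h0 : ∀ x ∈ V, H 0 x = x) (h1 : ∀ x ∈ V, H 1 x = x0) : T.IsPt V := by
  intro r
  refine ⟨?_, eh_aug_surj T r V ⟨x0, hx0⟩⟩
  rw [injective_iff_map_eq_zero]
  intro x hx
  have hc : ∀ t, ContinuousOn (H t) (V : Set X) := fun t =>
    hH.comp (f := fun x : X => ((t, x) : unitInterval × X)) (by fun_prop) (fun x hx => ⟨trivial, hx⟩)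
  have hb : ∀ t, Set.MapsTo (H t) ((⊥ : Opens X) : Set X) ((⊥ : Opens X) : Set X) := fun _ _ hx => hx.elim
  have e1 := eh_pushOn_htpy T r H (bot_le : ⊥ ≤ V) hH hc hV hb x
  have e0 : T.pushOn r (H 0) (bot_le : ⊥ ≤ V) (hc 0) (hV 0) (hb 0) x = x :=
    (eh_pushOn_congr T r bot_le (g := fun x : X => x) (fun x hx => h0 x hx) _ _ _ continuousOn_id
      (fun _ hx => hx) (fun _ hx => hx) x).trans (eh_pushOn_id T r bot_le _ _ _ x)
  have e2 : T.pushOn r (H 1) (bot_le : ⊥ ≤ V) (hc 1) (hV 1) (hb 1) x =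
      T.push r (ContinuousMap.const X x0) (V := V) (U := ⊥) (V' := V) (U' := ⊥) (fun _ _ => hx0)
        (ehMapsBot _ _) x :=
    (eh_pushOn_congr T r bot_le (g := ContinuousMap.const X x0) (fun x hx => h1 x hx) _ _ _
      (ContinuousMap.const X x0).continuous.continuousOn (fun _ _ => hx0) (ehMapsBot _ _) x).trans
      (eh_pushOn_eq_push T r (ContinuousMap.const X x0) bot_le _ _ _ x)
  have e3 : T.push r (ContinuousMap.const X x0) (V := V) (U := ⊥) (V' := V) (U' := ⊥) (fun _ _ => hx0)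
        (ehMapsBot _ _) x =
      T.push r (ContinuousMap.const PUnit x0) (V := ⊤) (U := ⊥) (V' := V) (U' := ⊥)
        (fun _ _ => hx0) (ehMapsBot _ _) (T.aug r V x) :=
    (eh_push_push T r (ehPt X) (ContinuousMap.const PUnit x0) (ContinuousMap.const X x0) (fun _ => rfl)
      _ _ _ _ _ _ x).symm
  rw [← e0, e1, e2, e3, hx, map_zero]

theorem eh_isPt_ext_bij (T : EhTheory.{u}) (r : ℤ) {X : Type} [TopologicalSpace X] [EhSp X] {U V : Opens X}
    (hUV : U ≤ V) (hU : T.IsPt U) (hV : T.IsPt V) : Function.Bijective (T.ext r hUV (le_refl ⊥)) := by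
  have h : (T.aug r V) ∘ (T.ext r hUV (le_refl ⊥)) = T.aug r U := funext fun x => eh_aug_ext T r hUV x
  have h2 : Function.Bijective ((T.aug r V) ∘ (T.ext r hUV (le_refl ⊥))) := h ▸ hU r
  exact (Function.Bijective.of_comp_iff' (hV r) _).1 h2

/-! ### the relative group of a pointlike subset is the reduced group (replaces P4.9) -/

theorem eh_rel_surj (T : EhTheory.{u}) (r : ℤ) {X : Type} [TopologicalSpace X] [EhSp X] {U V : Opens X}
    (hUV : U ≤ V) (hU : T.IsPt U) : Function.Surjective (T.ext r (le_refl V) (bot_le : ⊥ ≤ U)) := by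
  intro y
  have hs : (r - 1) + 1 = r := by ring
  have h1 : T.ext (r - 1) hUV (le_refl ⊥) (T.bd r (r - 1) hs V U y) = 0 :=
    (eh_exact_sub T r (r - 1) hs hUV _).2 ⟨y, rfl⟩
  have h2 : T.aug (r - 1) U (T.bd r (r - 1) hs V U y) = 0 := by
    rw [← eh_aug_ext T (r - 1) hUV, h1, map_zero]
  have h3 : T.bd r (r - 1) hs V U y = 0 := (hU (r - 1)).1 (by rw [h2, map_zero])
  exact (eh_exact_rel T r (r - 1) hs hUV y).1 h3

theorem eh_rel_lift (T : EhTheory.{u}) (r : ℤ) {X : Type} [TopologicalSpace X] [EhSp X] {U V : Opens X}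
    (hUV : U ≤ V) (hU : T.IsPt U) (y : T.Q r X V U) :
    ∃ x : T.Q r X V ⊥, T.ext r (le_refl V) (bot_le : ⊥ ≤ U) x = y ∧ T.aug r V x = 0 := by
  obtain ⟨x1, hx1⟩ := eh_rel_surj T r hUV hU y
  obtain ⟨w, hw⟩ := (hU r).2 (T.aug r V x1)
  refine ⟨x1 - T.ext r hUV (le_refl ⊥) w, ?_, ?_⟩
  · rw [map_sub, hx1, (eh_exact_mid T r hUV _).2 ⟨w, rfl⟩, sub_zero]
  · rw [map_sub, eh_aug_ext, hw, sub_self]

theorem eh_rel_inj (T : EhTheory.{u}) (r : ℤ) {X : Type} [TopologicalSpace X] [EhSp X] {U V : Opens X}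
    (hUV : U ≤ V) (hU : T.IsPt U) (x : T.Q r X V ⊥)
    (hx : T.ext r (le_refl V) (bot_le : ⊥ ≤ U) x = 0) (ha : T.aug r V x = 0) : x = 0 := by
  obtain ⟨w, rfl⟩ := (eh_exact_mid T r hUV x).1 hx
  rw [eh_aug_ext] at ha
  have : w = 0 := (hU r).1 (by rw [ha, map_zero])
  rw [this, map_zero]

theorem eh_rel_zero_of_isPt (T : EhTheory.{u}) (r : ℤ) {X : Type} [TopologicalSpace X] [EhSp X]
    {U V : Opens X} (hUV : U ≤ V) (hV : T.IsPt V) (hne : (U : Set X).Nonempty) (x : T.Q r X V ⊥) :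
    T.ext r (le_refl V) (bot_le : ⊥ ≤ U) x = 0 := by
  obtain ⟨w, hw⟩ := eh_aug_surj T r U hne (T.aug r V x)
  have : x = T.ext r hUV (le_refl ⊥) w := (hV r).1 (by rw [eh_aug_ext, hw])
  rw [this]
  exact (eh_exact_mid T r hUV _).2 ⟨w, rfl⟩

end Claimed.Agent.R304
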