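/-
Row 304 (S0559).  Owner: helper13.  LAYER E: Mayer-Vietoris theories on a lattice, rationalisation (definitions only).

* `EhMV L`      : rational vector spaces `V r a` (r : ℤ, a : L), extension maps, a Mayer-Vietoris boundary and exactly the
                  exactness statements which the Bott-Tu induction uses.  The boundary takes `i u` with proofs
                  `i = a ⊓ b`, `u = a ⊔ b` (no casts under lattice homomorphisms).
* `EhMVHom`     : natural transformations;  `EhMVHom.avg` : the average of a finite family.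
* `EhMV.comap`  : restriction along a lattice homomorphism `φ : L' → L`.
* `ehRat f`     : `ℚ ⊗ f`;  `T.mvV/mvExt/mvBd/mvPush` : the raw data of the rational Mayer-Vietoris theory of `T` on `Opens X`
                  (`mvBd = (1/excN) ∂ ∘ dd ∘ q`).  They are assembled in `EhOIDefs` from the theorems of `EhMvRat`.
-/
import Claimed.Agent.R304.EhDefs

set_option autoImplicit false

namespace Claimed.Agent.R304

open Topology TopologicalSpace TensorProduct

universe u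

/-- a Mayer-Vietoris theory on a lattice -/
structure EhMV (L : Type) [Lattice L] [OrderBot L] where
  V : ℤ → L → Type u
  [acg : ∀ (r : ℤ) (a : L), AddCommGroup (V r a)]
  [mod : ∀ (r : ℤ) (a : L), Module ℚ (V r a)]
  ext : ∀ (r : ℤ) {a b : L}, a ≤ b → (V r a →ₗ[ℚ] V r b)
  ext_refl : ∀ (r : ℤ) (a : L) (h : a ≤ a) (x : V r a), ext r h x = x
  ext_ext : ∀ (r : ℤ) {a b c : L} (h : a ≤ b) (h' : b ≤ c) (x : V r a),
    ext r h' (ext r h x) = ext r (h.trans h') x
  bd : ∀ (r s : ℤ), s + 1 = r → ∀ (a b i u : L), i = a ⊓ b → u = a ⊔ b → (V r u →ₗ[ℚ] V s i)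
  bot : ∀ (r : ℤ) (x : V r ⊥), x = 0
  /-- exactness at `V r a × V r b` -/
  m1 : ∀ (r : ℤ) (a b i u : L) (hi : i = a ⊓ b) (hu : u = a ⊔ b) (x : V r a) (y : V r b),
    ext r (hu ▸ le_sup_left : a ≤ u) x = ext r (hu ▸ le_sup_right : b ≤ u) y →
    ∃ w : V r i, ext r (hi ▸ inf_le_left : i ≤ a) w = x ∧ ext r (hi ▸ inf_le_right : i ≤ b) w = y
  /-- exactness at `V r u` -/
  m2 : ∀ (r s : ℤ) (h : s + 1 = r) (a b i u : L) (hi : i = a ⊓ b) (hu : u = a ⊔ b) (z : V r u),
    bd r s h a b i u hi hu z = 0 →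
    ∃ (x : V r a) (y : V r b), z = ext r (hu ▸ le_sup_left : a ≤ u) x + ext r (hu ▸ le_sup_right : b ≤ u) y
  /-- exactness at `V s i` -/
  m3 : ∀ (r s : ℤ) (h : s + 1 = r) (a b i u : L) (hi : i = a ⊓ b) (hu : u = a ⊔ b) (w : V s i),
    ext s (hi ▸ inf_le_left : i ≤ a) w = 0 → ext s (hi ▸ inf_le_right : i ≤ b) w = 0 →
    ∃ z : V r u, bd r s h a b i u hi hu z = w
  ext_bd_left : ∀ (r s : ℤ) (h : s + 1 = r) (a b i u : L) (hi : i = a ⊓ b) (hu : u = a ⊔ b) (z : V r u),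
    ext s (hi ▸ inf_le_left : i ≤ a) (bd r s h a b i u hi hu z) = 0
  ext_bd_right : ∀ (r s : ℤ) (h : s + 1 = r) (a b i u : L) (hi : i = a ⊓ b) (hu : u = a ⊔ b) (z : V r u),
    ext s (hi ▸ inf_le_right : i ≤ b) (bd r s h a b i u hi hu z) = 0

attribute [instance] EhMV.acg EhMV.mod

/-- a natural transformation of Mayer-Vietoris theories -/
structure EhMVHom {L : Type} [Lattice L] [OrderBot L] (M M' : EhMV.{u} L) where
  app : ∀ (r : ℤ) (a : L), M.V r a →ₗ[ℚ] M'.V r a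
  app_ext : ∀ (r : ℤ) {a b : L} (h : a ≤ b) (x : M.V r a), app r b (M.ext r h x) = M'.ext r h (app r a x)
  app_bd : ∀ (r s : ℤ) (h : s + 1 = r) (a b i u : L) (hi : i = a ⊓ b) (hu : u = a ⊔ b) (z : M.V r u),
    app s i (M.bd r s h a b i u hi hu z) = M'.bd r s h a b i u hi hu (app r u z)

/-- the average of a finite family of natural transformations -/
noncomputable def EhMVHom.avg {L : Type} [Lattice L] [OrderBot L] {M M' : EhMV.{u} L} {ι : Type} [Fintype ι]
    (F : ι → EhMVHom M M') : EhMVHom M M' where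
  app r a := (Fintype.card ι : ℚ)⁻¹ • ∑ c, (F c).app r a
  app_ext r a b h x := by
    simp only [LinearMap.smul_apply, LinearMap.sum_apply, map_smul, map_sum, (F _).app_ext]
  app_bd r s h a b i u hi hu z := by
    simp only [LinearMap.smul_apply, LinearMap.sum_apply, map_smul, map_sum, (F _).app_bd]

/-- lattice homomorphisms which preserve `⊥` -/
structure EhLatHom {L' L : Type} [Lattice L'] [OrderBot L'] [Lattice L] [OrderBot L] (φ : L' → L) : Prop where
  inf : ∀ a b, φ (a ⊓ b) = φ a ⊓ φ b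
  sup : ∀ a b, φ (a ⊔ b) = φ a ⊔ φ b
  bot : φ ⊥ = ⊥

theorem EhLatHom.mono {L' L : Type} [Lattice L'] [OrderBot L'] [Lattice L] [OrderBot L] {φ : L' → L}
    (hφ : EhLatHom φ) {a b : L'} (h : a ≤ b) : φ a ≤ φ b := by
  have : φ a = φ a ⊓ φ b := by rw [← hφ.inf, inf_eq_left.2 h]
  rw [this]
  exact inf_le_right

theorem ehLatHom_id (L : Type) [Lattice L] [OrderBot L] : EhLatHom (fun a : L => a) :=
  ⟨fun _ _ => rfl, fun _ _ => rfl, rfl⟩

theorem ehLatHom_comap {X Y : Type} [TopologicalSpace X] [TopologicalSpace Y] (f : C(X, Y)) :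
    EhLatHom (fun a : Opens Y => Opens.comap f a) :=
  ⟨fun _ _ => rfl, fun _ _ => rfl, rfl⟩

/-- restriction of a Mayer-Vietoris theory along a lattice homomorphism -/
def EhMV.comap {L' L : Type} [Lattice L'] [OrderBot L'] [Lattice L] [OrderBot L] (M : EhMV.{u} L)
    (φ : L' → L) (hφ : EhLatHom φ) : EhMV.{u} L' where
  V r a := M.V r (φ a)
  acg r a := M.acg r (φ a)
  mod r a := M.mod r (φ a)
  ext r _ _ h := M.ext r (hφ.mono h)
  ext_refl r a _ x := M.ext_refl r (φ a) _ x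
  ext_ext r _ _ _ h h' x := M.ext_ext r (hφ.mono h) (hφ.mono h') x
  bd r s h a b i u hi hu := M.bd r s h (φ a) (φ b) (φ i) (φ u) (by rw [hi, hφ.inf]) (by rw [hu, hφ.sup])
  bot r x := by
    have key : ∀ c : L, c = ⊥ → ∀ y : M.V r c, y = 0 := by
      rintro c rfl y
      exact M.bot r y
    exact key _ hφ.bot x
  m1 r a b i u hi hu x y h :=
    M.m1 r (φ a) (φ b) (φ i) (φ u) (by rw [hi, hφ.inf]) (by rw [hu, hφ.sup]) x y h
  m2 r s h a b i u hi hu z hz :=
    M.m2 r s h (φ a) (φ b) (φ i) (φ u) (by rw [hi, hφ.inf]) (by rw [hu, hφ.sup]) z hz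
  m3 r s h a b i u hi hu w h1 h2 :=
    M.m3 r s h (φ a) (φ b) (φ i) (φ u) (by rw [hi, hφ.inf]) (by rw [hu, hφ.sup]) w h1 h2
  ext_bd_left r s h a b i u hi hu z :=
    M.ext_bd_left r s h (φ a) (φ b) (φ i) (φ u) (by rw [hi, hφ.inf]) (by rw [hu, hφ.sup]) z
  ext_bd_right r s h a b i u hi hu z :=
    M.ext_bd_right r s h (φ a) (φ b) (φ i) (φ u) (by rw [hi, hφ.inf]) (by rw [hu, hφ.sup]) z

/-- `θ` is an isomorphism on the image of the idempotent `e`, at `a`, in all degrees -/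
def EhEIso {L : Type} [Lattice L] [OrderBot L] {M M' : EhMV.{u} L} (θ : EhMVHom M M') (e : EhMVHom M M)
    (a : L) : Prop :=
  ∀ r : ℤ, (∀ x : M.V r a, θ.app r a x = 0 → e.app r a x = 0) ∧ Function.Surjective (θ.app r a)

/-! ### rationalisation -/

/-- `ℚ ⊗ f` -/
noncomputable def ehRat {A B : Type u} [AddCommGroup A] [AddCommGroup B] (f : A →+ B) :
    (ℚ ⊗[ℤ] A) →ₗ[ℚ] (ℚ ⊗[ℤ] B) :=
  f.toIntLinearMap.baseChange ℚ

namespace EhTheory

variable (T : EhTheory.{u})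

/-- `ℚ ⊗ E_r(a)` -/
abbrev mvV (r : ℤ) (X : Type) [TopologicalSpace X] [EhSp X] (a : Opens X) : Type u := ℚ ⊗[ℤ] T.Q r X a ⊥

/-- rational extension maps -/
noncomputable def mvExt (r : ℤ) {X : Type} [TopologicalSpace X] [EhSp X] {a b : Opens X} (h : a ≤ b) :
    T.mvV r X a →ₗ[ℚ] T.mvV r X b :=
  ehRat (T.ext r h (le_refl ⊥))

/-- the rational Mayer-Vietoris boundary `(1/excN) ∂ ∘ dd ∘ q : E_r(u) → Q_r(u,a) → Q_r(b,i) → E_s(i)` -/
noncomputable def mvBd (r s : ℤ) (h : s + 1 = r) {X : Type} [TopologicalSpace X] [EhSp X] (a b i u : Opens X)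
    (hi : i = a ⊓ b) (hu : u = a ⊔ b) : T.mvV r X u →ₗ[ℚ] T.mvV s X i :=
  (T.excN : ℚ)⁻¹ • ehRat ((T.bd r s h b i).comp ((T.dd r b a i u hi hu).comp (T.ext r (le_refl u) (bot_le : ⊥ ≤ a))))

/-- rational pushforward -/
noncomputable def mvPush (r : ℤ) {X Y : Type} [TopologicalSpace X] [EhSp X] [TopologicalSpace Y] [EhSp Y]
    (f : C(X, Y)) {a : Opens X} {a' : Opens Y} (h : Set.MapsTo f (a : Set X) (a' : Set Y)) :
    T.mvV r X a →ₗ[ℚ] T.mvV r Y a' :=
  ehRat (T.push r f h (ehMapsBot f ⊥))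

end EhTheory

/-- realises the equation lemmas here (unique names) -/
theorem eh_mvDefs_eqns_cite : True := by
  have := @EhMVHom.avg.eq_1.{0}
  have := @EhMV.comap.eq_1.{0}
  have := @EhEIso.eq_1.{0}
  have := @ehRat.eq_1.{0}
  have := @EhTheory.mvExt.eq_1.{0}
  have := @EhTheory.mvBd.eq_1.{0}
  have := @EhTheory.mvPush.eq_1.{0}
  trivial

end Claimed.Agent.R304
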