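/-
Row 304 (S0559).  Owner: helper13.  PACKAGE EhBott: the abstract Bott-Tu induction.  No topology.  SORRY-FREE (helper13).

PLAN PER STATEMENT.
* eh_mv_step (five lemma with an idempotent).  Put s = r - 1, i = a ⊓ b, u = a ⊔ b.
  INJECTIVE: x in M_r(u), θ x = 0.  θ (∂ x) = ∂' (θ x) = 0, so e (∂ x) = 0 (P(i), degree s), so ∂ (e x) = 0 (app_bd for e);
  m2: e x = ext xa + ext xb; apply e (idempotent, app_ext): e x = ext xa' + ext xb' with xa' = e xa, xb' = e xb.
  0 = θ x = θ (e x) = ext' (θ xa') + ext' (θ xb'); m1 for M' with (θ xa', - θ xb'): w' with ext' w' = θ xa', ext' w' = - θ xb';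
  w' = θ w (P(i) onto, degree r).  θ (xa' - ext w) = 0 gives e (xa' - ext w) = 0, i.e. xa' = ext (e w) (e xa' = xa');
  likewise xb' = - ext (e w).  So e x = ext (ext (e w)) - ext (ext (e w)) = 0 (ext_ext).
  ONTO: y in M'_r(u).  ∂' y = θ v (P(i) onto, degree s).  θ (ext_{i ≤ a} v) = ext' (∂' y) = 0 (ext_bd_left), so
  ext_{i ≤ a} (e v) = e (ext v) = 0; the same for b; m3: e v = ∂ w.  ∂' (θ w) = θ (∂ w) = θ (e v) = θ v = ∂' y;
  m2 for M': y - θ w = ext' ya + ext' yb, ya = θ za, yb = θ zb; y = θ (w + ext za + ext zb).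
* eh_mv_bot: M.bot, M'.bot.
* eh_bott_disj: induction on the finset (Finset.induction_on): sup (insert a s) = a ⊔ sup s, a ⊓ sup s = ⊥ because a is disjoint
  from every member (Finset.disjoint_sup_right / distributivity); eh_mv_step with P(⊥).
* eh_bott_inf: G := {sup of a pairwise disjoint finset of G0}.  (sup s) ⊓ (sup t) = sup_{(a,b) in s × t} (a ⊓ b)
  (Finset.sup_inf_sup); each a ⊓ b is sup of a pairwise disjoint finset s_{ab} of G0; the union of the s_{ab} is pairwise
  disjoint: members of s_{ab}, s_{a'b'} with (a,b) ≠ (a',b') lie below a ⊓ b, a' ⊓ b', which are disjoint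
  (⊥ may be a member of several s_{ab}; it is disjoint from itself, and PairwiseDisjoint only concerns distinct members).
* eh_bott_union: induction on n = card for ALL finsets t of members of G simultaneously:
  sup (insert a t) = a ⊔ sup t, a ⊓ sup t = sup_{b in t} (a ⊓ b) is the sup of a finset of at most card t members of G.
* eh_bott: G0 ⊆ G (singletons).
* eh_mv_span (submodule form: a submodule of V_r(sup s) which contains the images of all V_r(a), a in s, is everything):
  induction on the finset; z in V_r(a ⊔ sup s): ∂ z lies in V_s(⊥) = 0, m2; comap of the submodule for the induction hypothesis.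
-/
import Claimed.Agent.R304.EhMvDefs

set_option autoImplicit false

namespace Claimed.Agent.R304

universe u

/-- the Mayer-Vietoris step -/
theorem eh_mv_step {L : Type} [Lattice L] [OrderBot L] {M M' : EhMV.{u} L} (θ : EhMVHom M M')
    (e : EhMVHom M M) (he : ∀ (r : ℤ) (a : L) (x : M.V r a), e.app r a (e.app r a x) = e.app r a x)
    (hθ : ∀ (r : ℤ) (a : L) (x : M.V r a), θ.app r a (e.app r a x) = θ.app r a x)
    (a b : L) (ha : EhEIso θ e a) (hb : EhEIso θ e b) (hab : EhEIso θ e (a ⊓ b)) : EhEIso θ e (a ⊔ b) := by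
  intro r
  have hs : (r - 1) + 1 = r := by ring
  generalize r - 1 = s at hs
  have la : a ≤ a ⊔ b := le_sup_left
  have lb : b ≤ a ⊔ b := le_sup_right
  have ia : a ⊓ b ≤ a := inf_le_left
  have ib : a ⊓ b ≤ b := inf_le_right
  constructor
  · intro x hx
    have h1 : θ.app s (a ⊓ b) (M.bd r s hs a b _ _ rfl rfl x) = 0 := by rw [θ.app_bd, hx, map_zero]
    have h2 := (hab s).1 _ h1
    rw [e.app_bd] at h2
    obtain ⟨xa, xb, hxab⟩ := M.m2 r s hs a b _ _ rfl rfl _ h2
    have h3 : e.app r _ x = M.ext r la (e.app r a xa) + M.ext r lb (e.app r b xb) := by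
      rw [← he r _ x, hxab, map_add, e.app_ext, e.app_ext]
    have h4 : M'.ext r la (θ.app r a (e.app r a xa)) = M'.ext r lb (-θ.app r b (e.app r b xb)) := by
      have : θ.app r _ (e.app r _ x) = 0 := by rw [hθ, hx]
      rw [h3, map_add, θ.app_ext, θ.app_ext] at this
      rw [map_neg]
      exact eq_neg_of_add_eq_zero_left this
    obtain ⟨w', hw1, hw2⟩ := M'.m1 r a b _ _ rfl rfl _ _ h4
    obtain ⟨w, rfl⟩ := (hab r).2 w'
    have h5 : e.app r a xa = M.ext r ia (e.app r _ w) := by
      have : θ.app r a (e.app r a xa - M.ext r ia w) = 0 := by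
        rw [map_sub, θ.app_ext, sub_eq_zero]
        exact hw1.symm
      have h6 := (ha r).1 _ this
      rw [map_sub, he, e.app_ext, sub_eq_zero] at h6
      exact h6
    have h7 : e.app r b xb = -M.ext r ib (e.app r _ w) := by
      have : θ.app r b (e.app r b xb + M.ext r ib w) = 0 := by
        rw [map_add, θ.app_ext]
        have hw2' : M'.ext r ib (θ.app r (a ⊓ b) w) = -θ.app r b (e.app r b xb) := hw2
        rw [hw2', add_neg_cancel]
      have h6 := (hb r).1 _ this
      rw [map_add, he, e.app_ext] at h6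
      exact eq_neg_of_add_eq_zero_left h6
    rw [h3, h5, h7, map_neg, M.ext_ext, M.ext_ext, add_neg_cancel]
  · intro y
    obtain ⟨v, hv⟩ := (hab s).2 (M'.bd r s hs a b _ _ rfl rfl y)
    have h1 : M.ext s ia (e.app s _ v) = 0 := by
      have : θ.app s a (M.ext s ia v) = 0 := by
        rw [θ.app_ext, hv]
        exact M'.ext_bd_left r s hs a b _ _ rfl rfl y
      have h2 := (ha s).1 _ this
      rwa [e.app_ext] at h2
    have h1' : M.ext s ib (e.app s _ v) = 0 := by
      have : θ.app s b (M.ext s ib v) = 0 := by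
        rw [θ.app_ext, hv]
        exact M'.ext_bd_right r s hs a b _ _ rfl rfl y
      have h2 := (hb s).1 _ this
      rwa [e.app_ext] at h2
    obtain ⟨w, hw⟩ := M.m3 r s hs a b _ _ rfl rfl _ h1 h1'
    have h3 : M'.bd r s hs a b _ _ rfl rfl (y - θ.app r _ w) = 0 := by
      rw [map_sub, ← θ.app_bd, hw, hθ, hv, sub_self]
    obtain ⟨ya, yb, hy⟩ := M'.m2 r s hs a b _ _ rfl rfl _ h3
    obtain ⟨za, rfl⟩ := (ha r).2 ya
    obtain ⟨zb, rfl⟩ := (hb r).2 yb
    refine ⟨w + M.ext r la za + M.ext r lb zb, ?_⟩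
    rw [map_add, map_add, θ.app_ext, θ.app_ext, add_assoc]
    have hy' : y - θ.app r (a ⊔ b) w = M'.ext r la (θ.app r a za) + M'.ext r lb (θ.app r b zb) := hy
    rw [← hy', add_sub_cancel]
theorem eh_mv_bot {L : Type} [Lattice L] [OrderBot L] {M M' : EhMV.{u} L} (θ : EhMVHom M M')
    (e : EhMVHom M M) : EhEIso θ e ⊥ := by
  intro r
  refine ⟨fun x _ => M.bot r _, fun y => ⟨0, ?_⟩⟩
  rw [M'.bot r y, map_zero]

/-- pure lattice induction, step 1: disjoint unions -/
theorem eh_bott_disj {L : Type} [DistribLattice L] [OrderBot L] (P : L → Prop) (hbot : P ⊥)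
    (hstep : ∀ a b, P a → P b → P (a ⊓ b) → P (a ⊔ b)) (s : Finset L) (hs : ∀ a ∈ s, P a)
    (hd : (s : Set L).PairwiseDisjoint id) : P (s.sup id) := by
  classical
  induction s using Finset.induction_on with
  | empty => simpa using hbot
  | insert a s ha ih =>
    rw [Finset.sup_insert]
    have hPa : P a := hs a (Finset.mem_insert_self _ _)
    have hPs : P (s.sup id) := ih (fun b hb => hs b (Finset.mem_insert_of_mem hb))
      (hd.subset (by rw [Finset.coe_insert]; exact Set.subset_insert _ _))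
    have hdis : a ⊓ s.sup id = ⊥ := by
      rw [← disjoint_iff, Finset.disjoint_sup_right]
      intro b hb
      exact hd (by simp) (by simp [hb]) (fun h => ha (h ▸ hb))
    exact hstep _ _ hPa hPs (hdis ▸ hbot)

/-- pure lattice induction, step 2: the class of disjoint unions is closed under `⊓` -/
theorem eh_bott_inf {L : Type} [DistribLattice L] [OrderBot L] (G0 : Set L)
    (hint : ∀ a ∈ G0, ∀ b ∈ G0, ∃ s : Finset L, (∀ c ∈ s, c ∈ G0) ∧ (s : Set L).PairwiseDisjoint id ∧
      a ⊓ b = s.sup id)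
    (s t : Finset L) (hs : ∀ c ∈ s, c ∈ G0) (hsd : (s : Set L).PairwiseDisjoint id)
    (ht : ∀ c ∈ t, c ∈ G0) (htd : (t : Set L).PairwiseDisjoint id) :
    ∃ w : Finset L, (∀ c ∈ w, c ∈ G0) ∧ (w : Set L).PairwiseDisjoint id ∧ s.sup id ⊓ t.sup id = w.sup id := by
  classical
  choose! S hS1 hS2 hS3 using hint
  refine ⟨(s ×ˢ t).biUnion (fun p => S p.1 p.2), ?_, ?_, ?_⟩
  · intro c hc
    obtain ⟨p, hp, hcp⟩ := Finset.mem_biUnion.1 hc
    obtain ⟨hp1, hp2⟩ := Finset.mem_product.1 hp
    exact hS1 _ (hs _ hp1) _ (ht _ hp2) c hcp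
  · intro c hc c' hc' hne
    obtain ⟨p, hp, hcp⟩ := Finset.mem_biUnion.1 (Finset.mem_coe.1 hc)
    obtain ⟨p', hp', hcp'⟩ := Finset.mem_biUnion.1 (Finset.mem_coe.1 hc')
    obtain ⟨hp1, hp2⟩ := Finset.mem_product.1 hp
    obtain ⟨hp1', hp2'⟩ := Finset.mem_product.1 hp'
    have hle : c ≤ p.1 ⊓ p.2 := by
      rw [hS3 _ (hs _ hp1) _ (ht _ hp2)]
      exact Finset.le_sup (f := id) hcp
    have hle' : c' ≤ p'.1 ⊓ p'.2 := by
      rw [hS3 _ (hs _ hp1') _ (ht _ hp2')]
      exact Finset.le_sup (f := id) hcp'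
    show Disjoint c c'
    by_cases h1 : p.1 = p'.1
    · by_cases h2 : p.2 = p'.2
      · have hpp : p = p' := Prod.ext h1 h2
        subst hpp
        exact hS2 _ (hs _ hp1) _ (ht _ hp2) (Finset.mem_coe.2 hcp) (Finset.mem_coe.2 hcp') hne
      · have : Disjoint p.2 p'.2 := htd (Finset.mem_coe.2 hp2) (Finset.mem_coe.2 hp2') h2
        exact this.mono (hle.trans inf_le_right) (hle'.trans inf_le_right)
    · have : Disjoint p.1 p'.1 := hsd (Finset.mem_coe.2 hp1) (Finset.mem_coe.2 hp1') h1
      exact this.mono (hle.trans inf_le_left) (hle'.trans inf_le_left)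
  · rw [Finset.sup_inf_sup, Finset.sup_biUnion]
    refine Finset.sup_congr rfl (fun p hp => ?_)
    obtain ⟨hp1, hp2⟩ := Finset.mem_product.1 hp
    exact hS3 _ (hs _ hp1) _ (ht _ hp2)

/-- pure lattice induction, step 3: finite unions of members of a class closed under `⊓` -/
theorem eh_bott_union {L : Type} [DistribLattice L] [OrderBot L] (P : L → Prop) (hbot : P ⊥)
    (hstep : ∀ a b, P a → P b → P (a ⊓ b) → P (a ⊔ b)) (G : Set L) (hG : ∀ a ∈ G, P a)
    (hinf : ∀ a ∈ G, ∀ b ∈ G, a ⊓ b ∈ G) (t : Finset L) (ht : ∀ a ∈ t, a ∈ G) : P (t.sup id) := by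
  classical
  have key : ∀ (n : ℕ) (t : Finset L), t.card ≤ n → (∀ a ∈ t, a ∈ G) → P (t.sup id) := by
    intro n
    induction n with
    | zero =>
      intro t htc _
      have : t = ∅ := Finset.card_eq_zero.1 (Nat.le_zero.1 htc)
      subst this
      simpa using hbot
    | succ n ih =>
      intro t htc ht
      rcases t.eq_empty_or_nonempty with rfl | ⟨a, ha⟩
      · simpa using hbot
      · have hins : t = insert a (t.erase a) := (Finset.insert_erase ha).symm
        have hcard : (t.erase a).card ≤ n := by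
          rw [Finset.card_erase_of_mem ha]
          omega
        rw [hins, Finset.sup_insert]
        refine hstep _ _ (hG a (ht a ha)) (ih _ hcard (fun b hb => ht b (Finset.mem_of_mem_erase hb))) ?_
        have : id a ⊓ (t.erase a).sup id = ((t.erase a).image (fun b => a ⊓ b)).sup id := by
          rw [Finset.sup_inf_distrib_left, Finset.sup_image]
          rfl
        rw [this]
        refine ih _ (Finset.card_image_le.trans hcard) ?_
        intro c hc
        obtain ⟨b, hb, rfl⟩ := Finset.mem_image.1 hc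
        exact hinf a (ht a ha) b (ht b (Finset.mem_of_mem_erase hb))
  exact key t.card t le_rfl ht

/-- THE BOTT-TU INDUCTION (pure lattice form) -/
theorem eh_bott {L : Type} [DistribLattice L] [OrderBot L] (P : L → Prop) (hbot : P ⊥)
    (hstep : ∀ a b, P a → P b → P (a ⊓ b) → P (a ⊔ b)) (G0 : Set L) (hG0 : ∀ a ∈ G0, P a)
    (hint : ∀ a ∈ G0, ∀ b ∈ G0, ∃ s : Finset L, (∀ c ∈ s, c ∈ G0) ∧ (s : Set L).PairwiseDisjoint id ∧
      a ⊓ b = s.sup id)
    (t : Finset L) (ht : ∀ a ∈ t, a ∈ G0) : P (t.sup id) := by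
  refine eh_bott_union P hbot hstep
    {x | ∃ s : Finset L, (∀ c ∈ s, c ∈ G0) ∧ (s : Set L).PairwiseDisjoint id ∧ x = s.sup id} ?_ ?_ t ?_
  · rintro a ⟨s, hs, hd, rfl⟩
    exact eh_bott_disj P hbot hstep s (fun c hc => hG0 c (hs c hc)) hd
  · rintro a ⟨s, hs, hd, rfl⟩ b ⟨s', hs', hd', rfl⟩
    exact eh_bott_inf G0 hint s s' hs hd hs' hd'
  · intro a ha
    refine ⟨{a}, ?_, ?_, ?_⟩
    · intro c hc
      rw [Finset.mem_singleton.1 hc]
      exact ht a ha
    · rw [Finset.coe_singleton]
      exact Set.pairwiseDisjoint_singleton _ _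
    · simp

/-- the groups of a disjoint union are spanned by the groups of the pieces -/
theorem eh_mv_span {L : Type} [DistribLattice L] [OrderBot L] (M : EhMV.{u} L) (r : ℤ) (s : Finset L)
    (hd : (s : Set L).PairwiseDisjoint id) (v : L) (hv : v = s.sup id) (N : Submodule ℚ (M.V r v))
    (hN : ∀ a ∈ s, ∀ (h : a ≤ v) (x : M.V r a), M.ext r h x ∈ N) (z : M.V r v) : z ∈ N := by
  classical
  induction s using Finset.induction_on generalizing v with
  | empty =>
    have : v = ⊥ := by simpa using hv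
    subst this
    rw [M.bot r z]
    exact N.zero_mem
  | insert a s ha ih =>
    have hs : (r - 1) + 1 = r := by ring
    have hv' : v = a ⊔ s.sup id := by rw [hv, Finset.sup_insert]; rfl
    have hdis : (⊥ : L) = a ⊓ s.sup id := by
      symm
      rw [← disjoint_iff, Finset.disjoint_sup_right]
      intro b hb
      exact hd (by simp) (by simp [hb]) (fun h => ha (h ▸ hb))
    obtain ⟨x, y, hz⟩ := M.m2 r (r - 1) hs a (s.sup id) ⊥ v hdis hv' z (M.bot _ _)
    rw [hz]
    refine N.add_mem (hN a (Finset.mem_insert_self _ _) _ x) ?_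
    have hle : s.sup id ≤ v := hv' ▸ le_sup_right
    have := ih (hd.subset (by rw [Finset.coe_insert]; exact Set.subset_insert _ _)) (s.sup id) rfl
      (N.comap (M.ext r hle)) (fun b hb h x => by
        rw [Submodule.mem_comap, M.ext_ext]
        exact hN b (Finset.mem_insert_of_mem hb) _ x) y
    exact this

end Claimed.Agent.R304
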