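/-
Row 304 (S0559).  Owner: helper13.  PACKAGE EhMvRat, SORRY-FREE (helper13): rationalisation and the rational
Mayer-Vietoris sequence of an `EhTheory` (Barratt-Whitehead from two localisation sequences + excision up to N = T.excN).

PLAN PER STATEMENT.  R f := ehRat f = ℚ ⊗ f.
* eh_rat_tmul: LinearMap.baseChange_tmul.   eh_rat_comp / eh_rat_id: TensorProduct.ext / induction on pure tensors
  (LinearMap.baseChange_comp, LinearMap.baseChange_id).   eh_rat_nsmul: R (n • g) = n • R g.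
* eh_rat_exact: ℚ is flat over ℤ (Module.Flat ℤ ℚ by inferInstance: localisation / torsion free over a PID);
  Module.Flat.lTensor_exact; baseChange and lTensor have the same underlying function (LinearMap.baseChange_eq_ltensor).
* eh_rat_inj: Module.Flat.lTensor_preserves_injective_linearMap.  eh_rat_surj: LinearMap.lTensor_surjective.
* eh_rat_zero_iff: (⇐) n • (1 ⊗ a) = 1 ⊗ n • a = 0 and ℚ ⊗ A is a ℚ-vector space.  (⇒) ℤ ∙ a ≅ ℤ / ann: if a is not torsion,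
  ℤ → A, k ↦ k • a is injective, so (eh_rat_inj) ℚ ⊗ ℤ → ℚ ⊗ A is injective and sends 1 ⊗ 1 ≠ 0 to 1 ⊗ a.
* rational localisation sequences: eh_rat_exact applied to eh_exact_mid/rel/sub.
* eh_mv_exc: with I := R ι (ι = ext : Q_r(b,i) → Q_r(u,a)), D := R dd:  I ∘ D = N, D ∘ I = N (ext_dd, dd_ext, eh_rat_comp,
  eh_rat_nsmul; N = T.excN > 0), hence I is bijective and (1/N) D is its inverse.
* DIAGRAM (all rationalised; q = ext to the relative group):
      E_r(i) → E_r(b) → Q_r(b,i) →∂ E_s(i) → E_s(b)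
        ↓        ↓         ↓ I        ↓         ↓
      E_r(a) → E_r(u) → Q_r(u,a) →∂ E_s(a) → E_s(u)          mvBd = ∂_{b,i} ∘ I⁻¹ ∘ q_{u,a}
  squares commute by eh_ext_ext and eh_bd_ext.
  m2: mvBd z = 0 ⇒ I⁻¹ q z = q_{b,i} y (exact_rel) ⇒ q z = I q_{b,i} y = q (ext y) ⇒ z - ext y = ext x (exact_mid).
  m3: ext_{i→b} w = 0 ⇒ w = ∂_{b,i} v (exact_sub); 0 = ext_{i→a} w = ∂_{u,a} (I v) ⇒ I v = q z (exact_rel) ⇒ w = mvBd z.
  ext_bd_right: exact_sub.   ext_bd_left: ext_{i→a} ∂_{b,i} (I⁻¹ q z) = ∂_{u,a} (q z) = 0 (exact_rel).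
  m1: ext x = ext y in E_r(u).  I (q_{b,i} y) = q_{u,a} (ext y) = q_{u,a} (ext x) = 0 (exact_mid) ⇒ q_{b,i} y = 0 ⇒ y = ext w'
  (exact_mid).  ext_{a→u} (x - ext_{i→a} w') = 0 ⇒ x - ext w' = ∂_{u,a} v, v in Q_{r+1}(u,a) (exact_sub, degree r+1) ,
  v = I v'; w := w' + ∂_{b,i} v':  ext_{i→a} w = x (eh_bd_ext), ext_{i→b} w = y (exact_sub).
* eh_mv_push_bd: F = rational pushes.  q' F = F q, ∂' F = F ∂, I' F = F I (eh_push_ext, eh_ext_push, bd_push).
  I' (D' F y) = N F y = F (I D y) = I' (F D y) and I' is injective, so D' F = F D.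
-/
import Claimed.Agent.R304.EhBasic
import Claimed.Agent.R304.EhMvDefs

set_option autoImplicit false

namespace Claimed.Agent.R304

open Topology TopologicalSpace TensorProduct

universe u

/-! ### `ℚ ⊗ -` -/

theorem eh_rat_tmul {A B : Type u} [AddCommGroup A] [AddCommGroup B] (f : A →+ B) (q : ℚ) (a : A) :
    ehRat f (q ⊗ₜ[ℤ] a) = q ⊗ₜ[ℤ] f a := by
  simp [ehRat]

theorem eh_rat_comp {A B C : Type u} [AddCommGroup A] [AddCommGroup B] [AddCommGroup C] (f : A →+ B)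
    (g : B →+ C) (x : ℚ ⊗[ℤ] A) : ehRat (g.comp f) x = ehRat g (ehRat f x) := by
  induction x using TensorProduct.induction_on with
  | zero => simp
  | tmul q a => simp [eh_rat_tmul]
  | add x y hx hy => simp [map_add, hx, hy]

theorem eh_rat_id {A : Type u} [AddCommGroup A] (f : A →+ A) (hf : ∀ a, f a = a) (x : ℚ ⊗[ℤ] A) :
    ehRat f x = x := by
  induction x using TensorProduct.induction_on with
  | zero => simp
  | tmul q a => simp [eh_rat_tmul, hf]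
  | add x y hx hy => simp [map_add, hx, hy]

theorem eh_rat_congr {A B : Type u} [AddCommGroup A] [AddCommGroup B] (f g : A →+ B) (h : ∀ a, f a = g a)
    (x : ℚ ⊗[ℤ] A) : ehRat f x = ehRat g x := by
  have : f = g := AddMonoidHom.ext h
  rw [this]

theorem eh_rat_nsmul {A B : Type u} [AddCommGroup A] [AddCommGroup B] (f : A →+ B) (g : A →+ B) (n : ℕ)
    (h : ∀ a, f a = n • g a) (x : ℚ ⊗[ℤ] A) : ehRat f x = (n : ℚ) • ehRat g x := by
  induction x using TensorProduct.induction_on with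
  | zero => simp
  | tmul q a =>
    rw [eh_rat_tmul, eh_rat_tmul, h, Nat.cast_smul_eq_nsmul, TensorProduct.tmul_smul]
  | add x y hx hy => simp [map_add, hx, hy]

theorem eh_rat_coe {A B : Type u} [AddCommGroup A] [AddCommGroup B] (f : A →+ B) :
    (ehRat f : ℚ ⊗[ℤ] A → ℚ ⊗[ℤ] B) = f.toIntLinearMap.lTensor ℚ := by
  funext x
  rfl

theorem eh_rat_exact {A B C : Type u} [AddCommGroup A] [AddCommGroup B] [AddCommGroup C] (f : A →+ B)
    (g : B →+ C) (h : Function.Exact f g) : Function.Exact (ehRat f) (ehRat g) := by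
  rw [eh_rat_coe, eh_rat_coe]
  exact Module.Flat.lTensor_exact ℚ (f := f.toIntLinearMap) (g := g.toIntLinearMap) h

theorem eh_rat_inj {A B : Type u} [AddCommGroup A] [AddCommGroup B] (f : A →+ B)
    (h : Function.Injective f) : Function.Injective (ehRat f) := by
  rw [eh_rat_coe]
  exact Module.Flat.lTensor_preserves_injective_linearMap f.toIntLinearMap h

theorem eh_rat_surj {A B : Type u} [AddCommGroup A] [AddCommGroup B] (f : A →+ B)
    (h : Function.Surjective f) : Function.Surjective (ehRat f) := by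
  rw [eh_rat_coe]
  exact LinearMap.lTensor_surjective ℚ (g := f.toIntLinearMap) h

theorem eh_rat_zero_iff {A : Type u} [AddCommGroup A] (a : A) :
    (1 : ℚ) ⊗ₜ[ℤ] a = 0 ↔ ∃ n : ℕ, n ≠ 0 ∧ n • a = 0 := by
  constructor
  · intro h
    by_contra hcon
    push Not at hcon
    -- the map `ℤ → A`, `k ↦ k • a` is injective
    let φ : ULift.{u} ℤ →+ A :=
      { toFun := fun k => k.down • a
        map_zero' := by simp
        map_add' := fun k l => by simp [add_smul] }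
    have hφ : Function.Injective φ := by
      rw [injective_iff_map_eq_zero]
      intro k hk
      have hk' : k.down • a = 0 := hk
      by_contra hne
      have hne' : k.down ≠ 0 := fun h0 => hne (ULift.ext _ _ h0)
      have h1 : k.down.natAbs ≠ 0 := Int.natAbs_ne_zero.2 hne'
      apply hcon _ h1
      rcases Int.natAbs_eq k.down with h2 | h2
      · rw [← natCast_zsmul, ← h2, hk']
      · have : ((k.down.natAbs : ℕ) : ℤ) = -k.down := by omega
        rw [← natCast_zsmul, this, neg_smul, hk', neg_zero]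
    have h2 := eh_rat_inj φ hφ
    have h3 : ehRat φ ((1 : ℚ) ⊗ₜ[ℤ] (ULift.up 1 : ULift.{u} ℤ)) = 0 := by
      rw [eh_rat_tmul]
      show (1 : ℚ) ⊗ₜ[ℤ] ((1 : ℤ) • a) = 0
      rw [one_smul, h]
    have h4 : (1 : ℚ) ⊗ₜ[ℤ] (ULift.up 1 : ULift.{u} ℤ) = 0 := h2 (by rw [h3, map_zero])
    -- evaluate: `ℚ ⊗ ℤ → ℚ`
    let β : ℚ →ₗ[ℤ] ULift.{u} ℤ →ₗ[ℤ] ℚ :=
      LinearMap.mk₂ ℤ (fun q k => (k.down : ℚ) * q) (fun q q' k => by simp [mul_add])
        (fun c q k => by simp; ring) (fun q k l => by simp [add_mul]) (fun c q k => by simp [mul_assoc])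
    have h5 : TensorProduct.lift β ((1 : ℚ) ⊗ₜ[ℤ] (ULift.up 1 : ULift.{u} ℤ)) = 1 := by
      rw [TensorProduct.lift.tmul]
      simp [β]
    rw [h4, map_zero] at h5
    exact zero_ne_one h5
  · rintro ⟨n, hn, hna⟩
    have h1 : (n : ℚ) • ((1 : ℚ) ⊗ₜ[ℤ] a) = 0 := by
      rw [Nat.cast_smul_eq_nsmul, ← TensorProduct.tmul_smul, hna, TensorProduct.tmul_zero]
    rcases smul_eq_zero.1 h1 with h2 | h2
    · exact absurd (Nat.cast_eq_zero.1 h2) hn
    · exact h2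
/-! ### rational excision -/

theorem eh_excN_ne (T : EhTheory.{u}) : (T.excN : ℚ) ≠ 0 :=
  Nat.cast_ne_zero.2 (Nat.pos_iff_ne_zero.1 T.excN_pos)

theorem eh_mv_exc_dd (T : EhTheory.{u}) (r : ℤ) {X : Type} [TopologicalSpace X] [EhSp X]
    (V U I W : Opens X) (hI : I = U ⊓ V) (hW : W = U ⊔ V) (x : ℚ ⊗[ℤ] T.Q r X W U) :
    ehRat (T.ext r (hW ▸ le_sup_right : V ≤ W) (hI ▸ inf_le_left : I ≤ U))
      ((T.excN : ℚ)⁻¹ • ehRat (T.dd r V U I W hI hW) x) = x := by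
  rw [map_smul, ← eh_rat_comp]
  rw [eh_rat_nsmul _ (AddMonoidHom.id _) T.excN (fun a => T.ext_dd r V U I W hI hW a) x]
  rw [eh_rat_id _ (fun _ => rfl), smul_smul, inv_mul_cancel₀ (eh_excN_ne T), one_smul]

theorem eh_mv_dd_exc (T : EhTheory.{u}) (r : ℤ) {X : Type} [TopologicalSpace X] [EhSp X]
    (V U I W : Opens X) (hI : I = U ⊓ V) (hW : W = U ⊔ V) (y : ℚ ⊗[ℤ] T.Q r X V I) :
    (T.excN : ℚ)⁻¹ • ehRat (T.dd r V U I W hI hW)
      (ehRat (T.ext r (hW ▸ le_sup_right : V ≤ W) (hI ▸ inf_le_left : I ≤ U)) y) = y := by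
  rw [← eh_rat_comp]
  rw [eh_rat_nsmul _ (AddMonoidHom.id _) T.excN (fun a => T.dd_ext r V U I W hI hW a) y]
  rw [eh_rat_id _ (fun _ => rfl), smul_smul, inv_mul_cancel₀ (eh_excN_ne T), one_smul]

/-- rationally the excision map is bijective -/
theorem eh_mv_exc (T : EhTheory.{u}) (r : ℤ) {X : Type} [TopologicalSpace X] [EhSp X]
    (V U I W : Opens X) (hI : I = U ⊓ V) (hW : W = U ⊔ V) :
    Function.Bijective (ehRat (T.ext r (hW ▸ le_sup_right : V ≤ W) (hI ▸ inf_le_left : I ≤ U))) :=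
  Function.bijective_iff_has_inverse.2
    ⟨fun x => (T.excN : ℚ)⁻¹ • ehRat (T.dd r V U I W hI hW) x, fun y => eh_mv_dd_exc T r V U I W hI hW y,
      fun x => eh_mv_exc_dd T r V U I W hI hW x⟩

/-! ### rational forms of the basic facts -/

theorem eh_rq_ext_ext (T : EhTheory.{u}) (r : ℤ) {X : Type} [TopologicalSpace X] [EhSp X]
    {V U V' U' V'' U'' : Opens X} (hV : V ≤ V') (hU : U ≤ U') (hV' : V' ≤ V'') (hU' : U' ≤ U'')
    (hV'' : V ≤ V'') (hU'' : U ≤ U'') (x : ℚ ⊗[ℤ] T.Q r X V U) :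
    ehRat (T.ext r hV' hU') (ehRat (T.ext r hV hU) x) = ehRat (T.ext r hV'' hU'') x := by
  rw [← eh_rat_comp]
  exact eh_rat_congr _ _ (fun a => eh_ext_ext T r hV hU hV' hU' a) x

theorem eh_rq_bd_ext (T : EhTheory.{u}) (r s : ℤ) (h : s + 1 = r) {X : Type} [TopologicalSpace X] [EhSp X]
    {V U V' U' : Opens X} (hV : V ≤ V') (hU : U ≤ U') (x : ℚ ⊗[ℤ] T.Q r X V U) :
    ehRat (T.ext s hU (le_refl ⊥)) (ehRat (T.bd r s h V U) x) =
      ehRat (T.bd r s h V' U') (ehRat (T.ext r hV hU) x) := by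
  rw [← eh_rat_comp, ← eh_rat_comp]
  exact eh_rat_congr _ _ (fun a => eh_bd_ext T r s h hV hU a) x

theorem eh_mvBd_eq (T : EhTheory.{u}) (r s : ℤ) (h : s + 1 = r) {X : Type} [TopologicalSpace X] [EhSp X]
    (a b i u : Opens X) (hi : i = a ⊓ b) (hu : u = a ⊔ b) (z : T.mvV r X u) :
    T.mvBd r s h a b i u hi hu z = ehRat (T.bd r s h b i) ((T.excN : ℚ)⁻¹ • ehRat (T.dd r b a i u hi hu)
      (ehRat (T.ext r (le_refl u) (bot_le : ⊥ ≤ a)) z)) := by
  simp only [EhTheory.mvBd, LinearMap.smul_apply, eh_rat_comp, map_smul]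

/-! ### the fields of the Mayer-Vietoris theory -/

theorem eh_mv_ext_refl (T : EhTheory.{u}) (r : ℤ) {X : Type} [TopologicalSpace X] [EhSp X] (a : Opens X)
    (h : a ≤ a) (x : T.mvV r X a) : T.mvExt r h x = x :=
  eh_rat_id _ (fun y => eh_ext_refl T r _ _ y) x

theorem eh_mv_ext_ext (T : EhTheory.{u}) (r : ℤ) {X : Type} [TopologicalSpace X] [EhSp X] {a b c : Opens X}
    (h : a ≤ b) (h' : b ≤ c) (x : T.mvV r X a) : T.mvExt r h' (T.mvExt r h x) = T.mvExt r (h.trans h') x :=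
  eh_rq_ext_ext T r _ _ _ _ _ _ x

theorem eh_mv_V_bot (T : EhTheory.{u}) (r : ℤ) {X : Type} [TopologicalSpace X] [EhSp X] (x : T.mvV r X ⊥) :
    x = 0 := by
  induction x using TensorProduct.induction_on with
  | zero => rfl
  | tmul q a => rw [eh_Q_bot T r a, TensorProduct.tmul_zero]
  | add x y hx hy => rw [hx, hy, add_zero]

theorem eh_mv_m2 (T : EhTheory.{u}) (r s : ℤ) (h : s + 1 = r) {X : Type} [TopologicalSpace X] [EhSp X]
    (a b i u : Opens X) (hi : i = a ⊓ b) (hu : u = a ⊔ b) (z : T.mvV r X u)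
    (hz : T.mvBd r s h a b i u hi hu z = 0) :
    ∃ (x : T.mvV r X a) (y : T.mvV r X b),
      z = T.mvExt r (hu ▸ le_sup_left : a ≤ u) x + T.mvExt r (hu ▸ le_sup_right : b ≤ u) y := by
  have hib : i ≤ b := hi ▸ inf_le_right
  have hia : i ≤ a := hi ▸ inf_le_left
  have hau : a ≤ u := hu ▸ le_sup_left
  have hbu : b ≤ u := hu ▸ le_sup_right
  rw [eh_mvBd_eq] at hz
  obtain ⟨y, hy⟩ := (eh_rat_exact _ _ (eh_exact_rel T r s h hib) _).1 hz
  -- apply `I`
  have h1 := congrArg (ehRat (T.ext r hbu hia)) hy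
  rw [eh_mv_exc_dd T r b a i u hi hu] at h1
  rw [eh_rq_ext_ext T r _ _ _ _ hbu bot_le] at h1
  have h2 : ehRat (T.ext r (le_refl u) (bot_le : ⊥ ≤ a)) (z - T.mvExt r hbu y) = 0 := by
    rw [map_sub, ← h1, EhTheory.mvExt, eh_rq_ext_ext T r _ _ _ _ hbu bot_le, sub_self]
  obtain ⟨x, hx⟩ := (eh_rat_exact _ _ (eh_exact_mid T r hau) _).1 h2
  refine ⟨x, y, ?_⟩
  have hx' : T.mvExt r hau x = z - T.mvExt r hbu y := hx
  rw [hx', sub_add_cancel]

theorem eh_mv_m3 (T : EhTheory.{u}) (r s : ℤ) (h : s + 1 = r) {X : Type} [TopologicalSpace X] [EhSp X]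
    (a b i u : Opens X) (hi : i = a ⊓ b) (hu : u = a ⊔ b) (w : T.mvV s X i)
    (h1 : T.mvExt s (hi ▸ inf_le_left : i ≤ a) w = 0) (h2 : T.mvExt s (hi ▸ inf_le_right : i ≤ b) w = 0) :
    ∃ z : T.mvV r X u, T.mvBd r s h a b i u hi hu z = w := by
  have hib : i ≤ b := hi ▸ inf_le_right
  have hia : i ≤ a := hi ▸ inf_le_left
  have hau : a ≤ u := hu ▸ le_sup_left
  have hbu : b ≤ u := hu ▸ le_sup_right
  obtain ⟨v, hv⟩ := (eh_rat_exact _ _ (eh_exact_sub T r s h hib) w).1 h2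
  have h3 : ehRat (T.bd r s h u a) (ehRat (T.ext r hbu hia) v) = 0 := by
    rw [← eh_rq_bd_ext T r s h hbu hia v, hv]
    exact h1
  obtain ⟨z, hz⟩ := (eh_rat_exact _ _ (eh_exact_rel T r s h hau) _).1 h3
  refine ⟨z, ?_⟩
  rw [eh_mvBd_eq, hz, eh_mv_dd_exc T r b a i u hi hu, hv]

theorem eh_mv_ext_bd_left (T : EhTheory.{u}) (r s : ℤ) (h : s + 1 = r) {X : Type} [TopologicalSpace X]
    [EhSp X] (a b i u : Opens X) (hi : i = a ⊓ b) (hu : u = a ⊔ b) (z : T.mvV r X u) :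
    T.mvExt s (hi ▸ inf_le_left : i ≤ a) (T.mvBd r s h a b i u hi hu z) = 0 := by
  have hia : i ≤ a := hi ▸ inf_le_left
  have hau : a ≤ u := hu ▸ le_sup_left
  have hbu : b ≤ u := hu ▸ le_sup_right
  rw [eh_mvBd_eq, EhTheory.mvExt, eh_rq_bd_ext T r s h hbu hia, eh_mv_exc_dd T r b a i u hi hu]
  exact (eh_rat_exact _ _ (eh_exact_rel T r s h hau) _).2 ⟨z, rfl⟩

theorem eh_mv_ext_bd_right (T : EhTheory.{u}) (r s : ℤ) (h : s + 1 = r) {X : Type} [TopologicalSpace X]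
    [EhSp X] (a b i u : Opens X) (hi : i = a ⊓ b) (hu : u = a ⊔ b) (z : T.mvV r X u) :
    T.mvExt s (hi ▸ inf_le_right : i ≤ b) (T.mvBd r s h a b i u hi hu z) = 0 := by
  have hib : i ≤ b := hi ▸ inf_le_right
  rw [eh_mvBd_eq]
  exact (eh_rat_exact _ _ (eh_exact_sub T r s h hib) _).2 ⟨_, rfl⟩

theorem eh_mv_m1 (T : EhTheory.{u}) (r : ℤ) {X : Type} [TopologicalSpace X] [EhSp X] (a b i u : Opens X)
    (hi : i = a ⊓ b) (hu : u = a ⊔ b) (x : T.mvV r X a) (y : T.mvV r X b)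
    (hxy : T.mvExt r (hu ▸ le_sup_left : a ≤ u) x = T.mvExt r (hu ▸ le_sup_right : b ≤ u) y) :
    ∃ w : T.mvV r X i, T.mvExt r (hi ▸ inf_le_left : i ≤ a) w = x ∧
      T.mvExt r (hi ▸ inf_le_right : i ≤ b) w = y := by
  have hib : i ≤ b := hi ▸ inf_le_right
  have hia : i ≤ a := hi ▸ inf_le_left
  have hau : a ≤ u := hu ▸ le_sup_left
  have hbu : b ≤ u := hu ▸ le_sup_right
  have hxy' : T.mvExt r hau x = T.mvExt r hbu y := hxy
  -- `q_{b,i} y = 0`
  have h1 : ehRat (T.ext r hbu hia) (ehRat (T.ext r (le_refl b) (bot_le : ⊥ ≤ i)) y) = 0 := by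
    rw [eh_rq_ext_ext T r _ _ _ _ hbu bot_le]
    have : ehRat (T.ext r (le_refl u) (bot_le : ⊥ ≤ a)) (T.mvExt r hbu y) = 0 := by
      rw [← hxy']
      exact (eh_rat_exact _ _ (eh_exact_mid T r hau) _).2 ⟨x, rfl⟩
    rw [EhTheory.mvExt, eh_rq_ext_ext T r _ _ _ _ hbu bot_le] at this
    exact this
  have h2 : ehRat (T.ext r (le_refl b) (bot_le : ⊥ ≤ i)) y = 0 :=
    (eh_mv_exc T r b a i u hi hu).1 (by rw [h1, map_zero])
  obtain ⟨w', hw'⟩ := (eh_rat_exact _ _ (eh_exact_mid T r hib) _).1 h2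
  have hw'' : T.mvExt r hib w' = y := hw'
  have h3 : T.mvExt r hau (x - T.mvExt r hia w') = 0 := by
    rw [map_sub, eh_mv_ext_ext, hxy', ← hw'', eh_mv_ext_ext, sub_self]
  have hr : r + 1 = r + 1 := rfl
  obtain ⟨v, hv⟩ := (eh_rat_exact _ _ (eh_exact_sub T (r + 1) r hr hau) _).1 h3
  obtain ⟨v', rfl⟩ := (eh_mv_exc T (r + 1) b a i u hi hu).2 v
  rw [← eh_rq_bd_ext T (r + 1) r hr hbu hia v'] at hv
  refine ⟨w' + ehRat (T.bd (r + 1) r hr b i) v', ?_, ?_⟩
  · rw [map_add]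
    have hv' : T.mvExt r hia (ehRat (T.bd (r + 1) r hr b i) v') = x - T.mvExt r hia w' := hv
    rw [hv', add_sub_cancel]
  · rw [map_add, hw'']
    have : T.mvExt r hib (ehRat (T.bd (r + 1) r hr b i) v') = 0 :=
      (eh_rat_exact _ _ (eh_exact_sub T (r + 1) r hr hib) _).2 ⟨v', rfl⟩
    rw [this, add_zero]
/-! ### naturality -/

theorem eh_mv_push_ext (T : EhTheory.{u}) (r : ℤ) {X Y : Type} [TopologicalSpace X] [EhSp X]
    [TopologicalSpace Y] [EhSp Y] (f : C(X, Y)) {a b : Opens X} {a' b' : Opens Y} (h : a ≤ b) (h' : a' ≤ b')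
    (ha : Set.MapsTo f (a : Set X) (a' : Set Y)) (hb : Set.MapsTo f (b : Set X) (b' : Set Y))
    (x : T.mvV r X a) : T.mvPush r f hb (T.mvExt r h x) = T.mvExt r h' (T.mvPush r f ha x) := by
  simp only [EhTheory.mvPush, EhTheory.mvExt, ← eh_rat_comp]
  refine eh_rat_congr _ _ (fun y => ?_) x
  simp only [AddMonoidHom.comp_apply]
  rw [eh_push_ext, eh_ext_push]

theorem eh_mv_push_bd (T : EhTheory.{u}) (r s : ℤ) (h : s + 1 = r) {X Y : Type} [TopologicalSpace X] [EhSp X]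
    [TopologicalSpace Y] [EhSp Y] (f : C(X, Y)) (a b i u : Opens X) (hi : i = a ⊓ b) (hu : u = a ⊔ b)
    (a' b' i' u' : Opens Y) (hi' : i' = a' ⊓ b') (hu' : u' = a' ⊔ b')
    (ha : Set.MapsTo f (a : Set X) (a' : Set Y)) (hb : Set.MapsTo f (b : Set X) (b' : Set Y))
    (hfi : Set.MapsTo f (i : Set X) (i' : Set Y)) (hfu : Set.MapsTo f (u : Set X) (u' : Set Y))
    (z : T.mvV r X u) :
    T.mvPush s f hfi (T.mvBd r s h a b i u hi hu z) = T.mvBd r s h a' b' i' u' hi' hu' (T.mvPush r f hfu z) := by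
  have hia : i ≤ a := hi ▸ inf_le_left
  have hbu : b ≤ u := hu ▸ le_sup_right
  have hia' : i' ≤ a' := hi' ▸ inf_le_left
  have hbu' : b' ≤ u' := hu' ▸ le_sup_right
  rw [eh_mvBd_eq, eh_mvBd_eq]
  -- names
  set y := ehRat (T.ext r (le_refl u) (bot_le : ⊥ ≤ a)) z with hy
  have e1 : ehRat (T.ext r (le_refl u') (bot_le : ⊥ ≤ a')) (T.mvPush r f hfu z) =
      ehRat (T.push r f hfu ha) y := by
    rw [hy]
    simp only [EhTheory.mvPush, ← eh_rat_comp]
    refine eh_rat_congr _ _ (fun w => ?_) z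
    simp only [AddMonoidHom.comp_apply]
    rw [eh_push_ext, eh_ext_push]
  rw [e1]
  -- `D' F = F D`
  have e2 : (T.excN : ℚ)⁻¹ • ehRat (T.dd r b' a' i' u' hi' hu') (ehRat (T.push r f hfu ha) y) =
      ehRat (T.push r f hb hfi) ((T.excN : ℚ)⁻¹ • ehRat (T.dd r b a i u hi hu) y) := by
    apply (eh_mv_exc T r b' a' i' u' hi' hu').1
    rw [eh_mv_exc_dd T r b' a' i' u' hi' hu']
    have e3 : ∀ v : ℚ ⊗[ℤ] T.Q r X b i, ehRat (T.ext r hbu' hia') (ehRat (T.push r f hb hfi) v) =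
        ehRat (T.push r f hfu ha) (ehRat (T.ext r hbu hia) v) := by
      intro v
      simp only [← eh_rat_comp]
      refine eh_rat_congr _ _ (fun w => ?_) v
      simp only [AddMonoidHom.comp_apply]
      rw [eh_push_ext, eh_ext_push]
    rw [e3, eh_mv_exc_dd T r b a i u hi hu]
  rw [e2]
  generalize (T.excN : ℚ)⁻¹ • ehRat (T.dd r b a i u hi hu) y = v
  simp only [EhTheory.mvPush, ← eh_rat_comp]
  refine eh_rat_congr _ _ (fun w => ?_) v
  simp only [AddMonoidHom.comp_apply]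
  exact T.bd_push r s h f hb hfi w

theorem eh_mv_push_comp (T : EhTheory.{u}) (r : ℤ) {X Y Z : Type} [TopologicalSpace X] [EhSp X]
    [TopologicalSpace Y] [EhSp Y] [TopologicalSpace Z] [EhSp Z] (f : C(X, Y)) (g : C(Y, Z)) (k : C(X, Z))
    (hk : ∀ x, k x = g (f x)) {a : Opens X} {a' : Opens Y} {a'' : Opens Z}
    (ha : Set.MapsTo f (a : Set X) (a' : Set Y)) (ha' : Set.MapsTo g (a' : Set Y) (a'' : Set Z))
    (hka : Set.MapsTo k (a : Set X) (a'' : Set Z)) (x : T.mvV r X a) :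
    T.mvPush r g ha' (T.mvPush r f ha x) = T.mvPush r k hka x := by
  simp only [EhTheory.mvPush, ← eh_rat_comp]
  refine eh_rat_congr _ _ (fun w => ?_) x
  simp only [AddMonoidHom.comp_apply]
  exact eh_push_push T r f g k hk _ _ _ _ _ _ w

theorem eh_mv_push_id (T : EhTheory.{u}) (r : ℤ) {X : Type} [TopologicalSpace X] [EhSp X] (f : C(X, X))
    (hf : ∀ x, f x = x) {a b : Opens X} (hab : a ≤ b) (ha : Set.MapsTo f (a : Set X) (b : Set X))
    (x : T.mvV r X a) : T.mvPush r f ha x = T.mvExt r hab x := by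
  have h : f = ContinuousMap.id X := ContinuousMap.ext hf
  subst h
  rfl

theorem eh_mv_push_tmul (T : EhTheory.{u}) (r : ℤ) {X Y : Type} [TopologicalSpace X] [EhSp X]
    [TopologicalSpace Y] [EhSp Y] (f : C(X, Y)) {a : Opens X} {a' : Opens Y}
    (ha : Set.MapsTo f (a : Set X) (a' : Set Y)) (q : ℚ) (x : T.Q r X a ⊥) :
    T.mvPush r f ha (q ⊗ₜ[ℤ] x) = q ⊗ₜ[ℤ] T.push r f ha (ehMapsBot f ⊥) x := by
  simp [EhTheory.mvPush, eh_rat_tmul]

end Claimed.Agent.R304
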