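/-
Row 304 (S0559).  Owner: helper13.  PACKAGE EhPhi, SORRY-FREE (helper13): the homomorphism `Φ` and `Φ(tot) ≠ 0`.
Replaces Sec. 4 of the paper (T4.3, P4.5, P4.6, T4.7, P4.8): `Φ` is a homomorphism to `ℤ`, so it kills torsion; that is the
whole "lattice".  EXPORTS for helper138: `eh_phi_ext`, `eh_phi_tors`, `eh_phi_ne_zero`.

NOTATION.  X = ℝ^{j+1}, A = X ∖ 0, Up / Dn = complement of the closed lower / upper half of the x_0-axis, Ax = Up ⊓ Dn,
ρ = ehTail (forget x_0), e = ehBot (x ↦ (-1, x)).   σ = T.sus j r s h = ρ_* ∘ dd ∘ q ∘ ∂.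

PLAN PER STATEMENT.
* eh_isPt_R: contraction H t x = (1 - t) x to 0 (eh_isPt_of_contr with V = ⊤).
* eh_isPt_up: contraction H t x = (1 - t) x + t a, a = (1, 0, .., 0).  If tail x ≠ 0 then tail (H t x) = (1-t) tail x ≠ 0 for
  t < 1, and H 1 x = a has a_0 = 1 > 0; if x_0 > 0 then (H t x)_0 = (1-t) x_0 + t > 0.
* eh_tail_bot: ρ ∘ e = id (push_comp, push_id).
* eh_tail_bij: e ∘ ρ (x_0, x') = (-1, x') is homotopic to the identity by H t (x_0, x') = ((1-t) x_0 - t, x'), a TOTAL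
  continuous map which preserves tail, hence Ax, and Dn (x_0 < 0 gives (1-t) x_0 - t < 0).  Use the field htpy.
* eh_exc_ext_tors / eh_exc_dd_tors: dd_ext / ext_dd.
* eh_sus_tors (N := T.excN): σ x = 0.  ρ_* injective: dd (q ∂ x) = 0, so N q ∂ x = 0, i.e. q (∂ (Nx)) = 0.  exact_mid (Up ≤ A):
  ∂(Nx) = ext w, w in E_s(Up).  exact_sub (A ≤ ⊤): ext (∂ (Nx)) = 0 in E_s(⊤), so ext_{Up → ⊤} w = 0, so w = 0
  (eh_isPt_ext_bij, eh_isPt_up, eh_isPt_R).  So ∂(Nx) = 0, exact_rel: Nx = q' v, v in E_r(⊤), and q' v = 0 by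
  eh_rel_zero_of_isPt (A is nonempty).
* eh_phiR_tors: induction on j.  j = 0: subst r = 0; ehPt : ℝ^0 → pt is a homeomorphism of pairs (ehA 0 = ⊥), sig_inj.
  j + 1: phiR j (σ x) = 0 gives N^j σ x = 0 = σ (N^j x), so N * N^j x = 0.
* eh_sus_loc: write κ' = kap (j+1) r (ehCbA), i = ehCbIncl (j+1).
     q ∂ (i_* κ') = q i_* ∂ κ' (bd_push) = i_* (q ∂ κ') (eh_ext_push, eh_push_ext; i maps ehCbA to A, ehCbUp to Up)
                  = ± i_* (face_* kap j) (kap_bd) = ± (i ∘ face)_* kap j = ± (e ∘ ehCbIncl j)_* kap j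
                  = ± ext (e_* (loc j)),   e_* (loc j) in Q_s(X; Dn, Ax),
  then dd (ext y) = N y (dd_ext) and ρ_* e_* = id (eh_tail_bot).
* eh_phiR_loc: induction with eh_sus_loc; j = 0: kap_zero (ehCbA 0 = ⊥; use kap_mono or `Subsingleton`/ext of Opens to
  identify `ehCbA 0` with `⊥`; ehPt ∘ ehCbIncl 0 = ehPt).
* eh_loc_inj: see the chase in the docstring.
* eh_chart_tors: B = {y | ∑ y_i^2 < 1}.  χ = ehChart maps (Low, NoS ⊓ Low) bijectively to (B, A ⊓ B), with inverse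
  y ↦ s5Nrm (-(sqrt (1 - ∑ y_i^2)), y), continuous on B: eh_pushOn_bij + eh_pushOn_eq_push.  χ_* (to (⊤, A)) = ext ∘ χ'_*.
  ext z = 0 gives N z = 0 (⊤ = A ⊔ B).  χ'_* (N dd x) = 0 gives N dd x = 0, so N^2 x = ext (dd (N x)) = 0.
* eh_kap_not_tors: x0 ∉ W, so x0 is not on the boundary: ε := max_i |x0 i| < 1.  W1 := {x | ε < max_i |x i|} ⊓ W contains the
  boundary, W1 ≤ W, W1 ≤ ehCbA.  h_t (x) = incl x - t • incl x0 maps W1 to A for all t.  So (field htpy)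
  (h_1)_* kap W1 = (h_0)_* kap W1 = loc (kap_mono).  h_1 maps W to A?  NO: only W ∖ {x0}.. use W2 := complement of {x0}:
  W ≤ W2, h_1 maps W2 to A, and (h_1)_* kap W2 = (h_1)_* kap W1 (kap_mono, eh_push_ext).  n kap W = 0 gives n kap W2 = 0, so
  n loc = 0, so n * phiR loc = 0, so n = 0 (eh_phiR_loc).
* eh_phi_ne_zero: x0 := the preimage of the south pole; x0 ∉ W since f W ⊆ U.  W2 := complement of {x0}; f maps W2 to NoS
  (injectivity on f⁻¹ N).  y := f_* kap W2 = ext (f_* kap W).  Φ(..) = phiR (χ_* dd y) = 0 gives N^d χ_* dd y = 0,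
  N^2 * N^d y = 0 (eh_chart_tors), N^4 * N^d kap W2 = 0 (eh_loc_inj with O = f⁻¹ N, g = inverse of f on N; g is continuous on N
  because f is a closed map: cube compact, sphere T2), contradiction with eh_kap_not_tors (N > 0).
-/
import Claimed.Agent.R304.EhBasic

set_option autoImplicit false

namespace Claimed.Agent.R304

open Topology TopologicalSpace

universe u

/-! ### geometry of `ℝ^{j+1}` -/

theorem eh_mem_A (j : ℕ) (x : EhR j) : x ∈ ehA j ↔ x ≠ 0 := Iff.rfl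

theorem eh_mem_ax (j : ℕ) (x : EhR (j + 1)) : x ∈ ehAx j ↔ ehTail j x ≠ 0 := Iff.rfl

theorem eh_mem_up (j : ℕ) (x : EhR (j + 1)) : x ∈ ehUp j ↔ ehTail j x ≠ 0 ∨ 0 < x 0 := Iff.rfl

theorem eh_mem_dn (j : ℕ) (x : EhR (j + 1)) : x ∈ ehDn j ↔ ehTail j x ≠ 0 ∨ x 0 < 0 := Iff.rfl

theorem eh_tail_apply (j : ℕ) (x : EhR (j + 1)) (i : Fin j) : ehTail j x i = x i.succ := rfl

theorem eh_isPt_R (T : EhTheory.{u}) (j : ℕ) : T.IsPt (⊤ : Opens (EhR j)) := by
  refine eh_isPt_of_contr T ⊤ 0 trivial (fun t x => (1 - (t : ℝ)) • x) ?_ (fun _ _ _ => trivial) ?_ ?_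
  · apply Continuous.continuousOn
    fun_prop
  · intro x _
    simp
  · intro x _
    simp

theorem eh_isPt_up (T : EhTheory.{u}) (j : ℕ) : T.IsPt (ehUp j) := by
  let a : EhR (j + 1) := Fin.cons 1 0
  have ha0 : a 0 = 1 := rfl
  have hat : ehTail j a = 0 := by
    funext i
    rfl
  refine eh_isPt_of_contr T (ehUp j) a (Or.inr (show (0 : ℝ) < a 0 by rw [ha0]; exact one_pos))
    (fun t x => (1 - (t : ℝ)) • x + (t : ℝ) • a) ?_ ?_ ?_ ?_
  · apply Continuous.continuousOn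
    fun_prop
  · intro t x hx
    have ht0 : 0 ≤ (t : ℝ) := t.2.1
    have ht1 : (t : ℝ) ≤ 1 := t.2.2
    show (1 - (t : ℝ)) • x + (t : ℝ) • a ∈ ehUp j
    rw [eh_mem_up]
    by_cases h1 : (t : ℝ) = 1
    · right
      simp [h1, ha0]
    · have h1' : 0 < 1 - (t : ℝ) := by
        rcases lt_or_eq_of_le ht1 with h | h
        · linarith
        · exact absurd h h1
      rcases (eh_mem_up j x).1 hx with h | h
      · left
        intro h0
        apply h
        funext i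
        have := congrFun h0 i
        have hai : a i.succ = 0 := congrFun hat i
        simp only [eh_tail_apply, Pi.add_apply, Pi.smul_apply, smul_eq_mul, hai, mul_zero, add_zero,
          Pi.zero_apply] at this
        rcases mul_eq_zero.1 this with h2 | h2
        · exact absurd h2 (ne_of_gt h1')
        · exact h2
      · right
        simp only [Pi.add_apply, Pi.smul_apply, smul_eq_mul, ha0, mul_one]
        have := mul_pos h1' h
        linarith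
  · intro x _
    simp
  · intro x _
    simp

theorem ehBot_mapsTo_Dn (j : ℕ) :
    Set.MapsTo (ehBot j) ((⊤ : Opens (EhR j)) : Set (EhR j)) (ehDn j : Set (EhR (j + 1))) := by
  intro x _
  refine Or.inr ?_
  show (Fin.cons (-1) x : EhR (j + 1)) 0 < 0
  simp

theorem ehBot_mapsTo_Ax (j : ℕ) :
    Set.MapsTo (ehBot j) (ehA j : Set (EhR j)) (ehAx j : Set (EhR (j + 1))) := by
  intro x hx h0
  apply hx
  funext i
  exact congrFun h0 i

theorem eh_tail_bot (T : EhTheory.{u}) (j : ℕ) (s : ℤ) (x : T.Q s (EhR j) ⊤ (ehA j)) :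
    T.push s (ehTail j) (V := ehDn j) (U := ehAx j) (V' := ⊤) (U' := ehA j) (ehMapsTop _ _)
      (ehTail_mapsTo j) (T.push s (ehBot j) (ehBot_mapsTo_Dn j) (ehBot_mapsTo_Ax j) x) = x := by
  rw [eh_push_push T s (ehBot j) (ehTail j) (ContinuousMap.id _) (fun _ => rfl) _ _ _ _
    (ehMapsId le_rfl) (ehMapsId le_rfl) x]
  exact T.push_id s _ _ x

theorem eh_tail_bij (T : EhTheory.{u}) (j : ℕ) (s : ℤ) :
    Function.Bijective (T.push s (ehTail j) (V := ehDn j) (U := ehAx j) (V' := ⊤) (U' := ehA j)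
      (ehMapsTop _ _) (ehTail_mapsTo j)) := by
  refine Function.bijective_iff_has_inverse.2
    ⟨T.push s (ehBot j) (ehBot_mapsTo_Dn j) (ehBot_mapsTo_Ax j), fun x => ?_, fun y => eh_tail_bot T j s y⟩
  have htail : ∀ (t : unitInterval) (z : EhR (j + 1)), ehTail j ((ehSlide j).curry t z) = ehTail j z := by
    intro t z
    funext i
    rfl
  have hAx : ∀ t, Set.MapsTo ((ehSlide j).curry t) (ehAx j : Set (EhR (j + 1))) (ehAx j : Set (EhR (j + 1))) := by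
    intro t z hz
    show (ehSlide j).curry t z ∈ ehAx j
    rw [eh_mem_ax, htail]
    exact hz
  have hDn : ∀ t, Set.MapsTo ((ehSlide j).curry t) (ehDn j : Set (EhR (j + 1))) (ehDn j : Set (EhR (j + 1))) := by
    intro t z hz
    show (ehSlide j).curry t z ∈ ehDn j
    rw [eh_mem_dn, htail]
    rcases (eh_mem_dn j z).1 hz with h | h
    · exact Or.inl h
    · right
      show (1 - (t : ℝ)) * z 0 - (t : ℝ) < 0
      have ht0 : 0 ≤ (t : ℝ) := t.2.1
      have ht1 : (t : ℝ) ≤ 1 := t.2.2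
      rcases eq_or_lt_of_le ht0 with h0 | h0
      · rw [← h0]
        simpa using h
      · have : (1 - (t : ℝ)) * z 0 ≤ 0 := mul_nonpos_of_nonneg_of_nonpos (by linarith) h.le
        linarith
  have key := T.htpy s (ehSlide j) hDn hAx x
  have h0 : T.push s ((ehSlide j).curry 0) (hDn 0) (hAx 0) x = x := by
    apply eh_push_id'
    intro z
    funext i
    refine Fin.cases ?_ (fun k => ?_) i
    · show (1 - ((0 : unitInterval) : ℝ)) * z 0 - ((0 : unitInterval) : ℝ) = z 0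
      simp
    · rfl
  rw [h0] at key
  refine (eh_push_push T s (ehTail j) (ehBot j) ((ehSlide j).curry 1) (fun z => ?_) _ _ _ _
    (hDn 1) (hAx 1) x).trans key.symm
  funext i
  refine Fin.cases ?_ (fun k => ?_) i
  · show (1 - ((1 : unitInterval) : ℝ)) * z 0 - ((1 : unitInterval) : ℝ) = -1
    simp
  · rfl
/-! ### excision up to torsion -/

theorem eh_exc_ext_tors (T : EhTheory.{u}) (r : ℤ) {X : Type} [TopologicalSpace X] [EhSp X]
    (V U I W : Opens X) (hI : I = U ⊓ V) (hW : W = U ⊔ V) (y : T.Q r X V I)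
    (hy : T.ext r (hW ▸ le_sup_right : V ≤ W) (hI ▸ inf_le_left : I ≤ U) y = 0) : T.excN • y = 0 := by
  have h := T.dd_ext r V U I W hI hW y
  have hy' : T.push r (ContinuousMap.id X) (ehMapsId (hW ▸ le_sup_right : V ≤ W))
      (ehMapsId (hI ▸ inf_le_left : I ≤ U)) y = 0 := hy
  rw [hy', map_zero] at h
  exact h.symm

theorem eh_exc_dd_tors (T : EhTheory.{u}) (r : ℤ) {X : Type} [TopologicalSpace X] [EhSp X]
    (V U I W : Opens X) (hI : I = U ⊓ V) (hW : W = U ⊔ V) (x : T.Q r X W U)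
    (hx : T.dd r V U I W hI hW x = 0) : T.excN • x = 0 := by
  have h := T.ext_dd r V U I W hI hW x
  rw [hx, map_zero] at h
  exact h.symm

theorem eh_ext_dd' (T : EhTheory.{u}) (r : ℤ) {X : Type} [TopologicalSpace X] [EhSp X]
    (V U I W : Opens X) (hI : I = U ⊓ V) (hW : W = U ⊔ V) (hVW : V ≤ W) (hIU : I ≤ U) (x : T.Q r X W U) :
    T.ext r hVW hIU (T.dd r V U I W hI hW x) = T.excN • x :=
  T.ext_dd r V U I W hI hW x

theorem eh_dd_ext' (T : EhTheory.{u}) (r : ℤ) {X : Type} [TopologicalSpace X] [EhSp X]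
    (V U I W : Opens X) (hI : I = U ⊓ V) (hW : W = U ⊔ V) (hVW : V ≤ W) (hIU : I ≤ U) (y : T.Q r X V I) :
    T.dd r V U I W hI hW (T.ext r hVW hIU y) = T.excN • y :=
  T.dd_ext r V U I W hI hW y

/-- LOCAL HOMEOMORPHISMS ARE INJECTIVE UP TO `N^2`, `N = T.excN`. -/
theorem eh_loc_inj (T : EhTheory.{u}) (r : ℤ) {X Y : Type} [TopologicalSpace X] [EhSp X]
    [TopologicalSpace Y] [EhSp Y] (f : C(X, Y)) (g : Y → X) (O U : Opens X) (N U' : Opens Y)
    (hO : (⊤ : Opens X) = U ⊔ O) (hN : (⊤ : Opens Y) = U' ⊔ N)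
    (hfU : Set.MapsTo f (U : Set X) (U' : Set Y)) (hfO : Set.MapsTo f (O : Set X) (N : Set Y))
    (hg : ContinuousOn g (N : Set Y)) (hgN : Set.MapsTo g (N : Set Y) (O : Set X))
    (hgU : Set.MapsTo g ((U' ⊓ N : Opens Y) : Set Y) (U : Set X))
    (hgf : ∀ x ∈ O, g (f x) = x) (hfg : ∀ y ∈ N, f (g y) = y)
    (x : T.Q r X ⊤ U) (hx : T.push r f (V := ⊤) (V' := ⊤) (ehMapsTop _ _) hfU x = 0) :
    (T.excN ^ 2) • x = 0 := by
  have hfI : Set.MapsTo f ((U ⊓ O : Opens X) : Set X) ((U' ⊓ N : Opens Y) : Set Y) :=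
    fun z hz => ⟨hfU hz.1, hfO hz.2⟩
  have hgI : Set.MapsTo g ((U' ⊓ N : Opens Y) : Set Y) ((U ⊓ O : Opens X) : Set X) :=
    fun z hz => ⟨hgU hz, hgN hz.2⟩
  have hbij : Function.Bijective (T.push r f hfO hfI) := by
    have h := eh_pushOn_bij T r f g (inf_le_right : U ⊓ O ≤ O) (inf_le_right : U' ⊓ N ≤ N)
      f.continuous.continuousOn hfO hfI hg hgN hgI hgf hfg
    have : (T.pushOn r f (inf_le_right : U ⊓ O ≤ O) f.continuous.continuousOn hfO hfI : _ → _) =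
        T.push r f hfO hfI := funext fun z => eh_pushOn_eq_push T r f _ _ _ _ z
    rwa [this] at h
  set w := T.dd r O U (U ⊓ O) ⊤ rfl hO x with hw
  have h1 : T.ext r (le_top : O ≤ ⊤) (inf_le_left : U ⊓ O ≤ U) w = T.excN • x :=
    eh_ext_dd' T r O U (U ⊓ O) ⊤ rfl hO _ _ x
  have h2 : T.ext r (le_top : N ≤ ⊤) (inf_le_left : U' ⊓ N ≤ U') (T.push r f hfO hfI w) = 0 := by
    rw [eh_ext_push]
    have h3 := eh_push_ext T r f (le_top : O ≤ ⊤) (inf_le_left : U ⊓ O ≤ U) (ehMapsTop f ⊤) hfU w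
    rw [h1, map_nsmul, hx, smul_zero] at h3
    exact h3.symm
  have h4 : T.excN • T.push r f hfO hfI w = 0 := eh_exc_ext_tors T r N U' (U' ⊓ N) ⊤ rfl hN _ h2
  have h5 : T.excN • w = 0 := hbij.1 (by rw [map_nsmul, h4, map_zero])
  rw [pow_two, mul_smul, ← h1, ← map_nsmul, h5, map_zero]

/-! ### the desuspension -/

theorem eh_A_nonempty (j : ℕ) : (ehA (j + 1) : Set (EhR (j + 1))).Nonempty :=
  ⟨fun _ => 1, fun h => one_ne_zero (congrFun h 0)⟩

theorem eh_up_le_A (j : ℕ) : ehUp j ≤ ehA (j + 1) := by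
  rw [ehA_eq_sup]
  exact le_sup_left

theorem eh_sus_tors (T : EhTheory.{u}) (j : ℕ) (r s : ℤ) (h : s + 1 = r)
    (x : T.Q r (EhR (j + 1)) ⊤ (ehA (j + 1))) (hx : T.sus j r s h x = 0) : T.excN • x = 0 := by
  have hx' : T.push s (ehTail j) (V := ehDn j) (U := ehAx j) (V' := ⊤) (U' := ehA j)
      (ehMapsTop _ _) (ehTail_mapsTo j)
      (T.dd s (ehDn j) (ehUp j) (ehAx j) (ehA (j + 1)) (ehAx_eq_inf j) (ehA_eq_sup j)
        (T.ext s (le_refl (ehA (j + 1))) (bot_le : ⊥ ≤ ehUp j) (T.bd r s h ⊤ (ehA (j + 1)) x))) = 0 := hx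
  have h1 := (eh_tail_bij T j s).1 (hx'.trans (map_zero _).symm)
  have h2 := eh_exc_dd_tors T s _ _ _ _ _ _ _ h1
  rw [← map_nsmul, ← map_nsmul] at h2
  obtain ⟨w, hw⟩ := (eh_exact_mid T s (eh_up_le_A j) _).1 h2
  have h3 : T.ext s (le_top : ehA (j + 1) ≤ ⊤) (le_refl ⊥) (T.bd r s h ⊤ (ehA (j + 1)) (T.excN • x)) = 0 :=
    (eh_exact_sub T r s h le_top _).2 ⟨_, rfl⟩
  rw [← hw, eh_ext_ext] at h3
  have hw0 : w = 0 :=
    (eh_isPt_ext_bij T s (le_top : ehUp j ≤ ⊤) (eh_isPt_up T j) (eh_isPt_R T (j + 1))).1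
      (h3.trans (map_zero _).symm)
  rw [hw0, map_zero] at hw
  obtain ⟨v, hv⟩ := (eh_exact_rel T r s h (le_top : ehA (j + 1) ≤ ⊤) _).1 hw.symm
  rw [← hv]
  exact eh_rel_zero_of_isPt T r le_top (eh_isPt_R T (j + 1)) (eh_A_nonempty j) v

theorem eh_phiR_tors (T : EhTheory.{u}) (j : ℕ) (r : ℤ) (h : r = j) (x : T.Q r (EhR j) ⊤ (ehA j))
    (hx : T.phiR j r h x = 0) : (T.excN ^ j) • x = 0 := by
  induction j generalizing r with
  | zero =>
    have h0 : r = 0 := by simpa using h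
    subst h0
    rw [pow_zero, one_smul]
    have hx' : T.sig (T.push 0 (ehPt (EhR 0)) (V := ⊤) (U := ehA 0) (V' := ⊤) (U' := ⊥) (ehMapsTop _ _)
        ehA_zero_mapsTo x) = 0 := hx
    have h1 := T.sig_inj (hx'.trans (map_zero _).symm)
    have hb := eh_push_homeo_bij T 0 (ehPt (EhR 0)) (ContinuousMap.const PUnit (0 : EhR 0))
      (fun _ => Subsingleton.elim _ _) (fun _ => Subsingleton.elim _ _) (V := ⊤) (U := ehA 0) (V' := ⊤)
      (U' := ⊥) (ehMapsTop _ _) ehA_zero_mapsTo (ehMapsTop _ _) (ehMapsBot _ _)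
    exact hb.1 (h1.trans (map_zero _).symm)
  | succ j ih =>
    have hx' : T.phiR j (r - 1) (by rw [h]; push_cast; ring) (T.sus j r (r - 1) (by ring) x) = 0 := hx
    have h1 := ih (r - 1) _ _ hx'
    rw [← map_nsmul] at h1
    have h2 := eh_sus_tors T j r (r - 1) (by ring) _ h1
    rw [pow_succ, mul_comm, mul_smul]
    exact h2
theorem ehCbIncl_mapsTo_Up (j : ℕ) :
    Set.MapsTo (ehCbIncl (j + 1)) (ehCbUp j : Set (EhCb (j + 1))) (ehUp j : Set (EhR (j + 1))) :=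
  fun _ hx => hx

theorem eh_dn_le_A (j : ℕ) : ehDn j ≤ ehA (j + 1) := by
  rw [ehA_eq_sup]
  exact le_sup_right

theorem eh_ax_le_up (j : ℕ) : ehAx j ≤ ehUp j := by
  rw [ehAx_eq_inf]
  exact inf_le_left

theorem eh_incl_face (j : ℕ) (z : EhCb j) : ehCbIncl (j + 1) (ehCbFace j z) = ehBot j (ehCbIncl j z) := by
  funext k
  refine Fin.cases ?_ (fun i => ?_) k
  · rfl
  · rfl

theorem eh_botIncl_mapsTo_A (j : ℕ) : Set.MapsTo ((ehBot j).comp (ehCbIncl j)) ((⊤ : Opens (EhCb j)) : Set (EhCb j))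
    (ehA (j + 1) : Set (EhR (j + 1))) :=
  fun z _ => eh_dn_le_A j (ehBot_mapsTo_Dn j (Set.mem_univ (ehCbIncl j z)))

theorem eh_botIncl_mapsTo_Up (j : ℕ) : Set.MapsTo ((ehBot j).comp (ehCbIncl j)) (ehCbA j : Set (EhCb j))
    (ehUp j : Set (EhR (j + 1))) :=
  fun _ hz => eh_ax_le_up j (ehBot_mapsTo_Ax j (ehCbIncl_mapsTo j hz))

/-- the part of `σ` before `dd`, evaluated on the local class -/
theorem eh_sus_loc_aux (T : EhTheory.{u}) (κ : EhCube T) (j : ℕ) (r s : ℤ) (hr : r = (j + 1 : ℕ)) (hs : s = j)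
    (h : s + 1 = r) :
    T.ext s (le_refl (ehA (j + 1))) (bot_le : ⊥ ≤ ehUp j) (T.bd r s h ⊤ (ehA (j + 1)) (κ.loc (j + 1) r hr)) =
      T.ext s (eh_dn_le_A j) (eh_ax_le_up j)
        (T.push s (ehBot j) (ehBot_mapsTo_Dn j) (ehBot_mapsTo_Ax j) (κ.loc j s hs)) ∨
    T.ext s (le_refl (ehA (j + 1))) (bot_le : ⊥ ≤ ehUp j) (T.bd r s h ⊤ (ehA (j + 1)) (κ.loc (j + 1) r hr)) =
      -T.ext s (eh_dn_le_A j) (eh_ax_le_up j)
        (T.push s (ehBot j) (ehBot_mapsTo_Dn j) (ehBot_mapsTo_Ax j) (κ.loc j s hs)) := by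
  have e1 : T.ext s (le_refl (ehA (j + 1))) (bot_le : ⊥ ≤ ehUp j)
      (T.bd r s h ⊤ (ehA (j + 1)) (κ.loc (j + 1) r hr)) =
      T.push s (ehCbIncl (j + 1)) (ehCbIncl_mapsTo (j + 1)) (ehCbIncl_mapsTo_Up j)
        (T.ext s (le_refl (ehCbA (j + 1))) (bot_le : ⊥ ≤ ehCbUp j)
          (T.bd r s h ⊤ (ehCbA (j + 1)) (κ.kap (j + 1) r hr (ehCbA (j + 1)) (ehCbBd_subset_A _)))) := by
    rw [EhCube.loc, ← T.bd_push r s h (ehCbIncl (j + 1)) (ehMapsTop _ _) (ehCbIncl_mapsTo (j + 1)),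
      eh_ext_push, eh_push_ext]
  have e2 : T.push s (ehCbIncl (j + 1)) (ehCbIncl_mapsTo (j + 1)) (ehCbIncl_mapsTo_Up j)
      (T.push s (ehCbFace j) (ehCbFace_mapsTo_A j) (ehCbFace_mapsTo_Up j)
        (κ.kap j s hs (ehCbA j) (ehCbBd_subset_A _))) =
      T.ext s (eh_dn_le_A j) (eh_ax_le_up j)
        (T.push s (ehBot j) (ehBot_mapsTo_Dn j) (ehBot_mapsTo_Ax j) (κ.loc j s hs)) := by
    rw [EhCube.loc, eh_ext_push]
    rw [eh_push_push T s (ehCbIncl j) (ehBot j) ((ehBot j).comp (ehCbIncl j)) (fun _ => rfl) _ _ _ _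
      (eh_botIncl_mapsTo_A j) (eh_botIncl_mapsTo_Up j)]
    exact eh_push_push T s (ehCbFace j) (ehCbIncl (j + 1)) ((ehBot j).comp (ehCbIncl j))
      (fun z => (eh_incl_face j z).symm) _ _ _ _ _ _ _
  rcases κ.kap_bd j r s hr hs h with h3 | h3
  · left
    rw [e1, h3, e2]
  · right
    rw [e1, h3, map_neg, e2]

theorem eh_sus_loc (T : EhTheory.{u}) (κ : EhCube T) (j : ℕ) (r s : ℤ) (hr : r = (j + 1 : ℕ)) (hs : s = j)
    (h : s + 1 = r) :
    T.sus j r s h (κ.loc (j + 1) r hr) = T.excN • κ.loc j s hs ∨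
      T.sus j r s h (κ.loc (j + 1) r hr) = -(T.excN • κ.loc j s hs) := by
  have hdef : T.sus j r s h (κ.loc (j + 1) r hr) =
      T.push s (ehTail j) (V := ehDn j) (U := ehAx j) (V' := ⊤) (U' := ehA j)
      (ehMapsTop _ _) (ehTail_mapsTo j)
      (T.dd s (ehDn j) (ehUp j) (ehAx j) (ehA (j + 1)) (ehAx_eq_inf j) (ehA_eq_sup j)
        (T.ext s (le_refl (ehA (j + 1))) (bot_le : ⊥ ≤ ehUp j)
          (T.bd r s h ⊤ (ehA (j + 1)) (κ.loc (j + 1) r hr)))) := rfl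
  rcases eh_sus_loc_aux T κ j r s hr hs h with h1 | h1
  · left
    rw [hdef, h1, eh_dd_ext', map_nsmul, eh_tail_bot]
  · right
    rw [hdef, h1, map_neg, eh_dd_ext', map_neg, map_nsmul, eh_tail_bot]

theorem eh_phiR_loc (T : EhTheory.{u}) (κ : EhCube T) (j : ℕ) (r : ℤ) (h : r = j) :
    T.phiR j r h (κ.loc j r h) = (T.excN : ℤ) ^ j ∨ T.phiR j r h (κ.loc j r h) = -((T.excN : ℤ) ^ j) := by
  induction j generalizing r with
  | zero =>
    have h0 : r = 0 := by simpa using h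
    subst h0
    have hW : ehCbBd 0 ⊆ ((⊥ : Opens (EhCb 0)) : Set (EhCb 0)) := by
      rintro x ⟨i, -⟩
      exact i.elim0
    have hdef : T.phiR 0 0 h (κ.loc 0 0 h) =
        T.sig (T.push 0 (ehPt (EhR 0)) (V := ⊤) (U := ehA 0) (V' := ⊤) (U' := ⊥) (ehMapsTop _ _)
          ehA_zero_mapsTo (κ.loc 0 0 h)) := rfl
    have e1 : T.push 0 (ehPt (EhR 0)) (V := ⊤) (U := ehA 0) (V' := ⊤) (U' := ⊥) (ehMapsTop _ _)
          ehA_zero_mapsTo (κ.loc 0 0 h) = T.aug 0 ⊤ (κ.kap 0 0 h ⊥ hW) := by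
      rw [EhCube.loc, ← κ.kap_mono 0 0 h ⊥ (ehCbA 0) hW (ehCbBd_subset_A 0) bot_le, eh_push_ext]
      exact eh_push_push T 0 (ehCbIncl 0) (ehPt (EhR 0)) (ehPt (EhCb 0)) (fun _ => rfl) _ _ _ _ _ _ _
    rw [hdef, e1, pow_zero]
    exact κ.kap_zero h hW
  | succ j ih =>
    have hs : r - 1 = (j : ℤ) := by rw [h]; push_cast; ring
    have hdef : T.phiR (j + 1) r h (κ.loc (j + 1) r h) =
        T.phiR j (r - 1) hs (T.sus j r (r - 1) (by ring) (κ.loc (j + 1) r h)) := rfl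
    rw [hdef]
    rcases eh_sus_loc T κ j r (r - 1) h hs (by ring) with h1 | h1 <;> rcases ih (r - 1) hs with h2 | h2
    · left
      rw [h1, map_nsmul, h2, pow_succ]
      simp [mul_comm]
    · right
      rw [h1, map_nsmul, h2, pow_succ]
      simp [mul_comm]
    · right
      rw [h1, map_neg, map_nsmul, h2, pow_succ]
      simp [mul_comm]
    · left
      rw [h1, map_neg, map_nsmul, h2, pow_succ]
      simp [mul_comm]

theorem eh_phiR_loc_ne (T : EhTheory.{u}) (κ : EhCube T) (j : ℕ) (r : ℤ) (h : r = j) :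
    T.phiR j r h (κ.loc j r h) ≠ 0 := by
  have hN : ((T.excN : ℤ) ^ j) ≠ 0 := pow_ne_zero _ (Nat.cast_ne_zero.2 (Nat.pos_iff_ne_zero.1 T.excN_pos))
  rcases eh_phiR_loc T κ j r h with h1 | h1
  · rw [h1]; exact hN
  · rw [h1]; exact neg_ne_zero.2 hN
/-! ### the sphere -/

theorem eh_chartVec_zero (d : ℕ) (y : EhR d) : ehChartVec d y 0 = -(Real.sqrt (1 - ∑ i, y i ^ 2)) := rfl

theorem eh_chartVec_succ (d : ℕ) (y : EhR d) (i : Fin d) : ehChartVec d y i.succ = y i := rfl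

theorem eh_chartVec_cont (d : ℕ) : Continuous (ehChartVec d) := by
  refine (PiLp.continuous_toLp 2 _).comp (continuous_pi fun k => ?_)
  refine Fin.cases ?_ (fun i => ?_) k
  · simp only [Fin.cons_zero]
    fun_prop
  · simp only [Fin.cons_succ]
    fun_prop

theorem eh_chartVec_norm (d : ℕ) (y : EhR d) (hy : y ∈ ehBall d) : ‖ehChartVec d y‖ = 1 := by
  have hy' : ∑ i, y i ^ 2 < 1 := hy
  have h2 : ‖ehChartVec d y‖ ^ 2 = 1 := by
    rw [EuclideanSpace.norm_sq_eq, Fin.sum_univ_succ]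
    simp only [eh_chartVec_zero, eh_chartVec_succ, Real.norm_eq_abs, sq_abs, neg_sq]
    rw [Real.sq_sqrt (by linarith)]
    ring
  have h0 : 0 ≤ ‖ehChartVec d y‖ := norm_nonneg _
  nlinarith

theorem eh_chartInv_coe (d : ℕ) (y : EhR d) (hy : y ∈ ehBall d) :
    ((ehChartInv d y : S5Sph d) : S5E d) = ehChartVec d y := by
  rw [ehChartInv, dif_pos (eh_chartVec_norm d y hy)]

theorem eh_chartInv_contOn (d : ℕ) : ContinuousOn (ehChartInv d) (ehBall d : Set (EhR d)) := by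
  rw [IsInducing.subtypeVal.continuousOn_iff]
  exact (eh_chartVec_cont d).continuousOn.congr (fun y hy => eh_chartInv_coe d y hy)

theorem eh_sph_sq (d : ℕ) (x : S5Sph d) : ((x : S5E d) 0) ^ 2 + ∑ i : Fin d, ((x : S5E d) i.succ) ^ 2 = 1 := by
  have hn : ‖(x : S5E d)‖ = 1 := by simp
  have h2 : ‖(x : S5E d)‖ ^ 2 = ∑ i, ‖(x : S5E d) i‖ ^ 2 := EuclideanSpace.norm_sq_eq _
  rw [hn, Fin.sum_univ_succ] at h2
  simp only [Real.norm_eq_abs, sq_abs] at h2
  linarith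

theorem eh_chart_mapsTo_ball (d : ℕ) :
    Set.MapsTo (ehChart d) (ehLow d : Set (S5Sph d)) (ehBall d : Set (EhR d)) := by
  intro x hx
  have hx' : (x : S5E d) 0 < 0 := hx
  show ∑ i : Fin d, ((x : S5E d) i.succ) ^ 2 < 1
  have := eh_sph_sq d x
  nlinarith

theorem eh_chartInv_mapsTo_low (d : ℕ) :
    Set.MapsTo (ehChartInv d) (ehBall d : Set (EhR d)) (ehLow d : Set (S5Sph d)) := by
  intro y hy
  show ((ehChartInv d y : S5Sph d) : S5E d) 0 < 0
  rw [eh_chartInv_coe d y hy, eh_chartVec_zero]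
  have hy' : ∑ i, y i ^ 2 < 1 := hy
  exact neg_lt_zero.2 (Real.sqrt_pos.2 (by linarith))

theorem eh_chart_chartInv (d : ℕ) (y : EhR d) (hy : y ∈ ehBall d) : ehChart d (ehChartInv d y) = y := by
  funext i
  show ((ehChartInv d y : S5Sph d) : S5E d) i.succ = y i
  rw [eh_chartInv_coe d y hy, eh_chartVec_succ]

theorem eh_chartInv_chart (d : ℕ) (x : S5Sph d) (hx : x ∈ ehLow d) : ehChartInv d (ehChart d x) = x := by
  have hx' : (x : S5E d) 0 < 0 := hx
  apply Subtype.ext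
  rw [eh_chartInv_coe d _ (eh_chart_mapsTo_ball d hx)]
  ext k
  refine Fin.cases ?_ (fun i => ?_) k
  · rw [eh_chartVec_zero]
    have h1 : 1 - ∑ i : Fin d, (ehChart d x i) ^ 2 = ((x : S5E d) 0) ^ 2 := by
      have := eh_sph_sq d x
      have h2 : ∑ i : Fin d, (ehChart d x i) ^ 2 = ∑ i : Fin d, ((x : S5E d) i.succ) ^ 2 := rfl
      rw [h2]
      linarith
    rw [h1, Real.sqrt_sq_eq_abs, abs_of_neg hx', neg_neg]
  · rfl

theorem eh_chart_south (d : ℕ) : ehChart d (s5South d) = 0 := by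
  funext i
  show ((s5South d : S5Sph d) : S5E d) i.succ = 0
  simp [s5South, s5e0]

theorem eh_top_eq_A_sup_ball (d : ℕ) : (⊤ : Opens (EhR d)) = ehA d ⊔ ehBall d := by
  ext y
  constructor
  · intro _
    by_cases hy : y = 0
    · refine Or.inr ?_
      subst hy
      show ∑ i : Fin d, ((0 : EhR d) i) ^ 2 < 1
      simp
    · exact Or.inl hy
  · intro _
    trivial

theorem eh_chart_tors (T : EhTheory.{u}) (d : ℕ) (r : ℤ) (x : T.Q r (S5Sph d) ⊤ (ehNoS d))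
    (hx : T.push r (ehChart d) (V := ehLow d) (U := ehNoS d ⊓ ehLow d) (V' := ⊤) (U' := ehA d)
      (ehMapsTop _ _) (ehChart_mapsTo d)
      (T.dd r (ehLow d) (ehNoS d) (ehNoS d ⊓ ehLow d) ⊤ rfl (ehTop_eq_sup d) x) = 0) :
    (T.excN ^ 2) • x = 0 := by
  have hI : Set.MapsTo (ehChart d) ((ehNoS d ⊓ ehLow d : Opens (S5Sph d)) : Set (S5Sph d))
      ((ehA d ⊓ ehBall d : Opens (EhR d)) : Set (EhR d)) :=
    fun z hz => ⟨ehChart_mapsTo d hz, eh_chart_mapsTo_ball d hz.2⟩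
  have hgI : Set.MapsTo (ehChartInv d) ((ehA d ⊓ ehBall d : Opens (EhR d)) : Set (EhR d))
      ((ehNoS d ⊓ ehLow d : Opens (S5Sph d)) : Set (S5Sph d)) := by
    intro y hy
    refine ⟨fun hs => hy.1 ?_, eh_chartInv_mapsTo_low d hy.2⟩
    have hs' : ehChartInv d y = s5South d := hs
    rw [← eh_chart_chartInv d y hy.2, hs', eh_chart_south]
  have hbij : Function.Bijective (T.push r (ehChart d) (eh_chart_mapsTo_ball d) hI) := by
    have h := eh_pushOn_bij T r (ehChart d) (ehChartInv d) (inf_le_right : ehNoS d ⊓ ehLow d ≤ ehLow d)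
      (inf_le_right : ehA d ⊓ ehBall d ≤ ehBall d) (ehChart d).continuous.continuousOn
      (eh_chart_mapsTo_ball d) hI (eh_chartInv_contOn d) (eh_chartInv_mapsTo_low d) hgI
      (eh_chartInv_chart d) (eh_chart_chartInv d)
    have : (T.pushOn r (ehChart d) (inf_le_right : ehNoS d ⊓ ehLow d ≤ ehLow d)
        (ehChart d).continuous.continuousOn (eh_chart_mapsTo_ball d) hI : _ → _) =
        T.push r (ehChart d) (eh_chart_mapsTo_ball d) hI :=
      funext fun z => eh_pushOn_eq_push T r (ehChart d) _ _ _ _ z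
    rwa [this] at h
  have h4 : T.ext r (le_top : ehLow d ≤ ⊤) (inf_le_left : ehNoS d ⊓ ehLow d ≤ ehNoS d)
      (T.dd r (ehLow d) (ehNoS d) (ehNoS d ⊓ ehLow d) ⊤ rfl (ehTop_eq_sup d) x) = T.excN • x :=
    eh_ext_dd' T r _ _ _ _ rfl (ehTop_eq_sup d) _ _ x
  generalize T.dd r (ehLow d) (ehNoS d) (ehNoS d ⊓ ehLow d) ⊤ rfl (ehTop_eq_sup d) x = w at hx h4
  have e1 : T.ext r (le_top : ehBall d ≤ ⊤) (inf_le_left : ehA d ⊓ ehBall d ≤ ehA d)
      (T.push r (ehChart d) (eh_chart_mapsTo_ball d) hI w) = 0 := by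
    rw [eh_ext_push]
    exact hx
  have h2 : T.excN • T.push r (ehChart d) (eh_chart_mapsTo_ball d) hI w = 0 :=
    eh_exc_ext_tors T r (ehBall d) (ehA d) (ehA d ⊓ ehBall d) ⊤ rfl (eh_top_eq_A_sup_ball d) _ e1
  have h3 : T.excN • w = 0 := hbij.1 (by rw [map_nsmul, h2, map_zero])
  rw [pow_two, mul_smul, ← h4, ← map_nsmul, h3, map_zero]

theorem eh_incl_inj (d : ℕ) : Function.Injective (ehCbIncl d) := by
  intro x y h
  funext i
  exact Subtype.ext (congrFun h i)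

/-- the cube class relative to a proper subset is not torsion -/
theorem eh_kap_not_tors (T : EhTheory.{u}) (κ : EhCube T) (d : ℕ) (r : ℤ) (h : r = d) (W : Opens (EhCb d))
    (hW : ehCbBd d ⊆ (W : Set (EhCb d))) (x0 : EhCb d) (hx0 : x0 ∉ W) (n : ℕ)
    (hn : n • κ.kap d r h W hW = 0) : n = 0 := by
  -- the sup norm of `x0` is `< 1`
  have hε : ‖ehCbIncl d x0‖ < 1 := by
    rw [pi_norm_lt_iff one_pos]
    intro i
    have h1 : |(x0 i : ℝ)| ≤ 1 := abs_le.2 (x0 i).2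
    rcases lt_or_eq_of_le h1 with h2 | h2
    · exact h2
    · exact absurd (hW ⟨i, h2⟩) hx0
  let W0 : Opens (EhCb d) := ⟨{x | ‖ehCbIncl d x0‖ < ‖ehCbIncl d x‖},
    isOpen_lt continuous_const (by fun_prop)⟩
  let W1 : Opens (EhCb d) := W0 ⊓ W
  let W2 : Opens (EhCb d) := ⟨{x | x ≠ x0}, isOpen_ne⟩
  have hW1 : ehCbBd d ⊆ (W1 : Set (EhCb d)) := by
    intro x hx
    refine ⟨?_, hW hx⟩
    obtain ⟨i, hi⟩ := hx
    show ‖ehCbIncl d x0‖ < ‖ehCbIncl d x‖
    have : ‖ehCbIncl d x i‖ ≤ ‖ehCbIncl d x‖ := norm_le_pi_norm _ i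
    have h2 : ‖ehCbIncl d x i‖ = 1 := hi
    linarith
  have hWW2 : W ≤ W2 := fun x hx hxx => hx0 (hxx ▸ hx)
  have hW2 : ehCbBd d ⊆ (W2 : Set (EhCb d)) := fun x hx => hWW2 (hW hx)
  have hW12 : W1 ≤ W2 := inf_le_right.trans hWW2
  have hW1A : W1 ≤ ehCbA d := by
    intro x hx h0
    have h1 : ‖ehCbIncl d x0‖ < ‖ehCbIncl d x‖ := hx.1
    have h0' : ehCbIncl d x = 0 := h0
    rw [h0', norm_zero] at h1
    exact absurd h1 (not_lt.2 (norm_nonneg _))
  have hH : ∀ t, Set.MapsTo ((ehTrans d x0).curry t) (W1 : Set (EhCb d)) (ehA d : Set (EhR d)) := by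
    intro t x hx h0
    have h1 : ‖ehCbIncl d x0‖ < ‖ehCbIncl d x‖ := hx.1
    have h0' : ehCbIncl d x - (t : ℝ) • ehCbIncl d x0 = 0 := h0
    rw [sub_eq_zero.1 h0', norm_smul, Real.norm_eq_abs, abs_of_nonneg t.2.1] at h1
    have := mul_le_of_le_one_left (norm_nonneg (ehCbIncl d x0)) t.2.2
    linarith
  have hH2 : Set.MapsTo ((ehTrans d x0).curry 1) (W2 : Set (EhCb d)) (ehA d : Set (EhR d)) := by
    intro x hx h0
    have h0' : ehCbIncl d x - ((1 : unitInterval) : ℝ) • ehCbIncl d x0 = 0 := h0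
    rw [show ((1 : unitInterval) : ℝ) = 1 from rfl, one_smul] at h0'
    exact hx (eh_incl_inj d (sub_eq_zero.1 h0'))
  have e1 : T.push r ((ehTrans d x0).curry 1) (ehMapsTop _ ⊤) hH2 (κ.kap d r h W2 hW2) =
      T.push r ((ehTrans d x0).curry 1) (ehMapsTop _ ⊤) (hH 1) (κ.kap d r h W1 hW1) := by
    rw [← κ.kap_mono d r h W1 W2 hW1 hW2 hW12, eh_push_ext]
  have e2 := T.htpy r (ehTrans d x0) (V := ⊤) (V' := ⊤) (fun t => ehMapsTop _ ⊤) hH (κ.kap d r h W1 hW1)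
  have e3 : T.push r ((ehTrans d x0).curry 0) (ehMapsTop _ ⊤) (hH 0) (κ.kap d r h W1 hW1) = κ.loc d r h := by
    rw [EhCube.loc, ← κ.kap_mono d r h W1 (ehCbA d) hW1 (ehCbBd_subset_A d) hW1A, eh_push_ext]
    refine eh_push_congr T r (ContinuousMap.ext fun x => ?_) _ _ _ _ _
    show ehCbIncl d x - ((0 : unitInterval) : ℝ) • ehCbIncl d x0 = ehCbIncl d x
    simp
  have e4 : n • κ.kap d r h W2 hW2 = 0 := by
    rw [← κ.kap_mono d r h W W2 hW hW2 hWW2, ← map_nsmul, hn, map_zero]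
  have e5 : n • κ.loc d r h = 0 := by
    rw [← e3, e2, ← e1, ← map_nsmul, e4, map_zero]
  have e6 : n • T.phiR d r h (κ.loc d r h) = 0 := by rw [← map_nsmul, e5, map_zero]
  rcases smul_eq_zero.1 e6 with h7 | h7
  · exact h7
  · exact absurd h7 (eh_phiR_loc_ne T κ d r h)

/-- EXPORT: `Φ` is natural in `U` -/
theorem eh_phi_ext (T : EhTheory.{u}) (d : ℕ) (r : ℤ) (h : r = d) (U U' : Opens (S5Sph d)) (hUU' : U ≤ U')
    (hU : s5South d ∉ U) (hU' : s5South d ∉ U') (x : T.Q r (S5Sph d) ⊤ U) :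
    T.phi d r h U' hU' (T.ext r le_rfl hUU' x) = T.phi d r h U hU x := by
  simp only [EhTheory.phi, AddMonoidHom.comp_apply, eh_ext_ext]

/-- EXPORT: `Φ` kills torsion -/
theorem eh_phi_tors (T : EhTheory.{u}) (d : ℕ) (r : ℤ) (h : r = d) (U : Opens (S5Sph d))
    (hU : s5South d ∉ U) (x : T.Q r (S5Sph d) ⊤ U) (n : ℕ) (hn : n ≠ 0) (hx : n • x = 0) :
    T.phi d r h U hU x = 0 := by
  have h1 : n • T.phi d r h U hU x = 0 := by rw [← map_nsmul, hx, map_zero]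
  rcases smul_eq_zero.1 h1 with h2 | h2
  · exact absurd h2 hn
  · exact h2

/-- EXPORT: `Φ(tot f) ≠ 0` if `f : [-1,1]^d → S^d` is a homeomorphism over a neighbourhood `N` of the south pole. -/
theorem eh_phi_ne_zero (T : EhTheory.{u}) (κ : EhCube T) (d : ℕ) (r : ℤ) (h : r = d)
    (f : C(EhCb d, S5Sph d)) (W : Opens (EhCb d)) (hW : ehCbBd d ⊆ (W : Set (EhCb d)))
    (U : Opens (S5Sph d)) (hU : s5South d ∉ U) (hf : Set.MapsTo f (W : Set (EhCb d)) (U : Set (S5Sph d)))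
    (N : Opens (S5Sph d)) (hN : s5South d ∈ N) (hinj : Set.InjOn f (f ⁻¹' (N : Set (S5Sph d))))
    (hsurj : (N : Set (S5Sph d)) ⊆ Set.range f) :
    T.phi d r h U hU (T.push r f (V := ⊤) (V' := ⊤) (ehMapsTop _ _) hf (κ.kap d r h W hW)) ≠ 0 := by
  intro hΦ
  obtain ⟨x0, hfx0⟩ := hsurj hN
  have hx0N : x0 ∈ f ⁻¹' (N : Set (S5Sph d)) := by
    show f x0 ∈ N
    rw [hfx0]; exact hN
  have hx0W : x0 ∉ W := fun hx => hU (hfx0 ▸ hf hx)
  let W2 : Opens (EhCb d) := ⟨{x | x ≠ x0}, isOpen_ne⟩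
  have hWW2 : W ≤ W2 := fun x hx hxx => hx0W (hxx ▸ hx)
  have hW2 : ehCbBd d ⊆ (W2 : Set (EhCb d)) := fun x hx => hWW2 (hW hx)
  have hfW2 : Set.MapsTo f (W2 : Set (EhCb d)) (ehNoS d : Set (S5Sph d)) := by
    intro x hx hs
    have hs' : f x = s5South d := hs
    have hxN : x ∈ f ⁻¹' (N : Set (S5Sph d)) := by
      show f x ∈ N
      rw [hs']; exact hN
    exact hx (hinj hxN hx0N (hs'.trans hfx0.symm))
  -- the inverse of `f` over `N`
  have : Nonempty (EhCb d) := ⟨x0⟩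
  let g : S5Sph d → EhCb d := Function.invFunOn f (f ⁻¹' (N : Set (S5Sph d)))
  have hex : ∀ y ∈ N, ∃ a ∈ f ⁻¹' (N : Set (S5Sph d)), f a = y := by
    intro y hy
    obtain ⟨a, rfl⟩ := hsurj hy
    exact ⟨a, hy, rfl⟩
  have hgmem : ∀ y ∈ N, g y ∈ f ⁻¹' (N : Set (S5Sph d)) := fun y hy => Function.invFunOn_mem (hex y hy)
  have hfg : ∀ y ∈ N, f (g y) = y := fun y hy => Function.invFunOn_eq (hex y hy)
  have hgf : ∀ x ∈ Opens.comap f N, g (f x) = x := by
    intro x hx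
    exact hinj (hgmem (f x) hx) hx (hfg (f x) hx)
  have hgc : ContinuousOn g (N : Set (S5Sph d)) := by
    rw [continuousOn_iff_isClosed]
    intro C hC
    refine ⟨f '' C, f.continuous.isClosedMap C hC, ?_⟩
    ext y
    constructor
    · rintro ⟨hy1, hy2⟩
      exact ⟨⟨g y, hy1, hfg y hy2⟩, hy2⟩
    · rintro ⟨⟨c, hc, rfl⟩, hy2⟩
      refine ⟨?_, hy2⟩
      show g (f c) ∈ C
      rw [hgf c hy2]
      exact hc
  -- the class `y`
  have hy : T.ext r (le_refl ⊤) (ehLe_noS d U hU) (T.push r f (V := ⊤) (V' := ⊤) (ehMapsTop _ _) hf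
      (κ.kap d r h W hW)) = T.push r f (V := ⊤) (V' := ⊤) (ehMapsTop _ _) hfW2 (κ.kap d r h W2 hW2) := by
    rw [← κ.kap_mono d r h W W2 hW hW2 hWW2, eh_push_ext, eh_ext_push]
  have hΦ' : T.phiR d r h (T.push r (ehChart d) (V := ehLow d) (U := ehNoS d ⊓ ehLow d) (V' := ⊤)
      (U' := ehA d) (ehMapsTop _ _) (ehChart_mapsTo d)
      (T.dd r (ehLow d) (ehNoS d) (ehNoS d ⊓ ehLow d) ⊤ rfl (ehTop_eq_sup d)
        (T.ext r (le_refl ⊤) (ehLe_noS d U hU) (T.push r f (V := ⊤) (V' := ⊤) (ehMapsTop _ _) hf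
          (κ.kap d r h W hW))))) = 0 := hΦ
  rw [hy] at hΦ'
  have h1 := eh_phiR_tors T d r h _ hΦ'
  rw [← map_nsmul, ← map_nsmul] at h1
  have h2 := eh_chart_tors T d r _ h1
  rw [← map_nsmul, ← map_nsmul] at h2
  have h3 := eh_loc_inj T r f g (Opens.comap f N) W2 N (ehNoS d)
    (by
      ext x
      constructor
      · intro _
        by_cases hx : x = x0
        · exact Or.inr (hx ▸ hx0N)
        · exact Or.inl hx
      · intro _; trivial)
    (by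
      ext y
      constructor
      · intro _
        by_cases hy : y = s5South d
        · exact Or.inr (hy ▸ hN)
        · exact Or.inl hy
      · intro _; trivial)
    hfW2 (fun x hx => hx) hgc (fun y hy => hgmem y hy)
    (by
      rintro y ⟨hy1, hy2⟩ hgy
      apply hy1
      have hgy' : g y = x0 := hgy
      rw [← hfg y hy2, hgy', hfx0])
    hgf hfg _ h2
  rw [← mul_smul, ← mul_smul] at h3
  have h4 := eh_kap_not_tors T κ d r h W2 hW2 x0 (fun hx => hx rfl) _ h3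
  have hN0 : T.excN ≠ 0 := Nat.pos_iff_ne_zero.1 T.excN_pos
  exact absurd h4 (mul_ne_zero (mul_ne_zero (pow_ne_zero _ hN0) (pow_ne_zero _ hN0)) (pow_ne_zero _ hN0))

end Claimed.Agent.R304
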