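/-
Row 304 (S0559, Hilbert-Smith).  Owner: helper138.  DEFINITIONS of the geometric part (paper Sec.5, new route).

* `S5Act p X`    : an UNBUNDLED jointly continuous action of `ℤ_[p]` on `X` (no instances, no subgroup types);
                   "pass to the subgroup `p^j ℤ_p ≅ ℤ_p`" is `A.rescale j`.
* `A.Faithful`, `A.InvFun f`, `A.InvSet V`, `A.prodRight Y` (trivial action on a second factor),
  `A.plus` (extension to the one point compactification, paper Lemma 5.2).
* NO ORBIT SPACES: a *test* is a continuous map `τ : OnePoint W → X` with `A.plus.InvFun τ`.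
-/
import Claimed.Agent.R304.S5Spaces

set_option autoImplicit false

namespace Claimed.Agent.R304

open Topology

/-- a jointly continuous action of the additive group `ℤ_[p]` -/
structure S5Act (p : ℕ) [Fact p.Prime] (X : Type*) [TopologicalSpace X] where
  /-- the action map -/
  act : ℤ_[p] → X → X
  act_zero : ∀ x, act 0 x = x
  act_add : ∀ a b x, act (a + b) x = act a (act b x)
  cont : Continuous fun q : ℤ_[p] × X => act q.1 q.2

namespace S5Act

variable {p : ℕ} [Fact p.Prime] {X : Type*} [TopologicalSpace X]

/-- faithfulness -/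
def Faithful (A : S5Act p X) : Prop := ∀ a : ℤ_[p], (∀ x, A.act a x = x) → a = 0

/-- a function constant on orbits -/
def InvFun (A : S5Act p X) {Y : Type*} (f : X → Y) : Prop := ∀ a x, f (A.act a x) = f x

/-- an invariant set -/
def InvSet (A : S5Act p X) (V : Set X) : Prop := ∀ a x, x ∈ V → A.act a x ∈ V

/-- restriction of the action to the subgroup `p^j ℤ_p`, identified with `ℤ_p` -/
noncomputable def rescale (A : S5Act p X) (j : ℕ) : S5Act p X where
  act a x := A.act ((p : ℤ_[p]) ^ j * a) x
  act_zero x := by simp [A.act_zero]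
  act_add a b x := by rw [mul_add, A.act_add]
  cont := A.cont.comp ((continuous_const.mul continuous_fst).prodMk continuous_snd)

/-- the product with the trivial action on a second factor -/
def prodRight (A : S5Act p X) (Y : Type*) [TopologicalSpace Y] : S5Act p (X × Y) where
  act a x := (A.act a x.1, x.2)
  act_zero x := by simp [A.act_zero]
  act_add a b x := by simp [A.act_add]
  cont := (A.cont.comp (continuous_fst.prodMk (continuous_fst.comp continuous_snd))).prodMk
    (continuous_snd.comp continuous_snd)

theorem act_neg_act (A : S5Act p X) (a : ℤ_[p]) (x : X) : A.act (-a) (A.act a x) = x := by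
  rw [← A.act_add, neg_add_cancel, A.act_zero]

/-- paper Lemma 5.2: the extended action on the one point compactification is jointly continuous -/
theorem plus_cont [T2Space X] (A : S5Act p X) :
    Continuous fun q : ℤ_[p] × OnePoint X => OnePoint.map (A.act q.1) q.2 := by
  rw [continuous_iff_continuousAt]
  rintro ⟨a, x⟩
  induction x using OnePoint.rec with
  | infty =>
    intro s hs
    have hs' : s ∈ 𝓝 (OnePoint.infty : OnePoint X) := hs
    obtain ⟨t, hts, hto, htm⟩ := mem_nhds_iff.1 hs'
    have hK := (OnePoint.isOpen_iff_of_mem htm).1 hto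
    set K : Set X := ((↑) ⁻¹' t)ᶜ with hKdef
    have hGK : IsCompact ((fun q : ℤ_[p] × X => A.act q.1 q.2) '' (Set.univ ×ˢ K)) :=
      (isCompact_univ.prod hK.2).image A.cont
    set L : Set X := (fun q : ℤ_[p] × X => A.act q.1 q.2) '' (Set.univ ×ˢ K) with hL
    have hopen : IsOpen (((↑) '' L)ᶜ : Set (OnePoint X)) :=
      OnePoint.isOpen_compl_image_coe.2 ⟨hGK.isClosed, hGK⟩
    have hmem : (Set.univ : Set ℤ_[p]) ×ˢ (((↑) '' L)ᶜ : Set (OnePoint X)) ∈
        𝓝 ((a, OnePoint.infty) : ℤ_[p] × OnePoint X) := by
      apply prod_mem_nhds Filter.univ_mem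
      apply hopen.mem_nhds
      rintro ⟨y, _, hy⟩
      exact OnePoint.coe_ne_infty y hy
    rw [Filter.mem_map]
    refine Filter.mem_of_superset hmem ?_
    rintro ⟨b, y⟩ ⟨_, hy⟩
    show OnePoint.map (A.act b) y ∈ s
    apply hts
    induction y using OnePoint.rec with
    | infty => exact htm
    | coe y =>
      show ((A.act b y : X) : OnePoint X) ∈ t
      by_contra hcon
      apply hy
      refine ⟨y, ⟨(-b, A.act b y), ⟨Set.mem_univ _, hcon⟩, ?_⟩, rfl⟩
      exact A.act_neg_act b y
  | coe x =>
    have hemb : IsOpenEmbedding (fun q : ℤ_[p] × X => ((q.1, (q.2 : OnePoint X)) : ℤ_[p] × OnePoint X)) :=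
      IsOpenEmbedding.id.prodMap OnePoint.isOpenEmbedding_coe
    have h1 : ContinuousAt ((fun q : ℤ_[p] × OnePoint X => OnePoint.map (A.act q.1) q.2) ∘
        (fun q : ℤ_[p] × X => ((q.1, (q.2 : OnePoint X)) : ℤ_[p] × OnePoint X))) (a, x) := by
      have : Continuous fun q : ℤ_[p] × X => ((A.act q.1 q.2 : X) : OnePoint X) :=
        OnePoint.continuous_coe.comp A.cont
      exact this.continuousAt
    exact (hemb.continuousAt_iff (g := fun q : ℤ_[p] × OnePoint X => OnePoint.map (A.act q.1) q.2)
      (x := (a, x))).1 h1

/-- the extension of the action to the one point compactification (fixing `∞`) -/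
def plus [T2Space X] (A : S5Act p X) : S5Act p (OnePoint X) where
  act a x := OnePoint.map (A.act a) x
  act_zero x := by
    induction x using OnePoint.rec with
    | infty => rfl
    | coe x => simp [A.act_zero]
  act_add a b x := by
    induction x using OnePoint.rec with
    | infty => rfl
    | coe x => simp [A.act_add]
  cont := A.plus_cont

end S5Act

/-- realises the equation lemmas here (unique names) -/
theorem s5_defs_eqns_cite : True := by
  have := @S5Act.Faithful.eq_1.{0}
  have := @S5Act.InvFun.eq_1.{0, 0}
  have := @S5Act.InvSet.eq_1.{0}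
  have := @S5Act.rescale.eq_1.{0}
  have := @S5Act.prodRight.eq_1.{0, 0}
  have := @S5Act.plus.eq_1.{0}
  trivial

end Claimed.Agent.R304
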