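/-
Row 304 (S0559).  Owner: helper138 (statements), helper13 (proofs).  SORRY-FREE.  PACKAGE S5Act: elementary facts on continuous `ℤ_p`-actions (`S5Act`).
Only point set topology and the structure of `ℤ_[p]` (compact, `p^j ℤ_p` a basis of neighbourhoods of `0`, `ℤ` dense).
-/
import Claimed.Agent.R304.S5Defs

set_option autoImplicit false

namespace Claimed.Agent.R304

open Topology

variable {p : ℕ} [Fact p.Prime]

/-! ### the group `ℤ_p` -/

theorem s5_zp_nhds (U : Set ℤ_[p]) (hU : U ∈ 𝓝 (0 : ℤ_[p])) :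
    ∃ j : ℕ, ∀ a : ℤ_[p], (p : ℤ_[p]) ^ j * a ∈ U := by
  obtain ⟨ε, hε, hball⟩ := Metric.mem_nhds_iff.1 hU
  obtain ⟨j, hj⟩ := PadicInt.exists_pow_neg_lt p hε
  refine ⟨j, fun a => hball ?_⟩
  rw [Metric.mem_ball, dist_zero_right]
  refine lt_of_le_of_lt ?_ hj
  rw [PadicInt.norm_le_pow_iff_mem_span_pow]
  exact Ideal.mem_span_singleton.2 (Dvd.intro _ rfl)

theorem s5_closed_mul_mem (H : AddSubgroup ℤ_[p]) (hH : IsClosed (H : Set ℤ_[p])) (a : ℤ_[p])
    (ha : a ∈ H) (b : ℤ_[p]) : a * b ∈ H := by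
  have hcl : IsClosed {b : ℤ_[p] | a * b ∈ H} := hH.preimage (continuous_const.mul continuous_id)
  have hd : DenseRange (Nat.cast : ℕ → ℤ_[p]) := PadicInt.denseRange_natCast
  have : (Set.univ : Set ℤ_[p]) ⊆ {b : ℤ_[p] | a * b ∈ H} := by
    rw [← hd.closure_range]
    apply closure_minimal _ hcl
    rintro _ ⟨n, rfl⟩
    show a * (n : ℤ_[p]) ∈ H
    rw [mul_comm, ← nsmul_eq_mul]
    exact H.nsmul_mem ha n
  exact this (Set.mem_univ b)

theorem s5_closed_contains (H : AddSubgroup ℤ_[p]) (hH : IsClosed (H : Set ℤ_[p])) (a : ℤ_[p])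
    (ha : a ∈ H) (k : ℕ) (hk : ¬ (p : ℤ_[p]) ^ (k + 1) ∣ a) (b : ℤ_[p]) :
    (p : ℤ_[p]) ^ k * b ∈ H := by
  have h0 : a ≠ 0 := by
    rintro rfl
    exact hk (dvd_zero _)
  have hspec := PadicInt.unitCoeff_spec h0
  set u := PadicInt.unitCoeff h0 with hu
  set v := a.valuation with hv
  have hvk : v ≤ k := by
    by_contra hcon
    apply hk
    rw [hspec]
    exact Dvd.dvd.mul_left (pow_dvd_pow _ (by omega)) _
  have e : (p : ℤ_[p]) ^ k * b = a * (((u⁻¹ : ℤ_[p]ˣ) : ℤ_[p]) * (p : ℤ_[p]) ^ (k - v) * b) := by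
    have e1 : (p : ℤ_[p]) ^ k = (p : ℤ_[p]) ^ v * (p : ℤ_[p]) ^ (k - v) := by
      rw [← pow_add]
      congr 1
      omega
    have e2 : (u : ℤ_[p]) * ((u⁻¹ : ℤ_[p]ˣ) : ℤ_[p]) = 1 := Units.mul_inv u
    calc (p : ℤ_[p]) ^ k * b = ((u : ℤ_[p]) * ((u⁻¹ : ℤ_[p]ˣ) : ℤ_[p])) * ((p : ℤ_[p]) ^ v * (p : ℤ_[p]) ^ (k - v)) * b := by
          rw [e2, one_mul, e1]
      _ = ((u : ℤ_[p]) * (p : ℤ_[p]) ^ v) * (((u⁻¹ : ℤ_[p]ˣ) : ℤ_[p]) * (p : ℤ_[p]) ^ (k - v) * b) := by ring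
      _ = _ := by rw [← hspec]
  rw [e]
  exact s5_closed_mul_mem H hH a ha _

theorem s5_closed_nonzero (H : AddSubgroup ℤ_[p]) (hH : IsClosed (H : Set ℤ_[p])) (a : ℤ_[p])
    (ha : a ∈ H) (h0 : a ≠ 0) : ∃ k : ℕ, ∀ b : ℤ_[p], (p : ℤ_[p]) ^ k * b ∈ H := by
  refine ⟨a.valuation, fun b => s5_closed_contains H hH a ha _ ?_ b⟩
  intro hdvd
  have h1 : a ∈ Ideal.span {(p : ℤ_[p]) ^ (a.valuation + 1)} := Ideal.mem_span_singleton.2 hdvd
  rw [PadicInt.mem_span_pow_iff_le_valuation a h0] at h1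
  omega

theorem s5_toZModPow_eq_zero (k : ℕ) (a : ℤ_[p]) :
    PadicInt.toZModPow k a = 0 ↔ (p : ℤ_[p]) ^ k ∣ a := by
  rw [← RingHom.mem_ker, PadicInt.ker_toZModPow, Ideal.mem_span_singleton]

theorem s5_toZModPow_locConst (k : ℕ) :
    IsLocallyConstant (fun a : ℤ_[p] => PadicInt.toZModPow k a) := by
  rw [IsLocallyConstant.iff_eventually_eq]
  intro a
  have hU : {b : ℤ_[p] | ‖b - a‖ < (p : ℝ) ^ (-(k : ℤ) + 1)} ∈ 𝓝 a := by
    have : Metric.ball a ((p : ℝ) ^ (-(k : ℤ) + 1)) ∈ 𝓝 a :=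
      Metric.ball_mem_nhds a (zpow_pos (by exact_mod_cast (Fact.out : p.Prime).pos) _)
    refine Filter.mem_of_superset this ?_
    intro b hb
    rw [Metric.mem_ball, dist_eq_norm] at hb
    exact hb
  filter_upwards [hU] with b hb
  have h1 : ‖b - a‖ ≤ (p : ℝ) ^ (-(k : ℤ)) := (PadicInt.norm_le_pow_iff_norm_lt_pow_add_one _ _).2 hb
  rw [PadicInt.norm_le_pow_iff_mem_span_pow, ← PadicInt.ker_toZModPow, RingHom.mem_ker, map_sub, sub_eq_zero] at h1
  exact h1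

/-! ### general actions -/

variable {X : Type*} [TopologicalSpace X]

theorem s5_act_cont (A : S5Act p X) (a : ℤ_[p]) : Continuous (A.act a) :=
  A.cont.comp (continuous_const.prodMk continuous_id)

theorem s5_act_act_neg (A : S5Act p X) (a : ℤ_[p]) (x : X) : A.act a (A.act (-a) x) = x := by
  rw [← A.act_add, add_neg_cancel, A.act_zero]

/-- each `A.act a` is a homeomorphism -/
theorem s5_act_homeo (A : S5Act p X) (a : ℤ_[p]) : ∃ h : X ≃ₜ X, ∀ x, h x = A.act a x :=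
  ⟨{ toFun := A.act a
     invFun := A.act (-a)
     left_inv := A.act_neg_act a
     right_inv := s5_act_act_neg A a
     continuous_toFun := s5_act_cont A a
     continuous_invFun := s5_act_cont A (-a) }, fun _ => rfl⟩

theorem s5_act_comm (A : S5Act p X) (a b : ℤ_[p]) (x : X) :
    A.act a (A.act b x) = A.act b (A.act a x) := by
  rw [← A.act_add, ← A.act_add, add_comm]

/-- iterating `act a` -/
theorem s5_act_iterate (A : S5Act p X) (a : ℤ_[p]) (n : ℕ) (x : X) :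
    (A.act a)^[n] x = A.act ((n : ℤ_[p]) * a) x := by
  induction n with
  | zero => simp [A.act_zero]
  | succ n ih =>
    rw [Function.iterate_succ_apply', ih, ← A.act_add]
    congr 1
    push_cast
    ring

/-- the subgroup of elements fixing a set pointwise -/
def s5Fixer (A : S5Act p X) (S : Set X) : AddSubgroup ℤ_[p] where
  carrier := {a | ∀ x ∈ S, A.act a x = x}
  zero_mem' := fun x _ => A.act_zero x
  add_mem' := by
    intro a b ha hb x hx
    rw [A.act_add, hb x hx, ha x hx]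
  neg_mem' := by
    intro a ha x hx
    have h := A.act_neg_act a x
    rw [ha x hx] at h
    exact h

theorem s5_fixer_eqns_cite : True := by
  have := @s5Fixer.eq_1.{0}
  trivial

theorem s5_fixer_closed [T2Space X] (A : S5Act p X) (S : Set X) :
    IsClosed (s5Fixer A S : Set ℤ_[p]) := by
  have : (s5Fixer A S : Set ℤ_[p]) = ⋂ x ∈ S, {a : ℤ_[p] | A.act a x = x} := by
    ext a
    simp only [Set.mem_iInter, Set.mem_ofPred_eq]
    rfl
  rw [this]
  refine isClosed_biInter fun x _ => isClosed_eq ?_ continuous_const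
  exact A.cont.comp (continuous_id.prodMk continuous_const)

/-- if `p^j` fixes `x` so does `p^j ℤ_p` -/
theorem s5_fix_of_gen [T2Space X] (A : S5Act p X) (j : ℕ) (x : X)
    (h : A.act ((p : ℤ_[p]) ^ j) x = x) (b : ℤ_[p]) : A.act ((p : ℤ_[p]) ^ j * b) x = x := by
  have hmem : (p : ℤ_[p]) ^ j ∈ s5Fixer A {x} := by
    intro y hy
    rw [Set.mem_singleton_iff.1 hy]
    exact h
  exact s5_closed_mul_mem _ (s5_fixer_closed A {x}) _ hmem b x rfl

/-- TUBE LEMMA. -/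
theorem s5_tube (A : S5Act p X) (K U : Set X) (hK : IsCompact K) (hU : IsOpen U) (hKU : K ⊆ U) :
    ∃ j : ℕ, ∀ a : ℤ_[p], ∀ x ∈ K, A.act ((p : ℤ_[p]) ^ j * a) x ∈ U := by
  have hopen : IsOpen ((fun q : ℤ_[p] × X => A.act q.1 q.2) ⁻¹' U) := hU.preimage A.cont
  have hsub : ({0} : Set ℤ_[p]) ×ˢ K ⊆ (fun q : ℤ_[p] × X => A.act q.1 q.2) ⁻¹' U := by
    rintro ⟨a, x⟩ ⟨ha, hx⟩
    rw [Set.mem_singleton_iff] at ha
    subst ha
    show A.act 0 x ∈ U
    rw [A.act_zero]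
    exact hKU hx
  obtain ⟨u, v, hu, _, h0u, hKv, huv⟩ := generalized_tube_lemma isCompact_singleton hK hopen hsub
  obtain ⟨j, hj⟩ := s5_zp_nhds u (hu.mem_nhds (h0u rfl))
  exact ⟨j, fun a x hx => huv (⟨hj a, hKv hx⟩ : ((p : ℤ_[p]) ^ j * a, x) ∈ u ×ˢ v)⟩

/-- EQUICONTINUITY. -/
theorem s5_equicont [CompactSpace X] (A : S5Act p X) {E : Type*} [PseudoMetricSpace E] (F : X → E)
    (hF : Continuous F) (ε : ℝ) (hε : 0 < ε) :
    ∃ j : ℕ, ∀ (a : ℤ_[p]) (x : X), dist (F (A.act ((p : ℤ_[p]) ^ j * a) x)) (F x) < ε := by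
  have hc : Continuous fun q : ℤ_[p] × X => dist (F (A.act q.1 q.2)) (F q.2) :=
    (hF.comp A.cont).dist (hF.comp continuous_snd)
  have hopen : IsOpen {q : ℤ_[p] × X | dist (F (A.act q.1 q.2)) (F q.2) < ε} := isOpen_lt hc continuous_const
  have hsub : ({0} : Set ℤ_[p]) ×ˢ (Set.univ : Set X) ⊆ {q : ℤ_[p] × X | dist (F (A.act q.1 q.2)) (F q.2) < ε} := by
    rintro ⟨a, x⟩ ⟨ha, _⟩
    rw [Set.mem_singleton_iff] at ha
    subst ha
    show dist (F (A.act 0 x)) (F x) < ε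
    rw [A.act_zero, dist_self]
    exact hε
  obtain ⟨u, v, hu, _, h0u, hKv, huv⟩ := generalized_tube_lemma isCompact_singleton isCompact_univ hopen hsub
  obtain ⟨j, hj⟩ := s5_zp_nhds u (hu.mem_nhds (h0u rfl))
  exact ⟨j, fun a x => huv (⟨hj a, hKv (Set.mem_univ x)⟩ : ((p : ℤ_[p]) ^ j * a, x) ∈ u ×ˢ v)⟩

/-- the saturation of a set -/
def s5Sat (A : S5Act p X) (S : Set X) : Set X := {y | ∃ a : ℤ_[p], ∃ x ∈ S, A.act a x = y}

theorem s5_sat_eqns_cite : True := by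
  have := @s5Sat.eq_1.{0}
  trivial

theorem s5_sat_subset (A : S5Act p X) (S : Set X) : S ⊆ s5Sat A S :=
  fun x hx => ⟨0, x, hx, A.act_zero x⟩

theorem s5_sat_inv (A : S5Act p X) (S : Set X) : A.InvSet (s5Sat A S) := by
  rintro a _ ⟨b, x, hx, rfl⟩
  exact ⟨a + b, x, hx, A.act_add a b x⟩

theorem s5_sat_compact (A : S5Act p X) (S : Set X) (hS : IsCompact S) : IsCompact (s5Sat A S) := by
  have : s5Sat A S = (fun q : ℤ_[p] × X => A.act q.1 q.2) '' (Set.univ ×ˢ S) := by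
    ext y
    constructor
    · rintro ⟨a, x, hx, rfl⟩
      exact ⟨(a, x), ⟨trivial, hx⟩, rfl⟩
    · rintro ⟨⟨a, x⟩, ⟨_, hx⟩, rfl⟩
      exact ⟨a, x, hx, rfl⟩
  rw [this]
  exact (isCompact_univ.prod hS).image A.cont

theorem s5_sat_open (A : S5Act p X) (S : Set X) (hS : IsOpen S) : IsOpen (s5Sat A S) := by
  have : s5Sat A S = ⋃ a : ℤ_[p], A.act a ⁻¹' S := by
    ext y
    simp only [Set.mem_iUnion, Set.mem_preimage]
    constructor
    · rintro ⟨a, x, hx, rfl⟩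
      exact ⟨-a, by rw [A.act_neg_act]; exact hx⟩
    · rintro ⟨a, ha⟩
      exact ⟨-a, _, ha, A.act_neg_act a y⟩
  rw [this]
  exact isOpen_iUnion fun a => hS.preimage (s5_act_cont A a)

theorem s5_sat_subset_inv (A : S5Act p X) (S V : Set X) (hV : A.InvSet V) (h : S ⊆ V) :
    s5Sat A S ⊆ V := by
  rintro _ ⟨a, x, hx, rfl⟩
  exact hV a x (h hx)

/-- a point outside the saturation has its whole orbit outside `S` -/
theorem s5_not_mem_sat (A : S5Act p X) (S : Set X) (x : X) (hx : x ∉ s5Sat A S) (a : ℤ_[p]) :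
    A.act a x ∉ S :=
  fun h => hx ⟨-a, _, h, A.act_neg_act a x⟩

/-! ### rescaling, one point compactification -/

theorem s5_rescale_act (A : S5Act p X) (j : ℕ) (a : ℤ_[p]) (x : X) :
    (A.rescale j).act a x = A.act ((p : ℤ_[p]) ^ j * a) x := rfl

theorem s5_rescale_faithful (A : S5Act p X) (hA : A.Faithful) (j : ℕ) : (A.rescale j).Faithful := by
  intro a ha
  have h := hA _ ha
  rcases mul_eq_zero.1 h with h | h
  · exact absurd h (pow_ne_zero _ (by exact_mod_cast (Fact.out : p.Prime).ne_zero))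
  · exact h

theorem s5_rescale_invFun (A : S5Act p X) (j : ℕ) {Y : Type*} (f : X → Y) (hf : A.InvFun f) :
    (A.rescale j).InvFun f := fun _ x => hf _ x

theorem s5_rescale_invSet (A : S5Act p X) (j : ℕ) (V : Set X) (hV : A.InvSet V) :
    (A.rescale j).InvSet V := fun _ x hx => hV _ x hx

theorem s5_rescale_rescale (A : S5Act p X) (i j : ℕ) (a : ℤ_[p]) (x : X) :
    ((A.rescale i).rescale j).act a x = (A.rescale (i + j)).act a x := by
  show A.act ((p : ℤ_[p]) ^ i * ((p : ℤ_[p]) ^ j * a)) x = A.act ((p : ℤ_[p]) ^ (i + j) * a) x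
  rw [pow_add, mul_assoc]

theorem s5_plus_coe [T2Space X] (A : S5Act p X) (a : ℤ_[p]) (x : X) :
    A.plus.act a (x : OnePoint X) = ((A.act a x : X) : OnePoint X) := rfl

theorem s5_plus_infty [T2Space X] (A : S5Act p X) (a : ℤ_[p]) :
    A.plus.act a (OnePoint.infty : OnePoint X) = OnePoint.infty := rfl

theorem s5_plus_rescale [T2Space X] (A : S5Act p X) (j : ℕ) (a : ℤ_[p]) (x : OnePoint X) :
    (A.rescale j).plus.act a x = (A.plus.rescale j).act a x := rfl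

end Claimed.Agent.R304
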