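/-
Row 304 (S0559).  Owner: helper138 (statements), helper13 (proofs).  SORRY-FREE.  PACKAGE S5Avg: averaging a vector valued map over the compact group `ℤ_p`, and
normalisation to the sphere.

`s5_avg` is the only place where Haar measure (or a limit of finite averages) is used; the statement hides the method.
-/
import Claimed.Agent.R304.S5Act

set_option autoImplicit false

namespace Claimed.Agent.R304

open Topology

variable {p : ℕ} [Fact p.Prime]

theorem s5_avg {X : Type*} [TopologicalSpace X] (A : S5Act p X) {E : Type*} [NormedAddCommGroup E]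
    [NormedSpace ℝ E] [CompleteSpace E] (F : X → E) (hF : Continuous F) :
    ∃ Fb : X → E, Continuous Fb ∧ A.InvFun Fb ∧
      ∀ x, Fb x ∈ closure (convexHull ℝ (Set.range fun a : ℤ_[p] => F (A.act a x))) := by
  let _ : MeasurableSpace ℤ_[p] := borel _
  have : BorelSpace ℤ_[p] := ⟨rfl⟩
  set μ : MeasureTheory.Measure ℤ_[p] := MeasureTheory.Measure.addHaarMeasure ⊤ with hμ
  have : MeasureTheory.IsProbabilityMeasure μ := ⟨by
    rw [hμ]
    exact MeasureTheory.Measure.addHaarMeasure_self⟩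
  have hcx : ∀ x, Continuous fun a : ℤ_[p] => F (A.act a x) := fun x =>
    hF.comp (A.cont.comp (continuous_id.prodMk continuous_const))
  have hint : ∀ x, MeasureTheory.Integrable (fun a : ℤ_[p] => F (A.act a x)) μ := fun x =>
    (hcx x).integrable_of_hasCompactSupport (HasCompactSupport.of_compactSpace _)
  refine ⟨fun x => ∫ a, F (A.act a x) ∂μ, ?_, ?_, ?_⟩
  · -- continuity
    rw [continuous_iff_continuousAt]
    intro x₀
    rw [Metric.continuousAt_iff']
    intro ε hε
    have hc : Continuous fun q : ℤ_[p] × X => dist (F (A.act q.1 q.2)) (F (A.act q.1 x₀)) :=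
      (hF.comp A.cont).dist (hF.comp (A.cont.comp (continuous_fst.prodMk continuous_const)))
    have hopen : IsOpen {q : ℤ_[p] × X | dist (F (A.act q.1 q.2)) (F (A.act q.1 x₀)) < ε / 2} :=
      isOpen_lt hc continuous_const
    have hsub : (Set.univ : Set ℤ_[p]) ×ˢ ({x₀} : Set X) ⊆
        {q : ℤ_[p] × X | dist (F (A.act q.1 q.2)) (F (A.act q.1 x₀)) < ε / 2} := by
      rintro ⟨a, x⟩ ⟨_, hx⟩
      rw [Set.mem_singleton_iff] at hx
      subst hx
      show dist (F (A.act a x)) (F (A.act a x)) < ε / 2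
      rw [dist_self]
      exact half_pos hε
    obtain ⟨u, v, _, hv, huu, hxv, huv⟩ := generalized_tube_lemma isCompact_univ isCompact_singleton hopen hsub
    filter_upwards [hv.mem_nhds (hxv rfl)] with x hx
    rw [dist_eq_norm, ← MeasureTheory.integral_sub (hint x) (hint x₀)]
    have hb : ∀ a : ℤ_[p], ‖F (A.act a x) - F (A.act a x₀)‖ ≤ ε / 2 := by
      intro a
      rw [← dist_eq_norm]
      exact le_of_lt (huv (⟨huu (Set.mem_univ a), hx⟩ : (a, x) ∈ u ×ˢ v))
    have := MeasureTheory.norm_integral_le_of_norm_le_const (μ := μ) (Filter.Eventually.of_forall hb)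
    simp only [MeasureTheory.probReal_univ, mul_one] at this
    linarith
  · intro b x
    show ∫ a, F (A.act a (A.act b x)) ∂μ = ∫ a, F (A.act a x) ∂μ
    have := MeasureTheory.integral_add_right_eq_self (μ := μ) (fun a : ℤ_[p] => F (A.act a x)) b
    rw [← this]
    congr 1
    funext a
    rw [A.act_add]
  · intro x
    refine Convex.integral_mem (convex_convexHull ℝ _).closure isClosed_closure ?_ (hint x)
    exact Filter.Eventually.of_forall fun a => subset_closure (subset_convexHull ℝ _ ⟨a, rfl⟩)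

theorem s5_hull_close {E : Type*} [NormedAddCommGroup E] [NormedSpace ℝ E] {ι : Type*} (f : ι → E)
    (v : E) (ε : ℝ) (h : ∀ i, ‖f i - v‖ ≤ ε) (y : E)
    (hy : y ∈ closure (convexHull ℝ (Set.range f))) : ‖y - v‖ ≤ ε := by
  have hsub : closure (convexHull ℝ (Set.range f)) ⊆ Metric.closedBall v ε := by
    apply closure_minimal _ Metric.isClosed_closedBall
    apply convexHull_min _ (convex_closedBall v ε)
    rintro _ ⟨i, rfl⟩
    rw [Metric.mem_closedBall, dist_eq_norm]
    exact h i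
  have := hsub hy
  rwa [Metric.mem_closedBall, dist_eq_norm] at this

theorem s5_hull_const {E : Type*} [NormedAddCommGroup E] [NormedSpace ℝ E] {ι : Type*} (f : ι → E)
    (v : E) (h : ∀ i, f i = v) (y : E)
    (hy : y ∈ closure (convexHull ℝ (Set.range f))) : y = v := by
  have := s5_hull_close f v 0 (fun i => by rw [h i, sub_self, norm_zero]) y hy
  exact sub_eq_zero.1 (norm_le_zero_iff.1 this)

/-! ### normalisation -/

theorem s5_nrm_coe (d : ℕ) (v : S5E d) (hv : v ≠ 0) : ((s5Nrm d v : S5Sph d) : S5E d) = ‖v‖⁻¹ • v := by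
  rw [s5Nrm, dif_neg hv]

theorem s5_nrm_of_unit (d : ℕ) (x : S5Sph d) : s5Nrm d (x : S5E d) = x := by
  have hx : ‖(x : S5E d)‖ = 1 := by simp
  have h0 : (x : S5E d) ≠ 0 := by
    intro h
    rw [h, norm_zero] at hx
    exact zero_ne_one hx
  apply Subtype.ext
  rw [s5_nrm_coe d _ h0, hx, inv_one, one_smul]

theorem s5_nrm_contOn (d : ℕ) : ContinuousOn (s5Nrm d) {v | v ≠ 0} := by
  have h1 : ContinuousOn (fun v : S5E d => ‖v‖⁻¹ • v) {v | v ≠ 0} :=
    (continuous_norm.continuousOn.inv₀ (fun v hv => norm_ne_zero_iff.2 hv)).smul continuousOn_id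
  have h2 : ContinuousOn (fun v : S5E d => ((s5Nrm d v : S5Sph d) : S5E d)) {v | v ≠ 0} :=
    h1.congr (fun v hv => s5_nrm_coe d v hv)
  exact continuousOn_iff_continuous_domRestrict.2
    (Continuous.subtype_mk (continuousOn_iff_continuous_domRestrict.1 h2) _)

/-- composition form -/
theorem s5_nrm_comp_cont (d : ℕ) {X : Type*} [TopologicalSpace X] (u : X → S5E d) (hu : Continuous u)
    (h0 : ∀ x, u x ≠ 0) : Continuous fun x => s5Nrm d (u x) := by
  rw [← continuousOn_univ]
  exact (s5_nrm_contOn d).comp hu.continuousOn (fun x _ => h0 x)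

/-- a vector at distance `< 1` from a unit vector is not zero -/
theorem s5_ne_zero_of_close (d : ℕ) (x : S5Sph d) (v : S5E d) (h : ‖v - (x : S5E d)‖ < 1) : v ≠ 0 := by
  rintro rfl
  have hx : ‖(x : S5E d)‖ = 1 := by simp
  rw [zero_sub, norm_neg, hx] at h
  exact lt_irrefl _ h

/-- normalisation moves a vector `ε`-close to a unit vector `x` at most to distance `2ε` from `x`:
`‖v/‖v‖ - v‖ = |1 - ‖v‖| ≤ ‖v - x‖`. -/
theorem s5_nrm_close (d : ℕ) (x : S5Sph d) (v : S5E d) (ε : ℝ) (h : ‖v - (x : S5E d)‖ ≤ ε) (h1 : ε < 1) :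
    dist (s5Nrm d v) x ≤ 2 * ε := by
  have hv : v ≠ 0 := s5_ne_zero_of_close d x v (lt_of_le_of_lt h h1)
  have hx : ‖(x : S5E d)‖ = 1 := by simp
  have hn : ‖v‖ ≠ 0 := norm_ne_zero_iff.2 hv
  rw [Subtype.dist_eq, s5_nrm_coe d v hv, dist_eq_norm]
  have e1 : ‖v‖⁻¹ • v - (x : S5E d) = (‖v‖⁻¹ - 1) • v + (v - (x : S5E d)) := by
    rw [sub_smul, one_smul]
    abel
  have e2 : ‖(‖v‖⁻¹ - 1) • v‖ = |1 - ‖v‖| := by
    rw [norm_smul, Real.norm_eq_abs, ← abs_norm v, ← abs_mul, abs_norm, sub_mul, inv_mul_cancel₀ hn, one_mul]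
  have e3 : |1 - ‖v‖| ≤ ‖v - (x : S5E d)‖ := by
    have := abs_norm_sub_norm_le v (x : S5E d)
    rw [hx, abs_sub_comm] at this
    exact this
  calc ‖‖v‖⁻¹ • v - (x : S5E d)‖ ≤ ‖(‖v‖⁻¹ - 1) • v‖ + ‖v - (x : S5E d)‖ := by
        rw [e1]
        exact norm_add_le _ _
    _ ≤ 2 * ε := by
        rw [e2]
        linarith

/-- SPHERE VALUED AVERAGING. -/
theorem s5_avg_sphere {X : Type*} [TopologicalSpace X] (A : S5Act p X) (d : ℕ) (f : X → S5Sph d)
    (hf : Continuous f) (ε : ℝ) (hε : ε < 1) (hclose : ∀ a x, dist (f (A.act a x)) (f x) ≤ ε) :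
    ∃ fb : X → S5Sph d, Continuous fb ∧ A.InvFun fb ∧ (∀ x, dist (fb x) (f x) ≤ 2 * ε) ∧
      ∀ x v, (∀ a, f (A.act a x) = v) → fb x = v := by
  obtain ⟨Fb, hc, hinv, hhull⟩ := s5_avg A (fun x => (f x : S5E d)) (continuous_subtype_val.comp hf)
  have hcl : ∀ x, ‖Fb x - (f x : S5E d)‖ ≤ ε := fun x =>
    s5_hull_close (fun a : ℤ_[p] => (f (A.act a x) : S5E d)) (f x : S5E d) ε (fun a => by
      rw [← dist_eq_norm, ← Subtype.dist_eq]
      exact hclose a x) _ (hhull x)
  refine ⟨fun x => s5Nrm d (Fb x), ?_, ?_, ?_, ?_⟩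
  · exact s5_nrm_comp_cont d Fb hc (fun x => s5_ne_zero_of_close d (f x) _ (lt_of_le_of_lt (hcl x) hε))
  · intro a x
    show s5Nrm d (Fb (A.act a x)) = s5Nrm d (Fb x)
    rw [hinv a x]
  · intro x
    exact s5_nrm_close d (f x) (Fb x) ε (hcl x) hε
  · intro x v hv
    have : Fb x = (v : S5E d) :=
      s5_hull_const (fun a : ℤ_[p] => (f (A.act a x) : S5E d)) (v : S5E d) (fun a => by rw [hv a]) _ (hhull x)
    show s5Nrm d (Fb x) = v
    rw [this, s5_nrm_of_unit]

end Claimed.Agent.R304
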