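/-
Row 304 (S0559).  Owner: helper138.  DEFINITIONS of the geometric constructions of Sec.5 (new route).

* `s5Pinch d : ℝ^d → S^d`     : the pinch map, `ξ` (north pole) outside the unit ball, south pole at `0`;
* `s5PinchAt d O z r`          : the pinch supported in `closedBall z r`, as a map `OnePoint O → S^d` (`∞ ↦ ξ`);
* `S5Htpy d O f g`             : compactly supported homotopy of maps `OnePoint O → S^d` (value `ξ` off a compact subset of `O`);
* `s5Assemble A j f`           : `w ↦ [ (f (i · w))_{i ∈ ℤ/p^j} ] ∈ T^{p^j}/(ℤ/p^j)`   (helper248's cyclic assembling);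
* `S5Step A m d h h'`          : `h`, `h'` are the two projections of one invariant test into the close pair space;
* `S5Sheet A k V σ`            : the finite quotient sheets of paper Lemma 5.6 (`σ` = number of the sheet).
-/
import Claimed.Agent.R304.S5Defs

set_option autoImplicit false

namespace Claimed.Agent.R304

open Topology

/-- the pinch map as a vector: `(-cos(π t), π sinc(π t) x)`, `t = min ‖x‖ 1` -/
noncomputable def s5PinchVec (d : ℕ) (x : EuclideanSpace ℝ (Fin d)) : S5E d :=
  WithLp.toLp 2 (Fin.cons (-Real.cos (Real.pi * min ‖x‖ 1))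
    (fun i : Fin d => Real.pi * Real.sinc (Real.pi * min ‖x‖ 1) * x i) : Fin (d + 1) → ℝ)

/-- the pinch map `ℝ^d → S^d` (the vector has norm one, see `s5_pinchVec_norm`) -/
noncomputable def s5Pinch (d : ℕ) (x : EuclideanSpace ℝ (Fin d)) : S5Sph d := s5Nrm d (s5PinchVec d x)

/-- the pinch supported in `closedBall z r` -/
noncomputable def s5PinchAt (d : ℕ) (O : Set (EuclideanSpace ℝ (Fin d)))
    (z : EuclideanSpace ℝ (Fin d)) (r : ℝ) : OnePoint O → S5Sph d :=
  fun x => x.elim (s5North d) (fun w => s5Pinch d (r⁻¹ • ((w : EuclideanSpace ℝ (Fin d)) - z)))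

/-- compactly supported homotopy between maps `OnePoint O → S^d` -/
def S5Htpy (d : ℕ) {W : Type} [TopologicalSpace W] (f g : OnePoint W → S5Sph d) : Prop :=
  ∃ F : OnePoint W × unitInterval → S5Sph d, Continuous F ∧ (∀ x, F (x, 0) = f x) ∧
    (∀ x, F (x, 1) = g x) ∧
    ∃ K : Set W, IsCompact K ∧ ∀ x : OnePoint W, x ∉ ((↑) '' K : Set (OnePoint W)) →
      ∀ t, F (x, t) = s5North d

/-- cyclic assembling of a map which is invariant under `p^j ℤ_p` -/
noncomputable def s5Assemble {p : ℕ} [Fact p.Prime] {X : Type} [TopologicalSpace X] (A : S5Act p X) (j : ℕ)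
    {T : Type} (f : X → T) (x : X) : S5Cyc (p ^ j) T :=
  s5CycMk (p ^ j) T (fun i => f (A.act ((i.val : ℕ) : ℤ_[p]) x))

/-- the base point of the close pair space -/
noncomputable def s5CloseBase (d : ℕ) : S5Close d :=
  ⟨(s5North d, s5North d), by
    show 0 ≤ inner ℝ (s5e0 d) (s5e0 d)
    exact real_inner_self_nonneg⟩

/-- one close pair step between invariant tests with values in the cyclic power of the sphere -/
def S5Step {p : ℕ} [Fact p.Prime] {W : Type} [TopologicalSpace W] [T2Space W] (A : S5Act p W)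
    (m d : ℕ) (h h' : OnePoint W → S5Cyc m (S5Sph d)) : Prop :=
  ∃ T : OnePoint W → S5Cyc m (S5Close d), Continuous T ∧ A.plus.InvFun T ∧
    T OnePoint.infty = s5CycDiag m (S5Close d) (s5CloseBase d) ∧
    (∀ x, s5CycMap m (s5CloseFst d) (T x) = h x) ∧ (∀ x, s5CycMap m (s5CloseSnd d) (T x) = h' x)

/-- finite quotient sheets (paper Lemma 5.6): `V` invariant, `σ` locally constant on `V`, `σ (a·w) = σ w + (a mod p^k)` -/
structure S5Sheet {p : ℕ} [Fact p.Prime] {W : Type} [TopologicalSpace W] (A : S5Act p W) (k : ℕ)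
    (V : Set W) (σ : W → ZMod (p ^ k)) : Prop where
  isOpen : IsOpen V
  inv : A.InvSet V
  locConst : ∀ w ∈ V, ∀ᶠ w' in 𝓝 w, σ w' = σ w
  equiv : ∀ (a : ℤ_[p]), ∀ w ∈ V, σ (A.act a w) = σ w + PadicInt.toZModPow k a

/-- realises the equation lemmas here (unique names) -/
theorem s5_geodefs_eqns_cite : True := by
  have := @s5PinchVec.eq_1
  have := @s5Pinch.eq_1
  have := @s5PinchAt.eq_1
  have := @S5Htpy.eq_1
  have := @s5Assemble.eq_1
  have := @s5CloseBase.eq_1
  have := @S5Step.eq_1
  trivial

end Claimed.Agent.R304
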