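/-
Row 304 (S0559).  Owner: helper138 (statements), helper13 (proofs).  SORRY-FREE.  PACKAGE S5Cyc: point set topology of the shared target spaces of `S5Spaces.lean`
(cyclic powers, close pair space, caps) and the cyclic assembling `s5Assemble`.
-/
import Claimed.Agent.R304.S5Avg
import Claimed.Agent.R304.S5GeoDefs

set_option autoImplicit false

namespace Claimed.Agent.R304

open Topology

/-! ### cyclic powers -/

theorem s5_shift_cont (m : ℕ) (T : Type) [TopologicalSpace T] (c : ZMod m) :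
    Continuous (s5Shift m T c) :=
  continuous_pi fun i => continuous_apply (i + c)

theorem s5_shift_add (m : ℕ) (T : Type) (c c' : ZMod m) (z : ZMod m → T) :
    s5Shift m T c (s5Shift m T c' z) = s5Shift m T (c + c') z := by
  funext i
  simp only [s5Shift, add_assoc]

theorem s5_cycMk_shift (m : ℕ) (T : Type) (c : ZMod m) (z : ZMod m → T) :
    s5CycMk m T (s5Shift m T c z) = s5CycMk m T z :=
  (Quotient.sound (s := s5CycSetoid m T) (⟨c, rfl⟩ : (s5CycSetoid m T).r z (s5Shift m T c z))).symm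

theorem s5_cycMk_eq_iff (m : ℕ) (T : Type) (z z' : ZMod m → T) :
    s5CycMk m T z = s5CycMk m T z' ↔ ∃ c, z' = s5Shift m T c z :=
  Quotient.eq (r := s5CycSetoid m T)

theorem s5_cycMk_surj (m : ℕ) (T : Type) : Function.Surjective (s5CycMk m T) :=
  Quotient.mk_surjective

theorem s5_cycMk_cont (m : ℕ) (T : Type) [TopologicalSpace T] : Continuous (s5CycMk m T) :=
  continuous_quotient_mk'

theorem s5_cycMk_quot (m : ℕ) (T : Type) [TopologicalSpace T] : IsQuotientMap (s5CycMk m T) :=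
  isQuotientMap_quotient_mk'

theorem s5_cycMk_open (m : ℕ) (T : Type) [TopologicalSpace T] : IsOpenMap (s5CycMk m T) := by
  intro U hU
  rw [← (s5_cycMk_quot m T).isOpen_preimage]
  have : s5CycMk m T ⁻¹' (s5CycMk m T '' U) = ⋃ c, s5Shift m T c ⁻¹' U := by
    ext z
    simp only [Set.mem_preimage, Set.mem_image, Set.mem_iUnion]
    constructor
    · rintro ⟨u, hu, hz⟩
      obtain ⟨c, rfl⟩ := (s5_cycMk_eq_iff m T u z).1 hz
      refine ⟨-c, ?_⟩
      rw [s5_shift_add, neg_add_cancel]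
      have : s5Shift m T 0 u = u := by
        funext i
        simp only [s5Shift, add_zero]
      rw [this]
      exact hu
    · rintro ⟨c, hc⟩
      exact ⟨_, hc, s5_cycMk_shift m T c z⟩
  rw [this]
  exact isOpen_iUnion fun c => hU.preimage (s5_shift_cont m T c)

theorem s5_cyc_compact (m : ℕ) (T : Type) [TopologicalSpace T] [CompactSpace T] :
    CompactSpace (S5Cyc m T) :=
  inferInstanceAs (CompactSpace (Quotient (s5CycSetoid m T)))

theorem s5_cyc_t2 (m : ℕ) [NeZero m] (T : Type) [TopologicalSpace T] [T2Space T] :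
    T2Space (S5Cyc m T) := by
  refine ⟨fun y y' hne => ?_⟩
  obtain ⟨z, rfl⟩ := s5_cycMk_surj m T y
  obtain ⟨z', rfl⟩ := s5_cycMk_surj m T y'
  have hsep : ∀ c : ZMod m, ∃ U V : Set (ZMod m → T), IsOpen U ∧ IsOpen V ∧ s5Shift m T c z ∈ U ∧ z' ∈ V ∧
      Disjoint U V := by
    intro c
    apply t2_separation
    intro h
    exact hne ((s5_cycMk_eq_iff m T z z').2 ⟨c, h.symm⟩)
  choose U V hU hV hzU hzV hdis using hsep
  refine ⟨s5CycMk m T '' (⋂ c, s5Shift m T c ⁻¹' U c), s5CycMk m T '' (⋂ c, V c), ?_, ?_, ?_, ?_, ?_⟩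
  · exact s5_cycMk_open m T _ (isOpen_iInter_of_finite fun c => (hU c).preimage (s5_shift_cont m T c))
  · exact s5_cycMk_open m T _ (isOpen_iInter_of_finite hV)
  · exact ⟨z, Set.mem_iInter.2 hzU, rfl⟩
  · exact ⟨z', Set.mem_iInter.2 hzV, rfl⟩
  · rw [Set.disjoint_left]
    rintro _ ⟨u, hu, rfl⟩ ⟨v, hv, hvu⟩
    obtain ⟨c, rfl⟩ := (s5_cycMk_eq_iff m T u v).1 hvu.symm
    exact Set.disjoint_left.1 (hdis c) (Set.mem_iInter.1 hu c) (Set.mem_iInter.1 hv c)

theorem s5_cycMap_mk (m : ℕ) {T T' : Type} (f : T → T') (z : ZMod m → T) :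
    s5CycMap m f (s5CycMk m T z) = s5CycMk m T' (fun i => f (z i)) := rfl

theorem s5_cycMap_cont (m : ℕ) {T T' : Type} [TopologicalSpace T] [TopologicalSpace T'] (f : T → T')
    (hf : Continuous f) : Continuous (s5CycMap m f) := by
  rw [(s5_cycMk_quot m T).continuous_iff]
  exact (s5_cycMk_cont m T').comp (continuous_pi fun i => hf.comp (continuous_apply i))

theorem s5_cycMap_id (m : ℕ) (T : Type) (x : S5Cyc m T) : s5CycMap m (id : T → T) x = x := by
  obtain ⟨z, rfl⟩ := s5_cycMk_surj m T x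
  rfl

theorem s5_cycMap_comp (m : ℕ) {T T' T'' : Type} (f : T → T') (g : T' → T'') (x : S5Cyc m T) :
    s5CycMap m (g ∘ f) x = s5CycMap m g (s5CycMap m f x) := by
  obtain ⟨z, rfl⟩ := s5_cycMk_surj m T x
  rfl

theorem s5_cycDiag_cont (m : ℕ) (T : Type) [TopologicalSpace T] : Continuous (s5CycDiag m T) :=
  (s5_cycMk_cont m T).comp (continuous_pi fun _ => continuous_id)

theorem s5_cycMap_diag (m : ℕ) {T T' : Type} (f : T → T') (x : T) :
    s5CycMap m f (s5CycDiag m T x) = s5CycDiag m T' (f x) := rfl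

theorem s5_cyc_htpy_cont (m : ℕ) {T T' : Type} [TopologicalSpace T] [TopologicalSpace T']
    (H : T × unitInterval → T') (hH : Continuous H) :
    Continuous fun q : S5Cyc m T × unitInterval => s5CycMap m (fun x => H (x, q.2)) q.1 := by
  have hq : IsQuotientMap (Prod.map (s5CycMk m T) id : (ZMod m → T) × unitInterval → S5Cyc m T × unitInterval) :=
    ((s5_cycMk_open m T).prodMap IsOpenMap.id).isQuotientMap ((s5_cycMk_cont m T).prodMap continuous_id)
      ((s5_cycMk_surj m T).prodMap Function.surjective_id)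
  rw [hq.continuous_iff]
  exact (s5_cycMk_cont m T').comp (continuous_pi fun i =>
    hH.comp (((continuous_apply i).comp continuous_fst).prodMk continuous_snd))

theorem s5_cycSet_open (m : ℕ) [NeZero m] {T : Type} [TopologicalSpace T] (A : Set T) (hA : IsOpen A) :
    IsOpen (s5CycSet m A) := by
  apply s5_cycMk_open m T
  have : {z : ZMod m → T | ∀ i, z i ∈ A} = ⋂ i, (fun z : ZMod m → T => z i) ⁻¹' A := by
    ext z
    simp
  rw [this]
  exact isOpen_iInter_of_finite fun i => hA.preimage (continuous_apply i)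

theorem s5_cycMk_mem_cycSet (m : ℕ) {T : Type} (A : Set T) (z : ZMod m → T) :
    s5CycMk m T z ∈ s5CycSet m A ↔ ∀ i, z i ∈ A := by
  constructor
  · rintro ⟨z', hz', h⟩ i
    obtain ⟨c, rfl⟩ := (s5_cycMk_eq_iff m T z' z).1 h
    exact hz' (i + c)
  · intro h
    exact ⟨z, h, rfl⟩

/-! ### caps and the close pair space -/

theorem s5_coord_cont (d : ℕ) : Continuous fun x : S5Sph d => (x : S5E d) 0 := by
  fun_prop

theorem s5_cap_open (d : ℕ) (c : ℝ) : IsOpen (s5Cap d c) :=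
  isOpen_lt continuous_const (s5_coord_cont d)

theorem s5_north_mem_cap (d : ℕ) (c : ℝ) (hc : c < 1) : s5North d ∈ s5Cap d c := by
  show c < (s5e0 d) 0
  simpa [s5e0] using hc

theorem s5_south_not_mem_cap (d : ℕ) (c : ℝ) (hc : -1 ≤ c) : s5South d ∉ s5Cap d c := by
  intro h
  have h' : c < (-s5e0 d) 0 := h
  simp [s5e0] at h'
  linarith

theorem s5_close_compact (d : ℕ) : CompactSpace (S5Close d) := by
  have hcl : IsClosed {x : S5Sph d × S5Sph d | 0 ≤ inner ℝ (x.1 : S5E d) (x.2 : S5E d)} :=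
    isClosed_le continuous_const (by fun_prop)
  exact isCompact_iff_compactSpace.1 hcl.isCompact

theorem s5_closeFst_cont (d : ℕ) : Continuous (s5CloseFst d) :=
  continuous_fst.comp continuous_subtype_val

theorem s5_closeSnd_cont (d : ℕ) : Continuous (s5CloseSnd d) :=
  continuous_snd.comp continuous_subtype_val

theorem s5_sph_norm (d : ℕ) (x : S5Sph d) : ‖(x : S5E d)‖ = 1 := by simp

/-- `‖(1-r) x₀ + r x₁‖² = (1-r)² + r² + 2 r (1-r) ⟨x₀,x₁⟩ ≥ 1/2` -/
theorem s5_close_ne_zero (d : ℕ) (x : S5Close d) (r : unitInterval) :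
    (1 - (r : ℝ)) • (x.1.1 : S5E d) + (r : ℝ) • (x.1.2 : S5E d) ≠ 0 := by
  intro h
  have hr0 : 0 ≤ (r : ℝ) := r.2.1
  have hr1 : (r : ℝ) ≤ 1 := r.2.2
  have hin : 0 ≤ inner ℝ (x.1.1 : S5E d) (x.1.2 : S5E d) := x.2
  have e : ‖(1 - (r : ℝ)) • (x.1.1 : S5E d) + (r : ℝ) • (x.1.2 : S5E d)‖ ^ 2 =
      (1 - (r : ℝ)) ^ 2 + 2 * ((1 - (r : ℝ)) * ((r : ℝ) * inner ℝ (x.1.1 : S5E d) (x.1.2 : S5E d))) + (r : ℝ) ^ 2 := by
    rw [norm_add_sq_real, norm_smul, norm_smul, s5_sph_norm, s5_sph_norm, inner_smul_left, inner_smul_right,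
      Real.norm_eq_abs, Real.norm_eq_abs, mul_one, mul_one, sq_abs, sq_abs]
    simp
  rw [h, norm_zero] at e
  have h2 : 0 ≤ (1 - (r : ℝ)) * ((r : ℝ) * inner ℝ (x.1.1 : S5E d) (x.1.2 : S5E d)) :=
    mul_nonneg (by linarith) (mul_nonneg hr0 hin)
  nlinarith [sq_nonneg (1 - (r : ℝ)), sq_nonneg (r : ℝ), sq_nonneg (1 - 2 * (r : ℝ))]

theorem s5_closeHtpy_cont (d : ℕ) :
    Continuous fun q : S5Close d × unitInterval => s5CloseHtpy d q.1 q.2 := by
  apply s5_nrm_comp_cont d (fun q : S5Close d × unitInterval =>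
    (1 - (q.2 : ℝ)) • (q.1.1.1 : S5E d) + (q.2 : ℝ) • (q.1.1.2 : S5E d))
  · fun_prop
  · intro q
    exact s5_close_ne_zero d q.1 q.2

theorem s5_closeHtpy_zero (d : ℕ) (x : S5Close d) : s5CloseHtpy d x 0 = s5CloseFst d x := by
  simp [s5CloseHtpy, s5CloseFst, s5_nrm_of_unit]

theorem s5_closeHtpy_one (d : ℕ) (x : S5Close d) : s5CloseHtpy d x 1 = s5CloseSnd d x := by
  simp [s5CloseHtpy, s5CloseSnd, s5_nrm_of_unit]

/-- caps with `0 ≤ c` are geodesically convex: the zeroth coordinate of `(1-r) x₀ + r x₁` is `> c ≥ 0` and the norm is `≤ 1`. -/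
theorem s5_closeHtpy_cap (d : ℕ) (c : ℝ) (hc : 0 ≤ c) (x : S5Close d) (hx : x ∈ s5CloseCap d c)
    (r : unitInterval) : s5CloseHtpy d x r ∈ s5Cap d c := by
  have hx1 : c < (x.1.1 : S5E d) 0 := hx.1
  have hx2 : c < (x.1.2 : S5E d) 0 := hx.2
  have ht0 : 0 ≤ (r : ℝ) := r.2.1
  have ht1 : (r : ℝ) ≤ 1 := r.2.2
  have hne := s5_close_ne_zero d x r
  set v : S5E d := (1 - (r : ℝ)) • (x.1.1 : S5E d) + (r : ℝ) • (x.1.2 : S5E d) with hv
  have hin : v 0 = (1 - (r : ℝ)) * (x.1.1 : S5E d) 0 + (r : ℝ) * (x.1.2 : S5E d) 0 := by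
    rw [hv]
    simp
  have hgt : c < v 0 := by
    rw [hin]
    rcases eq_or_lt_of_le ht0 with h0 | h0
    · rw [← h0]; simpa using hx1
    · have h1 : (1 - (r : ℝ)) * c ≤ (1 - (r : ℝ)) * (x.1.1 : S5E d) 0 :=
        mul_le_mul_of_nonneg_left hx1.le (by linarith)
      have h2 : (r : ℝ) * c < (r : ℝ) * (x.1.2 : S5E d) 0 := mul_lt_mul_of_pos_left hx2 h0
      nlinarith
  show c < ((s5Nrm d v : S5Sph d) : S5E d) 0
  rw [s5_nrm_coe d v hne]
  have hnv : ‖v‖ ≤ 1 := by
    calc ‖v‖ ≤ ‖(1 - (r : ℝ)) • (x.1.1 : S5E d)‖ + ‖(r : ℝ) • (x.1.2 : S5E d)‖ := norm_add_le _ _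
      _ = (1 - (r : ℝ)) + (r : ℝ) := by
          rw [norm_smul, norm_smul, s5_sph_norm, s5_sph_norm, Real.norm_eq_abs, Real.norm_eq_abs,
            abs_of_nonneg ht0, abs_of_nonneg (by linarith : (0 : ℝ) ≤ 1 - r)]
          ring
      _ = 1 := by ring
  have hpos : 0 < ‖v‖ := norm_pos_iff.2 hne
  have hinv : 1 ≤ ‖v‖⁻¹ := (one_le_inv₀ hpos).2 hnv
  have hip : 0 < v 0 := lt_of_le_of_lt hc hgt
  have e : (‖v‖⁻¹ • v) 0 = ‖v‖⁻¹ * v 0 := by simp
  rw [e]
  nlinarith

theorem s5_closeCap_open (d : ℕ) (c : ℝ) : IsOpen (s5CloseCap d c) :=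
  ((s5_cap_open d c).preimage (s5_closeFst_cont d)).inter ((s5_cap_open d c).preimage (s5_closeSnd_cont d))

theorem s5_closeBase_mem (d : ℕ) (c : ℝ) (hc : c < 1) : s5CloseBase d ∈ s5CloseCap d c :=
  ⟨s5_north_mem_cap d c hc, s5_north_mem_cap d c hc⟩

/-- two points of the sphere at distance `≤ 1` form a close pair: `⟨x,y⟩ = 1 - dist² / 2` -/
theorem s5_close_of_dist (d : ℕ) (x y : S5Sph d) (h : dist x y ≤ 1) :
    0 ≤ inner ℝ (x : S5E d) (y : S5E d) := by
  rw [Subtype.dist_eq, dist_eq_norm] at h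
  have e := norm_sub_sq_real (x : S5E d) (y : S5E d)
  rw [s5_sph_norm, s5_sph_norm] at e
  have h2 : ‖(x : S5E d) - (y : S5E d)‖ ^ 2 ≤ 1 := by
    have := norm_nonneg ((x : S5E d) - (y : S5E d))
    nlinarith
  linarith

/-! ### cyclic assembling -/

variable {p : ℕ} [Fact p.Prime]

theorem s5_assemble_cont {X : Type} [TopologicalSpace X] (A : S5Act p X) (j : ℕ) {T : Type}
    [TopologicalSpace T] (f : X → T) (hf : Continuous f) : Continuous (s5Assemble A j f) :=
  (s5_cycMk_cont (p ^ j) T).comp (continuous_pi fun _ => hf.comp (s5_act_cont A _))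

theorem s5_assemble_inv {X : Type} [TopologicalSpace X] (A : S5Act p X) (j : ℕ) {T : Type}
    (f : X → T) (hf : (A.rescale j).InvFun f) : A.InvFun (s5Assemble A j f) := by
  intro a x
  have : NeZero (p ^ j) := ⟨pow_ne_zero _ (Fact.out : p.Prime).ne_zero⟩
  show s5CycMk (p ^ j) T _ = s5CycMk (p ^ j) T _
  symm
  rw [s5_cycMk_eq_iff]
  refine ⟨PadicInt.toZModPow j a, ?_⟩
  funext i
  show f (A.act ((i.val : ℕ) : ℤ_[p]) (A.act a x)) =
    f (A.act (((i + PadicInt.toZModPow j a).val : ℕ) : ℤ_[p]) x)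
  rw [← A.act_add]
  have hdvd : (p : ℤ_[p]) ^ j ∣ ((i.val : ℕ) : ℤ_[p]) + a - (((i + PadicInt.toZModPow j a).val : ℕ) : ℤ_[p]) := by
    rw [← s5_toZModPow_eq_zero, map_sub, map_add, map_natCast, map_natCast, ZMod.natCast_zmod_val,
      ZMod.natCast_zmod_val, sub_self]
  obtain ⟨b, hb⟩ := hdvd
  have e : ((i.val : ℕ) : ℤ_[p]) + a = (p : ℤ_[p]) ^ j * b + (((i + PadicInt.toZModPow j a).val : ℕ) : ℤ_[p]) := by
    rw [← hb]
    ring
  rw [e, A.act_add]
  exact hf b _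

theorem s5_assemble_map {X : Type} [TopologicalSpace X] (A : S5Act p X) (j : ℕ) {T T' : Type}
    (f : X → T) (g : T → T') (x : X) :
    s5CycMap (p ^ j) g (s5Assemble A j f x) = s5Assemble A j (g ∘ f) x := rfl

theorem s5_assemble_of_inv {X : Type} [TopologicalSpace X] (A : S5Act p X) (j : ℕ) {T : Type}
    (f : X → T) (hf : A.InvFun f) (x : X) : s5Assemble A j f x = s5CycDiag (p ^ j) T (f x) := by
  show s5CycMk (p ^ j) T _ = s5CycMk (p ^ j) T _
  congr 1
  funext i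
  exact hf _ x

/-- if `f` is `= v` on the whole orbit of `x` the assembled value is the diagonal point -/
theorem s5_assemble_const {X : Type} [TopologicalSpace X] (A : S5Act p X) (j : ℕ) {T : Type}
    (f : X → T) (x : X) (v : T) (h : ∀ a, f (A.act a x) = v) :
    s5Assemble A j f x = s5CycDiag (p ^ j) T v := by
  show s5CycMk (p ^ j) T _ = s5CycMk (p ^ j) T _
  congr 1
  funext i
  exact h _

end Claimed.Agent.R304
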