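/-
Row 304 (S0559).  Owner: helper13.  LAYER E: the cyclic power `Y = (S^d)^m / (ℤ/m)`, tubes, and the two Mayer-Vietoris
theories on `Opens Y` which the orbit isomorphism (OI) compares (definitions only; proofs used here are theorems of
`S5Cyc` (helper138) and `EhMvRat`).

* `EhZ m d = (S^d)^m`, `EhY m d = EhZ / (ℤ/m)`, `ehPi` (quotient map), `ehSh c` (shift), `ehDg` (diagonal), `ehPr i`, `ehDelta = ehPi ∘ ehDg`
* `EhConv d B`        : `B ⊆ S^d` is geodesically convex (closed under normalised segments, which avoid `0`)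
* `ehBox B = ∏ B i`,  `ehTube B = ehPi (ehBox B)`,  `ehShB c B = (i ↦ B (i + c))`
* `EhTubeDatum B`     : all `B i` convex and nonempty, and for every `g`: `ehShB g B = B` or some `B (i+g)` is disjoint from `B i`
* `ehG0`              : the basic sets of the Bott-Tu induction
* `T.mv X`            : the rational Mayer-Vietoris theory of `T` on `Opens X`;  `T.mvHom f` : the map induced by `f`
* `T.oiM  m d` (O ↦ ℚ ⊗ E_r(Z; π⁻¹ O)),  `T.oiM' m d` (O ↦ ℚ ⊗ E_r(Y; O)),  `T.oiTheta = π_*`,  `T.oiSh c = (shift c)_*`,  `T.oiE` = average.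
-/
import Claimed.Agent.R304.S5Cyc
import Claimed.Agent.R304.EhMvRat

set_option autoImplicit false

namespace Claimed.Agent.R304

open Topology TopologicalSpace TensorProduct

universe u

/-- cyclic powers of compact Hausdorff spaces are admissible -/
instance ehSp_cyc (m : ℕ) [NeZero m] (T : Type) [TopologicalSpace T] [T2Space T] [CompactSpace T] :
    EhSp (S5Cyc m T) :=
  haveI := s5_cyc_t2 m T
  haveI := s5_cyc_compact m T
  ⟨inferInstance, inferInstance⟩

/-- `(S^d)^m` -/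
abbrev EhZ (m d : ℕ) : Type := ZMod m → S5Sph d

/-- `(S^d)^m / (ℤ/m)` -/
abbrev EhY (m d : ℕ) : Type := S5Cyc m (S5Sph d)

/-- the quotient map -/
def ehPi (m d : ℕ) : C(EhZ m d, EhY m d) := ⟨s5CycMk m (S5Sph d), s5_cycMk_cont m _⟩

/-- the shift -/
def ehSh (m d : ℕ) (c : ZMod m) : C(EhZ m d, EhZ m d) := ⟨s5Shift m (S5Sph d) c, s5_shift_cont m _ c⟩

/-- the diagonal -/
def ehDg (m d : ℕ) : C(S5Sph d, EhZ m d) := ⟨fun x _ => x, by fun_prop⟩

/-- the projections -/
def ehPr (m d : ℕ) (i : ZMod m) : C(EhZ m d, S5Sph d) := ⟨fun z => z i, by fun_prop⟩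

/-- the diagonal followed by the quotient map -/
def ehDelta (m d : ℕ) : C(S5Sph d, EhY m d) := ⟨s5CycDiag m (S5Sph d), s5_cycDiag_cont m _⟩

/-- geodesically convex subsets of the sphere -/
def EhConv (d : ℕ) (B : Set (S5Sph d)) : Prop :=
  ∀ x ∈ B, ∀ y ∈ B, ∀ t : unitInterval,
    (1 - (t : ℝ)) • (x : S5E d) + (t : ℝ) • (y : S5E d) ≠ 0 ∧
      s5Nrm d ((1 - (t : ℝ)) • (x : S5E d) + (t : ℝ) • (y : S5E d)) ∈ B

/-- the box `∏ B i` -/
def ehBox (m d : ℕ) [NeZero m] (B : ZMod m → Opens (S5Sph d)) : Opens (EhZ m d) :=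
  ⟨{z | ∀ i, z i ∈ B i}, by
    have : {z : EhZ m d | ∀ i, z i ∈ B i} = Set.pi Set.univ (fun i => (B i : Set (S5Sph d))) := by
      ext z
      simp
    rw [this]
    exact isOpen_set_pi Set.finite_univ (fun i _ => (B i).isOpen)⟩

/-- the image of a box in the cyclic power -/
def ehTube (m d : ℕ) [NeZero m] (B : ZMod m → Opens (S5Sph d)) : Opens (EhY m d) :=
  ⟨ehPi m d '' (ehBox m d B : Set (EhZ m d)), s5_cycMk_open m _ _ (ehBox m d B).isOpen⟩

/-- the shifted family -/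
def ehShB (m d : ℕ) (c : ZMod m) (B : ZMod m → Opens (S5Sph d)) : ZMod m → Opens (S5Sph d) :=
  fun i => B (i + c)

/-- tube data -/
structure EhTubeDatum (m d : ℕ) (B : ZMod m → Opens (S5Sph d)) : Prop where
  conv : ∀ i, EhConv d (B i : Set (S5Sph d))
  ne : ∀ i, (B i : Set (S5Sph d)).Nonempty
  alt : ∀ g : ZMod m, (∀ i, B (i + g) = B i) ∨ ∃ i, Disjoint (B (i + g)) (B i)

/-- the basic sets -/
def ehG0 (m d : ℕ) [NeZero m] : Set (Opens (EhY m d)) :=
  {O | ∃ B : ZMod m → Opens (S5Sph d), EhTubeDatum m d B ∧ O = ehTube m d B}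

/-- the cap around the north pole -/
def ehCapO (d : ℕ) (c : ℝ) : Opens (S5Sph d) := ⟨s5Cap d c, s5_cap_open d c⟩

/-- the image of `cap^m` in the cyclic power -/
def ehCycCapO (m d : ℕ) [NeZero m] (c : ℝ) : Opens (EhY m d) :=
  ⟨s5CycSet m (s5Cap d c), s5_cycSet_open m _ (s5_cap_open d c)⟩

/-- the cap around an arbitrary point -/
def ehCapAt (d : ℕ) (a : S5Sph d) (c : ℝ) : Opens (S5Sph d) :=
  ⟨{x | c < inner ℝ (a : S5E d) (x : S5E d)}, isOpen_lt continuous_const (by fun_prop)⟩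

theorem ehDelta_mapsTo_cap (m d : ℕ) [NeZero m] (c : ℝ) :
    Set.MapsTo (ehDelta m d) (ehCapO d c : Set (S5Sph d)) (ehCycCapO m d c : Set (EhY m d)) :=
  fun x hx => ⟨fun _ => x, fun _ => hx, rfl⟩

theorem ehSh_mapsTo (m d : ℕ) (c : ZMod m) (a : Opens (EhY m d)) :
    Set.MapsTo (ehSh m d c) (Opens.comap (ehPi m d) a : Set (EhZ m d))
      (Opens.comap (ehPi m d) a : Set (EhZ m d)) := by
  intro z hz
  show s5CycMk m (S5Sph d) (s5Shift m (S5Sph d) c z) ∈ a
  rw [s5_cycMk_shift]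
  exact hz

namespace EhTheory

variable (T : EhTheory.{u})

/-- the rational Mayer-Vietoris theory of `T` on the lattice of open subsets of `X` -/
noncomputable def mv (X : Type) [TopologicalSpace X] [EhSp X] : EhMV.{u} (Opens X) where
  V r a := T.mvV r X a
  ext r _ _ h := T.mvExt r h
  ext_refl r a h x := eh_mv_ext_refl T r a h x
  ext_ext r _ _ _ h h' x := eh_mv_ext_ext T r h h' x
  bd r s h a b i u hi hu := T.mvBd r s h a b i u hi hu
  bot r x := eh_mv_V_bot T r x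
  m1 r a b i u hi hu x y h := eh_mv_m1 T r a b i u hi hu x y h
  m2 r s h a b i u hi hu z hz := eh_mv_m2 T r s h a b i u hi hu z hz
  m3 r s h a b i u hi hu w h1 h2 := eh_mv_m3 T r s h a b i u hi hu w h1 h2
  ext_bd_left r s h a b i u hi hu z := eh_mv_ext_bd_left T r s h a b i u hi hu z
  ext_bd_right r s h a b i u hi hu z := eh_mv_ext_bd_right T r s h a b i u hi hu z

/-- the natural transformation induced by a continuous map -/
noncomputable def mvHom {L : Type} [Lattice L] [OrderBot L] {X X' : Type} [TopologicalSpace X] [EhSp X]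
    [TopologicalSpace X'] [EhSp X'] (f : C(X, X')) (φ : L → Opens X) (hφ : EhLatHom φ) (φ' : L → Opens X')
    (hφ' : EhLatHom φ') (hf : ∀ a, Set.MapsTo f (φ a : Set X) (φ' a : Set X')) :
    EhMVHom ((T.mv X).comap φ hφ) ((T.mv X').comap φ' hφ') where
  app r a := T.mvPush r f (hf a)
  app_ext r a b h x := eh_mv_push_ext T r f (hφ.mono h) (hφ'.mono h) (hf a) (hf b) x
  app_bd r s h a b i u hi hu z :=
    eh_mv_push_bd T r s h f (φ a) (φ b) (φ i) (φ u) (by rw [hi, hφ.inf]) (by rw [hu, hφ.sup])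
      (φ' a) (φ' b) (φ' i) (φ' u) (by rw [hi, hφ'.inf]) (by rw [hu, hφ'.sup]) (hf a) (hf b) (hf i) (hf u) z

/-- `O ↦ ℚ ⊗ E_r(Z; π⁻¹ O)` -/
noncomputable def oiM (m d : ℕ) [NeZero m] : EhMV.{u} (Opens (EhY m d)) :=
  (T.mv (EhZ m d)).comap (fun a => Opens.comap (ehPi m d) a) (ehLatHom_comap _)

/-- `O ↦ ℚ ⊗ E_r(Y; O)` -/
noncomputable def oiM' (m d : ℕ) [NeZero m] : EhMV.{u} (Opens (EhY m d)) :=
  (T.mv (EhY m d)).comap (fun a => a) (ehLatHom_id _)

/-- `π_*` -/
noncomputable def oiTheta (m d : ℕ) [NeZero m] : EhMVHom (T.oiM m d) (T.oiM' m d) :=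
  T.mvHom (ehPi m d) _ (ehLatHom_comap _) _ (ehLatHom_id _) (fun a => ehMapsComap _ a)

/-- `(shift c)_*` -/
noncomputable def oiSh (m d : ℕ) [NeZero m] (c : ZMod m) : EhMVHom (T.oiM m d) (T.oiM m d) :=
  T.mvHom (ehSh m d c) _ (ehLatHom_comap _) _ (ehLatHom_comap _) (fun a => ehSh_mapsTo m d c a)

/-- the averaging idempotent -/
noncomputable def oiE (m d : ℕ) [NeZero m] : EhMVHom (T.oiM m d) (T.oiM m d) :=
  EhMVHom.avg (T.oiSh m d)

end EhTheory

/-- realises the equation lemmas here (unique names) -/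
theorem eh_tubeDefs_eqns_cite : True := by
  have := @ehPi.eq_1
  have := @ehSh.eq_1
  have := @ehDg.eq_1
  have := @ehPr.eq_1
  have := @ehDelta.eq_1
  have := @EhConv.eq_1
  have := @ehBox.eq_1
  have := @ehTube.eq_1
  have := @ehShB.eq_1
  have := @ehG0.eq_1
  have := @ehCapO.eq_1
  have := @ehCycCapO.eq_1
  have := @ehCapAt.eq_1
  have := @EhTheory.mv.eq_1.{0}
  have := @EhTheory.mvHom.eq_1.{0}
  have := @EhTheory.oiM.eq_1.{0}
  have := @EhTheory.oiM'.eq_1.{0}
  have := @EhTheory.oiTheta.eq_1.{0}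
  have := @EhTheory.oiSh.eq_1.{0}
  have := @EhTheory.oiE.eq_1.{0}
  trivial

end Claimed.Agent.R304
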