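/-
Row 304 (S0559).  Owner: helper13.  SORRY-FREE (modulo the S5Avg/S5Cyc API of helper138).  PACKAGE EhTubeA: combinatorics and elementary geometry of boxes and tubes
in `Z = (S^d)^m`, `Y = Z / (ℤ/m)`.  No homology theory here.  π = ehPi, (shift c z) i = z (i + c), (ehShB c B) i = B (i + c).
API of helper138 (S5Avg, S5Cyc): s5_nrm_coe, s5_nrm_of_unit, s5_cycMk_eq_iff, s5_cycMk_shift, s5_cycMk_surj, s5_shift_add, s5_cyc_compact.

PLAN PER STATEMENT.
* eh_conv_inter: both conditions hold in B and in B'.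
* eh_conv_capAt (0 ≤ c): v = (1-t) x + t y has ⟨a,v⟩ > c ≥ 0, so v ≠ 0; ‖v‖ ≤ 1, so ⟨a, v/‖v‖⟩ = ⟨a,v⟩/‖v‖ ≥ ⟨a,v⟩ > c.
* eh_capAt_north: ⟨e_0, x⟩ = x_0 (EuclideanSpace.inner_single_left).
* eh_capAt_disjoint: x in both caps: ‖x - a‖² = 2 - 2⟨a,x⟩ < 2 (1 - c), the same for a'; so ‖a - a'‖ < 2 sqrt (2 (1-c)).
  Take c0 := 1 - ‖a - a'‖² / 8 (< 1 since a ≠ a').
* eh_sh_box, eh_tube_shB: unfold; s5_cycMk_shift.
* eh_comap_tube: π z in tube B iff π z = π z', z' in box B iff z = shift c z' for some c (s5_cycMk_eq_iff) iff z in box (ehShB c B)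
  for some c  (z' in box B iff shift c z' in box (ehShB c B)).  Finset.sup over the image: `Finset.sup_image`, membership in a
  finite sup of Opens: `Opens.mem_iSup`-style; easiest is to prove the equality of carriers by `ext z; simp`.
* eh_box_alt: for c, c' put g = c' - c.  alt g: either B (i + g) = B i for all i (then ehShB c' B = ehShB c B: replace i by i + c), or
  B (i + g), B i disjoint for some i: then the coordinate i - c ... precisely z (i - c) would lie in B (i - c + c') = B (i + g) and in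
  B (i - c + c) = B i.
* eh_box_disj: distinct members of the image are disjoint by eh_box_alt.
* eh_datum_shB: reindex.   eh_datum_inf: conv by eh_conv_inter; alt g: if both families are g-periodic so is the infimum, otherwise
  a disjoint pair of one of them gives a disjoint pair of the infimum (Disjoint.mono).
* eh_tube_alt: two data B1 = B ⊓ ehShB c B', B2 = B ⊓ ehShB c' B':  if tube B1 and tube B2 meet, there are z in box B1 and g with
  shift g z in box B2.  Then box (ehShB g B) meets box B, so ehShB g B = B (eh_box_alt); likewise ehShB (g + c) B' = ehShB c' B'.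
  Hence ehShB g B1 = B2 and tube B1 = tube B2 (eh_tube_shB).
* eh_tube_inf: a = tube B, b = tube B'.  C := {c | ∀ i, (B i ⊓ B' (i + c)) nonempty}, s := image (c ↦ tube (B ⊓ ehShB c B')) C.
  a ⊓ b = sup s: y = π z = π z', z in box B, z' in box B', z = shift c z', so z in box (B ⊓ ehShB c B') and c in C.
  Conversely tube (B ⊓ ehShB c B') ≤ tube B ⊓ tube (ehShB c B') = a ⊓ b.
* eh_datum_exists: z given.  For every pair (i,j) with z i ≠ z j take c_{ij} < 1 from eh_capAt_disjoint; c := max (0, all c_{ij}) < 1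
  (finite max), B i := ehCapAt (z i) c.  alt g: if z (i+g) = z i for all i the caps agree, otherwise the caps at such an i are disjoint.
* eh_cover: the sets tube B_z (z in Z) cover Y (s5_cycMk_surj); Y is compact (s5_cyc_compact): `CompactSpace.elim_finite_subcover`
  or `isCompact_univ.elim_finite_subcover`; turn the finite index set into a Finset of Opens by `Finset.image`.
* eh_datum_cap / eh_tube_cap: constant family; alt: left alternative.  s5CycSet m A = π '' {z | ∀ i, z i ∈ A} by definition.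
-/
import Claimed.Agent.R304.EhTubeDefs

set_option autoImplicit false

namespace Claimed.Agent.R304

open Topology TopologicalSpace
open scoped Classical

/-! ### convex sets and caps -/

theorem eh_conv_inter (d : ℕ) (B B' : Set (S5Sph d)) (hB : EhConv d B) (hB' : EhConv d B') :
    EhConv d (B ∩ B') := by
  intro x hx y hy t
  exact ⟨(hB x hx.1 y hy.1 t).1, (hB x hx.1 y hy.1 t).2, (hB' x hx.2 y hy.2 t).2⟩

theorem eh_sph_norm (d : ℕ) (x : S5Sph d) : ‖(x : S5E d)‖ = 1 := by simp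

theorem eh_mem_capAt (d : ℕ) (a x : S5Sph d) (c : ℝ) :
    x ∈ ehCapAt d a c ↔ c < inner ℝ (a : S5E d) (x : S5E d) := Iff.rfl

theorem eh_conv_capAt (d : ℕ) (a : S5Sph d) (c : ℝ) (hc : 0 ≤ c) :
    EhConv d (ehCapAt d a c : Set (S5Sph d)) := by
  intro x hx y hy t
  have hx' : c < inner ℝ (a : S5E d) (x : S5E d) := hx
  have hy' : c < inner ℝ (a : S5E d) (y : S5E d) := hy
  have ht0 : 0 ≤ (t : ℝ) := t.2.1
  have ht1 : (t : ℝ) ≤ 1 := t.2.2
  set v : S5E d := (1 - (t : ℝ)) • (x : S5E d) + (t : ℝ) • (y : S5E d) with hv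
  have hin : inner ℝ (a : S5E d) v =
      (1 - (t : ℝ)) * inner ℝ (a : S5E d) (x : S5E d) + (t : ℝ) * inner ℝ (a : S5E d) (y : S5E d) := by
    rw [hv, inner_add_right, inner_smul_right, inner_smul_right]
  have hgt : c < inner ℝ (a : S5E d) v := by
    rw [hin]
    rcases eq_or_lt_of_le ht0 with h0 | h0
    · rw [← h0]; simpa using hx'
    · have h1 : (1 - (t : ℝ)) * c ≤ (1 - (t : ℝ)) * inner ℝ (a : S5E d) (x : S5E d) :=
        mul_le_mul_of_nonneg_left hx'.le (by linarith)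
      have h2 : (t : ℝ) * c < (t : ℝ) * inner ℝ (a : S5E d) (y : S5E d) := mul_lt_mul_of_pos_left hy' h0
      nlinarith
  have hne : v ≠ 0 := by
    intro h0
    rw [h0, inner_zero_right] at hgt
    linarith
  refine ⟨hne, ?_⟩
  show c < inner ℝ (a : S5E d) ((s5Nrm d v : S5Sph d) : S5E d)
  rw [s5_nrm_coe d v hne, inner_smul_right]
  have hnv : ‖v‖ ≤ 1 := by
    calc ‖v‖ ≤ ‖(1 - (t : ℝ)) • (x : S5E d)‖ + ‖(t : ℝ) • (y : S5E d)‖ := norm_add_le _ _
      _ = (1 - (t : ℝ)) + (t : ℝ) := by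
          rw [norm_smul, norm_smul, eh_sph_norm, eh_sph_norm, Real.norm_eq_abs, Real.norm_eq_abs,
            abs_of_nonneg ht0, abs_of_nonneg (by linarith : (0 : ℝ) ≤ 1 - t)]
          ring
      _ = 1 := by ring
  have hpos : 0 < ‖v‖ := norm_pos_iff.2 hne
  have hinv : 1 ≤ ‖v‖⁻¹ := (one_le_inv₀ hpos).2 hnv
  have hip : 0 < inner ℝ (a : S5E d) v := lt_of_le_of_lt hc hgt
  nlinarith

theorem eh_capAt_north (d : ℕ) (c : ℝ) : ehCapAt d (s5North d) c = ehCapO d c := by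
  ext x
  show c < inner ℝ (s5e0 d) (x : S5E d) ↔ c < (x : S5E d) 0
  simp [s5e0, EuclideanSpace.inner_single_left]

theorem eh_capAt_mem (d : ℕ) (a : S5Sph d) (c : ℝ) (hc : c < 1) : a ∈ ehCapAt d a c := by
  show c < inner ℝ (a : S5E d) (a : S5E d)
  rw [real_inner_self_eq_norm_sq, eh_sph_norm]
  simpa using hc

theorem eh_capAt_disjoint (d : ℕ) (a a' : S5Sph d) (h : a ≠ a') :
    ∃ c0 : ℝ, c0 < 1 ∧ ∀ c, c0 ≤ c → Disjoint (ehCapAt d a c) (ehCapAt d a' c) := by
  have hne : (a : S5E d) - (a' : S5E d) ≠ 0 := sub_ne_zero.2 (fun h' => h (Subtype.ext h'))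
  have hD : 0 < ‖(a : S5E d) - (a' : S5E d)‖ := norm_pos_iff.2 hne
  refine ⟨1 - ‖(a : S5E d) - (a' : S5E d)‖ ^ 2 / 8, by nlinarith, fun c hc => ?_⟩
  rw [disjoint_iff]
  ext x
  constructor
  · rintro ⟨h1, h2⟩
    exfalso
    have h1' : c < inner ℝ (a : S5E d) (x : S5E d) := h1
    have h2' : c < inner ℝ (a' : S5E d) (x : S5E d) := h2
    have e1 : ‖(a : S5E d) - (x : S5E d)‖ ^ 2 = 2 - 2 * inner ℝ (a : S5E d) (x : S5E d) := by
      rw [norm_sub_sq_real, eh_sph_norm, eh_sph_norm]; ring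
    have e2 : ‖(a' : S5E d) - (x : S5E d)‖ ^ 2 = 2 - 2 * inner ℝ (a' : S5E d) (x : S5E d) := by
      rw [norm_sub_sq_real, eh_sph_norm, eh_sph_norm]; ring
    have tri : ‖(a : S5E d) - (a' : S5E d)‖ ≤ ‖(a : S5E d) - (x : S5E d)‖ + ‖(a' : S5E d) - (x : S5E d)‖ := by
      have : (a : S5E d) - (a' : S5E d) = ((a : S5E d) - (x : S5E d)) - ((a' : S5E d) - (x : S5E d)) := by
        abel
      rw [this]
      exact norm_sub_le _ _
    have n1 : 0 ≤ ‖(a : S5E d) - (x : S5E d)‖ := norm_nonneg _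
    have n2 : 0 ≤ ‖(a' : S5E d) - (x : S5E d)‖ := norm_nonneg _
    have b1 : ‖(a : S5E d) - (x : S5E d)‖ ^ 2 < ‖(a : S5E d) - (a' : S5E d)‖ ^ 2 / 4 := by
      rw [e1]; linarith
    have b2 : ‖(a' : S5E d) - (x : S5E d)‖ ^ 2 < ‖(a : S5E d) - (a' : S5E d)‖ ^ 2 / 4 := by
      rw [e2]; linarith
    have c1 : ‖(a : S5E d) - (x : S5E d)‖ < ‖(a : S5E d) - (a' : S5E d)‖ / 2 := by
      apply lt_of_pow_lt_pow_left₀ 2 (by positivity)
      rw [div_pow]; norm_num; linarith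
    have c2 : ‖(a' : S5E d) - (x : S5E d)‖ < ‖(a : S5E d) - (a' : S5E d)‖ / 2 := by
      apply lt_of_pow_lt_pow_left₀ 2 (by positivity)
      rw [div_pow]; norm_num; linarith
    linarith
  · intro hx
    exact hx.elim
/-! ### boxes, shifts, tubes -/

theorem eh_mem_finset_sup {X : Type} [TopologicalSpace X] (s : Finset (Opens X)) (x : X) :
    x ∈ s.sup id ↔ ∃ O ∈ s, x ∈ O := by
  induction s using Finset.induction_on with
  | empty => simp
  | insert a s _ ih =>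
    rw [Finset.sup_insert]
    constructor
    · rintro (h | h)
      · exact ⟨a, Finset.mem_insert_self _ _, h⟩
      · obtain ⟨O, hO, hx⟩ := ih.1 h
        exact ⟨O, Finset.mem_insert_of_mem hO, hx⟩
    · rintro ⟨O, hO, hx⟩
      rcases Finset.mem_insert.1 hO with rfl | hO
      · exact Or.inl hx
      · exact Or.inr (ih.2 ⟨O, hO, hx⟩)

theorem eh_mem_box (m d : ℕ) [NeZero m] (B : ZMod m → Opens (S5Sph d)) (z : EhZ m d) :
    z ∈ ehBox m d B ↔ ∀ i, z i ∈ B i := Iff.rfl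

theorem eh_mem_tube (m d : ℕ) [NeZero m] (B : ZMod m → Opens (S5Sph d)) (y : EhY m d) :
    y ∈ ehTube m d B ↔ ∃ z ∈ ehBox m d B, ehPi m d z = y := Iff.rfl

theorem eh_sh_apply (m d : ℕ) (c : ZMod m) (z : EhZ m d) (i : ZMod m) : ehSh m d c z i = z (i + c) := rfl

theorem eh_pi_sh (m d : ℕ) (c : ZMod m) (z : EhZ m d) : ehPi m d (ehSh m d c z) = ehPi m d z :=
  s5_cycMk_shift m _ c z

theorem eh_pi_eq_iff (m d : ℕ) (z z' : EhZ m d) : ehPi m d z = ehPi m d z' ↔ ∃ c, z' = ehSh m d c z :=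
  s5_cycMk_eq_iff m _ z z'

theorem eh_sh_box (m d : ℕ) [NeZero m] (c : ZMod m) (B : ZMod m → Opens (S5Sph d)) (z : EhZ m d) :
    ehSh m d c z ∈ ehBox m d (ehShB m d c B) ↔ z ∈ ehBox m d B := by
  constructor
  · intro h i
    have := h (i - c)
    simp only [eh_sh_apply, ehShB, sub_add_cancel] at this
    exact this
  · intro h i
    exact h (i + c)

theorem eh_sh_neg_mapsTo (m d : ℕ) [NeZero m] (c : ZMod m) (B : ZMod m → Opens (S5Sph d)) :
    Set.MapsTo (ehSh m d (-c)) (ehBox m d (ehShB m d c B) : Set (EhZ m d)) (ehBox m d B : Set (EhZ m d)) := by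
  intro z hz i
  have h := hz (i + -c)
  simp only [ehShB, neg_add_cancel_right] at h
  exact h

theorem eh_tube_shB (m d : ℕ) [NeZero m] (c : ZMod m) (B : ZMod m → Opens (S5Sph d)) :
    ehTube m d (ehShB m d c B) = ehTube m d B := by
  ext y
  constructor
  · rintro ⟨z, hz, rfl⟩
    exact ⟨ehSh m d (-c) z, eh_sh_neg_mapsTo m d c B hz, eh_pi_sh m d (-c) z⟩
  · rintro ⟨z, hz, rfl⟩
    exact ⟨ehSh m d c z, (eh_sh_box m d c B z).2 hz, eh_pi_sh m d c z⟩

theorem eh_box_le_comap (m d : ℕ) [NeZero m] (B : ZMod m → Opens (S5Sph d)) :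
    ehBox m d B ≤ Opens.comap (ehPi m d) (ehTube m d B) := fun z hz => ⟨z, hz, rfl⟩

theorem eh_box_le_comap_tube (m d : ℕ) [NeZero m] (c : ZMod m) (B : ZMod m → Opens (S5Sph d)) :
    ehBox m d (ehShB m d c B) ≤ Opens.comap (ehPi m d) (ehTube m d B) := by
  rw [← eh_tube_shB m d c B]
  exact eh_box_le_comap m d _

theorem eh_mem_comap_tube (m d : ℕ) [NeZero m] (B : ZMod m → Opens (S5Sph d)) (z : EhZ m d) :
    z ∈ Opens.comap (ehPi m d) (ehTube m d B) ↔ ∃ c, z ∈ ehBox m d (ehShB m d c B) := by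
  constructor
  · rintro ⟨z', hz', hzz⟩
    obtain ⟨c, rfl⟩ := (eh_pi_eq_iff m d z' z).1 hzz
    exact ⟨c, (eh_sh_box m d c B z').2 hz'⟩
  · rintro ⟨c, hc⟩
    exact eh_box_le_comap_tube m d c B hc

theorem eh_comap_tube (m d : ℕ) [NeZero m] (B : ZMod m → Opens (S5Sph d)) :
    Opens.comap (ehPi m d) (ehTube m d B) =
      (Finset.univ.image (fun c : ZMod m => ehBox m d (ehShB m d c B))).sup id := by
  ext z
  show z ∈ Opens.comap (ehPi m d) (ehTube m d B) ↔
    z ∈ (Finset.univ.image (fun c : ZMod m => ehBox m d (ehShB m d c B))).sup id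
  rw [eh_mem_comap_tube, eh_mem_finset_sup]
  constructor
  · rintro ⟨c, hc⟩
    exact ⟨_, Finset.mem_image.2 ⟨c, Finset.mem_univ _, rfl⟩, hc⟩
  · rintro ⟨O, hO, hz⟩
    obtain ⟨c, -, rfl⟩ := Finset.mem_image.1 hO
    exact ⟨c, hz⟩

theorem eh_box_alt (m d : ℕ) [NeZero m] (B : ZMod m → Opens (S5Sph d)) (hB : EhTubeDatum m d B)
    (c c' : ZMod m) :
    ehShB m d c B = ehShB m d c' B ∨ Disjoint (ehBox m d (ehShB m d c B)) (ehBox m d (ehShB m d c' B)) := by
  rcases hB.alt (c' - c) with h | ⟨i, hi⟩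
  · left
    funext i
    have := h (i + c)
    simp only [ehShB]
    rw [← this]
    congr 1
    ring
  · right
    rw [disjoint_iff]
    ext z
    constructor
    · rintro ⟨h1, h2⟩
      exfalso
      have a1 := h1 (i - c)
      have a2 := h2 (i - c)
      simp only [ehShB, sub_add_cancel] at a1
      have e : i - c + c' = i + (c' - c) := by ring
      simp only [ehShB, e] at a2
      exact (disjoint_iff.1 hi ▸ (⟨a2, a1⟩ : z (i - c) ∈ B (i + (c' - c)) ⊓ B i) : z (i - c) ∈ (⊥ : Opens _))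
    · intro hz
      exact hz.elim

theorem eh_box_disj (m d : ℕ) [NeZero m] (B : ZMod m → Opens (S5Sph d)) (hB : EhTubeDatum m d B) :
    ((Finset.univ.image (fun c : ZMod m => ehBox m d (ehShB m d c B)) : Finset (Opens (EhZ m d))) :
      Set (Opens (EhZ m d))).PairwiseDisjoint id := by
  intro K hK K' hK' hne
  obtain ⟨c, -, rfl⟩ := Finset.mem_image.1 (Finset.mem_coe.1 hK)
  obtain ⟨c', -, rfl⟩ := Finset.mem_image.1 (Finset.mem_coe.1 hK')
  rcases eh_box_alt m d B hB c c' with h | h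
  · exact absurd (by rw [h]) hne
  · exact h

theorem eh_datum_shB (m d : ℕ) (c : ZMod m) (B : ZMod m → Opens (S5Sph d)) (hB : EhTubeDatum m d B) :
    EhTubeDatum m d (ehShB m d c B) := by
  refine ⟨fun i => hB.conv _, fun i => hB.ne _, fun g => ?_⟩
  rcases hB.alt g with h | ⟨i, hi⟩
  · left
    intro i
    have := h (i + c)
    simp only [ehShB]
    rw [← this]
    congr 1
    ring
  · right
    refine ⟨i - c, ?_⟩
    simp only [ehShB, sub_add_cancel]
    have e : i - c + g + c = i + g := by ring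
    rw [e]
    exact hi

theorem eh_datum_inf (m d : ℕ) (B B' : ZMod m → Opens (S5Sph d)) (hB : EhTubeDatum m d B)
    (hB' : EhTubeDatum m d B') (hne : ∀ i, ((B i ⊓ B' i : Opens (S5Sph d)) : Set (S5Sph d)).Nonempty) :
    EhTubeDatum m d (fun i => B i ⊓ B' i) := by
  refine ⟨fun i => eh_conv_inter d _ _ (hB.conv i) (hB'.conv i), hne, fun g => ?_⟩
  rcases hB.alt g with h | ⟨i, hi⟩
  · rcases hB'.alt g with h' | ⟨i, hi⟩
    · left
      intro i
      rw [h i, h' i]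
    · right
      exact ⟨i, hi.mono inf_le_right inf_le_right⟩
  · right
    exact ⟨i, hi.mono inf_le_left inf_le_left⟩


theorem eh_shB_shB (m d : ℕ) (c c' : ZMod m) (B : ZMod m → Opens (S5Sph d)) :
    ehShB m d c (ehShB m d c' B) = ehShB m d (c + c') B := by
  funext i
  simp only [ehShB, add_assoc]

theorem eh_shB_zero (m d : ℕ) (B : ZMod m → Opens (S5Sph d)) : ehShB m d 0 B = B := by
  funext i
  simp only [ehShB, add_zero]

theorem eh_shB_eq_of_meet (m d : ℕ) [NeZero m] (B : ZMod m → Opens (S5Sph d)) (hB : EhTubeDatum m d B)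
    (c c' : ZMod m) (z : EhZ m d) (h : z ∈ ehBox m d (ehShB m d c B)) (h' : z ∈ ehBox m d (ehShB m d c' B)) :
    ehShB m d c B = ehShB m d c' B := by
  rcases eh_box_alt m d B hB c c' with e | e
  · exact e
  · exact ((disjoint_iff.1 e ▸ (⟨h, h'⟩ : z ∈ ehBox m d (ehShB m d c B) ⊓ ehBox m d (ehShB m d c' B)) :
      z ∈ (⊥ : Opens _))).elim

theorem eh_tube_alt (m d : ℕ) [NeZero m] (B B' : ZMod m → Opens (S5Sph d)) (hB : EhTubeDatum m d B)
    (hB' : EhTubeDatum m d B') (c c' : ZMod m) :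
    ehTube m d (fun i => B i ⊓ ehShB m d c B' i) = ehTube m d (fun i => B i ⊓ ehShB m d c' B' i) ∨
      Disjoint (ehTube m d (fun i => B i ⊓ ehShB m d c B' i)) (ehTube m d (fun i => B i ⊓ ehShB m d c' B' i)) := by
  by_cases hd : Disjoint (ehTube m d (fun i => B i ⊓ ehShB m d c B' i))
      (ehTube m d (fun i => B i ⊓ ehShB m d c' B' i))
  · exact Or.inr hd
  left
  have hex : ∃ y, y ∈ ehTube m d (fun i => B i ⊓ ehShB m d c B' i) ∧
      y ∈ ehTube m d (fun i => B i ⊓ ehShB m d c' B' i) := by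
    by_contra hcon
    apply hd
    rw [disjoint_iff]
    ext y
    constructor
    · rintro ⟨h1, h2⟩
      exact (hcon ⟨y, h1, h2⟩).elim
    · intro hy
      exact hy.elim
  obtain ⟨y, ⟨z, hz, rfl⟩, ⟨z', hz', hzz⟩⟩ := hex
  obtain ⟨g, rfl⟩ := (eh_pi_eq_iff m d z' z).1 hzz
  -- z = shift g z',  z' in box (B ⊓ sh c' B'), z in box (B ⊓ sh c B')
  have a1 : ehSh m d g z' ∈ ehBox m d (ehShB m d 0 B) := by
    rw [eh_shB_zero]
    exact fun i => (hz i).1
  have a2 : ehSh m d g z' ∈ ehBox m d (ehShB m d g B) := (eh_sh_box m d g B z').2 (fun i => (hz' i).1)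
  have a3 : ehSh m d g z' ∈ ehBox m d (ehShB m d c B') := fun i => (hz i).2
  have a4 : ehSh m d g z' ∈ ehBox m d (ehShB m d (g + c') B') := by
    rw [← eh_shB_shB]
    exact (eh_sh_box m d g _ z').2 (fun i => (hz' i).2)
  have e1 := eh_shB_eq_of_meet m d B hB _ _ _ a1 a2
  have e2 := eh_shB_eq_of_meet m d B' hB' _ _ _ a3 a4
  rw [eh_shB_zero] at e1
  rw [← eh_tube_shB m d g (fun i => B i ⊓ ehShB m d c' B' i)]
  congr 1
  funext i
  show B i ⊓ ehShB m d c B' i = B (i + g) ⊓ ehShB m d c' B' (i + g)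
  have f1 : B (i + g) = B i := (congrFun e1 i).symm
  have f2 : ehShB m d c' B' (i + g) = ehShB m d c B' i := by
    have := congrFun e2 i
    rw [this]
    simp only [ehShB, add_assoc]
  rw [f1, f2]

/-- the intersection of two basic sets is a finite disjoint union of basic sets -/
theorem eh_tube_inf (m d : ℕ) [NeZero m] (a : Opens (EhY m d)) (ha : a ∈ ehG0 m d) (b : Opens (EhY m d))
    (hb : b ∈ ehG0 m d) :
    ∃ s : Finset (Opens (EhY m d)), (∀ c ∈ s, c ∈ ehG0 m d) ∧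
      (s : Set (Opens (EhY m d))).PairwiseDisjoint id ∧ a ⊓ b = s.sup id := by
  obtain ⟨B, hB, rfl⟩ := ha
  obtain ⟨B', hB', rfl⟩ := hb
  refine ⟨(Finset.univ.filter (fun c : ZMod m =>
      ∀ i, ((B i ⊓ ehShB m d c B' i : Opens (S5Sph d)) : Set (S5Sph d)).Nonempty)).image
      (fun c => ehTube m d (fun i => B i ⊓ ehShB m d c B' i)), ?_, ?_, ?_⟩
  · intro O hO
    obtain ⟨c, hc, rfl⟩ := Finset.mem_image.1 hO
    exact ⟨_, eh_datum_inf m d B _ hB (eh_datum_shB m d c B' hB') (Finset.mem_filter.1 hc).2, rfl⟩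
  · intro K hK K' hK' hne
    obtain ⟨c, -, rfl⟩ := Finset.mem_image.1 (Finset.mem_coe.1 hK)
    obtain ⟨c', -, rfl⟩ := Finset.mem_image.1 (Finset.mem_coe.1 hK')
    rcases eh_tube_alt m d B B' hB hB' c c' with h | h
    · exact absurd h hne
    · exact h
  · ext y
    rw [SetLike.mem_coe, SetLike.mem_coe, eh_mem_finset_sup]
    constructor
    · rintro ⟨⟨z, hz, rfl⟩, ⟨z', hz', hzz⟩⟩
      obtain ⟨c, rfl⟩ := (eh_pi_eq_iff m d z' z).1 hzz
      have hmem : ∀ i, ehSh m d c z' i ∈ B i ⊓ ehShB m d c B' i :=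
        fun i => ⟨hz i, (eh_sh_box m d c B' z').2 hz' i⟩
      refine ⟨_, Finset.mem_image.2 ⟨c, Finset.mem_filter.2 ⟨Finset.mem_univ _, fun i => ⟨_, hmem i⟩⟩, rfl⟩, ?_⟩
      exact ⟨_, hmem, rfl⟩
    · rintro ⟨O, hO, hy⟩
      obtain ⟨c, -, rfl⟩ := Finset.mem_image.1 hO
      obtain ⟨z, hz, rfl⟩ := hy
      refine ⟨⟨z, fun i => (hz i).1, rfl⟩, ?_⟩
      rw [← eh_tube_shB m d c B']
      exact ⟨z, fun i => (hz i).2, rfl⟩


theorem eh_datum_exists (m d : ℕ) [NeZero m] (z : EhZ m d) :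
    ∃ B : ZMod m → Opens (S5Sph d), EhTubeDatum m d B ∧ z ∈ ehBox m d B := by
  -- a uniform constant
  have hc : ∃ c : ℝ, 0 ≤ c ∧ c < 1 ∧ ∀ i j : ZMod m, z i ≠ z j → Disjoint (ehCapAt d (z i) c) (ehCapAt d (z j) c) := by
    have hch : ∀ p : ZMod m × ZMod m, ∃ c0 : ℝ, c0 < 1 ∧ (z p.1 ≠ z p.2 →
        ∀ c, c0 ≤ c → Disjoint (ehCapAt d (z p.1) c) (ehCapAt d (z p.2) c)) := by
      intro p
      by_cases h : z p.1 = z p.2
      · exact ⟨0, one_pos, fun h' => absurd h h'⟩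
      · obtain ⟨c0, h0, h1⟩ := eh_capAt_disjoint d _ _ h
        exact ⟨c0, h0, fun _ => h1⟩
    choose f hf1 hf2 using hch
    refine ⟨Finset.univ.sup' Finset.univ_nonempty (fun p => max 0 (f p)), ?_, ?_, ?_⟩
    · exact le_trans (le_max_left 0 (f (0, 0))) (Finset.le_sup' (fun p => max 0 (f p)) (Finset.mem_univ (0, 0)))
    · rw [Finset.sup'_lt_iff]
      intro p _
      exact max_lt one_pos (hf1 p)
    · intro i j hij
      exact hf2 (i, j) hij _ (le_trans (le_max_right 0 (f (i, j)))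
        (Finset.le_sup' (fun p => max 0 (f p)) (Finset.mem_univ (i, j))))
  obtain ⟨c, hc0, hc1, hdis⟩ := hc
  refine ⟨fun i => ehCapAt d (z i) c, ⟨fun i => eh_conv_capAt d _ c hc0, fun i => ⟨z i, eh_capAt_mem d _ c hc1⟩,
    fun g => ?_⟩, fun i => eh_capAt_mem d _ c hc1⟩
  by_cases h : ∀ i, z (i + g) = z i
  · left
    intro i
    rw [h i]
  · right
    obtain ⟨i, hi⟩ := not_forall.1 h
    exact ⟨i, hdis _ _ hi⟩

/-- finitely many basic sets cover `Y` -/
theorem eh_cover (m d : ℕ) [NeZero m] :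
    ∃ t : Finset (Opens (EhY m d)), (∀ a ∈ t, a ∈ ehG0 m d) ∧ t.sup id = ⊤ := by
  choose Bz hBz hz using eh_datum_exists m d
  have := s5_cyc_compact m (S5Sph d)
  obtain ⟨t, ht⟩ := (isCompact_univ (X := EhY m d)).elim_finite_subcover
    (fun z : EhZ m d => (ehTube m d (Bz z) : Set (EhY m d))) (fun z => (ehTube m d (Bz z)).isOpen) (by
      intro y _
      obtain ⟨z, rfl⟩ := s5_cycMk_surj m (S5Sph d) y
      exact Set.mem_iUnion.2 ⟨z, z, hz z, rfl⟩)
  refine ⟨t.image (fun z => ehTube m d (Bz z)), ?_, ?_⟩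
  · intro a ha
    obtain ⟨z, -, rfl⟩ := Finset.mem_image.1 ha
    exact ⟨_, hBz z, rfl⟩
  · ext y
    rw [SetLike.mem_coe, SetLike.mem_coe, eh_mem_finset_sup]
    constructor
    · intro _
      trivial
    · intro _
      obtain ⟨z, hzt, hy⟩ := Set.mem_iUnion₂.1 (ht (Set.mem_univ y))
      exact ⟨_, Finset.mem_image.2 ⟨z, hzt, rfl⟩, hy⟩

theorem eh_conv_cap (d : ℕ) (c : ℝ) (hc : 0 ≤ c) : EhConv d (ehCapO d c : Set (S5Sph d)) := by
  rw [← eh_capAt_north]
  exact eh_conv_capAt d _ c hc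

theorem eh_datum_cap (m d : ℕ) (c : ℝ) (hc0 : 0 ≤ c) (hc1 : c < 1) :
    EhTubeDatum m d (fun _ => ehCapO d c) :=
  ⟨fun _ => eh_conv_cap d c hc0, fun _ => ⟨s5North d, s5_north_mem_cap d c hc1⟩, fun _ => Or.inl fun _ => rfl⟩

theorem eh_tube_cap (m d : ℕ) [NeZero m] (c : ℝ) : ehTube m d (fun _ => ehCapO d c) = ehCycCapO m d c := by
  ext y
  rfl

end Claimed.Agent.R304
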