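/-
Row 304 (S0559).  Owner: helper13.  SORRY-FREE (modulo the S5Avg/S5Cyc API of helper138).  PACKAGE EhTubeB: convex sets, boxes and tubes are pointlike
(`T.IsPt`), by explicit contractions and `eh_isPt_of_contr` (partial homotopies: only ContinuousOn is needed).
API: s5_nrm_contOn, s5_nrm_of_unit, s5_nrm_coe (S5Avg), s5_cycMk_open/cont/surj/eq_iff/shift (S5Cyc), EhTubeA.

PLAN PER STATEMENT.
* eh_isPt_conv: x0 in B.  H t x := s5Nrm ((1-t) x + t x0).  Continuous on univ ×ˢ B: (t,x) ↦ (1-t) x + t x0 is continuous and maps into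
  {v ≠ 0} (EhConv), s5_nrm_contOn.comp.  H t maps B to B (EhConv), H 0 x = s5Nrm x = x, H 1 x = s5Nrm x0 = x0.
* eh_isPt_box: z0 i in B i.  H t z := fun i => s5Nrm ((1-t) z i + t z0 i); continuity coordinatewise (continuousOn_pi).
* eh_isPt_tube.  pick : Opens S → S, pick O := a point of O if O is nonempty (Classical.choice; depends only on O).  z0 i := pick (B i).
  So B (i+g) = B i for all i implies z0 (i+g) = z0 i.  Ω := π⁻¹ (tube B) = ⋃_c box (ehShB c B) (eh_comap_tube).
  For z in Ω choose c(z) with z in box (ehShB c(z) B) and put ζ z := shift c(z) z0.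
   (a) if z in box (ehShB c B) then ζ z = shift c z0   [eh_box_alt: ehShB c B = ehShB c(z) B, i.e. B (i + c) = B (i + c(z)) for all i, apply pick];
   (b) ζ is constant on each box (ehShB c B), which is an open set: so ζ is continuous on Ω;   (c) ζ (shift g z) = shift g (ζ z) for z in Ω
       [z in box (ehShB c B) gives shift g z in box (ehShB (g + c) B) or (c + g), by eh_sh_box and s5_shift_add];
   (d) (ζ z) i and z i lie in the same convex set B (i + c).
  F t z := fun i => s5Nrm ((1-t) z i + t (ζ z) i): continuous on univ ×ˢ Ω, maps Ω to Ω, F t (shift g z) = shift g (F t z), F 0 z = z, F 1 z = ζ z.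
  Downstairs: out y := a representative (Quotient.out or s5_cycMk_surj), Fbar t y := π (F t (out y)).  For z in Ω: Fbar t (π z) = π (F t z) by (c)
  [out (π z) = shift g z].  Continuity of (t,y) ↦ Fbar t y on univ ×ˢ tube B: at a point (t, π z) use that id × π is an open map:
  `IsOpenMap.prodMap IsOpenMap.id (s5_cycMk_open ..)`; a function k on a neighbourhood of (t, π z) with k ∘ (id × π) continuous at (t,z) is
  continuous at (t, π z)   [ for W a nbhd of k (t, π z): (id × π) '' ((k ∘ (id × π))⁻¹ W) is a nbhd of (t, π z) contained in k⁻¹ W;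
  Mathlib: `IsOpenMap.map_nhds_eq` / `IsOpenQuotientMap.continuousAt_comp_iff` ].
  Fbar 0 y = y, Fbar 1 y = π (ζ z) = π (shift c z0) = π z0 (s5_cycMk_shift).  Apply eh_isPt_of_contr with x0 = π z0.
-/
import Claimed.Agent.R304.EhTubeA

set_option autoImplicit false

namespace Claimed.Agent.R304

open Topology TopologicalSpace
open scoped Classical

universe u

theorem eh_seg_contOn (d : ℕ) {P : Type} [TopologicalSpace P] (τ : P → unitInterval) (a b : P → S5Sph d)
    (s : Set P) (hτ : ContinuousOn τ s) (ha : ContinuousOn a s) (hb : ContinuousOn b s)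
    (hne : ∀ p ∈ s, (1 - (τ p : ℝ)) • (a p : S5E d) + (τ p : ℝ) • (b p : S5E d) ≠ 0) :
    ContinuousOn (fun p => s5Nrm d ((1 - (τ p : ℝ)) • (a p : S5E d) + (τ p : ℝ) • (b p : S5E d))) s := by
  refine (s5_nrm_contOn d).comp ?_ hne
  have h1 : ContinuousOn (fun p => (τ p : ℝ)) s := continuous_subtype_val.comp_continuousOn hτ
  have h2 : ContinuousOn (fun p => (a p : S5E d)) s := continuous_subtype_val.comp_continuousOn ha
  have h3 : ContinuousOn (fun p => (b p : S5E d)) s := continuous_subtype_val.comp_continuousOn hb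
  exact ((continuousOn_const.sub h1).smul h2).add (h1.smul h3)

theorem eh_seg_zero (d : ℕ) (x y : S5Sph d) :
    s5Nrm d ((1 - ((0 : unitInterval) : ℝ)) • (x : S5E d) + ((0 : unitInterval) : ℝ) • (y : S5E d)) = x := by
  simp [s5_nrm_of_unit]

theorem eh_seg_one (d : ℕ) (x y : S5Sph d) :
    s5Nrm d ((1 - ((1 : unitInterval) : ℝ)) • (x : S5E d) + ((1 : unitInterval) : ℝ) • (y : S5E d)) = y := by
  simp [s5_nrm_of_unit]

theorem eh_isPt_conv (T : EhTheory.{u}) (d : ℕ) (B : Opens (S5Sph d)) (hB : EhConv d (B : Set (S5Sph d)))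
    (hne : (B : Set (S5Sph d)).Nonempty) : T.IsPt B := by
  obtain ⟨x0, hx0⟩ := hne
  have hc : ContinuousOn (fun p : unitInterval × S5Sph d =>
      s5Nrm d ((1 - (p.1 : ℝ)) • (p.2 : S5E d) + (p.1 : ℝ) • (x0 : S5E d))) (Set.univ ×ˢ (B : Set (S5Sph d))) :=
    eh_seg_contOn d (P := unitInterval × S5Sph d) (fun p => p.1) (fun p => p.2) (fun _ => x0)
      (Set.univ ×ˢ (B : Set (S5Sph d))) continuousOn_fst continuousOn_snd
      continuousOn_const (fun p hp => (hB _ hp.2 _ hx0 p.1).1)
  refine eh_isPt_of_contr T B x0 hx0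
    (fun t x => s5Nrm d ((1 - (t : ℝ)) • (x : S5E d) + (t : ℝ) • (x0 : S5E d))) hc ?_ ?_ ?_
  · intro t x hx
    exact (hB x hx x0 hx0 t).2
  · intro x _
    exact eh_seg_zero d x x0
  · intro x _
    exact eh_seg_one d x x0

theorem eh_isPt_box (T : EhTheory.{u}) (m d : ℕ) [NeZero m] (B : ZMod m → Opens (S5Sph d))
    (hB : ∀ i, EhConv d (B i : Set (S5Sph d))) (hne : ∀ i, (B i : Set (S5Sph d)).Nonempty) :
    T.IsPt (ehBox m d B) := by
  choose z0 hz0 using hne
  have hc : ContinuousOn (fun p : unitInterval × EhZ m d =>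
      (fun i => s5Nrm d ((1 - (p.1 : ℝ)) • (p.2 i : S5E d) + (p.1 : ℝ) • (z0 i : S5E d)) : EhZ m d))
      (Set.univ ×ˢ (ehBox m d B : Set (EhZ m d))) := by
    apply continuousOn_pi.2
    intro i
    exact eh_seg_contOn d (P := unitInterval × EhZ m d) (fun p => p.1) (fun p => p.2 i) (fun _ => z0 i)
      (Set.univ ×ˢ (ehBox m d B : Set (EhZ m d))) continuousOn_fst
      ((continuous_apply i).comp continuous_snd).continuousOn continuousOn_const
      (fun p hp => (hB i _ (hp.2 i) _ (hz0 i) p.1).1)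
  refine eh_isPt_of_contr T (ehBox m d B) z0 hz0
    (fun t z i => s5Nrm d ((1 - (t : ℝ)) • (z i : S5E d) + (t : ℝ) • (z0 i : S5E d))) hc ?_ ?_ ?_
  · intro t z hz i
    exact (hB i _ (hz i) _ (hz0 i) t).2
  · intro z _
    funext i
    exact eh_seg_zero d _ _
  · intro z _
    funext i
    exact eh_seg_one d _ _

/-- the equivariant contraction of the preimage of a tube -/
theorem eh_tube_contr_up (m d : ℕ) [NeZero m] (B : ZMod m → Opens (S5Sph d)) (hB : EhTubeDatum m d B) :
    ∃ (z0 : EhZ m d) (F : unitInterval → EhZ m d → EhZ m d), z0 ∈ ehBox m d B ∧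
      ContinuousOn (fun p : unitInterval × EhZ m d => F p.1 p.2)
        (Set.univ ×ˢ (Opens.comap (ehPi m d) (ehTube m d B) : Set (EhZ m d))) ∧
      (∀ t, Set.MapsTo (F t) (Opens.comap (ehPi m d) (ehTube m d B) : Set (EhZ m d))
        (Opens.comap (ehPi m d) (ehTube m d B) : Set (EhZ m d))) ∧
      (∀ t g, ∀ z ∈ Opens.comap (ehPi m d) (ehTube m d B), F t (ehSh m d g z) = ehSh m d g (F t z)) ∧
      (∀ z ∈ Opens.comap (ehPi m d) (ehTube m d B), F 0 z = z) ∧
      (∀ z ∈ Opens.comap (ehPi m d) (ehTube m d B), ehPi m d (F 1 z) = ehPi m d z0) := by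
  obtain ⟨pick, hpick⟩ : ∃ pick : Opens (S5Sph d) → S5Sph d,
      ∀ O : Opens (S5Sph d), (O : Set (S5Sph d)).Nonempty → pick O ∈ O :=
    ⟨fun O => if h : (O : Set (S5Sph d)).Nonempty then h.some else s5North d, fun O h => by
      simp only [dif_pos h]
      exact h.some_mem⟩
  obtain ⟨cz, hcz⟩ : ∃ cz : EhZ m d → ZMod m,
      ∀ z, (∃ c, z ∈ ehBox m d (ehShB m d c B)) → z ∈ ehBox m d (ehShB m d (cz z) B) :=
    ⟨fun z => if h : ∃ c, z ∈ ehBox m d (ehShB m d c B) then h.choose else 0, fun z h => by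
      simp only [dif_pos h]
      exact h.choose_spec⟩
  have hF : ∀ (c : ZMod m) (z : EhZ m d), z ∈ ehBox m d (ehShB m d c B) →
      ehShB m d (cz z) B = ehShB m d c B :=
    fun c z hz => eh_shB_eq_of_meet m d B hB _ _ z (hcz z ⟨c, hz⟩) hz
  refine ⟨fun i => pick (B i), fun t z i =>
    s5Nrm d ((1 - (t : ℝ)) • (z i : S5E d) + (t : ℝ) • (pick (ehShB m d (cz z) B i) : S5E d)),
    fun i => hpick _ (hB.ne i), ?_, ?_, ?_, ?_, ?_⟩
  · intro p hp
    obtain ⟨c, hc⟩ := (eh_mem_comap_tube m d B p.2).1 hp.2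
    apply ContinuousAt.continuousWithinAt
    have hopen : IsOpen (Set.univ ×ˢ (ehBox m d (ehShB m d c B) : Set (EhZ m d)) :
        Set (unitInterval × EhZ m d)) := isOpen_univ.prod (ehBox m d _).isOpen
    have hcont : ContinuousOn (fun p : unitInterval × EhZ m d =>
        (fun i => s5Nrm d ((1 - (p.1 : ℝ)) • (p.2 i : S5E d) +
          (p.1 : ℝ) • (pick (ehShB m d c B i) : S5E d)) : EhZ m d))
        (Set.univ ×ˢ (ehBox m d (ehShB m d c B) : Set (EhZ m d))) := by
      apply continuousOn_pi.2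
      intro i
      exact eh_seg_contOn d (P := unitInterval × EhZ m d) (fun p => p.1) (fun p => p.2 i)
        (fun _ => pick (ehShB m d c B i)) (Set.univ ×ˢ (ehBox m d (ehShB m d c B) : Set (EhZ m d))) continuousOn_fst
        ((continuous_apply i).comp continuous_snd).continuousOn continuousOn_const
        (fun p hp => ((hB.conv (i + c)) _ (hp.2 i) _ (hpick _ (hB.ne _)) p.1).1)
    have hmem : p ∈ (Set.univ ×ˢ (ehBox m d (ehShB m d c B) : Set (EhZ m d)) :
        Set (unitInterval × EhZ m d)) := ⟨trivial, hc⟩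
    have hat := hcont.continuousAt (hopen.mem_nhds hmem)
    refine hat.congr ?_
    filter_upwards [hopen.mem_nhds hmem] with q hq
    funext i
    rw [hF c q.2 hq.2]
  · intro t z hz
    obtain ⟨c, hc⟩ := (eh_mem_comap_tube m d B z).1 hz
    refine (eh_mem_comap_tube m d B _).2 ⟨c, fun i => ?_⟩
    show s5Nrm d _ ∈ _
    rw [hF c z hc]
    exact ((hB.conv (i + c)) _ (hc i) _ (hpick _ (hB.ne _)) t).2
  · intro t g z hz
    obtain ⟨c, hc⟩ := (eh_mem_comap_tube m d B z).1 hz
    have hc' : ehSh m d g z ∈ ehBox m d (ehShB m d (g + c) B) := by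
      rw [← eh_shB_shB]
      exact (eh_sh_box m d g _ z).2 hc
    funext i
    show s5Nrm d _ = s5Nrm d _
    rw [hF _ _ hc', hF _ _ hc]
    simp only [eh_sh_apply, ehShB, add_assoc]
  · intro z _
    funext i
    exact eh_seg_zero d _ _
  · intro z _
    have : (fun i => s5Nrm d ((1 - ((1 : unitInterval) : ℝ)) • (z i : S5E d) +
        ((1 : unitInterval) : ℝ) • (pick (ehShB m d (cz z) B i) : S5E d)) : EhZ m d) =
        ehSh m d (cz z) (fun i => pick (B i)) := by
      funext i
      rw [eh_seg_one]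
      rfl
    show ehPi m d (fun i => s5Nrm d ((1 - ((1 : unitInterval) : ℝ)) • (z i : S5E d) +
        ((1 : unitInterval) : ℝ) • (pick (ehShB m d (cz z) B i) : S5E d)) : EhZ m d) = _
    rw [this, eh_pi_sh]

/-- descent of an equivariant partial homotopy to the cyclic power -/
theorem eh_descend (m d : ℕ) [NeZero m] (O : Opens (EhY m d)) (F : unitInterval → EhZ m d → EhZ m d)
    (hc : ContinuousOn (fun p : unitInterval × EhZ m d => F p.1 p.2)
      (Set.univ ×ˢ (Opens.comap (ehPi m d) O : Set (EhZ m d))))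
    (heq : ∀ t g, ∀ z ∈ Opens.comap (ehPi m d) O, F t (ehSh m d g z) = ehSh m d g (F t z)) :
    ∃ Fb : unitInterval → EhY m d → EhY m d,
      (∀ t, ∀ z ∈ Opens.comap (ehPi m d) O, Fb t (ehPi m d z) = ehPi m d (F t z)) ∧
      ContinuousOn (fun p : unitInterval × EhY m d => Fb p.1 p.2) (Set.univ ×ˢ (O : Set (EhY m d))) := by
  have hsurj : Function.Surjective (ehPi m d) := s5_cycMk_surj m (S5Sph d)
  have key : ∀ t, ∀ z ∈ Opens.comap (ehPi m d) O,
      ehPi m d (F t (Function.surjInv hsurj (ehPi m d z))) = ehPi m d (F t z) := by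
    intro t z hz
    obtain ⟨g, hg⟩ := (eh_pi_eq_iff m d z (Function.surjInv hsurj (ehPi m d z))).1
      (Function.surjInv_eq hsurj _).symm
    rw [hg, heq t g z hz, eh_pi_sh]
  refine ⟨fun t y => ehPi m d (F t (Function.surjInv hsurj y)), key, ?_⟩
  rintro ⟨t, y⟩ ⟨-, hy⟩
  obtain ⟨z, rfl⟩ := hsurj y
  apply ContinuousAt.continuousWithinAt
  have hq : IsOpenMap (Prod.map id (ehPi m d) : unitInterval × EhZ m d → unitInterval × EhY m d) :=
    IsOpenMap.id.prodMap (s5_cycMk_open m (S5Sph d))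
  have hqc : Continuous (Prod.map id (ehPi m d) : unitInterval × EhZ m d → unitInterval × EhY m d) :=
    continuous_id.prodMap (ehPi m d).continuous
  have hn := hq.map_nhds_eq (hqc.continuousAt (x := (t, z)))
  have hopen : IsOpen (Set.univ ×ˢ (Opens.comap (ehPi m d) O : Set (EhZ m d)) :
      Set (unitInterval × EhZ m d)) := isOpen_univ.prod (Opens.comap (ehPi m d) O).isOpen
  have hmem : ((t, z) : unitInterval × EhZ m d) ∈
      (Set.univ ×ˢ (Opens.comap (ehPi m d) O : Set (EhZ m d)) : Set (unitInterval × EhZ m d)) := ⟨trivial, hy⟩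
  have hat : ContinuousAt (fun p : unitInterval × EhZ m d => ehPi m d (F p.1 p.2)) (t, z) :=
    (ehPi m d).continuous.continuousAt.comp (hc.continuousAt (hopen.mem_nhds hmem))
  unfold ContinuousAt
  have e : ((t, ehPi m d z) : unitInterval × EhY m d) = Prod.map id (ehPi m d) (t, z) := rfl
  rw [e, ← hn, Filter.tendsto_map'_iff]
  refine Filter.Tendsto.congr' ?_ (by
    have := hat.tendsto
    rw [← key t z hy] at this
    exact this)
  filter_upwards [hopen.mem_nhds hmem] with q hq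
  exact (key q.1 q.2 hq.2).symm

theorem eh_isPt_tube (T : EhTheory.{u}) (m d : ℕ) [NeZero m] (B : ZMod m → Opens (S5Sph d))
    (hB : EhTubeDatum m d B) : T.IsPt (ehTube m d B) := by
  obtain ⟨z0, F, hz0, hc, hm, heq, h0, h1⟩ := eh_tube_contr_up m d B hB
  obtain ⟨Fb, hFb, hFc⟩ := eh_descend m d (ehTube m d B) F hc heq
  have hlift : ∀ y ∈ ehTube m d B, ∃ z ∈ Opens.comap (ehPi m d) (ehTube m d B), ehPi m d z = y := by
    rintro y ⟨z, hz, rfl⟩
    exact ⟨z, eh_box_le_comap m d B hz, rfl⟩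
  refine eh_isPt_of_contr T (ehTube m d B) (ehPi m d z0) ⟨z0, hz0, rfl⟩ Fb hFc ?_ ?_ ?_
  · intro t y hy
    obtain ⟨z, hz, rfl⟩ := hlift y hy
    rw [hFb t z hz]
    exact hm t hz
  · intro y hy
    obtain ⟨z, hz, rfl⟩ := hlift y hy
    rw [hFb 0 z hz, h0 z hz]
  · intro y hy
    obtain ⟨z, hz, rfl⟩ := hlift y hy
    rw [hFb 1 z hz, h1 z hz]

end Claimed.Agent.R304
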