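/-
Row 304 (S0559).  Owner: helper13.  PACKAGE EhOI, SORRY-FREE (helper13): the orbit isomorphism (OI) and (K): the kernel of
`Δ_* : Q_r(S^d; ⊤, cap) → Q_r(Y; ⊤, cap^m/C)` is torsion, in EVERY degree r (helper248's Serre-free route, msg 2679).
EXPORTS for helper138: `eh_K_abs`, `eh_K`, `eh_K_phi`.

NOTATION.  Z = EhZ m d, Y = EhY m d, π = ehPi, M = T.oiM m d (M.V r a = ℚ ⊗ E_r(Z; π⁻¹ a)), M' = T.oiM' m d (ℚ ⊗ E_r(Y; a)),
θ = T.oiTheta = π_*, sh c = T.oiSh c, e = T.oiE = (1/m) ∑_c sh c.  All `app`s unfold (by `rfl` / `show`) to `T.mvPush r f _`.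

PLAN PER STATEMENT.
* eh_oi_sh_add: eh_mv_push_comp with k = ehSh (c + c') (s5_shift_add).     eh_oi_sh_zero: eh_mv_push_id + eh_mv_ext_refl.
* eh_oi_e_sh: e (sh c x) = (1/m) ∑_{c'} sh (c' + c) x; reindex by `Equiv.addRight c` (Fintype.sum_equiv / Equiv.sum_comp).
* eh_oi_e_idem: e (e x) = (1/m) ∑_c e (sh c x) = (1/m) m e x   (map_sum, map_smul, eh_oi_e_sh; (m : ℚ) ≠ 0, Fintype.card (ZMod m) = m).
* eh_oi_theta_sh: π ∘ shift c = π (s5_cycMk_shift), eh_mv_push_comp.       eh_oi_theta_e: average of m equal terms.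
* eh_oi_base: a = tube B, Ω = π⁻¹ a.  A_Ω := ehRat (T.aug r Ω), A_a := ehRat (T.aug r a), A_K := ehRat (T.aug r K) for K = box (ehShB c B).
   (1) A_a ∘ θ = A_Ω (eh_aug_push, on pure tensors or eh_rat_comp);   (2) A_a bijective (eh_isPt_tube, eh_rat_inj, eh_rat_surj);
   (4) A_Ω onto (Ω is nonempty: eh_aug_surj, eh_rat_surj);
   (3) A_Ω x = 0 ⇒ e x = 0:  s := image (c ↦ box (ehShB c B)) univ, Ω = sup s (eh_comap_tube), pairwise disjoint (eh_box_disj).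
       N := the submodule {x in mvV r Z Ω | ∃ y in mvV r Z (box B), e x = e (ext_{box B ≤ Ω} y) ∧ A_Ω x = A_{box B} y}.
       eh_mv_span for T.mv Z (v = Ω): N is everything, because for K = box (ehShB c B) and x_K in mvV r Z K:
       y := mvPush (ehSh (-c)) x_K in mvV r Z (box B)  (eh_sh_box), sh (-c) (ext_{K ≤ Ω} x_K) = ext_{box B ≤ Ω} y (eh_mv_push_ext),
       so e (ext x_K) = e (sh (-c) (ext x_K)) = e (ext y) (eh_oi_e_sh), and A_{box B} y = A_K x_K = A_Ω (ext x_K) (eh_aug_push, eh_aug_ext).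
       Now x in N with A_Ω x = 0: A_{box B} y = 0, so y = 0 (eh_isPt_box, eh_rat_inj), so e x = e (ext 0) = 0.
   Then: θ x = 0 ⇒ A_Ω x = 0 ⇒ e x = 0.  Onto: for y take x with A_Ω x = A_a y; A_a (θ x - y) = 0 ⇒ θ x = y.
* eh_oi_top: eh_bott with P = EhEIso θ e, hbot = eh_mv_bot, hstep = eh_mv_step (eh_oi_e_idem, eh_oi_theta_e), G0 = ehG0, eh_oi_base, eh_tube_inf,
  t from eh_cover.
* eh_K_abs: δ = ehDg.  ξ := 1 ⊗ δ_* x in M.V r ⊤ (push δ with target Opens.comap π ⊤).  θ ξ = 1 ⊗ π_* δ_* x = 1 ⊗ Δ_* x = 0 (push_comp; π ∘ δ = Δ).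
  So e ξ = 0.  sh c ξ = ξ since shift c ∘ δ = δ; so e ξ = ξ.  So ξ = 0; eh_rat_zero_iff: n δ_* x = 0, n ≠ 0; apply (ehPr 0)_*: pr_0 ∘ δ = id, n x = 0.
* eh_K: U = cap, U' = cap^m/C = tube (const cap) (eh_tube_cap), both pointlike (eh_isPt_conv + eh_conv_cap; eh_isPt_tube + eh_datum_cap).
  eh_rel_lift: x = q x1, aug x1 = 0.  q' (Δ_* x1) = Δ_* (q x1) = 0 and aug (Δ_* x1) = aug x1 = 0, so Δ_* x1 = 0 (eh_rel_inj).  eh_K_abs: n x1 = 0; n x = q (n x1) = 0.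
* eh_K_phi: x - y is torsion by eh_K, eh_phi_tors.
-/
import Claimed.Agent.R304.EhTubeB
import Claimed.Agent.R304.EhBott
import Claimed.Agent.R304.EhPhi

set_option autoImplicit false

namespace Claimed.Agent.R304

open Topology TopologicalSpace TensorProduct
open scoped Classical

universe u

theorem eh_oi_sh_apply (T : EhTheory.{u}) (m d : ℕ) [NeZero m] (c : ZMod m) (r : ℤ) (a : Opens (EhY m d))
    (x : (T.oiM m d).V r a) :
    (T.oiSh m d c).app r a x = T.mvPush r (ehSh m d c) (ehSh_mapsTo m d c a) x := rfl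

theorem eh_oi_theta_apply (T : EhTheory.{u}) (m d : ℕ) [NeZero m] (r : ℤ) (a : Opens (EhY m d))
    (x : (T.oiM m d).V r a) :
    (T.oiTheta m d).app r a x = T.mvPush r (ehPi m d) (ehMapsComap (ehPi m d) a) x := rfl

theorem eh_oi_e_apply (T : EhTheory.{u}) (m d : ℕ) [NeZero m] (r : ℤ) (a : Opens (EhY m d))
    (x : (T.oiM m d).V r a) :
    (T.oiE m d).app r a x = (Fintype.card (ZMod m) : ℚ)⁻¹ • ∑ c, (T.oiSh m d c).app r a x := by
  simp [EhTheory.oiE, EhMVHom.avg, LinearMap.smul_apply, LinearMap.sum_apply]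

theorem eh_oi_card_ne (m : ℕ) [NeZero m] : (Fintype.card (ZMod m) : ℚ) ≠ 0 := by
  rw [ZMod.card]
  exact Nat.cast_ne_zero.2 (NeZero.ne m)

theorem eh_oi_sh_add (T : EhTheory.{u}) (m d : ℕ) [NeZero m] (c c' : ZMod m) (r : ℤ) (a : Opens (EhY m d))
    (x : (T.oiM m d).V r a) :
    (T.oiSh m d c).app r a ((T.oiSh m d c').app r a x) = (T.oiSh m d (c + c')).app r a x :=
  eh_mv_push_comp T r (ehSh m d c') (ehSh m d c) (ehSh m d (c + c'))
    (fun z => (s5_shift_add m _ c c' z).symm) _ _ _ x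

theorem eh_oi_e_sh (T : EhTheory.{u}) (m d : ℕ) [NeZero m] (c : ZMod m) (r : ℤ) (a : Opens (EhY m d))
    (x : (T.oiM m d).V r a) :
    (T.oiE m d).app r a ((T.oiSh m d c).app r a x) = (T.oiE m d).app r a x := by
  rw [eh_oi_e_apply, eh_oi_e_apply]
  congr 1
  simp only [eh_oi_sh_add]
  exact Equiv.sum_comp (Equiv.addRight c) (fun c'' => (T.oiSh m d c'').app r a x)

theorem eh_oi_e_fix (T : EhTheory.{u}) (m d : ℕ) [NeZero m] (r : ℤ) (a : Opens (EhY m d))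
    (x : (T.oiM m d).V r a) (hx : ∀ c, (T.oiSh m d c).app r a x = x) : (T.oiE m d).app r a x = x := by
  rw [eh_oi_e_apply]
  simp only [hx, Finset.sum_const, Finset.card_univ]
  rw [← Nat.cast_smul_eq_nsmul ℚ, smul_smul, inv_mul_cancel₀ (eh_oi_card_ne m), one_smul]

theorem eh_oi_e_idem (T : EhTheory.{u}) (m d : ℕ) [NeZero m] (r : ℤ) (a : Opens (EhY m d))
    (x : (T.oiM m d).V r a) :
    (T.oiE m d).app r a ((T.oiE m d).app r a x) = (T.oiE m d).app r a x := by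
  conv_lhs => rw [eh_oi_e_apply T m d r a x]
  rw [map_smul, map_sum]
  simp only [eh_oi_e_sh, Finset.sum_const, Finset.card_univ]
  rw [← Nat.cast_smul_eq_nsmul ℚ, smul_smul, inv_mul_cancel₀ (eh_oi_card_ne m), one_smul]

theorem eh_oi_theta_sh (T : EhTheory.{u}) (m d : ℕ) [NeZero m] (c : ZMod m) (r : ℤ) (a : Opens (EhY m d))
    (x : (T.oiM m d).V r a) :
    (T.oiTheta m d).app r a ((T.oiSh m d c).app r a x) = (T.oiTheta m d).app r a x :=
  eh_mv_push_comp T r (ehSh m d c) (ehPi m d) (ehPi m d)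
    (fun z => (s5_cycMk_shift m _ c z).symm) _ _ _ x

theorem eh_oi_theta_e (T : EhTheory.{u}) (m d : ℕ) [NeZero m] (r : ℤ) (a : Opens (EhY m d))
    (x : (T.oiM m d).V r a) :
    (T.oiTheta m d).app r a ((T.oiE m d).app r a x) = (T.oiTheta m d).app r a x := by
  rw [eh_oi_e_apply, map_smul, map_sum]
  simp only [eh_oi_theta_sh, Finset.sum_const, Finset.card_univ]
  rw [← Nat.cast_smul_eq_nsmul ℚ, smul_smul, inv_mul_cancel₀ (eh_oi_card_ne m), one_smul]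
theorem eh_raug_ext (T : EhTheory.{u}) (r : ℤ) {X : Type} [TopologicalSpace X] [EhSp X] {V V' : Opens X}
    (h : V ≤ V') (x : T.mvV r X V) : ehRat (T.aug r V') (T.mvExt r h x) = ehRat (T.aug r V) x := by
  rw [EhTheory.mvExt, ← eh_rat_comp]
  exact eh_rat_congr _ _ (fun y => eh_aug_ext T r h y) x

theorem eh_raug_push (T : EhTheory.{u}) (r : ℤ) {X Y : Type} [TopologicalSpace X] [EhSp X]
    [TopologicalSpace Y] [EhSp Y] (f : C(X, Y)) {V : Opens X} {V' : Opens Y}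
    (hV : Set.MapsTo f (V : Set X) (V' : Set Y)) (x : T.mvV r X V) :
    ehRat (T.aug r V') (T.mvPush r f hV x) = ehRat (T.aug r V) x := by
  rw [EhTheory.mvPush, ← eh_rat_comp]
  exact eh_rat_congr _ _ (fun y => eh_aug_push T r f hV _ y) x

/-- the key of the base case: an element of `ℚ ⊗ E_r(Z; π⁻¹ tube)` with augmentation zero is killed by the average -/
theorem eh_oi_base_key (T : EhTheory.{u}) (m d : ℕ) [NeZero m] (B : ZMod m → Opens (S5Sph d))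
    (hB : EhTubeDatum m d B) (r : ℤ) (x : T.mvV r (EhZ m d) (Opens.comap (ehPi m d) (ehTube m d B)))
    (hx : ehRat (T.aug r (Opens.comap (ehPi m d) (ehTube m d B))) x = 0) :
    (T.oiE m d).app r (ehTube m d B) x = 0 := by
  have hK0 : ehBox m d B ≤ Opens.comap (ehPi m d) (ehTube m d B) := eh_box_le_comap m d B
  let E : T.mvV r (EhZ m d) (Opens.comap (ehPi m d) (ehTube m d B)) →ₗ[ℚ]
      T.mvV r (EhZ m d) (Opens.comap (ehPi m d) (ehTube m d B)) := (T.oiE m d).app r (ehTube m d B)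
  let N : Submodule ℚ (T.mvV r (EhZ m d) (Opens.comap (ehPi m d) (ehTube m d B))) :=
    { carrier := {x | ∃ y : T.mvV r (EhZ m d) (ehBox m d B), E x = E (T.mvExt r hK0 y) ∧
        ehRat (T.aug r (Opens.comap (ehPi m d) (ehTube m d B))) x = ehRat (T.aug r (ehBox m d B)) y}
      add_mem' := by
        rintro x x' ⟨y, h1, h2⟩ ⟨y', h1', h2'⟩
        exact ⟨y + y', by rw [map_add, map_add, map_add, h1, h1'], by rw [map_add, map_add, h2, h2']⟩
      zero_mem' := ⟨0, by simp, by simp⟩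
      smul_mem' := by
        rintro q x ⟨y, h1, h2⟩
        exact ⟨q • y, by rw [map_smul, map_smul, map_smul, h1], by rw [map_smul, map_smul, h2]⟩ }
  have hall : ∀ z : T.mvV r (EhZ m d) (Opens.comap (ehPi m d) (ehTube m d B)), z ∈ N := by
    intro z
    refine eh_mv_span (T.mv (EhZ m d)) r _ (eh_box_disj m d B hB) _ (eh_comap_tube m d B) N ?_ z
    intro K hK h w
    obtain ⟨c, -, rfl⟩ := Finset.mem_image.1 hK
    refine ⟨T.mvPush r (ehSh m d (-c)) (eh_sh_neg_mapsTo m d c B) w, ?_, ?_⟩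
    · have h1 : T.mvPush r (ehSh m d (-c)) (ehSh_mapsTo m d (-c) (ehTube m d B)) (T.mvExt r h w) =
          T.mvExt r hK0 (T.mvPush r (ehSh m d (-c)) (eh_sh_neg_mapsTo m d c B) w) :=
        eh_mv_push_ext T r (ehSh m d (-c)) h hK0 _ _ w
      have h2 : E (T.mvPush r (ehSh m d (-c)) (ehSh_mapsTo m d (-c) (ehTube m d B)) (T.mvExt r h w)) =
          E (T.mvExt r h w) := eh_oi_e_sh T m d (-c) r (ehTube m d B) (T.mvExt r h w)
      rw [h1] at h2
      exact h2.symm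
    · exact (eh_raug_ext T r h w).trans (eh_raug_push T r _ _ w).symm
  obtain ⟨y, h1, h2⟩ := hall x
  have hy : y = 0 := by
    have hinj := eh_rat_inj _ (eh_isPt_box T m d B hB.conv hB.ne r).1
    apply hinj
    rw [← h2, map_zero]
    exact hx
  rw [hy, map_zero, map_zero] at h1
  exact h1

/-- the base case of the induction: tubes -/
theorem eh_oi_base (T : EhTheory.{u}) (m d : ℕ) [NeZero m] (B : ZMod m → Opens (S5Sph d))
    (hB : EhTubeDatum m d B) : EhEIso (T.oiTheta m d) (T.oiE m d) (ehTube m d B) := by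
  intro r
  have hA : ∀ x : T.mvV r (EhZ m d) (Opens.comap (ehPi m d) (ehTube m d B)),
      ehRat (T.aug r (ehTube m d B)) (T.mvPush r (ehPi m d) (ehMapsComap (ehPi m d) (ehTube m d B)) x) =
        ehRat (T.aug r (Opens.comap (ehPi m d) (ehTube m d B))) x :=
    fun x => eh_raug_push T r (ehPi m d) _ x
  have hinj := eh_rat_inj _ (eh_isPt_tube T m d B hB r).1
  constructor
  · intro x hx
    apply eh_oi_base_key T m d B hB r x
    have hx' : T.mvPush r (ehPi m d) (ehMapsComap (ehPi m d) (ehTube m d B)) x = 0 := hx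
    have h2 := hA x
    rw [hx', map_zero] at h2
    exact h2.symm
  · intro y
    have hne : ((Opens.comap (ehPi m d) (ehTube m d B) : Opens (EhZ m d)) : Set (EhZ m d)).Nonempty := by
      choose z hz using hB.ne
      exact ⟨z, eh_box_le_comap m d B (fun i => hz i)⟩
    obtain ⟨x, hx⟩ := eh_rat_surj _ (eh_aug_surj T r _ hne) (ehRat (T.aug r (ehTube m d B)) y)
    refine ⟨x, hinj ?_⟩
    exact (hA x).trans hx
/-- (OI) the orbit isomorphism -/
theorem eh_oi_top (T : EhTheory.{u}) (m d : ℕ) [NeZero m] : EhEIso (T.oiTheta m d) (T.oiE m d) ⊤ := by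
  obtain ⟨t, ht, htop⟩ := eh_cover m d
  rw [← htop]
  refine eh_bott (EhEIso (T.oiTheta m d) (T.oiE m d)) (eh_mv_bot _ _)
    (fun a b => eh_mv_step _ _ (eh_oi_e_idem T m d) (eh_oi_theta_e T m d) a b) (ehG0 m d) ?_
    (eh_tube_inf m d) t ht
  rintro a ⟨B, hB, rfl⟩
  exact eh_oi_base T m d B hB

/-- EXPORT (K), absolute form -/
theorem eh_K_abs (T : EhTheory.{u}) (m d : ℕ) [NeZero m] (r : ℤ) (x : T.Q r (S5Sph d) ⊤ ⊥)
    (hx : T.push r (ehDelta m d) (V := ⊤) (U := ⊥) (V' := ⊤) (U' := ⊥) (ehMapsTop _ _)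
      (ehMapsBot _ _) x = 0) : ∃ n : ℕ, n ≠ 0 ∧ n • x = 0 := by
  have hm : Set.MapsTo (ehDg m d) ((⊤ : Opens (S5Sph d)) : Set (S5Sph d))
      ((Opens.comap (ehPi m d) ⊤ : Opens (EhZ m d)) : Set (EhZ m d)) := ehMapsTop _ _
  obtain ⟨ξ0, hξ0⟩ : ∃ ξ0 : T.Q r (EhZ m d) (Opens.comap (ehPi m d) ⊤) ⊥,
      ξ0 = T.push r (ehDg m d) hm (ehMapsBot _ _) x := ⟨_, rfl⟩
  have h1 : T.mvPush r (ehPi m d) (ehMapsComap (ehPi m d) ⊤) ((1 : ℚ) ⊗ₜ[ℤ] ξ0) = 0 := by
    rw [eh_mv_push_tmul, hξ0, eh_push_push T r (ehDg m d) (ehPi m d) (ehDelta m d) (fun _ => rfl) _ _ _ _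
      (ehMapsTop _ _) (ehMapsBot _ _) x, hx, TensorProduct.tmul_zero]
  have h2 : (T.oiE m d).app r ⊤ ((1 : ℚ) ⊗ₜ[ℤ] ξ0) = 0 := (eh_oi_top T m d r).1 _ h1
  have h3 : (T.oiE m d).app r ⊤ ((1 : ℚ) ⊗ₜ[ℤ] ξ0) = (1 : ℚ) ⊗ₜ[ℤ] ξ0 := by
    apply eh_oi_e_fix
    intro c
    have : T.mvPush r (ehSh m d c) (ehSh_mapsTo m d c ⊤) ((1 : ℚ) ⊗ₜ[ℤ] ξ0) = (1 : ℚ) ⊗ₜ[ℤ] ξ0 := by
      rw [eh_mv_push_tmul, hξ0, eh_push_push T r (ehDg m d) (ehSh m d c) (ehDg m d) (fun _ => rfl) _ _ _ _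
        hm (ehMapsBot _ _) x]
    exact this
  obtain ⟨n, hn, hn0⟩ := (eh_rat_zero_iff ξ0).1 (h3.symm.trans h2)
  refine ⟨n, hn, ?_⟩
  have h4 : T.push r (ehPr m d 0) (V := Opens.comap (ehPi m d) ⊤) (U := ⊥) (V' := ⊤) (U' := ⊥)
      (ehMapsTop _ _) (ehMapsBot _ _) ξ0 = x := by
    rw [hξ0, eh_push_push T r (ehDg m d) (ehPr m d 0) (ContinuousMap.id _) (fun _ => rfl) _ _ _ _
      (ehMapsId le_rfl) (ehMapsId le_rfl) x]
    exact T.push_id r _ _ x
  rw [← h4, ← map_nsmul, hn0, map_zero]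

/-- EXPORT (K), relative form -/
theorem eh_K (T : EhTheory.{u}) (m d : ℕ) [NeZero m] (r : ℤ) (c : ℝ) (hc0 : 0 ≤ c) (hc1 : c < 1)
    (x : T.Q r (S5Sph d) ⊤ (ehCapO d c))
    (hx : T.push r (ehDelta m d) (V := ⊤) (V' := ⊤) (ehMapsTop _ _) (ehDelta_mapsTo_cap m d c) x = 0) :
    ∃ n : ℕ, n ≠ 0 ∧ n • x = 0 := by
  have hU : T.IsPt (ehCapO d c) :=
    eh_isPt_conv T d _ (eh_conv_cap d c hc0) ⟨s5North d, s5_north_mem_cap d c hc1⟩
  have hU' : T.IsPt (ehCycCapO m d c) := by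
    rw [← eh_tube_cap]
    exact eh_isPt_tube T m d _ (eh_datum_cap m d c hc0 hc1)
  obtain ⟨x1, rfl, ha⟩ := eh_rel_lift T r (le_top : ehCapO d c ≤ ⊤) hU x
  have h1 : T.push r (ehDelta m d) (V := ⊤) (U := ⊥) (V' := ⊤) (U' := ⊥) (ehMapsTop _ _)
      (ehMapsBot _ _) x1 = 0 := by
    apply eh_rel_inj T r (le_top : ehCycCapO m d c ≤ ⊤) hU'
    · rw [eh_ext_push]
      rw [eh_push_ext] at hx
      exact hx
    · rw [eh_aug_push, ha]
  obtain ⟨n, hn, hn0⟩ := eh_K_abs T m d r x1 h1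
  exact ⟨n, hn, by rw [← map_nsmul, hn0, map_zero]⟩

/-- EXPORT: classes with the same image in the cyclic power have the same `Φ` -/
theorem eh_K_phi (T : EhTheory.{u}) (m d : ℕ) [NeZero m] (r : ℤ) (h : r = d) (c : ℝ) (hc0 : 0 ≤ c) (hc1 : c < 1)
    (hS : s5South d ∉ ehCapO d c) (x y : T.Q r (S5Sph d) ⊤ (ehCapO d c))
    (hxy : T.push r (ehDelta m d) (V := ⊤) (V' := ⊤) (ehMapsTop _ _) (ehDelta_mapsTo_cap m d c) x =
      T.push r (ehDelta m d) (V := ⊤) (V' := ⊤) (ehMapsTop _ _) (ehDelta_mapsTo_cap m d c) y) :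
    T.phi d r h (ehCapO d c) hS x = T.phi d r h (ehCapO d c) hS y := by
  obtain ⟨n, hn, hz⟩ := eh_K T m d r c hc0 hc1 (x - y) (by rw [map_sub, hxy, sub_self])
  have := eh_phi_tors T d r h (ehCapO d c) hS (x - y) n hn hz
  rw [map_sub] at this
  exact sub_eq_zero.1 this

end Claimed.Agent.R304
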