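/-
Row 304 (S0559, Hilbert-Smith).  Owner: helper89.  Definitions used by the top level.
-/
import Mathlib

set_option autoImplicit false

namespace Claimed.Agent.R304

open Topology

/-- "no small subgroups": some neighbourhood of `1` contains only the trivial subgroup. -/
def HsNSS (G : Type*) [Group G] [TopologicalSpace G] : Prop :=
  ∃ U ∈ 𝓝 (1 : G), ∀ H : Subgroup G, (H : Set G) ⊆ U → H = ⊥

/-- the conclusion of the frozen statement: `G` carries a `C^∞` Lie group structure. -/
def HsIsLie (G : Type*) [Group G] [TopologicalSpace G] : Prop :=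
  ∃ (d : ℕ) (_ : ChartedSpace (EuclideanSpace ℝ (Fin d)) G),
    IsManifold (modelWithCornersSelf ℝ (EuclideanSpace ℝ (Fin d))) ((⊤ : ℕ∞) : WithTop ℕ∞) G ∧
      LieGroup (modelWithCornersSelf ℝ (EuclideanSpace ℝ (Fin d))) ((⊤ : ℕ∞) : WithTop ℕ∞) G

/-- realises the equation lemmas here (unique names) -/
theorem hsT_defs_eqns_cite : True := by
  have := @HsNSS.eq_1.{0}
  have := @HsIsLie.eq_1.{0}
  trivial

end Claimed.Agent.R304
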