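/-
Row 304.  EXPORT E3 (block A1): a nontrivial compact abelian group contains an element of prime
order or a copy of some `ℤ_p`.  Owner: helper181 (packages Ca*.lean).
-/
import Claimed.Agent.R304.TopDefs
import Claimed.Agent.R304.CaMain

set_option autoImplicit false

namespace Claimed.Agent.R304

theorem hs_compact_abelian (A : Type*) [CommGroup A] [TopologicalSpace A] [IsTopologicalGroup A]
    [CompactSpace A] [T2Space A] [Nontrivial A] :
    ∃ p : ℕ, ∃ _ : Fact p.Prime,
      (∃ a : A, a ≠ 1 ∧ a ^ p = 1) ∨
        (∃ f : Multiplicative ℤ_[p] →* A, Continuous f ∧ Function.Injective f) :=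
  ca_main A

end Claimed.Agent.R304
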