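/-
Row 304 (S0559).  Owner: helper138.  A compactly supported cohomology theory exists over every field: the Alexander-Spanier model `AsHc` (files `As*.lean`).
This file only assembles the fields (no sorry here).
-/
import Claimed.Agent.R304.AsCube

set_option autoImplicit false

namespace Claimed.Agent.R304

/-- the Alexander-Spanier model of `NmCoh` -/
noncomputable def asNmCoh (k : Type) [Field k] : NmCoh k where
  H q X _ := AsHc k q X
  acg _ _ _ := inferInstance
  mod _ _ _ := inferInstance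
  pull q _ _ _ _ f _ := asHcPull k q f
  ext q _ _ _ _ j _ := asHcExt k q j
  pull_id q X _ _ _ u := as_hc_pull_id q X u
  pull_comp q _ _ _ _ _ _ _ _ _ _ _ _ f g hf hg u := as_hc_pull_comp q f g hf hg u
  ext_id q X _ _ _ u := as_hc_ext_id q X u
  ext_comp q _ _ _ _ _ _ _ _ _ _ _ _ f g hf hg u := as_hc_ext_comp q f g hf hg u
  base_change q _ _ _ _ _ _ _ _ _ _ _ _ _ _ _ _ f j f' j' hf hj hf' hj' hcomm hcart u :=
    as_hc_base_change q f j f' j' hf hj hf' hj' hcomm hcart u
  of_isEmpty q X _ _ u := as_hc_of_isEmpty q X u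
  exact_mid q _ _ _ _ _ _ _ _ _ _ _ _ j i hj hi hr u hu := as_hc_exact_mid q j i hj hi hr u hu
  restr_surj q _ _ _ _ _ _ _ _ _ _ _ _ j i hj hi hr hvan v := as_hc_restr_surj q j i hj hi hr hvan v
  mv_surj q _ _ _ _ _ _ _ _ _ _ _ _ _ _ _ _ j₁ j₂ j₁₂ hj₁ hj₂ hj₁₂ hcov hint hvan u :=
    as_hc_mv_surj q j₁ j₂ j₁₂ hj₁ hj₂ hj₁₂ hcov hint hvan u
  cont q X _ _ _ ι _ U hU hdir hcov u := as_hc_cont q X ι U hU hdir hcov u
  htpy q X _ _ _ _ _ u := as_hc_htpy q X u
  box_vanish n q a b hq u := as_hc_box_other n q a b (Nat.ne_of_gt hq) u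
  box_top n a b hab := as_hc_box_top n a b hab

theorem as_nmCoh_eqns_cite : True := by
  have := @asNmCoh.eq_1
  trivial

theorem nm_coh_exists (k : Type) [Field k] : Nonempty (NmCoh k) := ⟨asNmCoh k⟩

end Claimed.Agent.R304
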