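/-
Row 304 (S0559).  Owner: helper138 (statements), helper13 (proofs).  SORRY-FREE (modulo nm_coh_exists = the As chain).  PACKAGE NmLocal: the two local Newman theorems from `nm_core`.

`nm_type_I`, `nm_type_II` : for a connected type `N` with an embedding `e` onto an o-p-e-n subset of `ℝ^n`, any `C : NmCoh k`, `char k = p`.
`nm_local_I`, `nm_local_II` : for subsets of `ℝ^n` and partially defined `g` (the form used in `NwLocal.lean`), `k = ZMod p`,
`C` from `nm_coh_exists`.
-/
import Claimed.Agent.R304.NmCore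
import Claimed.Agent.R304.NmInst

set_option autoImplicit false

namespace Claimed.Agent.R304

open Topology Set Metric

theorem nm_type_I {k : Type} [Field k] (C : NmCoh k) {n : ℕ} {N : Type} [TopologicalSpace N]
    [ConnectedSpace N] (hN : NmEucl n N) (p : ℕ) [Fact p.Prime] [CharP k p] (g : N → N)
    (hg : Continuous g) (hper : ∀ x, g^[p] x = x) (V : Set N) (hV : IsOpen V) (hne : V.Nonempty)
    (hfix : ∀ x ∈ V, g x = x) : ∀ x, g x = x := by
  by_contra hcon
  have hex : ∃ x, g x ≠ x := not_forall.1 hcon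
  have := nm_eucl_t2 hN
  have := nm_eucl_lc hN
  have := hV.locallyCompactSpace
  have : Nonempty V := hne.to_subtype
  have hz : ∀ w : C.H n V, C.ext n (Subtype.val : V → N) hV.isOpenEmbedding_subtypeVal w = 0 := by
    intro w
    have := nm_core C hN p g hg hper hex V hV (fun x hx => by rw [hfix x hx]; exact hx) (id : V → V)
      isProperMap_id (fun x => Subtype.ext (hfix x x.2)) w
    rwa [C.pull_id] at this
  have hsub : Subsingleton (C.H n N) := by
    refine ⟨fun a b => ?_⟩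
    obtain ⟨wa, rfl⟩ := nm_top_surj C hN (Subtype.val : V → N) hV.isOpenEmbedding_subtypeVal a
    obtain ⟨wb, rfl⟩ := nm_top_surj C hN (Subtype.val : V → N) hV.isOpenEmbedding_subtypeVal b
    rw [hz, hz]
  have h1 := nm_top_finrank C hN
  rw [Module.finrank_zero_of_subsingleton] at h1
  exact zero_ne_one h1

/-- the average of the orbit, in the chart `e` -/
noncomputable def nmAvg {n : ℕ} {N : Type} (e : N → EuclideanSpace ℝ (Fin n)) (g : N → N) (p : ℕ)
    (x : N) : EuclideanSpace ℝ (Fin n) :=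
  (p : ℝ)⁻¹ • ∑ i ∈ Finset.range p, e (g^[i] x)

theorem nm_avg_eqns_cite : True := by
  have := @nmAvg.eq_1
  trivial

theorem nm_avg_inv {n : ℕ} {N : Type} (e : N → EuclideanSpace ℝ (Fin n)) (g : N → N) (p : ℕ)
    (hper : ∀ x, g^[p] x = x) (x : N) : nmAvg e g p (g x) = nmAvg e g p x := by
  unfold nmAvg
  congr 1
  have h1 : ∑ i ∈ Finset.range p, e (g^[i] (g x)) = ∑ i ∈ Finset.range p, e (g^[i + 1] x) :=
    Finset.sum_congr rfl fun i _ => by rw [Function.iterate_succ_apply]
  have h2 := Finset.sum_range_succ (fun i => e (g^[i] x)) p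
  have h3 := Finset.sum_range_succ' (fun i => e (g^[i] x)) p
  rw [h1]
  rw [h2, hper] at h3
  exact (add_right_cancel h3).symm

theorem nm_avg_close {n : ℕ} {N : Type} (e : N → EuclideanSpace ℝ (Fin n)) (g : N → N) (p : ℕ)
    (hp : 0 < p) (x : N) (δ : ℝ) (h : ∀ i, ‖e (g^[i] x) - e x‖ < δ) :
    ‖nmAvg e g p x - e x‖ < δ := by
  have hp' : (0 : ℝ) < p := by exact_mod_cast hp
  have e1 : nmAvg e g p x - e x = (p : ℝ)⁻¹ • ∑ i ∈ Finset.range p, (e (g^[i] x) - e x) := by
    rw [Finset.sum_sub_distrib, Finset.sum_const, Finset.card_range, smul_sub, ← Nat.cast_smul_eq_nsmul ℝ,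
      smul_smul, inv_mul_cancel₀ hp'.ne', one_smul]
    rfl
  rw [e1, norm_smul, Real.norm_eq_abs, abs_of_pos (inv_pos.2 hp'), ← div_eq_inv_mul, div_lt_iff₀ hp']
  calc ‖∑ i ∈ Finset.range p, (e (g^[i] x) - e x)‖ ≤ ∑ i ∈ Finset.range p, ‖e (g^[i] x) - e x‖ :=
        norm_sum_le _ _
    _ < ∑ _i ∈ Finset.range p, δ :=
        Finset.sum_lt_sum_of_nonempty (Finset.nonempty_range_iff.2 hp.ne') (fun i _ => h i)
    _ = δ * p := by rw [Finset.sum_const, Finset.card_range, nsmul_eq_mul, mul_comm]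

theorem nm_lin_proper {n : ℕ} {N : Type} [TopologicalSpace N]
    (e : N → EuclideanSpace ℝ (Fin n)) (he : IsOpenEmbedding e) (A : N → EuclideanSpace ℝ (Fin n))
    (hA : Continuous A) (z : EuclideanSpace ℝ (Fin n)) (r : ℝ) (hr : 0 < r)
    (hball : closedBall z r ⊆ range e) (hclose : ∀ x, e x ∈ closedBall z r → ‖A x - e x‖ < r / 4)
    (M : Set (N × unitInterval))
    (hM : M = {y | e y.1 ∈ ball z r ∧
      (1 - (y.2 : ℝ)) • e y.1 + (y.2 : ℝ) • A y.1 ∈ ball z (r / 2)})
    (h : M → ball z (r / 2))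
    (hh : ∀ y : M, (h y : EuclideanSpace ℝ (Fin n)) =
      (1 - (y.1.2 : ℝ)) • e y.1.1 + (y.1.2 : ℝ) • A y.1.1) :
    IsOpen M ∧ IsProperMap h := by
  have hHc : Continuous fun y : N × unitInterval => (1 - (y.2 : ℝ)) • e y.1 + (y.2 : ℝ) • A y.1 := by
    have h1 : Continuous fun y : N × unitInterval => e y.1 := he.continuous.comp continuous_fst
    have h2 : Continuous fun y : N × unitInterval => A y.1 := hA.comp continuous_fst
    have h3 : Continuous fun y : N × unitInterval => (y.2 : ℝ) := continuous_subtype_val.comp continuous_snd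
    exact ((continuous_const.sub h3).smul h1).add (h3.smul h2)
  have hMo : IsOpen M := by
    rw [hM]
    exact (isOpen_ball.preimage (he.continuous.comp continuous_fst)).inter (isOpen_ball.preimage hHc)
  refine ⟨hMo, ?_⟩
  have := (isOpen_ball (x := z) (ε := r / 2)).locallyCompactSpace
  have hhc : Continuous h := by
    rw [IsInducing.subtypeVal.continuous_iff]
    have : Subtype.val ∘ h = (fun y : N × unitInterval => (1 - (y.2 : ℝ)) • e y.1 + (y.2 : ℝ) • A y.1) ∘
        Subtype.val := funext hh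
    rw [this]
    exact hHc.comp continuous_subtype_val
  rw [isProperMap_iff_isCompact_preimage]
  refine ⟨hhc, fun K hK => ?_⟩
  have hK' : IsCompact (Subtype.val '' K : Set (EuclideanSpace ℝ (Fin n))) := hK.image continuous_subtype_val
  set D : Set (N × unitInterval) := {y | e y.1 ∈ closedBall z r ∧
    (1 - (y.2 : ℝ)) • e y.1 + (y.2 : ℝ) • A y.1 ∈ (Subtype.val '' K : Set (EuclideanSpace ℝ (Fin n)))} with hD
  have hDc : IsCompact D := by
    have hc1 : IsCompact (e ⁻¹' closedBall z r) :=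
      (he.isInducing.isCompact_preimage_iff hball).2 (isCompact_closedBall z r)
    have hc2 : IsCompact ((e ⁻¹' closedBall z r) ×ˢ (univ : Set unitInterval)) := hc1.prod isCompact_univ
    apply hc2.of_isClosed_subset
    · exact (isClosed_closedBall.preimage (he.continuous.comp continuous_fst)).inter (hK'.isClosed.preimage hHc)
    · intro y hy
      exact ⟨hy.1, trivial⟩
  have hDM : D ⊆ M := by
    intro y hy
    rw [hM]
    obtain ⟨h1, κ, _, hκ⟩ := hy
    have h2 : (1 - (y.2 : ℝ)) • e y.1 + (y.2 : ℝ) • A y.1 ∈ ball z (r / 2) := hκ ▸ κ.2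
    refine ⟨?_, h2⟩
    have h3 := hclose y.1 h1
    have e1 : e y.1 - ((1 - (y.2 : ℝ)) • e y.1 + (y.2 : ℝ) • A y.1) = (y.2 : ℝ) • (e y.1 - A y.1) := by
      rw [sub_smul, one_smul, smul_sub]
      abel
    have h4 : ‖e y.1 - ((1 - (y.2 : ℝ)) • e y.1 + (y.2 : ℝ) • A y.1)‖ ≤ r / 4 := by
      rw [e1, norm_smul, Real.norm_eq_abs, abs_of_nonneg y.2.2.1, norm_sub_rev]
      have := y.2.2.2
      have := y.2.2.1
      have := norm_nonneg (A y.1 - e y.1)
      nlinarith
    rw [mem_ball, dist_eq_norm] at h2 ⊢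
    calc ‖e y.1 - z‖ ≤ ‖e y.1 - ((1 - (y.2 : ℝ)) • e y.1 + (y.2 : ℝ) • A y.1)‖ +
          ‖(1 - (y.2 : ℝ)) • e y.1 + (y.2 : ℝ) • A y.1 - z‖ := by
          have := norm_add_le (e y.1 - ((1 - (y.2 : ℝ)) • e y.1 + (y.2 : ℝ) • A y.1))
            ((1 - (y.2 : ℝ)) • e y.1 + (y.2 : ℝ) • A y.1 - z)
          rwa [sub_add_sub_cancel] at this
      _ < r := by linarith
  have e2 : h ⁻¹' K = Subtype.val ⁻¹' D := by
    ext y
    constructor
    · intro hy
      have hyM : y.1 ∈ {y : N × unitInterval | e y.1 ∈ ball z r ∧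
          (1 - (y.2 : ℝ)) • e y.1 + (y.2 : ℝ) • A y.1 ∈ ball z (r / 2)} := hM ▸ y.2
      exact ⟨ball_subset_closedBall hyM.1, h y, hy, hh y⟩
    · rintro ⟨_, κ, hκ, hκy⟩
      have : h y = κ := Subtype.ext ((hh y).trans hκy.symm)
      show h y ∈ K
      rw [this]
      exact hκ
  rw [e2]
  exact (IsInducing.subtypeVal.isCompact_preimage_iff (by rw [Subtype.range_coe]; exact hDM)).2 hDc

/-- the inclusion of a slice is proper -/
theorem nm_slice_incl_proper {X : Type} [TopologicalSpace X] (M : Set (X × unitInterval)) (t : unitInterval) :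
    IsProperMap (fun x : {x : X | (x, t) ∈ M} => (⟨(x.1, t), x.2⟩ : M)) := by
  have hc : Continuous (fun x : {x : X | (x, t) ∈ M} => (⟨(x.1, t), x.2⟩ : M)) :=
    (continuous_subtype_val.prodMk continuous_const).subtype_mk _
  have hi : Function.Injective (fun x : {x : X | (x, t) ∈ M} => (⟨(x.1, t), x.2⟩ : M)) := fun a b hab =>
    Subtype.ext (congrArg (fun z : M => z.1.1) hab)
  have hcl : IsClosedMap (fun x : {x : X | (x, t) ∈ M} => (⟨(x.1, t), x.2⟩ : M)) :=
    (nm_slice_proper (X := X) t).isClosedMap.restrictPreimage M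
  exact isProperMap_of_isClosedMap_of_inj hc hi hcl

theorem nm_type_II {k : Type} [Field k] (C : NmCoh k) {n : ℕ} {N : Type} [TopologicalSpace N]
    [ConnectedSpace N] (e : N → EuclideanSpace ℝ (Fin n)) (he : IsOpenEmbedding e)
    (p : ℕ) [Fact p.Prime] [CharP k p] (g : N → N)
    (hg : Continuous g) (hper : ∀ x, g^[p] x = x) (z : EuclideanSpace ℝ (Fin n)) (r : ℝ)
    (hr : 0 < r) (hball : closedBall z r ⊆ range e)
    (hsmall : ∀ x, e x ∈ closedBall z r → ∀ i, ‖e (g^[i] x) - e x‖ < r / 4) : ∀ x, g x = x := by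
  by_contra hcon
  have hex : ∃ x, g x ≠ x := not_forall.1 hcon
  have hp : 0 < p := (Fact.out : p.Prime).pos
  have hN : NmEucl n N := ⟨e, he⟩
  have := nm_eucl_t2 hN
  have := nm_eucl_lc hN
  have := (isOpen_ball (x := z) (ε := r / 2)).locallyCompactSpace
  set A : N → EuclideanSpace ℝ (Fin n) := nmAvg e g p with hAdef
  have hA : Continuous A := by
    show Continuous fun x => (p : ℝ)⁻¹ • ∑ i ∈ Finset.range p, e (g^[i] x)
    have hs : Continuous fun x => ∑ i ∈ Finset.range p, e (g^[i] x) :=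
      continuous_finsetSum _ fun i _ => he.continuous.comp (hg.iterate i)
    exact hs.const_smul ((p : ℝ)⁻¹)
  have hAinv : ∀ x, A (g x) = A x := nm_avg_inv e g p hper
  have hclose : ∀ x, e x ∈ closedBall z r → ‖A x - e x‖ < r / 4 := fun x hx =>
    nm_avg_close e g p hp x _ (hsmall x hx)
  set M : Set (N × unitInterval) := {y | e y.1 ∈ ball z r ∧
      (1 - (y.2 : ℝ)) • e y.1 + (y.2 : ℝ) • A y.1 ∈ ball z (r / 2)} with hM
  let h : M → ball z (r / 2) := fun y => ⟨_, y.2.2⟩
  obtain ⟨hMo, hprop⟩ := nm_lin_proper e he A hA z r hr hball hclose M rfl h (fun _ => rfl)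
  have hMt : ∀ t : unitInterval, IsOpen {x : N | (x, t) ∈ M} := fun t =>
    hMo.preimage (continuous_id.prodMk continuous_const)
  have hht : ∀ t : unitInterval, IsProperMap (fun x : {x : N | (x, t) ∈ M} => h ⟨(x.1, t), x.2⟩) := fun t =>
    hprop.comp (nm_slice_incl_proper M t)
  have key : ∀ w : C.H n (ball z (r / 2)),
      C.ext n Subtype.val (hMt 0).isOpenEmbedding_subtypeVal (C.pull n _ (hht 0) w) = 0 := by
    intro w
    rw [nm_htpy C n M hMo h hprop _ _ (hht 0) (hht 1) (fun _ => rfl) (fun _ => rfl)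
      (hMt 0).isOpenEmbedding_subtypeVal (hMt 1).isOpenEmbedding_subtypeVal w]
    have hmem1 : ∀ x : N, (x, (1 : unitInterval)) ∈ M ↔ e x ∈ ball z r ∧ A x ∈ ball z (r / 2) := by
      intro x
      show (e x ∈ ball z r ∧ (1 - ((1 : unitInterval) : ℝ)) • e x + ((1 : unitInterval) : ℝ) • A x ∈ ball z (r / 2)) ↔ _
      simp
    have hinv : ∀ x ∈ {x : N | (x, (1 : unitInterval)) ∈ M}, g x ∈ {x : N | (x, (1 : unitInterval)) ∈ M} := by
      intro x hx
      obtain ⟨h1, h2⟩ := (hmem1 x).1 hx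
      refine (hmem1 (g x)).2 ⟨?_, by rw [hAinv]; exact h2⟩
      have h3 := hsmall x (ball_subset_closedBall h1) 1
      have h4 := hclose x (ball_subset_closedBall h1)
      rw [Function.iterate_one] at h3
      rw [mem_ball, dist_eq_norm] at h2 ⊢
      have e1 : e (g x) - z = (e (g x) - e x) + (-(A x - e x)) + (A x - z) := by abel
      calc ‖e (g x) - z‖ ≤ ‖e (g x) - e x‖ + ‖A x - e x‖ + ‖A x - z‖ := by
            rw [e1]
            refine (norm_add_le _ _).trans ?_
            refine add_le_add_left ((norm_add_le _ _).trans ?_) _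
            rw [norm_neg]
        _ < r := by linarith
    exact nm_core C hN p g hg hper hex _ (hMt 1) hinv _ (hht 1) (fun x => by
      apply Subtype.ext
      show (1 - ((1 : unitInterval) : ℝ)) • e (g x.1) + ((1 : unitInterval) : ℝ) • A (g x.1) =
        (1 - ((1 : unitInterval) : ℝ)) • e x.1 + ((1 : unitInterval) : ℝ) • A x.1
      rw [hAinv]
      simp) w
  -- the slice at `0`
  have hb2 : ball z (r / 2) ⊆ range e :=
    (ball_subset_closedBall.trans (closedBall_subset_closedBall (by linarith))).trans hball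
  have hM0 : {x : N | (x, (0 : unitInterval)) ∈ M} = e ⁻¹' ball z (r / 2) := by
    ext x
    show (e x ∈ ball z r ∧ (1 - ((0 : unitInterval) : ℝ)) • e x + ((0 : unitInterval) : ℝ) • A x ∈ ball z (r / 2)) ↔ _
    simp only [Set.Icc.coe_zero, sub_zero, one_smul, zero_smul, add_zero, mem_preimage]
    exact ⟨fun h => h.2, fun h => ⟨ball_subset_ball (by linarith) h, h⟩⟩
  obtain ⟨φ', hφ'⟩ := nm_chart_homeo e he _ hb2
  let φ : {x : N | (x, (0 : unitInterval)) ∈ M} ≃ₜ ball z (r / 2) := (Homeomorph.setCongr hM0).trans φ'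
  have hφ : (fun x : {x : N | (x, (0 : unitInterval)) ∈ M} => h ⟨(x.1, 0), x.2⟩) = φ := by
    funext x
    apply Subtype.ext
    show (1 - ((0 : unitInterval) : ℝ)) • e x.1 + ((0 : unitInterval) : ℝ) • A x.1 = ((φ' _ : ball z (r / 2)) : _)
    rw [hφ']
    simp only [Set.Icc.coe_zero, sub_zero, one_smul, zero_smul, add_zero]
    rfl
  have := (hMt 0).locallyCompactSpace
  have : Nonempty {x : N | (x, (0 : unitInterval)) ∈ M} := by
    obtain ⟨x, hx⟩ := hb2 (mem_ball_self (by linarith : 0 < r / 2))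
    refine ⟨⟨x, ?_⟩⟩
    rw [hM0]
    show e x ∈ ball z (r / 2)
    rw [hx]
    exact mem_ball_self (by linarith)
  have hsub : Subsingleton (C.H n N) := by
    have hz : ∀ a : C.H n N, a = 0 := by
      intro a
      obtain ⟨v, rfl⟩ := nm_top_surj C hN Subtype.val (hMt 0).isOpenEmbedding_subtypeVal a
      obtain ⟨w, rfl⟩ := (nm_pull_homeo_bij C n φ).2 v
      rw [← key w]
      congr 1
      exact nm_pull_congr C n _ _ _ _ hφ.symm w
    exact ⟨fun a b => by rw [hz a, hz b]⟩
  have h1 := nm_top_finrank C hN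
  rw [Module.finrank_zero_of_subsingleton] at h1
  exact zero_ne_one h1

theorem nm_restrict_iter {E : Type} (N : Set E) (g : E → E) (hm : MapsTo g N N) (i : ℕ) (x : N) :
    (((hm.restrict g N N)^[i] x : N) : E) = g^[i] x := by
  induction i generalizing x with
  | zero => rfl
  | succ i ih =>
    rw [Function.iterate_succ_apply, ih, Function.iterate_succ_apply]
    rfl

theorem nm_local_I (n p : ℕ) (hp : p.Prime) (N : Set (EuclideanSpace ℝ (Fin n)))
    (g : EuclideanSpace ℝ (Fin n) → EuclideanSpace ℝ (Fin n)) (hN : IsOpen N) (hne : N.Nonempty)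
    (hc : IsPreconnected N) (hm : MapsTo g N N) (hg : ContinuousOn g N)
    (hper : ∀ x ∈ N, g^[p] x = x)
    (V : Set (EuclideanSpace ℝ (Fin n))) (hV : IsOpen V) (hVne : V.Nonempty) (hVN : V ⊆ N)
    (hfix : ∀ x ∈ V, g x = x) : ∀ x ∈ N, g x = x := by
  have : Fact p.Prime := ⟨hp⟩
  obtain ⟨C⟩ := nm_coh_exists (ZMod p)
  have : ConnectedSpace N := isConnected_iff_connectedSpace.1 ⟨hne, hc⟩
  have hg' : Continuous (hm.restrict g N N) := hg.mapsToRestrict hm
  obtain ⟨v, hv⟩ := hVne
  have key := nm_type_I C (⟨Subtype.val, hN.isOpenEmbedding_subtypeVal⟩ : NmEucl n N) p (hm.restrict g N N) hg'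
    (fun x => Subtype.ext (by rw [nm_restrict_iter]; exact hper x x.2)) (Subtype.val ⁻¹' V)
    (hV.preimage continuous_subtype_val) ⟨⟨v, hVN hv⟩, hv⟩ (fun x hx => Subtype.ext (hfix x hx))
  intro x hx
  exact congrArg Subtype.val (key ⟨x, hx⟩)

theorem nm_local_II (n p : ℕ) (hp : p.Prime) (N : Set (EuclideanSpace ℝ (Fin n)))
    (g : EuclideanSpace ℝ (Fin n) → EuclideanSpace ℝ (Fin n)) (hN : IsOpen N)
    (hc : IsPreconnected N) (hm : MapsTo g N N) (hg : ContinuousOn g N)
    (hper : ∀ x ∈ N, g^[p] x = x)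
    (z : EuclideanSpace ℝ (Fin n)) (r : ℝ) (hr : 0 < r) (hball : closedBall z r ⊆ N)
    (hsmall : ∀ x ∈ closedBall z r, ∀ i, ‖g^[i] x - x‖ < r / 4) : ∀ x ∈ N, g x = x := by
  have : Fact p.Prime := ⟨hp⟩
  obtain ⟨C⟩ := nm_coh_exists (ZMod p)
  have hne : N.Nonempty := ⟨z, hball (mem_closedBall_self hr.le)⟩
  have : ConnectedSpace N := isConnected_iff_connectedSpace.1 ⟨hne, hc⟩
  have hg' : Continuous (hm.restrict g N N) := hg.mapsToRestrict hm
  have key := nm_type_II C (Subtype.val : N → _) hN.isOpenEmbedding_subtypeVal p (hm.restrict g N N) hg'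
    (fun x => Subtype.ext (by rw [nm_restrict_iter]; exact hper x x.2)) z r hr
    (by rw [Subtype.range_coe]; exact hball) (fun x hx i => by
      rw [nm_restrict_iter]
      exact hsmall x hx i)
  intro x hx
  exact congrArg Subtype.val (key ⟨x, hx⟩)

end Claimed.Agent.R304
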