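/-
Row 304 (S0559).  LOCAL NEWMAN THEOREMS (interface between the cohomological proof, owner helper138,
and the manifold level `NwGlobal.lean`, owner helper89).

`Γ = ℤ/p` acts on a connected open `N ⊆ ℝ^n` through the periodic map `g`.
* `nw_local_I`  : if `g` fixes a nonempty open subset pointwise, `g = id` on `N`.
* `nw_local_II` : if `N` contains the closed unit ball and all orbits have diameter `≤ ε(n)`,
                  `g = id` on `N`.
Proof (helper248, msg 2679; `k = 𝔽_p`, compactly supported cohomology `H = H^n_c(·; k)`), `F = Fix g ≠ N`: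
(1) `H(N) = k`, generated by the class of any ball; `g^*` acts by `ε` with `ε^p = 1`, so `ε = 1`.
(2) `H(N \ F) → H(N)` is onto, so `H(F) = 0`, so `H((N \ F)/Γ) → H(N/Γ)` is onto.
(3) `H` of the manifold `(N \ F)/Γ` is spanned by classes `e` of evenly covered opens, and
    `q^* e = ∑_i (g^i)^* e = p e = 0` in `H(N)`.  Hence `q^* = 0` on `H(N/Γ)`.
(4) I: a ball `b` fixed pointwise gives a class of `N/Γ` with `q^* ≠ 0`.  II: the pinch map of the unit
    ball, averaged over `Γ` and normalised, is `Γ`-invariant and homotopic (constant off a compact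
    set) to the pinch; again `q^* ≠ 0`.
-/
import Claimed.Agent.R304.TopDefs
import Claimed.Agent.R304.NmLocal

set_option autoImplicit false

namespace Claimed.Agent.R304

open Topology Set Metric

/-- `g` restricts to a continuous self-map of period `p` of the nonempty connected open set `N`. -/
structure NwPer (n p : ℕ) (N : Set (EuclideanSpace ℝ (Fin n)))
    (g : EuclideanSpace ℝ (Fin n) → EuclideanSpace ℝ (Fin n)) : Prop where
  isOpen : IsOpen N
  nonempty : N.Nonempty
  preconn : IsPreconnected N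
  mapsTo : MapsTo g N N
  cont : ContinuousOn g N
  per : ∀ x ∈ N, g^[p] x = x

theorem nw_local_I (n p : ℕ) (hp : p.Prime) (N : Set (EuclideanSpace ℝ (Fin n)))
    (g : EuclideanSpace ℝ (Fin n) → EuclideanSpace ℝ (Fin n)) (h : NwPer n p N g)
    (V : Set (EuclideanSpace ℝ (Fin n))) (hV : IsOpen V) (hne : V.Nonempty) (hVN : V ⊆ N)
    (hfix : ∀ x ∈ V, g x = x) : ∀ x ∈ N, g x = x :=
  nm_local_I n p hp N g h.isOpen h.nonempty h.preconn h.mapsTo h.cont h.per V hV hne hVN hfix

theorem nw_local_II (n : ℕ) : ∃ ε : ℝ, 0 < ε ∧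
    ∀ (p : ℕ) (N : Set (EuclideanSpace ℝ (Fin n)))
      (g : EuclideanSpace ℝ (Fin n) → EuclideanSpace ℝ (Fin n)), p.Prime → NwPer n p N g →
      closedBall (0 : EuclideanSpace ℝ (Fin n)) 1 ⊆ N →
      (∀ x ∈ N, ∀ k : ℕ, ‖g^[k] x - x‖ ≤ ε) → ∀ x ∈ N, g x = x := by
  refine ⟨1 / 8, by norm_num, fun p N g hp h hball hsmall => ?_⟩
  refine nm_local_II n p hp N g h.isOpen h.preconn h.mapsTo h.cont h.per 0 1 one_pos hball ?_
  intro x hx i
  have := hsmall x (hball hx) i
  linarith

end Claimed.Agent.R304
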