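/-
Row 304 (S0559).  Owner: helper89.  PACKAGE NwGlobal, PROVED: from the local Newman theorems
(`NwLocal.lean`, black boxes `nw_local_I`, `nw_local_II`) to export E2 (`hs_newman`, wired in
`ExNewman.lean`).

* `nwG_transport` : a periodic homeomorphism near a chart becomes a `NwPer` in the chart.
* `nwG_newman_I`  : GLOBAL NEWMAN I (a homeomorphism of prime period of a connected manifold which
                    fixes a nonempty subset with interior pointwise is the identity): the interior of the fixed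
                    point set is clopen.
* `nwG_main`      : E2 (tube lemma + rescaled chart + saturation of a ball + `nw_local_II`).
-/
import Claimed.Agent.R304.NwLocal

set_option autoImplicit false
set_option linter.unusedSectionVars false

namespace Claimed.Agent.R304

open Topology Set Metric

section

variable {n : ℕ} {X : Type*} [TopologicalSpace X] [T2Space X]
  [ChartedSpace (EuclideanSpace ℝ (Fin n)) X]

/-- iterates of a periodic map are invertible -/
theorem nwG_iterate_inv (h : X → X) (p : ℕ) (hp : 0 < p) (hper : ∀ x, h^[p] x = x) (k : ℕ) (x : X) :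
    h^[k] (h^[(p - 1) * k] x) = x ∧ h^[(p - 1) * k] (h^[k] x) = x := by
  have hid : ∀ (m : ℕ) (y : X), h^[p * m] y = y := by
    intro m y
    rw [Function.iterate_mul]
    have : h^[p] = id := funext hper
    rw [this, Function.iterate_id]
    rfl
  have e1 : k + (p - 1) * k = p * k := by
    obtain ⟨q, rfl⟩ : ∃ q, p = q + 1 := ⟨p - 1, by omega⟩
    simp
    ring
  constructor
  · rw [← Function.iterate_add_apply, e1, hid]
  · rw [← Function.iterate_add_apply, add_comm, e1, hid]

theorem nwG_isOpen_image (h : X → X) (hc : Continuous h) (p : ℕ) (hp : 0 < p)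
    (hper : ∀ x, h^[p] x = x) (k : ℕ) {B : Set X} (hB : IsOpen B) : IsOpen (h^[k] '' B) := by
  have : h^[k] '' B = h^[(p - 1) * k] ⁻¹' B := by
    ext y
    constructor
    · rintro ⟨x, hx, rfl⟩
      show h^[(p - 1) * k] (h^[k] x) ∈ B
      rw [(nwG_iterate_inv h p hp hper k x).2]
      exact hx
    · intro hy
      exact ⟨_, hy, (nwG_iterate_inv h p hp hper k y).1⟩
  rw [this]
  exact hB.preimage (hc.iterate _)

theorem nwG_transport (e : OpenPartialHomeomorph X (EuclideanSpace ℝ (Fin n))) (h : X → X)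
    (hc : Continuous h) (p : ℕ) (hp : 0 < p) (hper : ∀ x, h^[p] x = x) (B : Set X) (hB : IsOpen B)
    (hBne : B.Nonempty) (hBc : IsPreconnected B) (hsrc : ∀ k : ℕ, h^[k] '' B ⊆ e.source)
    (hmeet : ∀ k : ℕ, (h^[k] '' B ∩ B).Nonempty) :
    NwPer n p (e '' ⋃ k : ℕ, h^[k] '' B) (fun y => e (h (e.symm y))) ∧
      ∀ (j : ℕ), ∀ x ∈ ⋃ k : ℕ, h^[k] '' B,
        (fun y => e (h (e.symm y)))^[j] (e x) = e (h^[j] x) := by
  set O : Set X := ⋃ k : ℕ, h^[k] '' B with hO
  have hOsrc : O ⊆ e.source := iUnion_subset hsrc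
  have hOopen : IsOpen O := isOpen_iUnion fun k => nwG_isOpen_image h hc p hp hper k hB
  have hBO : B ⊆ O := by
    intro x hx
    exact mem_iUnion.2 ⟨0, x, hx, rfl⟩
  have hOinv : ∀ x ∈ O, h x ∈ O := by
    intro x hx
    obtain ⟨k, b, hb, rfl⟩ := mem_iUnion.1 hx
    refine mem_iUnion.2 ⟨k + 1, b, hb, ?_⟩
    rw [Function.iterate_succ_apply']
  have hOinv' : ∀ (j : ℕ), ∀ x ∈ O, h^[j] x ∈ O := by
    intro j
    induction j with
    | zero => intro x hx; exact hx
    | succ j ih =>
      intro x hx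
      rw [Function.iterate_succ_apply']
      exact hOinv _ (ih x hx)
  have hOconn : IsPreconnected O := by
    obtain ⟨b₀, hb₀⟩ := hBne
    have hU : O = ⋃ k : ℕ, (B ∪ h^[k] '' B) := by
      apply Subset.antisymm
      · exact iUnion_mono fun k => subset_union_right
      · exact iUnion_subset fun k => union_subset hBO (subset_iUnion (fun k => h^[k] '' B) k)
    rw [hU]
    apply isPreconnected_iUnion ⟨b₀, mem_iInter.2 fun k => Or.inl hb₀⟩
    · intro k
      obtain ⟨y, hy1, hy2⟩ := hmeet k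
      exact IsPreconnected.union y hy2 hy1 hBc (hBc.image _ (hc.iterate k).continuousOn)
  have hg : ∀ x ∈ O, (fun y => e (h (e.symm y))) (e x) = e (h x) := by
    intro x hx
    show e (h (e.symm (e x))) = e (h x)
    rw [e.left_inv (hOsrc hx)]
  have hiter : ∀ (j : ℕ), ∀ x ∈ O, (fun y => e (h (e.symm y)))^[j] (e x) = e (h^[j] x) := by
    intro j
    induction j with
    | zero => intro x _; rfl
    | succ j ih =>
      intro x hx
      rw [Function.iterate_succ_apply', ih x hx, Function.iterate_succ_apply']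
      exact hg _ (hOinv' j x hx)
  refine ⟨⟨?_, ?_, ?_, ?_, ?_, ?_⟩, hiter⟩
  · exact e.isOpen_image_of_subset_source hOopen hOsrc
  · exact (hBne.mono hBO).image _
  · exact hOconn.image _ (e.continuousOn.mono hOsrc)
  · rintro _ ⟨x, hx, rfl⟩
    rw [hg x hx]
    exact ⟨h x, hOinv x hx, rfl⟩
  · have h1 : ContinuousOn e.symm (e '' O) :=
      e.continuousOn_symm.mono (by
        rintro _ ⟨x, hx, rfl⟩
        exact e.map_source (hOsrc hx))
    have h2 : MapsTo e.symm (e '' O) O := by
      rintro _ ⟨x, hx, rfl⟩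
      rw [e.left_inv (hOsrc hx)]
      exact hx
    have h3 : ContinuousOn (fun x => e (h x)) O :=
      (e.continuousOn.mono hOsrc).comp hc.continuousOn (fun x hx => hOinv x hx)
    exact h3.comp h1 h2
  · rintro _ ⟨x, hx, rfl⟩
    rw [hiter p x hx, hper]

theorem nwG_ball (e : OpenPartialHomeomorph X (EuclideanSpace ℝ (Fin n))) (x : X)
    (hx : x ∈ e.source) {r : ℝ} (hr : 0 < r) (hball : ball (e x) r ⊆ e.target) :
    IsOpen (e.symm '' ball (e x) r) ∧ IsPreconnected (e.symm '' ball (e x) r) ∧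
      x ∈ e.symm '' ball (e x) r ∧ e.symm '' ball (e x) r ⊆ e.source := by
  refine ⟨?_, ?_, ?_, ?_⟩
  · exact e.symm.isOpen_image_of_subset_source isOpen_ball hball
  · exact (convex_ball (e x) r).isPreconnected.image _ (e.continuousOn_symm.mono hball)
  · exact ⟨e x, mem_ball_self hr, e.left_inv hx⟩
  · rintro _ ⟨y, hy, rfl⟩
    exact e.map_target (hball hy)

theorem nwG_iterate_mod (h : X → X) (p : ℕ) (hper : ∀ x, h^[p] x = x) (k : ℕ) (x : X) :
    h^[k] x = h^[k % p] x := by
  conv_lhs => rw [← Nat.mod_add_div k p]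
  rw [Function.iterate_add_apply, Function.iterate_mul]
  have : h^[p] = id := funext hper
  rw [this, Function.iterate_id]
  rfl

theorem nwG_newman_I (n : ℕ) {X : Type*} [TopologicalSpace X] [T2Space X]
    [ChartedSpace (EuclideanSpace ℝ (Fin n)) X] [ConnectedSpace X]
    (h : X → X) (hc : Continuous h) (p : ℕ) (hp : p.Prime)
    (hper : ∀ x, h^[p] x = x) (V : Set X) (hV : IsOpen V) (hne : V.Nonempty)
    (hfix : ∀ x ∈ V, h x = x) : ∀ x, h x = x := by
  set Fx : Set X := {x | h x = x} with hFx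
  have hFxc : IsClosed Fx := isClosed_eq hc continuous_id
  set F : Set X := interior Fx with hF
  have hFne : F.Nonempty := by
    obtain ⟨v, hv⟩ := hne
    exact ⟨v, mem_interior.2 ⟨V, hfix, hV, hv⟩⟩
  have hFclosed : IsClosed F := by
    rw [← closure_subset_iff_isClosed]
    intro x hx
    have hxfix : h x = x := by
      have : closure F ⊆ Fx := closure_minimal interior_subset hFxc
      exact this hx
    have hxk : ∀ k : ℕ, h^[k] x = x := fun k => Function.iterate_fixed hxfix k
    let e := chartAt (EuclideanSpace ℝ (Fin n)) x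
    have hxs : x ∈ e.source := mem_chart_source _ x
    -- the neighbourhood on which the first `p` iterates stay in the chart
    let W : Set X := ⋂ k ∈ Finset.range p, h^[k] ⁻¹' e.source
    have hWo : IsOpen W :=
      isOpen_biInter_finset fun k _ => e.open_source.preimage (hc.iterate k)
    have hxW : x ∈ W := by
      simp only [W, mem_iInter]
      intro k _
      show h^[k] x ∈ e.source
      rw [hxk]
      exact hxs
    have hnh : e.target ∩ e.symm ⁻¹' W ∈ 𝓝 (e x) := by
      apply Filter.inter_mem (e.open_target.mem_nhds (e.map_source hxs))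
      apply (e.continuousAt_symm (e.map_source hxs)).preimage_mem_nhds
      rw [e.left_inv hxs]
      exact hWo.mem_nhds hxW
    obtain ⟨r, hr, hball⟩ := Metric.mem_nhds_iff.1 hnh
    obtain ⟨hBo, hBc, hxB, hBs⟩ := nwG_ball e x hxs hr (fun y hy => (hball hy).1)
    set B : Set X := e.symm '' ball (e x) r with hB
    have hBW : B ⊆ W := by
      rintro _ ⟨y, hy, rfl⟩
      exact (hball hy).2
    have hsrc : ∀ k : ℕ, h^[k] '' B ⊆ e.source := by
      rintro k _ ⟨b, hb, rfl⟩
      rw [nwG_iterate_mod h p hper k b]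
      have := hBW hb
      simp only [W, mem_iInter] at this
      exact this (k % p) (Finset.mem_range.2 (Nat.mod_lt _ hp.pos))
    have hmeet : ∀ k : ℕ, (h^[k] '' B ∩ B).Nonempty := fun k => ⟨x, ⟨x, hxB, hxk k⟩, hxB⟩
    obtain ⟨hPer, hiter⟩ := nwG_transport e h hc p hp.pos hper B hBo ⟨x, hxB⟩ hBc hsrc hmeet
    set O : Set X := ⋃ k : ℕ, h^[k] '' B with hO
    have hOsrc : O ⊆ e.source := iUnion_subset hsrc
    have hOopen : IsOpen O := isOpen_iUnion fun k => nwG_isOpen_image h hc p hp.pos hper k hBo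
    have hxO : x ∈ O := mem_iUnion.2 ⟨0, x, hxB, rfl⟩
    have hOF : (O ∩ F).Nonempty := by
      have := mem_closure_iff.1 hx O hOopen hxO
      exact this
    have key := nw_local_I n p hp _ _ hPer (e '' (O ∩ F))
      (e.isOpen_image_of_subset_source (hOopen.inter isOpen_interior)
        (inter_subset_left.trans hOsrc))
      (hOF.image _) (image_mono inter_subset_left) (by
        rintro _ ⟨y, ⟨hyO, hyF⟩, rfl⟩
        have h1 := hiter 1 y hyO
        have h2' : y ∈ Fx := interior_subset hyF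
        have h2 : h y = y := h2'
        simp only [Function.iterate_one] at h1
        rw [h1, h2])
    have hOfix : O ⊆ Fx := by
      intro y hy
      have h1 := hiter 1 y hy
      simp only [Function.iterate_one] at h1
      have h2 := key (e y) ⟨y, hy, rfl⟩
      rw [h1] at h2
      have hhy : h y ∈ O := by
        obtain ⟨k, b, hb, rfl⟩ := mem_iUnion.1 hy
        refine mem_iUnion.2 ⟨k + 1, b, hb, ?_⟩
        rw [Function.iterate_succ_apply']
      exact e.injOn (hOsrc hhy) (hOsrc hy) h2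
    exact mem_interior.2 ⟨O, hOfix, hOopen, hxO⟩
  have huniv : F = univ := IsClopen.eq_univ ⟨hFclosed, isOpen_interior⟩ hFne
  intro x
  have hx : x ∈ F := huniv ▸ mem_univ x
  have hx2 : x ∈ Fx := interior_subset hx
  exact hx2

end

theorem nwG_tube {n : ℕ} (G : Type*) [Group G] [TopologicalSpace G]
    (X : Type*) [TopologicalSpace X] [MulAction G X] [ContinuousSMul G X]
    (e : OpenPartialHomeomorph X (EuclideanSpace ℝ (Fin n))) (K : Set X) (hK : IsCompact K)
    (hKs : K ⊆ e.source) {δ : ℝ} (hδ : 0 < δ) :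
    ∃ U ∈ 𝓝 (1 : G), ∀ g ∈ U, ∀ x ∈ K, g • x ∈ e.source ∧ ‖e (g • x) - e x‖ < δ := by
  let S : Set (G × X) := {q | q.1 • q.2 ∈ e.source ∧ q.2 ∈ e.source ∧ ‖e (q.1 • q.2) - e q.2‖ < δ}
  have hS : ∀ x ∈ K, S ∈ 𝓝 ((1 : G), x) := by
    intro x hx
    have hxs := hKs hx
    have hsm : ContinuousAt (fun q : G × X => q.1 • q.2) ((1 : G), x) := continuous_smul.continuousAt
    have h1 : ∀ᶠ q : G × X in 𝓝 ((1 : G), x), q.1 • q.2 ∈ e.source := by
      apply hsm.eventually_mem
      simpa using e.open_source.mem_nhds hxs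
    have h2 : ∀ᶠ q : G × X in 𝓝 ((1 : G), x), q.2 ∈ e.source :=
      continuous_snd.continuousAt.eventually_mem (e.open_source.mem_nhds hxs)
    have h3 : ContinuousAt (fun q : G × X => ‖e (q.1 • q.2) - e q.2‖) ((1 : G), x) := by
      apply ContinuousAt.norm
      apply ContinuousAt.sub
      · have : ContinuousAt e (((1 : G), x).1 • ((1 : G), x).2) := by
          simpa using e.continuousAt hxs
        exact ContinuousAt.comp (f := fun q : G × X => q.1 • q.2) this hsm
      · exact ContinuousAt.comp (f := fun q : G × X => q.2) (e.continuousAt hxs)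
          continuous_snd.continuousAt
    have h4 : ∀ᶠ q : G × X in 𝓝 ((1 : G), x), ‖e (q.1 • q.2) - e q.2‖ < δ := by
      apply h3.eventually_lt continuousAt_const
      simpa using hδ
    filter_upwards [h1, h2, h4] with q a b c using ⟨a, b, c⟩
  have hS' : S ∈ 𝓝ˢ (({(1 : G)} : Set G) ×ˢ K) := by
    rw [mem_nhdsSet_iff_forall]
    rintro ⟨g, x⟩ ⟨hg, hx⟩
    have : g = 1 := hg
    subst this
    exact hS x hx
  rw [isCompact_singleton.nhdsSet_prod_eq hK,
    ((hasBasis_nhdsSet _).prod (hasBasis_nhdsSet _)).mem_iff] at hS'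
  obtain ⟨⟨U, V⟩, ⟨⟨hUo, h1U⟩, hVo, hKV⟩, hUV⟩ := hS'
  refine ⟨U, hUo.mem_nhds (h1U rfl), fun g hg x hx => ?_⟩
  have : (g, x) ∈ S := hUV ⟨hg, hKV hx⟩
  exact ⟨this.1, this.2.2⟩

theorem nwG_chart {n : ℕ} (X : Type*) [TopologicalSpace X]
    [ChartedSpace (EuclideanSpace ℝ (Fin n)) X] (x₀ : X) :
    ∃ e : OpenPartialHomeomorph X (EuclideanSpace ℝ (Fin n)), x₀ ∈ e.source ∧ e x₀ = 0 ∧
      closedBall (0 : EuclideanSpace ℝ (Fin n)) 2 ⊆ e.target := by
  let e₀ := chartAt (EuclideanSpace ℝ (Fin n)) x₀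
  have hx₀ : x₀ ∈ e₀.source := mem_chart_source _ x₀
  have ht : e₀.target ∈ 𝓝 (e₀ x₀) := e₀.open_target.mem_nhds (e₀.map_source hx₀)
  obtain ⟨r, hr, hball⟩ := Metric.nhds_basis_closedBall.mem_iff.1 ht
  -- the affine homeomorphism `y ↦ (2 / r) • (y - e₀ x₀)`
  have hc : (2 / r : ℝ) ≠ 0 := by positivity
  let A : EuclideanSpace ℝ (Fin n) ≃ₜ EuclideanSpace ℝ (Fin n) :=
    (Homeomorph.addRight (-(e₀ x₀))).trans (Homeomorph.smulOfNeZero (2 / r : ℝ) hc)
  have hA : ∀ y, A y = (2 / r : ℝ) • (y + -(e₀ x₀)) := fun y => rfl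
  refine ⟨e₀.transHomeomorph A, ?_, ?_, ?_⟩
  · simpa using hx₀
  · show A (e₀ x₀) = 0
    rw [hA]
    simp
  · intro y hy
    rw [OpenPartialHomeomorph.transHomeomorph_target]
    show A.symm y ∈ e₀.target
    apply hball
    have hy' : ‖y‖ ≤ 2 := by simpa using hy
    have hsymm : A.symm y = (2 / r : ℝ)⁻¹ • y + e₀ x₀ := by
      apply A.injective
      rw [A.apply_symm_apply, hA, add_neg_cancel_right, smul_smul, mul_inv_cancel₀ hc, one_smul]
    rw [hsymm, mem_closedBall, dist_eq_norm]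
    simp only [add_sub_cancel_right, norm_smul, norm_inv, Real.norm_eq_abs]
    rw [abs_of_pos (by positivity : (0 : ℝ) < 2 / r)]
    calc (2 / r)⁻¹ * ‖y‖ ≤ (2 / r)⁻¹ * 2 := by
          apply mul_le_mul_of_nonneg_left hy'
          positivity
      _ = r := by field_simp

theorem nwG_main (n : ℕ)
    (G : Type*) [Group G] [TopologicalSpace G] [IsTopologicalGroup G]
    (X : Type*) [TopologicalSpace X] [T2Space X] [ConnectedSpace X]
    [ChartedSpace (EuclideanSpace ℝ (Fin n)) X]
    [MulAction G X] [ContinuousSMul G X] [FaithfulSMul G X] :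
    ∃ U ∈ 𝓝 (1 : G), ∀ (g : G) (p : ℕ), p.Prime → g ^ p = 1 → (∀ k : ℕ, g ^ k ∈ U) → g = 1 := by
  obtain ⟨ε, hε, hII⟩ := nw_local_II n
  set δ : ℝ := min (ε / 2) (1 / 4) with hδdef
  have hδ : 0 < δ := lt_min (by positivity) (by norm_num)
  have hδ1 : δ ≤ ε / 2 := min_le_left _ _
  have hδ2 : δ ≤ 1 / 4 := min_le_right _ _
  obtain ⟨x₀⟩ : Nonempty X := inferInstance
  obtain ⟨e, hx₀, hex₀, htar⟩ := nwG_chart (n := n) X x₀
  set K : Set X := e.symm '' closedBall (0 : EuclideanSpace ℝ (Fin n)) 2 with hK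
  have hKc : IsCompact K :=
    (isCompact_closedBall _ _).image_of_continuousOn (e.continuousOn_symm.mono htar)
  have hKs : K ⊆ e.source := by
    rintro _ ⟨y, hy, rfl⟩
    exact e.map_target (htar hy)
  obtain ⟨U, hU, htube⟩ := nwG_tube G X e K hKc hKs hδ
  refine ⟨U, hU, fun g p hp hgp hgU => ?_⟩
  set h : X → X := fun x => g • x with hh
  have hc : Continuous h := continuous_const_smul g
  have hit : ∀ (k : ℕ) (x : X), h^[k] x = g ^ k • x := by
    intro k x
    rw [hh, smul_iterate]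
  have hper : ∀ x, h^[p] x = x := by
    intro x
    rw [hit, hgp, one_smul]
  have hb32 : ball (e x₀) (3 / 2) ⊆ e.target := by
    rw [hex₀]
    exact (ball_subset_closedBall.trans (closedBall_subset_closedBall (by norm_num))).trans htar
  obtain ⟨hBo, hBc, hxB, hBs⟩ := nwG_ball e x₀ hx₀ (by norm_num : (0 : ℝ) < 3 / 2) hb32
  set B : Set X := e.symm '' ball (e x₀) (3 / 2) with hB
  have hBK : B ⊆ K := by
    rintro _ ⟨y, hy, rfl⟩
    rw [hex₀] at hy
    exact ⟨y, (ball_subset_closedBall.trans (closedBall_subset_closedBall (by norm_num))) hy, rfl⟩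
  have hsrc : ∀ k : ℕ, h^[k] '' B ⊆ e.source := by
    rintro k _ ⟨b, hb, rfl⟩
    rw [hit]
    exact (htube _ (hgU k) b (hBK hb)).1
  have hmeet : ∀ k : ℕ, (h^[k] '' B ∩ B).Nonempty := by
    intro k
    refine ⟨h^[k] x₀, ⟨x₀, hxB, rfl⟩, ?_⟩
    rw [hit]
    obtain ⟨h1, h2⟩ := htube _ (hgU k) x₀ (hBK hxB)
    refine ⟨e (g ^ k • x₀), ?_, e.left_inv h1⟩
    rw [mem_ball, dist_eq_norm]
    linarith
  obtain ⟨hPer, hiter⟩ := nwG_transport e h hc p hp.pos hper B hBo ⟨x₀, hxB⟩ hBc hsrc hmeet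
  set O : Set X := ⋃ k : ℕ, h^[k] '' B with hO
  have hOsrc : O ⊆ e.source := iUnion_subset hsrc
  have hOopen : IsOpen O := isOpen_iUnion fun k => nwG_isOpen_image h hc p hp.pos hper k hBo
  have hBO : B ⊆ O := fun x hx => mem_iUnion.2 ⟨0, x, hx, rfl⟩
  have hball1 : closedBall (0 : EuclideanSpace ℝ (Fin n)) 1 ⊆ e '' O := by
    intro y hy
    have hy2 : y ∈ ball (e x₀) (3 / 2) := by
      rw [hex₀]
      exact closedBall_subset_ball (by norm_num) hy
    exact ⟨e.symm y, hBO ⟨y, hy2, rfl⟩, e.right_inv (hb32 hy2)⟩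
  have hdisp : ∀ z ∈ e '' O, ∀ j : ℕ, ‖(fun y => e (h (e.symm y)))^[j] z - z‖ ≤ ε := by
    rintro _ ⟨x', hx', rfl⟩ j
    rw [hiter j x' hx']
    obtain ⟨k, b, hb, rfl⟩ := mem_iUnion.1 hx'
    rw [← Function.iterate_add_apply, hit, hit]
    have h1 := (htube _ (hgU (j + k)) b (hBK hb)).2
    have h2 := (htube _ (hgU k) b (hBK hb)).2
    have h3 : e (g ^ (j + k) • b) - e (g ^ k • b)
        = (e (g ^ (j + k) • b) - e b) - (e (g ^ k • b) - e b) := by abel
    rw [h3]
    calc ‖(e (g ^ (j + k) • b) - e b) - (e (g ^ k • b) - e b)‖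
        ≤ ‖e (g ^ (j + k) • b) - e b‖ + ‖e (g ^ k • b) - e b‖ := norm_sub_le _ _
      _ ≤ ε := by linarith
  have key := hII p _ _ hp hPer hball1 hdisp
  have hOfix : ∀ y ∈ O, h y = y := by
    intro y hy
    have h1 := hiter 1 y hy
    simp only [Function.iterate_one] at h1
    have h2 := key (e y) ⟨y, hy, rfl⟩
    rw [h1] at h2
    have hhy : h y ∈ O := by
      obtain ⟨k, b, hb, rfl⟩ := mem_iUnion.1 hy
      refine mem_iUnion.2 ⟨k + 1, b, hb, ?_⟩
      rw [Function.iterate_succ_apply']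
    exact e.injOn (hOsrc hhy) (hOsrc hy) h2
  have hall := nwG_newman_I n h hc p hp hper O hOopen ⟨x₀, hBO hxB⟩ hOfix
  apply FaithfulSMul.eq_of_smul_eq_smul (α := X)
  intro x
  rw [one_smul]
  exact hall x

end Claimed.Agent.R304
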