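/-
Row 304.  EXPORT E2 (strong Newman theorem, in the form used by the top level): a group acting
continuously and faithfully on a connected manifold has a neighbourhood of `1` which contains no
subgroup of prime order.  Wired to `NwGlobal.lean` (helper89); local theorems in `NwLocal.lean`.
-/
import Claimed.Agent.R304.NwGlobal

set_option autoImplicit false

namespace Claimed.Agent.R304

open Topology

theorem hs_newman (n : ℕ) (_hn : 1 ≤ n)
    (G : Type*) [Group G] [TopologicalSpace G] [IsTopologicalGroup G]
    (X : Type*) [TopologicalSpace X] [T2Space X] [SecondCountableTopology X] [ConnectedSpace X]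
    [ChartedSpace (EuclideanSpace ℝ (Fin n)) X]
    [MulAction G X] [ContinuousSMul G X] [FaithfulSMul G X] :
    ∃ U ∈ 𝓝 (1 : G), ∀ (g : G) (p : ℕ), p.Prime → g ^ p = 1 → (∀ k : ℕ, g ^ k ∈ U) → g = 1 :=
  nwG_main n G X

end Claimed.Agent.R304
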