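/-
Row 304, block A4.  Owner: helper231.  PACKAGE gl17 (est. 1500 lines; may be split G1 / G2 / G3).   Pure Mathlib.
A topological group with ONE chart at `1` in which the local multiplication, the inversion and all conjugations are smooth near `e 1` is a Lie group
(Bourbaki, Lie III §1.9 Prop. 18).

Construction.  `Ũ := e.source ∩ e ⁻¹' U` is a neighbourhood of `1`, relatively o-p-e-n.  Choose `W` with `IsOpen W`, `1 ∈ W`, `W⁻¹ = W`, `W * W ⊆ Ũ` (so `W ⊆ Ũ`)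
(`exists_open_nhds_one_mul_subset` + intersect with the inverse).
 Chart at `g`:  `φ_g := (Homeomorph.mulLeft g⁻¹).toOpenPartialHomeomorph.trans (e.restrOpen W _)`, source `g • W = {h | g⁻¹ h ∈ W}`, `φ_g h = e (g⁻¹ h)`, `φ_g.symm x = g * e.symm x`.
 `ChartedSpace E G`: `atlas = range φ`, `chartAt g = φ_g`.
(G1) `IsManifold`: `isManifold_of_contDiffOn`.  Transition `φ_g.symm ≫ φ_{g'}`: `x ↦ e (a * e.symm x)`, `a = g'⁻¹ g`, on `D = {x ∈ e '' W | a * e.symm x ∈ W}`.  If `x₀ ∈ D` then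
  `a = (a e.symm x₀)(e.symm x₀)⁻¹ ∈ W * W⁻¹ = W * W ⊆ Ũ`, so `e a ∈ U`, `e.symm (e a) = a`, and on `D ⊆ U` the transition is `x ↦ m (e a, x)`, `m p = e (e.symm p.1 * e.symm p.2)`: smooth by `hmul`.
(G2) multiplication at `(g₀,h₀)`: in the charts `φ_{g₀} × φ_{h₀}`, `φ_{g₀h₀}` it reads `(x,y) ↦ e ((h₀⁻¹ e.symm x h₀) * e.symm y) = m (c x, y)`, `c x = e (h₀⁻¹ e.symm x (h₀⁻¹)⁻¹)` smooth near `e 1` by `hconj h₀⁻¹`,
  `c (e 1) = e 1 ∈ U`, and near `e 1`: `h₀⁻¹ e.symm x h₀ ∈ e.source` (continuity), so `e.symm (c x)` is that element.  Use `contMDiffAt_iff` (+ continuity from `IsTopologicalGroup`),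
  `extChartAt` of `𝓘(ℝ,E)` and of the product model; `ContDiffOn` on a neighbourhood gives `ContDiffWithinAt`.
(G3) inversion at `g₀`: in the charts `φ_{g₀}`, `φ_{g₀⁻¹}`: `x ↦ e (g₀ (e.symm x)⁻¹ g₀⁻¹) = c' (ι x)`, `ι x = e (e.symm x)⁻¹` (`hinv`), `c'` from `hconj g₀`.
-/
import Mathlib

set_option autoImplicit false

namespace Claimed.Agent.R304

open Topology Filter Set
open scoped ContDiff Manifold


section glue

variable {G : Type*} [Group G] [TopologicalSpace G] [IsTopologicalGroup G]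
    {E : Type*} [NormedAddCommGroup E]

/-- the chart `e` translated to `g` -/
def glgChart (e : OpenPartialHomeomorph G E) (g : G) : OpenPartialHomeomorph G E :=
  (Homeomorph.mulLeft g⁻¹).toOpenPartialHomeomorph.trans e

theorem glgChart_apply (e : OpenPartialHomeomorph G E) (g h : G) :
    glgChart e g h = e (g⁻¹ * h) := rfl

theorem glgChart_symm_apply (e : OpenPartialHomeomorph G E) (g : G) (x : E) :
    (glgChart e g).symm x = g * e.symm x := by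
  simp [glgChart, Homeomorph.mulLeft_symm]

theorem glgChart_source (e : OpenPartialHomeomorph G E) (g : G) :
    (glgChart e g).source = {h | g⁻¹ * h ∈ e.source} := by
  ext h
  simp [glgChart]

theorem glgChart_target (e : OpenPartialHomeomorph G E) (g : G) :
    (glgChart e g).target = e.target := by
  ext h
  simp [glgChart]

/-- the charted space structure given by the translates of one chart at `1` -/
@[reducible] def glgCharted (e : OpenPartialHomeomorph G E) (h1 : (1 : G) ∈ e.source) :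
    ChartedSpace E G where
  atlas := Set.range (glgChart e)
  chartAt := glgChart e
  mem_chart_source g := by simp [glgChart_source, h1]
  chart_mem_atlas g := ⟨g, rfl⟩

variable [NormedSpace ℝ E] (e : OpenPartialHomeomorph G E) (h1 : (1 : G) ∈ e.source)

theorem glg_isManifold
    (H1 : ∀ a : G, ContDiffOn ℝ ∞ (fun x => e (a * e.symm x))
      {x | x ∈ e.target ∧ a * e.symm x ∈ e.source}) :
    @IsManifold ℝ _ E _ _ E _ 𝓘(ℝ, E) ∞ G _ (glgCharted e h1) := by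
  let _ := glgCharted e h1
  apply isManifold_of_contDiffOn
  rintro _ _ ⟨g, rfl⟩ ⟨g', rfl⟩
  have := H1 (g'⁻¹ * g)
  refine (this.congr ?_).mono ?_
  · intro x hx
    simp [glgChart_apply, glgChart_symm_apply, mul_assoc]
  · intro x hx
    simp only [modelWithCornersSelf_coe_symm, OpenPartialHomeomorph.trans_source,
      OpenPartialHomeomorph.symm_source, glgChart_target, glgChart_source, preimage_id_eq, id_eq,
      modelWithCornersSelf_coe, range_id, inter_univ, mem_inter_iff, mem_preimage,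
      mem_ofPred_eq, glgChart_symm_apply] at hx
    exact ⟨hx.1, by rw [mul_assoc]; exact hx.2⟩


theorem glg_extChartAt (g : G) :
    @extChartAt ℝ E G E _ _ _ _ _ 𝓘(ℝ, E) (glgCharted e h1) g = (glgChart e g).toPartialEquiv := by
  let _ := glgCharted e h1
  simp [extChartAt]
  rfl

theorem glg_mulLeft (a : G) :
    @ContMDiff ℝ _ E _ _ E _ 𝓘(ℝ, E) G _ (glgCharted e h1) E _ _ E _ 𝓘(ℝ, E) G _
      (glgCharted e h1) ∞ (fun h => a * h) := by
  let _ := glgCharted e h1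
  intro g
  rw [contMDiffAt_iff]
  refine ⟨(continuous_const.mul continuous_id).continuousAt, ?_⟩
  rw [glg_extChartAt, glg_extChartAt]
  simp only [modelWithCornersSelf_coe, range_id, contDiffWithinAt_univ]
  apply contDiffAt_id.congr_of_eventuallyEq
  have hmem : e.target ∈ 𝓝 ((glgChart e g) g) := by
    apply e.open_target.mem_nhds
    rw [glgChart_apply, inv_mul_cancel]
    exact e.map_source h1
  filter_upwards [hmem] with x hx
  change glgChart e (a * g) (a * (glgChart e g).symm x) = x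
  rw [glgChart_apply, glgChart_symm_apply]
  have : (a * g)⁻¹ * (a * (g * e.symm x)) = e.symm x := by group
  rw [this, e.right_inv hx]

include h1 in
theorem glg_core
    (H1 : ∀ a : G, ContDiffOn ℝ ∞ (fun x => e (a * e.symm x))
      {x | x ∈ e.target ∧ a * e.symm x ∈ e.source})
    (H2 : ContDiffAt ℝ ∞ (fun p : E × E => e (e.symm p.1 * e.symm p.2)) (e 1, e 1))
    (H3 : ContDiffAt ℝ ∞ (fun x => e (e.symm x)⁻¹) (e 1))
    (H4 : ∀ g : G, ContDiffAt ℝ ∞ (fun x => e (g * e.symm x * g⁻¹)) (e 1)) :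
    ∃ _ : ChartedSpace E G, IsManifold 𝓘(ℝ, E) ∞ G ∧ LieGroup 𝓘(ℝ, E) ∞ G := by
  let cs := glgCharted e h1
  have hM : IsManifold 𝓘(ℝ, E) ∞ G := glg_isManifold e h1 H1
  have hL : ∀ a : G, ContMDiff 𝓘(ℝ, E) 𝓘(ℝ, E) ∞ (fun h : G => a * h) := glg_mulLeft e h1
  have hext : ∀ g : G, extChartAt 𝓘(ℝ, E) g = (glgChart e g).toPartialEquiv := glg_extChartAt e h1
  have hone : ∀ f : G → G, f 1 = 1 → ContinuousAt f 1 →
      ContDiffAt ℝ ∞ (fun x => e (f (e.symm x))) (e 1) → ContMDiffAt 𝓘(ℝ, E) 𝓘(ℝ, E) ∞ f 1 := by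
    intro f hf1 hc hd
    rw [contMDiffAt_iff, hf1, hext]
    refine ⟨hc, ?_⟩
    simp only [modelWithCornersSelf_coe, range_id, contDiffWithinAt_univ]
    have e1 : (glgChart e 1).toPartialEquiv 1 = e 1 := by
      change glgChart e 1 1 = e 1
      rw [glgChart_apply, inv_one, one_mul]
    rw [e1]
    refine hd.congr_of_eventuallyEq (Eventually.of_forall fun x => ?_)
    change glgChart e 1 (f ((glgChart e 1).symm x)) = _
    rw [glgChart_apply, glgChart_symm_apply, inv_one, one_mul, one_mul]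
  have hmul1 : ContMDiffAt (𝓘(ℝ, E).prod 𝓘(ℝ, E)) 𝓘(ℝ, E) ∞ (fun p : G × G => p.1 * p.2) (1, 1) := by
    rw [contMDiffAt_iff]
    refine ⟨continuous_mul.continuousAt, ?_⟩
    simp only [extChartAt_prod, mul_one, hext]
    have hr : range (𝓘(ℝ, E).prod 𝓘(ℝ, E)) = univ := by
      simp [modelWithCorners_prod_coe]
    rw [hr, contDiffWithinAt_univ]
    have e1 : ((glgChart e 1).toPartialEquiv.prod (glgChart e 1).toPartialEquiv) (1, 1)
        = (e 1, e 1) := by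
      change (glgChart e 1 1, glgChart e 1 1) = _
      rw [glgChart_apply, inv_one, one_mul]
    rw [e1]
    refine H2.congr_of_eventuallyEq (Eventually.of_forall fun x => ?_)
    change glgChart e 1 ((glgChart e 1).symm x.1 * (glgChart e 1).symm x.2) = _
    rw [glgChart_apply, glgChart_symm_apply, glgChart_symm_apply, inv_one, one_mul, one_mul,
      one_mul]
  have hinv1 : ContMDiffAt 𝓘(ℝ, E) 𝓘(ℝ, E) ∞ (fun a : G => a⁻¹) 1 :=
    hone _ inv_one continuous_inv.continuousAt H3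
  have hconj1 : ∀ g : G, ContMDiffAt 𝓘(ℝ, E) 𝓘(ℝ, E) ∞ (fun a : G => g * a * g⁻¹) 1 := by
    intro g
    apply hone _ (by simp) _ (H4 g)
    exact ((continuous_const.mul continuous_id).mul continuous_const).continuousAt
  have hmul : ContMDiff (𝓘(ℝ, E).prod 𝓘(ℝ, E)) 𝓘(ℝ, E) ∞ (fun p : G × G => p.1 * p.2) := by
    rintro ⟨g₀, h₀⟩
    have s1 : ContMDiffAt (𝓘(ℝ, E).prod 𝓘(ℝ, E)) 𝓘(ℝ, E) ∞
        (fun p : G × G => h₀⁻¹ * (g₀⁻¹ * p.1) * h₀⁻¹⁻¹) (g₀, h₀) := by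
      have a1 : ContMDiffAt (𝓘(ℝ, E).prod 𝓘(ℝ, E)) 𝓘(ℝ, E) ∞
          (fun p : G × G => g₀⁻¹ * p.1) (g₀, h₀) :=
        ((hL g₀⁻¹) g₀).comp (g₀, h₀) contMDiffAt_fst
      exact (hconj1 h₀⁻¹).comp_of_eq a1 (by simp)
    have s2 : ContMDiffAt (𝓘(ℝ, E).prod 𝓘(ℝ, E)) 𝓘(ℝ, E) ∞
        (fun p : G × G => h₀⁻¹ * p.2) (g₀, h₀) :=
      ((hL h₀⁻¹) h₀).comp (g₀, h₀) contMDiffAt_snd
    have s3 : ContMDiffAt (𝓘(ℝ, E).prod 𝓘(ℝ, E)) 𝓘(ℝ, E) ∞
        (fun p : G × G => (h₀⁻¹ * (g₀⁻¹ * p.1) * h₀⁻¹⁻¹) * (h₀⁻¹ * p.2)) (g₀, h₀) :=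
      hmul1.comp_of_eq (s1.prodMk s2) (by simp)
    have s4 : ContMDiffAt (𝓘(ℝ, E).prod 𝓘(ℝ, E)) 𝓘(ℝ, E) ∞
        (fun p : G × G => (g₀ * h₀) * ((h₀⁻¹ * (g₀⁻¹ * p.1) * h₀⁻¹⁻¹) * (h₀⁻¹ * p.2))) (g₀, h₀) :=
      ((hL (g₀ * h₀)) _).comp (g₀, h₀) s3
    have : (fun p : G × G => p.1 * p.2)
        = fun p : G × G => (g₀ * h₀) * ((h₀⁻¹ * (g₀⁻¹ * p.1) * h₀⁻¹⁻¹) * (h₀⁻¹ * p.2)) := by
      funext p
      group
    rw [this]
    exact s4
  have hinv : ContMDiff 𝓘(ℝ, E) 𝓘(ℝ, E) ∞ (fun a : G => a⁻¹) := by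
    intro g₀
    have a1 : ContMDiffAt 𝓘(ℝ, E) 𝓘(ℝ, E) ∞ (fun a : G => (g₀⁻¹ * a)⁻¹) g₀ :=
      hinv1.comp_of_eq ((hL g₀⁻¹) g₀) (by simp)
    have a2 : ContMDiffAt 𝓘(ℝ, E) 𝓘(ℝ, E) ∞ (fun a : G => g₀ * (g₀⁻¹ * a)⁻¹ * g₀⁻¹) g₀ :=
      (hconj1 g₀).comp_of_eq a1 (by simp)
    have a3 : ContMDiffAt 𝓘(ℝ, E) 𝓘(ℝ, E) ∞ (fun a : G => g₀⁻¹ * (g₀ * (g₀⁻¹ * a)⁻¹ * g₀⁻¹)) g₀ :=
      ((hL g₀⁻¹) _).comp g₀ a2
    have : (fun a : G => a⁻¹) = fun a : G => g₀⁻¹ * (g₀ * (g₀⁻¹ * a)⁻¹ * g₀⁻¹) := by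
      funext a
      group
    rw [this]
    exact a3
  exact ⟨cs, hM, { toIsManifold := hM, contMDiff_mul := hmul, contMDiff_inv := hinv }⟩

end glue

theorem gl_lieGroup_of_chart {G : Type*} [Group G] [TopologicalSpace G] [IsTopologicalGroup G]
    {E : Type*} [NormedAddCommGroup E] [NormedSpace ℝ E]
    (e : OpenPartialHomeomorph G E) (h1 : (1 : G) ∈ e.source)
    (U : Set E) (hU : IsOpen U) (hUt : U ⊆ e.target) (h1U : e 1 ∈ U)
    (hmem : ∀ x ∈ U, ∀ y ∈ U, e.symm x * e.symm y ∈ e.source)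
    (hmul : ContDiffOn ℝ ∞ (fun p : E × E => e (e.symm p.1 * e.symm p.2)) (U ×ˢ U))
    (hinv : ∃ V : Set E, IsOpen V ∧ e 1 ∈ V ∧ V ⊆ e.target ∧
      ContDiffOn ℝ ∞ (fun x : E => e (e.symm x)⁻¹) V)
    (hconj : ∀ g : G, ∃ V : Set E, IsOpen V ∧ e 1 ∈ V ∧ V ⊆ e.target ∧
      ContDiffOn ℝ ∞ (fun x : E => e (g * e.symm x * g⁻¹)) V) :
    ∃ _ : ChartedSpace E G, IsManifold 𝓘(ℝ, E) ∞ G ∧ LieGroup 𝓘(ℝ, E) ∞ G := by
  have hUo : IsOpen (e.source ∩ e ⁻¹' U) := e.continuousOn.isOpen_inter_preimage e.open_source hU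
  have hUn : e.source ∩ e ⁻¹' U ∈ 𝓝 (1 : G) := hUo.mem_nhds ⟨h1, h1U⟩
  obtain ⟨V, hV, hVV⟩ := exists_nhds_split_inv hUn
  set W := interior V with hWdef
  have hWo : IsOpen W := isOpen_interior
  have h1W : (1 : G) ∈ W := mem_interior_iff_mem_nhds.2 hV
  have hWW : ∀ v ∈ W, ∀ w ∈ W, v * w⁻¹ ∈ e.source ∩ e ⁻¹' U := by
    intro v hv w hw
    rw [← div_eq_mul_inv]
    exact hVV v (interior_subset hv) w (interior_subset hw)
  have hWU : ∀ w ∈ W, w ∈ e.source ∩ e ⁻¹' U := by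
    intro w hw
    have := hWW w hw 1 h1W
    simpa using this
  let e₀ := e.restrOpen W hWo
  have he₀ : ∀ g, e₀ g = e g := fun g => rfl
  have he₀s : ∀ x, e₀.symm x = e.symm x := fun x => rfl
  have hsrc : ∀ g, g ∈ e₀.source ↔ g ∈ W := by
    intro g
    simp only [e₀, OpenPartialHomeomorph.restrOpen_source, mem_inter_iff]
    exact ⟨fun h => h.2, fun h => ⟨(hWU g h).1, h⟩⟩
  have htgt : ∀ x, x ∈ e₀.target → x ∈ U ∧ e.symm x ∈ W := by
    intro x hx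
    have h2 : e₀.symm x ∈ e₀.source := e₀.map_target hx
    have h3 : e.symm x ∈ W := (hsrc _).1 h2
    have h4 : e₀ (e₀.symm x) = x := e₀.right_inv hx
    refine ⟨?_, h3⟩
    have := (hWU _ h3).2
    rw [mem_preimage] at this
    rw [he₀, he₀s] at h4
    rwa [h4] at this
  apply glg_core e₀ ((hsrc 1).2 h1W)
  · intro a x₀ hx₀
    have ha : a ∈ e.source ∩ e ⁻¹' U := by
      have h2 := (hsrc _).1 hx₀.2
      have h3 := (htgt _ hx₀.1).2
      have := hWW _ h2 _ h3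
      rw [he₀s] at this
      simpa using this
    have hc : ContDiffOn ℝ ∞ (fun x => e (e.symm (e a) * e.symm x))
        {x | x ∈ e₀.target ∧ a * e₀.symm x ∈ e₀.source} := by
      apply hmul.comp (contDiffOn_const.prodMk contDiffOn_id)
      intro x hx
      exact ⟨ha.2, (htgt _ hx.1).1⟩
    rw [e.left_inv ha.1] at hc
    exact hc x₀ hx₀
  · exact hmul.contDiffAt ((hU.prod hU).mem_nhds ⟨h1U, h1U⟩)
  · obtain ⟨V', hV'o, hV'1, -, hV'⟩ := hinv
    exact hV'.contDiffAt (hV'o.mem_nhds hV'1)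
  · intro g
    obtain ⟨V', hV'o, hV'1, -, hV'⟩ := hconj g
    exact hV'.contDiffAt (hV'o.mem_nhds hV'1)
end Claimed.Agent.R304
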