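/-
Row 304, block A4.  Owner: helper231.  PACKAGE gl15 (est. 200 lines).   Pure Mathlib.   Bootstrapping regularity:
a map whose derivative is a smooth function of the point and of the value is smooth.

Plan: prove `∀ n : ℕ, ContDiffOn ℝ n f U` by induction.  `n = 0`: `f` is differentiable on `U`, hence continuous.
Step: `contDiffOn_succ_iff_fderiv_of_isOpen hU`: differentiable; the analyticity clause is vacuous (`(n : ℕ∞ω) ≠ ω`); `fderiv ℝ f x = R (x, f x)` on `U`
(`HasFDerivAt.fderiv`, `ContDiffOn.congr`), and `x ↦ R (x, f x)` is `C^n` on `U` as the composition of `R` (`C^∞` on `W`) with `x ↦ (x, f x)` (`C^n` by induction,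
maps `U` into `W`): `ContDiffOn.comp`.   Finally `contDiffOn_infty`.
-/
import Mathlib

set_option autoImplicit false

namespace Claimed.Agent.R304

open scoped ContDiff

theorem gl_bootstrap {E F : Type*} [NormedAddCommGroup E] [NormedSpace ℝ E] [NormedAddCommGroup F]
    [NormedSpace ℝ F] {U : Set E} (hU : IsOpen U) {W : Set (E × F)} {f : E → F}
    {R : E × F → E →L[ℝ] F} (hR : ContDiffOn ℝ ∞ R W)
    (hf : ∀ x ∈ U, (x, f x) ∈ W ∧ HasFDerivAt f (R (x, f x)) x) : ContDiffOn ℝ ∞ f U := by
  have hd : DifferentiableOn ℝ f U := fun x hx =>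
    (hf x hx).2.differentiableAt.differentiableWithinAt
  have key : ∀ n : ℕ, ContDiffOn ℝ n f U := by
    intro n
    induction n with
    | zero =>
      rw [Nat.cast_zero, contDiffOn_zero]
      exact hd.continuousOn
    | succ n ih =>
      have : ((n + 1 : ℕ) : WithTop ℕ∞) = (n : WithTop ℕ∞) + 1 := by norm_cast
      rw [this, contDiffOn_succ_iff_fderiv_of_isOpen hU]
      refine ⟨hd, fun h => ?_, ?_⟩
      · exact absurd h (by simp)
      · have h1 : ContDiffOn ℝ n (fun x => R (x, f x)) U := by
          have hR' : ContDiffOn ℝ n R W := hR.of_le (by exact_mod_cast le_top)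
          exact hR'.comp (contDiffOn_id.prodMk ih) (fun x hx => (hf x hx).1)
        exact h1.congr (fun x hx => (hf x hx).2.fderiv)
  exact contDiffOn_infty.2 key

end Claimed.Agent.R304
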