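/-
Row 304, block A3.  Owner: helper231.  PACKAGE gl5: DONE (sorry-free, prover helper181).
Estimates for `exp : L(G) → G`, `exp x = x(1)`, in the normed space `GlLie N`.   `‖x‖ = N.lnorm x.ops`.

(X0) algebra: `exp 0 = 1`, `exp (-x) = (exp x)⁻¹`, `exp ((s+t)•x) = exp (s•x) exp (t•x)`, `exp (n•x) = (exp x)^n`: from `GlOps.map_*`
     and `gl_exp_smul`.
(X1) `gl_nrm_exp_le` = `gl_nrm_le_lnorm` at `t = 1`; `gl_norm_le_nrm_exp` = `gl_lnorm_le_nrm` at `t = 1`.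
(X2) `gl_exp_add_dist` = `gl_ladd_dist` at `t = 1`.
(X3) `gl_exp_bilipschitz`: `h = y - x`, `‖h‖ ≤ 2ε`.  (X2) for `(x, h)`: `d(exp y, exp x exp h) ≤ K‖x‖‖h‖`, and
     `d(exp x, exp x exp h) = ‖exp h‖ ∈ [‖h‖/C, ‖h‖]`.  So `‖h‖(1/C - Kε) ≤ d(exp x, exp y) ≤ ‖h‖(1 + Kε)`; take `Kε ≤ 1/(2C)`.
(X4) `gl_continuous_exp`: at `x₀`: choose `n` with `‖x₀‖/n < ε`; `exp x = exp(x/n)^n`, `x ↦ exp (x/n)` is continuous at `x₀` by (X3) and
     `tendsto_nhds_iff`; `g ↦ g^n` is continuous.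
(X5) `gl_prod_exp_dist`: induction over the list from the RIGHT end (or `List.reverseRecOn`): `P_{m+1} = P_m exp u`,
     `d(P_m exp u, exp(S_m + u)) ≤ d(P_m exp u, exp S_m exp u) + d(exp S_m exp u, exp(S_m+u)) ≤ (1 + C‖u‖) d(P_m, exp S_m) + K‖S_m‖‖u‖`.
     With `σ_m = Σ_{j<m}‖u_j‖` one proves `d(P_m, exp S_m) ≤ K e^{Cσ_m} σ_m²` (needs `d(P_m, exp S_m) ≤ 1/C`: part of the induction,
     ε small).  Final constant `2K`.
-/
import Claimed.Agent.R304.GlSpaceDefs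

set_option autoImplicit false
set_option linter.unusedSectionVars false

namespace Claimed.Agent.R304

open Topology Filter

variable {G : Type*} [Group G] [TopologicalSpace G] [IsTopologicalGroup G] [LocallyCompactSpace G]
  (N : GleasonMetric G)

theorem gl_exp_zero : N.exp 0 = 1 := rfl

theorem gl_exp_neg (x : GlLie N) : N.exp (-x) = (N.exp x)⁻¹ := GlLie.neg_apply x 1

theorem gl_exp_add_smul (s t : ℝ) (x : GlLie N) :
    N.exp ((s + t) • x) = N.exp (s • x) * N.exp (t • x) := by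
  rw [gl_exp_smul, gl_exp_smul, gl_exp_smul, GlOps.map_add]

theorem gl_exp_nsmul (n : ℕ) (x : GlLie N) : N.exp ((n : ℝ) • x) = N.exp x ^ n := by
  rw [gl_exp_smul, gl_exp_def, ← GlOps.map_nsmul, mul_one]

theorem gl_nrm_exp_le (x : GlLie N) : N.nrm (N.exp x) ≤ ‖x‖ := by
  have := gl_nrm_le_lnorm N x.ops 1
  rwa [abs_one, mul_one] at this

theorem gl_norm_le_nrm_exp : ∃ ε : ℝ, 0 < ε ∧ ∀ x : GlLie N, ‖x‖ ≤ ε →
    ‖x‖ ≤ N.C * N.nrm (N.exp x) := by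
  obtain ⟨ε, hε, h⟩ := gl_lnorm_le_nrm N
  refine ⟨ε, hε, fun x hx => ?_⟩
  have := h x.ops 1 (by rwa [abs_one, mul_one])
  rwa [abs_one, mul_one] at this

theorem gl_exp_add_dist : ∃ ε : ℝ, 0 < ε ∧ ∃ K : ℝ, 0 ≤ K ∧ ∀ x y : GlLie N, ‖x‖ ≤ ε → ‖y‖ ≤ ε →
    N.dist (N.exp (x + y)) (N.exp x * N.exp y) ≤ K * ‖x‖ * ‖y‖ := by
  obtain ⟨ε, hε, K, hK, h⟩ := gl_ladd_dist N
  refine ⟨ε, hε, K, hK, fun x y hx hy => ?_⟩
  have := h x.ops y.ops 1 (by rwa [abs_one, mul_one]) (by rwa [abs_one, mul_one])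
  rwa [abs_one, mul_one, mul_one] at this

theorem gl_exp_bilipschitz : ∃ ε : ℝ, 0 < ε ∧ ∃ K : ℝ, 0 < K ∧ ∀ x y : GlLie N, ‖x‖ ≤ ε → ‖y‖ ≤ ε →
    N.dist (N.exp x) (N.exp y) ≤ K * ‖x - y‖ ∧ ‖x - y‖ ≤ K * N.dist (N.exp x) (N.exp y) := by
  obtain ⟨ε₁, hε₁, h1⟩ := gl_norm_le_nrm_exp N
  obtain ⟨ε₂, hε₂, K₂, hK₂, h2⟩ := gl_exp_add_dist N
  have hC := N.C_pos
  have hC1 := N.one_le_C
  set ε := min (min (ε₁ / 2) (ε₂ / 2)) (1 / (2 * N.C * (K₂ + 1))) with hεdef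
  have hε : 0 < ε := by
    refine lt_min (lt_min (by linarith) (by linarith)) (by positivity)
  have hεa : ε ≤ ε₁ / 2 := (min_le_left _ _).trans (min_le_left _ _)
  have hεb : ε ≤ ε₂ / 2 := (min_le_left _ _).trans (min_le_right _ _)
  have hεc : ε ≤ 1 / (2 * N.C * (K₂ + 1)) := min_le_right _ _
  have hεd : N.C * (K₂ * ε) ≤ 1 / 2 := by
    have h3 : N.C * ((K₂ + 1) * ε) ≤ N.C * ((K₂ + 1) * (1 / (2 * N.C * (K₂ + 1)))) := by gcongr
    have h4 : N.C * ((K₂ + 1) * (1 / (2 * N.C * (K₂ + 1)))) = 1 / 2 := by field_simp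
    have h5 : N.C * (K₂ * ε) ≤ N.C * ((K₂ + 1) * ε) := by gcongr; linarith
    linarith
  have hεe : K₂ * ε ≤ 1 / 2 := by
    have : K₂ * ε ≤ N.C * (K₂ * ε) := by
      have h0 : 0 ≤ K₂ * ε := by positivity
      nlinarith
    linarith
  refine ⟨ε, hε, 2 * N.C, by positivity, fun x y hx hy => ?_⟩
  set h := y - x with hh
  have hxy : x + h = y := by rw [hh]; abel
  have hnorm : ‖x - y‖ = ‖h‖ := by rw [hh, norm_sub_rev]
  have hh2 : ‖h‖ ≤ 2 * ε := by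
    rw [hh]
    exact (norm_sub_le _ _).trans (by linarith)
  have e1 := h2 x h (by linarith) (by linarith)
  rw [hxy] at e1
  have e2 : K₂ * ‖x‖ * ‖h‖ ≤ K₂ * ε * ‖h‖ := by gcongr
  have e3 : N.dist (N.exp x) (N.exp x * N.exp h) = N.nrm (N.exp h) := N.dist_mul_self_left _ _
  have e4 := gl_nrm_exp_le N h
  have e5 := h1 h (by linarith)
  have hh0 := norm_nonneg h
  rw [hnorm]
  constructor
  · have t1 := N.dist_triangle (N.exp x) (N.exp x * N.exp h) (N.exp y)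
    rw [e3, N.dist_comm (N.exp x * N.exp h)] at t1
    nlinarith
  · have t1 := N.dist_triangle (N.exp x) (N.exp y) (N.exp x * N.exp h)
    rw [e3] at t1
    have t2 : ‖h‖ ≤ N.C * (N.dist (N.exp x) (N.exp y) + K₂ * ε * ‖h‖) := by
      refine e5.trans ?_
      gcongr
      linarith
    have t3 : N.C * (K₂ * ε * ‖h‖) ≤ 1 / 2 * ‖h‖ := by
      have := mul_le_mul_of_nonneg_right hεd hh0
      linarith
    nlinarith

theorem gl_continuous_exp : Continuous N.exp := by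
  obtain ⟨ε, hε, K, hK, hbl⟩ := gl_exp_bilipschitz N
  rw [continuous_iff_continuousAt]
  intro x₀
  obtain ⟨n, hn⟩ := exists_nat_gt ((‖x₀‖ + 1) / ε)
  have hn0 : (0 : ℝ) < n := lt_of_le_of_lt (by positivity) hn
  have hn1 : n ≠ 0 := by
    rintro rfl
    simp at hn0
  have hsmall : ∀ x : GlLie N, ‖x‖ ≤ ‖x₀‖ + 1 → ‖((n : ℝ)⁻¹) • x‖ ≤ ε := by
    intro x hx
    rw [norm_smul, norm_inv, Real.norm_of_nonneg hn0.le, inv_mul_le_iff₀ hn0]
    rw [div_lt_iff₀ hε] at hn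
    linarith
  have hc : ContinuousAt (fun x : GlLie N => N.exp (((n : ℝ)⁻¹) • x)) x₀ := by
    rw [ContinuousAt, N.tendsto_nhds_iff]
    have hev : ∀ᶠ x in 𝓝 x₀, ‖x‖ ≤ ‖x₀‖ + 1 := by
      have : ∀ᶠ x in 𝓝 x₀, ‖x‖ < ‖x₀‖ + 1 :=
        (continuous_norm.tendsto x₀).eventually (gt_mem_nhds (by linarith))
      exact this.mono fun x hx => hx.le
    have hlim : Tendsto (fun x : GlLie N => K * ‖((n : ℝ)⁻¹) • x₀ - ((n : ℝ)⁻¹) • x‖) (𝓝 x₀) (𝓝 0) := by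
      have : Continuous fun x : GlLie N => K * ‖((n : ℝ)⁻¹) • x₀ - ((n : ℝ)⁻¹) • x‖ := by fun_prop
      have h0 := this.tendsto x₀
      simpa using h0
    refine squeeze_zero' (Eventually.of_forall fun x => N.dist_nonneg _ _) ?_ hlim
    filter_upwards [hev] with x hx
    exact (hbl _ _ (hsmall x₀ (by linarith)) (hsmall x hx)).1
  have heq : N.exp = fun x : GlLie N => (N.exp (((n : ℝ)⁻¹) • x)) ^ n := by
    funext x
    rw [← gl_exp_nsmul, smul_smul, mul_inv_cancel₀ hn0.ne', one_smul]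
  rw [heq]
  exact hc.pow n

theorem gl_norm_list_sum_le {E : Type*} [SeminormedAddCommGroup E] (l : List E) :
    ‖l.sum‖ ≤ (l.map fun u => ‖u‖).sum := by
  induction l with
  | nil => simp
  | cons u l ih =>
    simp only [List.sum_cons, List.map_cons]
    exact (norm_add_le _ _).trans (by linarith)

theorem gl_prod_exp_dist : ∃ ε : ℝ, 0 < ε ∧ ∃ K : ℝ, 0 ≤ K ∧ ∀ l : List (GlLie N),
    (l.map fun u => ‖u‖).sum ≤ ε →
      N.dist (l.map N.exp).prod (N.exp l.sum) ≤ K * ((l.map fun u => ‖u‖).sum) ^ 2 := by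
  obtain ⟨ε, hε, K, hK, h2⟩ := gl_exp_add_dist N
  refine ⟨ε, hε, K, hK, fun l => ?_⟩
  induction l with
  | nil =>
    intro _
    simp [gl_exp_zero, N.dist_self]
  | cons u l ih =>
    intro hl
    simp only [List.sum_cons, List.map_cons, List.prod_cons] at hl ⊢
    have hσ0 : 0 ≤ (l.map fun u => ‖u‖).sum := List.sum_nonneg (by
      intro a ha
      obtain ⟨v, -, rfl⟩ := List.mem_map.1 ha
      exact norm_nonneg v)
    have hu0 := norm_nonneg u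
    have hS := gl_norm_list_sum_le l
    have i1 := ih (by linarith)
    have i2 := h2 u l.sum (by linarith) (by linarith)
    have t1 := N.dist_triangle (N.exp u * (l.map N.exp).prod) (N.exp u * N.exp l.sum)
      (N.exp (u + l.sum))
    rw [N.dist_mul_left, N.dist_comm (N.exp u * N.exp l.sum)] at t1
    have i3 : K * ‖u‖ * ‖l.sum‖ ≤ K * ‖u‖ * (l.map fun u => ‖u‖).sum := by gcongr
    nlinarith [mul_nonneg hK (mul_nonneg hu0 hu0), mul_nonneg hK (mul_nonneg hu0 hσ0)]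

end Claimed.Agent.R304
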