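/-
Row 304, block A3.  Owner: helper231.  PACKAGE gl6 (est. 400 lines).   `L(G)` is finite dimensional.

`gl_isCompact_closedBall`: let `r = min ε r₀` with `ε` from `gl_exp_bilipschitz`, `r₀` from `gl_pow_mem_compact`.  Use
`isCompact_iff_ultrafilter_le_nhds`.  Let `𝒰` be an ultrafilter on `GlLie N` containing `closedBall 0 r`.  Apply
`gl_ops_of_ultralimit` with `ι = GlLie N`, `f x t = x.ops t`, `R = r`:
  * `hadd`: the distance is `0` (`GlOps.map_add`);   * `hlip`: `‖x.ops t‖ ≤ ‖x‖ |t| ≤ r |t|` on the ball;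
  * `hcpt`: choose `n : ℕ`, `n ≥ 1`, `|t| ≤ n`; `x.ops t = (x.ops (t/n))^n`, `‖x.ops (t/n)‖ ≤ r ≤ r₀`, `n ‖x.ops (t/n)‖ ≤ r|t|`: `gl_pow_mem_compact`.
This gives `φ` with `x.ops t → φ t` along `𝒰` and `‖φ t‖ ≤ r|t|`, so `y := GlLie.of N φ ∈ closedBall 0 r` (`gl_lnorm_le`).
`𝒰 ≤ 𝓝 y`: `‖x - y‖ ≤ K d(exp x, exp y)` on the ball and `exp x = x.ops 1 → φ 1 = exp y`, so `‖x - y‖ → 0` along `𝒰`
(`tendsto_iff_norm_sub_tendsto_zero`, `tendsto_nhds_iff`).
`gl_finiteDimensional`: `FiniteDimensional.of_isCompact_closedBall ℝ hr hcompact`.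
-/
import Claimed.Agent.R304.GlExp

set_option autoImplicit false
set_option linter.unusedSectionVars false

namespace Claimed.Agent.R304

open Topology Filter

variable {G : Type*} [Group G] [TopologicalSpace G] [IsTopologicalGroup G] [LocallyCompactSpace G]
  (N : GleasonMetric G)

theorem gl_isCompact_closedBall : ∃ r : ℝ, 0 < r ∧ IsCompact (Metric.closedBall (0 : GlLie N) r) := by
  obtain ⟨ε, hε, K, hK, hbl⟩ := gl_exp_bilipschitz N
  obtain ⟨r₀, hr₀, hpc⟩ := gl_pow_mem_compact N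
  set r : ℝ := min ε r₀ with hr
  have hr0 : 0 < r := lt_min hε hr₀
  have hrε : r ≤ ε := min_le_left _ _
  have hrr₀ : r ≤ r₀ := min_le_right _ _
  refine ⟨r, hr0, ?_⟩
  rw [isCompact_iff_ultrafilter_le_nhds]
  intro 𝒰 h𝒰
  have hball : ∀ᶠ x : GlLie N in (𝒰 : Filter (GlLie N)), ‖x‖ ≤ r := by
    have : Metric.closedBall (0 : GlLie N) r ∈ (𝒰 : Filter (GlLie N)) := le_principal_iff.1 h𝒰
    filter_upwards [this] with x hx
    simpa using hx
  obtain ⟨φ, hφ, hφn⟩ := gl_ops_of_ultralimit N 𝒰 (fun (x : GlLie N) t => x.ops t) r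
    (by
      intro s t
      have : (fun x : GlLie N => N.dist (x.ops (s + t)) (x.ops s * x.ops t)) = fun _ => 0 := by
        funext x
        rw [GlOps.map_add, N.dist_self]
      rw [this]
      exact tendsto_const_nhds)
    (by
      intro t η hη
      filter_upwards [hball] with x hx
      have h1 := gl_nrm_le_lnorm N x.ops t
      have h2 : N.lnorm x.ops * |t| ≤ r * |t| := mul_le_mul_of_nonneg_right hx (abs_nonneg t)
      linarith)
    (by
      intro t
      obtain ⟨n, hn⟩ := exists_nat_gt |t|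
      have hn0 : (0 : ℝ) < n := lt_of_le_of_lt (abs_nonneg t) hn
      obtain ⟨Kc, hKc, hmem⟩ := hpc (r * |t|)
      refine ⟨Kc, hKc, ?_⟩
      filter_upwards [hball] with x hx
      have e1 : x.ops t = x.ops (t / n) ^ (n : ℤ) := by
        rw [← GlOps.map_zsmul]
        congr 1
        push_cast
        field_simp
      rw [e1]
      have h1 := gl_nrm_le_lnorm N x.ops (t / n)
      have h2 : N.lnorm x.ops * |t / n| ≤ r * |t / n| :=
        mul_le_mul_of_nonneg_right hx (abs_nonneg _)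
      have h3 : |t / n| = |t| / n := by rw [abs_div, abs_of_pos hn0]
      have h4 : |t| / n ≤ 1 := by rw [div_le_one hn0]; exact hn.le
      apply hmem
      · calc N.nrm (x.ops (t / n)) ≤ r * |t / n| := h1.trans h2
          _ ≤ r * 1 := by rw [h3]; exact mul_le_mul_of_nonneg_left h4 hr0.le
          _ ≤ r₀ := by rw [mul_one]; exact hrr₀
      · have h5 : |((n : ℤ) : ℝ)| = n := by
          push_cast
          exact abs_of_pos hn0
        rw [h5]
        calc (n : ℝ) * N.nrm (x.ops (t / n)) ≤ n * (r * |t / n|) :=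
              mul_le_mul_of_nonneg_left (h1.trans h2) hn0.le
          _ = r * |t| := by rw [h3]; field_simp)
  have hy : ‖GlLie.of N φ‖ ≤ r := gl_lnorm_le N hr0.le hφn
  refine ⟨GlLie.of N φ, by simpa using hy, ?_⟩
  change Tendsto id (𝒰 : Filter (GlLie N)) (𝓝 (GlLie.of N φ))
  rw [tendsto_iff_norm_sub_tendsto_zero]
  have h1 : Tendsto (fun x : GlLie N => N.dist (φ 1) (x.ops 1)) 𝒰 (𝓝 0) :=
    (N.tendsto_nhds_iff).1 (hφ 1)
  have h2 : Tendsto (fun x : GlLie N => K * N.dist (φ 1) (x.ops 1)) 𝒰 (𝓝 0) := by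
    simpa using h1.const_mul K
  refine squeeze_zero' (Eventually.of_forall fun x => norm_nonneg _) ?_ h2
  filter_upwards [hball] with x hx
  have := (hbl x (GlLie.of N φ) (hx.trans hrε) (hy.trans hrε)).2
  rw [N.dist_comm] at this
  exact this

instance glLieFiniteDimensional : FiniteDimensional ℝ (GlLie N) := by
  obtain ⟨r, hr, hc⟩ := gl_isCompact_closedBall N
  exact FiniteDimensional.of_isCompact_closedBall ℝ hr hc

instance glLieCompleteSpace : CompleteSpace (GlLie N) := FiniteDimensional.complete ℝ (GlLie N)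

instance glLieProperSpace : ProperSpace (GlLie N) := FiniteDimensional.proper ℝ (GlLie N)

end Claimed.Agent.R304
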