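/-
Row 304, block A3.  Owner: helper231.  PACKAGE gl7 (est. 900 lines).   `exp` is a local homeomorphism at `0`.

Constants: `(ε₂,K₂)` from `gl_exp_add_dist`, `(ε₃,K₃)` from `gl_exp_bilipschitz`, `(ε₄,K₄)` from `gl_le_pow_dist`.
Choose `r₁ ≤ min ε₂ ε₃ / 2` with `8 K₂ r₁ ≤ 1`, and `ρ > 0` with `ρ ≤ min ε₂ ε₄`, (`ρ ≤ 1/C`).

(C1) `gl_exp_image_mem_nhds` (local surjectivity).  Let `‖x₀‖ < r₁`, `r > 0`; wlog `closedBall x₀ r ⊆ ball 0 (2 r₁)`... (shrink `r`).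
  `B := closedBall x₀ (r/2)` is compact (`glLieProperSpace`).  Suppose `exp '' ball x₀ r ∉ 𝓝 (exp x₀)`.  Then there is an ultrafilter
  `𝒰 ≤ 𝓝 (exp x₀)` on `G` with `(exp '' B)ᶜ ∈ 𝒰`  (`Filter.NeBot (𝓝 _ ⊓ 𝓟 _ᶜ)` + `Ultrafilter.of`).
  For `g : G` let `x_g ∈ B` minimise `x ↦ d(exp x, g)` on `B` (`IsCompact.exists_isMinOn`, `gl_continuous_exp`, `continuous_dist`),
  `δ_g = d(exp x_g, g)`, `k_g = (exp x_g)⁻¹ g`, `‖k_g‖ = δ_g`.  Along `𝒰`:
   (a) `0 < δ_g ≤ d(exp x₀, g) → 0`;   (b) `‖x_g - x₀‖ ≤ K₃ d(exp x_g, exp x₀) ≤ K₃ (δ_g + d(g, exp x₀)) → 0`;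
   (c) `n_g := ⌊ρ/δ_g⌋₊ → ∞`, `n_g δ_g ≤ ρ`, `ρ / n_g ≤ 2 δ_g` eventually.
  GEN (`gl_exists_ops_of_ultrafilter`, `ι = G`, `g := k`, `k := n`, `R = ρ`) gives `y` with `k_g ^ n_g → y.ops 1 = exp y` (`t = 1`), `‖y‖ ≤ ρ`.
   (d) `gl_le_pow_dist` for `(exp (y/n_g), k_g, n_g)`: `n_g d(exp(y/n_g), k_g) ≤ K₄ d(exp y, k_g^{n_g}) → 0`; so `d(exp(y/n_g), k_g) ≤ δ_g/4` eventually
       (use `1/n_g ≤ 2δ_g/ρ`).
   (e) `d(exp(x_g + y/n_g), exp x_g exp(y/n_g)) ≤ K₂ ‖x_g‖ ‖y‖/n_g ≤ K₂ (2 r₁) ρ/n_g ≤ 4 K₂ r₁ δ_g ≤ δ_g/2`.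
   (f) so `d(exp(x_g + y/n_g), g) ≤ δ_g/2 + d(exp x_g exp(y/n_g), exp x_g k_g) ≤ 3δ_g/4 < δ_g`, while `x_g + y/n_g ∈ B` eventually by (b),(c):
       contradiction with the minimality of `x_g`.
(C2) `gl_exists_chart`: on `ball 0 r` (`r ≤ r₁`) `exp` is injective (X3), continuous (X4), and maps relatively o-p-e-n subsets to sets that are
  neighbourhoods of each of their points (C1); the inverse is continuous by (X3).  Build the `OpenPartialHomeomorph` from the `PartialEquiv`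
  with `toFun := Function.invFunOn N.exp (ball 0 r)`, `invFun := N.exp`, `source := exp '' ball 0 r`, `target := ball 0 r`.
-/
import Claimed.Agent.R304.GlFin

set_option autoImplicit false
set_option linter.unusedSectionVars false

namespace Claimed.Agent.R304

open Topology Filter

variable {G : Type*} [Group G] [TopologicalSpace G] [IsTopologicalGroup G] [LocallyCompactSpace G]
  (N : GleasonMetric G)

/-- every small group element is approximated to first order by an exponential -/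
theorem gl_exists_exp_approx {η : ℝ} (hη : 0 < η) : ∃ δ : ℝ, 0 < δ ∧ ∀ k : G, N.nrm k ≤ δ →
    ∃ z : GlLie N, ‖z‖ ≤ 2 * N.nrm k ∧ N.dist (N.exp z) k ≤ η * N.nrm k := by
  obtain ⟨ρ, hρ, K₄, hK₄, hP⟩ := gl_le_pow_dist N
  by_contra hcon
  push Not at hcon
  have hch : ∀ j : ℕ, ∃ k : G, N.nrm k ≤ 1 / ((j : ℝ) + 1) ∧
      ∀ z : GlLie N, ‖z‖ ≤ 2 * N.nrm k → η * N.nrm k < N.dist (N.exp z) k :=
    fun j => hcon (1 / ((j : ℝ) + 1)) (by positivity)
  choose k hk1 hk2 using hch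
  have hkpos : ∀ j, 0 < N.nrm (k j) := by
    intro j
    have h := hk2 j 0 (by rw [norm_zero]; have := N.nrm_nonneg (k j); linarith)
    rw [gl_exp_zero, N.dist_one_left] at h
    by_contra hneg
    have h0 : N.nrm (k j) = 0 := le_antisymm (not_lt.1 hneg) (N.nrm_nonneg _)
    rw [h0] at h
    simp at h
  have hk0 : Tendsto (fun j => N.nrm (k j)) atTop (𝓝 0) :=
    squeeze_zero (fun j => N.nrm_nonneg _) hk1 tendsto_one_div_add_atTop_nhds_zero_nat
  set n : ℕ → ℕ := fun j => ⌊ρ / N.nrm (k j)⌋₊ with hn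
  have hninf : Tendsto n atTop atTop := by
    apply tendsto_nat_floor_atTop.comp
    have h1 : Tendsto (fun j => N.nrm (k j)) atTop (𝓝[>] 0) :=
      tendsto_nhdsWithin_iff.2 ⟨hk0, Eventually.of_forall hkpos⟩
    exact (tendsto_inv_nhdsGT_zero.comp h1).const_mul_atTop hρ
  have hnk : ∀ j, (n j : ℝ) * N.nrm (k j) ≤ ρ := by
    intro j
    have := Nat.floor_le (a := ρ / N.nrm (k j)) (by have := hkpos j; positivity)
    rwa [le_div_iff₀ (hkpos j)] at this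
  have hnk' : ∀ j, ρ < ((n j : ℝ) + 1) * N.nrm (k j) := by
    intro j
    have := Nat.lt_floor_add_one (ρ / N.nrm (k j))
    rwa [div_lt_iff₀ (hkpos j)] at this
  have h𝒰 : ((hyperfilter ℕ : Ultrafilter ℕ) : Filter ℕ) ≤ atTop := Nat.hyperfilter_le_atTop
  obtain ⟨φ, hφ, hφn⟩ := gl_exists_ops_of_ultrafilter N (hyperfilter ℕ) k n ρ (hninf.mono_left h𝒰)
    (Eventually.of_forall hnk)
  set y : GlLie N := GlLie.of N φ with hy
  have hyn : ‖y‖ ≤ ρ := gl_lnorm_le N hρ.le hφn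
  have h1 : Tendsto (fun j => k j ^ n j) (hyperfilter ℕ) (𝓝 (N.exp y)) := by
    have := hφ 1
    simp only [one_mul, Int.floor_natCast, zpow_natCast] at this
    exact this
  have h2 : Tendsto (fun j => K₄ * N.dist (N.exp y) (k j ^ n j)) (hyperfilter ℕ) (𝓝 0) := by
    simpa using ((N.tendsto_nhds_iff).1 h1).const_mul K₄
  have h3 : ∀ᶠ j in (hyperfilter ℕ : Filter ℕ), K₄ * N.dist (N.exp y) (k j ^ n j) < η * ρ / 2 :=
    h2.eventually (gt_mem_nhds (by positivity))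
  have h4 : ∀ᶠ j in (hyperfilter ℕ : Filter ℕ), 1 ≤ n j :=
    (hninf.mono_left h𝒰).eventually (eventually_ge_atTop 1)
  obtain ⟨j, hj3, hj4⟩ := (h3.and h4).exists
  have hn1 : (1 : ℝ) ≤ n j := by exact_mod_cast hj4
  have hn0 : (0 : ℝ) < n j := by linarith
  have hkj := hkpos j
  have hρn : ρ / n j ≤ 2 * N.nrm (k j) := by
    rw [div_le_iff₀ hn0]
    have := hnk' j
    nlinarith
  set z : GlLie N := (1 / (n j : ℝ)) • y with hz
  have hzn : ‖z‖ ≤ ρ / n j := by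
    rw [hz, norm_smul, Real.norm_eq_abs, abs_of_pos (by positivity)]
    rw [one_div, inv_mul_eq_div]
    exact div_le_div_of_nonneg_right hyn hn0.le
  have hzpow : N.exp z ^ n j = N.exp y := by
    rw [← gl_exp_nsmul, hz, smul_smul]
    congr 1
    rw [mul_one_div_cancel hn0.ne', one_smul]
  have h5 := hP (N.exp z) (k j) (n j) (by
    calc (n j : ℝ) * N.nrm (N.exp z) ≤ n j * (ρ / n j) :=
          mul_le_mul_of_nonneg_left ((gl_nrm_exp_le N z).trans hzn) hn0.le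
      _ = ρ := by field_simp) (hnk j)
  rw [hzpow] at h5
  have h6 : N.dist (N.exp z) (k j) ≤ η * N.nrm (k j) := by
    have h7 : (n j : ℝ) * N.dist (N.exp z) (k j) ≤ η * ρ / 2 := h5.trans hj3.le
    have h8 : N.dist (N.exp z) (k j) ≤ η * ρ / 2 / n j := by
      rw [le_div_iff₀ hn0]; linarith
    calc N.dist (N.exp z) (k j) ≤ η * ρ / 2 / n j := h8
      _ = η / 2 * (ρ / n j) := by ring
      _ ≤ η / 2 * (2 * N.nrm (k j)) := mul_le_mul_of_nonneg_left hρn (by positivity)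
      _ = η * N.nrm (k j) := by ring
  exact absurd h6 (not_le.2 (hk2 j z (hzn.trans hρn)))

theorem gl_exp_image_mem_nhds : ∃ r₁ : ℝ, 0 < r₁ ∧ ∀ x : GlLie N, ‖x‖ < r₁ → ∀ r : ℝ, 0 < r →
    N.exp '' Metric.ball x r ∈ 𝓝 (N.exp x) := by
  obtain ⟨ε₂, hε₂, K₂, hK₂, hadd⟩ := gl_exp_add_dist N
  obtain ⟨ε₃, hε₃, K₃, hK₃, hbl⟩ := gl_exp_bilipschitz N
  obtain ⟨δ, hδ, happ⟩ := gl_exists_exp_approx N (η := 1 / 4) (by norm_num)
  set r₁ : ℝ := min (min ε₂ ε₃ / 2) (1 / (8 * (K₂ + 1))) with hr₁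
  have hr₁0 : 0 < r₁ := by positivity
  have hr₁a : 2 * r₁ ≤ ε₂ := by
    have h1 : r₁ ≤ min ε₂ ε₃ / 2 := min_le_left _ _
    have h2 : min ε₂ ε₃ ≤ ε₂ := min_le_left _ _
    linarith
  have hr₁b : 2 * r₁ ≤ ε₃ := by
    have h1 : r₁ ≤ min ε₂ ε₃ / 2 := min_le_left _ _
    have h2 : min ε₂ ε₃ ≤ ε₃ := min_le_right _ _
    linarith
  have hr₁c : 8 * K₂ * r₁ ≤ 1 := by
    have h1 : r₁ ≤ 1 / (8 * (K₂ + 1)) := min_le_right _ _
    rw [le_div_iff₀ (by positivity)] at h1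
    nlinarith
  refine ⟨r₁, hr₁0, fun x₀ hx₀ r hr => ?_⟩
  -- shrink `r`
  set r' : ℝ := min r (2 * (r₁ - ‖x₀‖)) with hr'
  have hr'0 : 0 < r' := lt_min hr (by linarith)
  have hr'r : r' ≤ r := min_le_left _ _
  have hr'x : ‖x₀‖ + r' / 2 ≤ r₁ := by
    have : r' ≤ 2 * (r₁ - ‖x₀‖) := min_le_right _ _
    linarith
  set B : Set (GlLie N) := Metric.closedBall x₀ (r' / 2) with hB
  have hBc : IsCompact B := isCompact_closedBall _ _
  have hBn : ∀ x ∈ B, ‖x‖ ≤ r₁ := by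
    intro x hx
    have h1 : ‖x - x₀‖ ≤ r' / 2 := by simpa [hB, dist_eq_norm] using hx
    have h2 : ‖x‖ ≤ ‖x₀‖ + ‖x - x₀‖ := by
      have := norm_add_le x₀ (x - x₀)
      rwa [add_sub_cancel] at this
    linarith
  have hBsub : B ⊆ Metric.ball x₀ r :=
    Metric.closedBall_subset_ball (by linarith)
  set θ : ℝ := min (min δ (ε₂ / 2)) (r' / (4 * K₃ + 4)) with hθ
  have hθ0 : 0 < θ := by positivity
  have hθδ : θ ≤ δ := (min_le_left _ _).trans (min_le_left _ _)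
  have hθε : θ ≤ ε₂ / 2 := (min_le_left _ _).trans (min_le_right _ _)
  have hθr : (4 * K₃ + 4) * θ ≤ r' := by
    have : θ ≤ r' / (4 * K₃ + 4) := min_le_right _ _
    rw [le_div_iff₀ (by positivity)] at this
    linarith
  refine mem_of_superset (N.ball_mem_nhds (N.exp x₀) hθ0) ?_
  intro g hg
  change N.dist (N.exp x₀) g < θ at hg
  obtain ⟨x, hxB, hmin⟩ := hBc.exists_isMinOn (f := fun x => N.dist (N.exp x) g)
    ⟨x₀, Metric.mem_closedBall_self (by positivity)⟩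
    ((N.continuous_dist.comp ((gl_continuous_exp N).prodMk continuous_const)).continuousOn)
  have hmin' : ∀ x' ∈ B, N.dist (N.exp x) g ≤ N.dist (N.exp x') g := fun x' hx' => hmin hx'
  set d : ℝ := N.dist (N.exp x) g with hd
  have hd0 : 0 ≤ d := N.dist_nonneg _ _
  have hdθ : d ≤ N.dist (N.exp x₀) g := hmin' x₀ (Metric.mem_closedBall_self (by positivity))
  rcases hd0.eq_or_lt with hd00 | hdpos
  · exact ⟨x, hBsub hxB, N.eq_of_dist_eq_zero hd00.symm⟩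
  exfalso
  set k : G := (N.exp x)⁻¹ * g with hk
  have hkn : N.nrm k = d := rfl
  obtain ⟨z, hz1, hz2⟩ := happ k (by rw [hkn]; linarith)
  rw [hkn] at hz1 hz2
  have hxn := hBn x hxB
  have h1 : N.dist (N.exp (x + z)) (N.exp x * N.exp z) ≤ K₂ * ‖x‖ * ‖z‖ :=
    hadd x z (by linarith) (by linarith)
  have h2 : K₂ * ‖x‖ * ‖z‖ ≤ d / 2 := by
    have h3 : K₂ * ‖x‖ * ‖z‖ ≤ K₂ * r₁ * (2 * d) := by
      apply mul_le_mul (mul_le_mul_of_nonneg_left hxn hK₂) hz1 (norm_nonneg _) (by positivity)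
    nlinarith
  have h4 : N.dist (N.exp x * N.exp z) g = N.dist (N.exp z) k := by
    have : g = N.exp x * k := by rw [hk]; group
    rw [this, N.dist_mul_left]
  have h5 : N.dist (N.exp (x + z)) g ≤ 3 / 4 * d := by
    have := N.dist_triangle (N.exp (x + z)) (N.exp x * N.exp z) g
    rw [h4] at this
    linarith
  have h6 : x + z ∈ B := by
    have h7 : ‖x - x₀‖ ≤ K₃ * N.dist (N.exp x) (N.exp x₀) :=
      (hbl x x₀ (by linarith) (by linarith)).2
    have h8 : N.dist (N.exp x) (N.exp x₀) ≤ d + N.dist (N.exp x₀) g := by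
      have := N.dist_triangle (N.exp x) g (N.exp x₀)
      rwa [N.dist_comm g] at this
    have h9 : ‖x + z - x₀‖ ≤ ‖x - x₀‖ + ‖z‖ := by
      have := norm_add_le (x - x₀) z
      rwa [show x - x₀ + z = x + z - x₀ by abel] at this
    have h10 : K₃ * N.dist (N.exp x) (N.exp x₀) ≤ K₃ * (2 * θ) :=
      mul_le_mul_of_nonneg_left (by linarith) hK₃.le
    have : ‖x + z - x₀‖ ≤ r' / 2 := by nlinarith
    simpa [hB, dist_eq_norm] using this
  have := hmin' _ h6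
  linarith

theorem gl_exists_chart : ∃ r₁ : ℝ, 0 < r₁ ∧ ∀ r : ℝ, 0 < r → r ≤ r₁ →
    ∃ e : OpenPartialHomeomorph G (GlLie N), e.target = Metric.ball 0 r ∧
      e.source = N.exp '' Metric.ball 0 r ∧ ∀ x ∈ Metric.ball (0 : GlLie N) r, e.symm x = N.exp x := by
  obtain ⟨r₁, hr₁, hopen⟩ := gl_exp_image_mem_nhds N
  obtain ⟨ε₃, hε₃, K₃, hK₃, hbl⟩ := gl_exp_bilipschitz N
  refine ⟨min r₁ ε₃, lt_min hr₁ hε₃, fun r hr hrr => ?_⟩
  have hinj : Set.InjOn N.exp (Metric.ball (0 : GlLie N) r) := by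
    intro x hx y hy hxy
    have hx' : ‖x‖ ≤ ε₃ := by
      have : ‖x‖ < r := by simpa using hx
      exact (this.le.trans hrr).trans (min_le_right _ _)
    have hy' : ‖y‖ ≤ ε₃ := by
      have : ‖y‖ < r := by simpa using hy
      exact (this.le.trans hrr).trans (min_le_right _ _)
    have := (hbl x y hx' hy').2
    rw [hxy, N.dist_self, mul_zero] at this
    exact sub_eq_zero.1 (norm_le_zero_iff.1 this)
  have hop : IsOpenMap ((hinj.toPartialEquiv N.exp _).source.domRestrict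
      (hinj.toPartialEquiv N.exp _)) := by
    apply IsOpenMap.of_nhds_le
    rintro ⟨x, hx⟩
    have hx' : x ∈ Metric.ball (0 : GlLie N) r := hx
    have hxn : ‖x‖ < r₁ := by
      have : ‖x‖ < r := by simpa using hx'
      exact this.trans_le (hrr.trans (min_le_left _ _))
    intro S hS
    rw [mem_map] at hS
    have hS2 : Subtype.val '' (((hinj.toPartialEquiv N.exp _).source.domRestrict
      (hinj.toPartialEquiv N.exp _)) ⁻¹' S) ∈ 𝓝 x := by
      have := (Metric.isOpen_ball (x := (0 : GlLie N)) (ε := r)).isOpenEmbedding_subtypeVal.map_nhds_eq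
        ⟨x, hx'⟩
      rw [← this]
      exact image_mem_map hS
    obtain ⟨ρ, hρ, hsub⟩ := Metric.mem_nhds_iff.1 hS2
    refine mem_of_superset (hopen x hxn ρ hρ) ?_
    rintro _ ⟨y, hy, rfl⟩
    obtain ⟨⟨y', hy'⟩, hyS, rfl⟩ := hsub hy
    exact hyS
  refine ⟨(OpenPartialHomeomorph.ofContinuousOpenRestrict (hinj.toPartialEquiv N.exp _)
    (gl_continuous_exp N).continuousOn hop Metric.isOpen_ball).symm, rfl, rfl, fun x _ => rfl⟩

end Claimed.Agent.R304
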