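/-
Row 304, block A4.  Owner: helper231.  PACKAGE gl10 (est. 300 lines).   Pure Mathlib.
Continuous one-parameter groups in a Banach algebra are `t ↦ exp (t B)`.

Plan.  `M δ := ∫ s in 0..δ, A s`.  As `A` is continuous with `A 0 = 1`, `‖δ⁻¹ • M δ - 1‖ < 1` for small `δ > 0`, so `M δ` is a unit
(`Units.oneSub`/`isUnit_of_norm_sub_one_lt`...).  `A t * M δ = ∫ s in 0..δ, A (t + s) = ∫ s in t..t+δ, A s`
(`intervalIntegral.integral_const_mul`-type lemma for left multiplication as a CLM, `intervalIntegral.integral_comp_add_left`), which is differentiable in `t`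
(FTC, `intervalIntegral.integral_hasDerivAt_right`, with derivative `A (t+δ) - A t`).  Hence `A t = (A t * M δ) * (M δ)⁻¹` is differentiable; let `B = A'(0)`.
From `A (t + h) = A t * A h`: `A'(t) = A t * B`.  Then `F t = A t * exp (-(t • B))` has derivative `A t * B * exp(..) - A t * (B * exp(..))`; use
`hasDerivAt_exp_smul_const'` (`B` commutes with `exp (t • B)`): `F' = 0`, `F 0 = 1` (`is_const_of_deriv_eq_zero`), and `exp (-(t•B)) * exp (t•B) = 1`.
-/
import Mathlib

set_option autoImplicit false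

namespace Claimed.Agent.R304

open Topology Filter in
theorem gl_opg_eq_exp {𝔸 : Type*} [NormedRing 𝔸] [NormedAlgebra ℝ 𝔸] [CompleteSpace 𝔸] (A : ℝ → 𝔸)
    (hc : Continuous A) (h0 : A 0 = 1) (hadd : ∀ s t : ℝ, A (s + t) = A s * A t) :
    ∃ B : 𝔸, ∀ t : ℝ, A t = NormedSpace.exp (t • B) := by
  -- a small `δ`
  have hnear : ∀ᶠ s in 𝓝 (0 : ℝ), ‖A s - 1‖ < 1 / 2 := by
    have h1 : Tendsto (fun s => ‖A s - 1‖) (𝓝 0) (𝓝 0) := by
      have : Continuous fun s => ‖A s - 1‖ := by fun_prop
      simpa [h0] using this.tendsto 0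
    exact h1.eventually (gt_mem_nhds (by norm_num))
  obtain ⟨δ, hδ, hball⟩ := Metric.eventually_nhds_iff.1 hnear
  set d : ℝ := δ / 2 with hd
  have hd0 : 0 < d := by positivity
  set P : ℝ → 𝔸 := fun u => ∫ s in (0 : ℝ)..u, A s with hP
  have hPd : ∀ t, HasDerivAt P (A t) t := fun t => (hc.integral_hasStrictDerivAt 0 t).hasDerivAt
  have hint : ∀ a b : ℝ, IntervalIntegrable A MeasureTheory.volume a b :=
    fun a b => hc.intervalIntegrable a b
  -- `P d` is a unit
  have hM : ‖P d - d • (1 : 𝔸)‖ ≤ 1 / 2 * d := by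
    have e1 : P d - d • (1 : 𝔸) = ∫ s in (0 : ℝ)..d, (A s - 1) := by
      rw [intervalIntegral.integral_sub (hint 0 d) (by simp), intervalIntegral.integral_const,
        sub_zero]
    rw [e1]
    have := intervalIntegral.norm_integral_le_of_norm_le_const (a := 0) (b := d) (C := 1 / 2)
      (f := fun s => A s - 1) (by
        intro s hs
        rw [Set.uIoc_of_le hd0.le] at hs
        apply le_of_lt
        apply hball
        rw [Real.dist_eq, sub_zero, abs_of_pos hs.1]
        linarith [hs.2])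
    rwa [sub_zero, abs_of_pos hd0] at this
  have hunit : IsUnit (d⁻¹ • P d) := by
    have h1 : ‖1 - d⁻¹ • P d‖ < 1 := by
      have e2 : 1 - d⁻¹ • P d = - (d⁻¹ • (P d - d • (1 : 𝔸))) := by
        rw [smul_sub, smul_smul, inv_mul_cancel₀ hd0.ne', one_smul]
        abel
      rw [e2, norm_neg, norm_smul, Real.norm_eq_abs, abs_of_pos (by positivity)]
      calc d⁻¹ * ‖P d - d • (1 : 𝔸)‖ ≤ d⁻¹ * (1 / 2 * d) :=
            mul_le_mul_of_nonneg_left hM (by positivity)
        _ = 1 / 2 := by field_simp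
        _ < 1 := by norm_num
    have := isUnit_one_sub_of_norm_lt_one h1
    rwa [sub_sub_cancel] at this
  obtain ⟨u, hu⟩ := hunit
  -- `A t * P d = P (t + d) - P t`
  have hkey : ∀ t, A t * P d = P (t + d) - P t := by
    intro t
    have e1 : A t * P d = ∫ s in (0 : ℝ)..d, A t * A s :=
      ((ContinuousLinearMap.mul ℝ 𝔸 (A t)).intervalIntegral_comp_comm (hint 0 d)).symm
    have e2 : (∫ s in (0 : ℝ)..d, A t * A s) = ∫ s in (0 : ℝ)..d, A (t + s) := by
      simp only [hadd]
    rw [e1, e2, intervalIntegral.integral_comp_add_left, add_zero,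
      intervalIntegral.integral_interval_sub_left (hint _ _) (hint _ _)]
  have hA : ∀ t, A t = (d⁻¹ • (P (t + d) - P t)) * (↑u⁻¹ : 𝔸) := by
    intro t
    rw [← hkey, ← mul_smul_comm, ← hu, mul_assoc, Units.mul_inv, mul_one]
  set B : 𝔸 := (d⁻¹ • (A (0 + d) - A 0)) * (↑u⁻¹ : 𝔸) with hB
  have hA0 : HasDerivAt A B 0 := by
    have h1 : HasDerivAt (fun t => (d⁻¹ • (P (t + d) - P t)) * (↑u⁻¹ : 𝔸)) B 0 := by
      have h2 : HasDerivAt (fun t => P (t + d)) (A (0 + d)) 0 := (hPd (0 + d)).comp_add_const 0 d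
      exact (((h2.sub (hPd 0)).const_smul d⁻¹).mul_const _)
    have : A = fun t => (d⁻¹ • (P (t + d) - P t)) * (↑u⁻¹ : 𝔸) := funext hA
    rw [this]
    exact h1
  have hAt : ∀ t, HasDerivAt A (A t * B) t := by
    intro t
    have h1 : HasDerivAt (fun v => A (v - t)) B t := by
      have : HasDerivAt A B (t - t) := by rwa [sub_self]
      exact this.comp_sub_const t t
    have h2 : HasDerivAt (fun v => A t * A (v - t)) (A t * B) t := h1.const_mul (A t)
    have : A = fun v => A t * A (v - t) := by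
      funext v
      rw [← hadd]
      congr 1
      ring
    rw [this]
    simpa [← hadd] using h2
  refine ⟨B, fun t => ?_⟩
  set F : ℝ → 𝔸 := fun t => A t * NormedSpace.exp (t • (-B)) with hF
  have hFd : ∀ t, HasDerivAt F 0 t := by
    intro t
    have h1 := (hAt t).mul (hasDerivAt_exp_smul_const' (𝕂 := ℝ) (-B) t)
    have e : A t * B * NormedSpace.exp (t • -B) + A t * (-B * NormedSpace.exp (t • -B)) = 0 := by
      noncomm_ring
    rw [e] at h1
    exact h1
  have hconst : F t = F 0 :=
    is_const_of_deriv_eq_zero (fun t => (hFd t).differentiableAt) (fun t => (hFd t).deriv) t 0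
  have hF0 : F 0 = 1 := by
    simp [hF, h0, NormedSpace.exp_zero]
  have hinv : NormedSpace.exp (t • (-B)) * NormedSpace.exp (t • B) = 1 := by
    let _ := NormedAlgebra.restrictScalars ℚ ℝ 𝔸
    rw [← NormedSpace.exp_add_of_commute, smul_neg, neg_add_cancel, NormedSpace.exp_zero]
    rw [smul_neg]
    exact (Commute.refl _).neg_left
  calc A t = A t * (NormedSpace.exp (t • (-B)) * NormedSpace.exp (t • B)) := by rw [hinv, mul_one]
    _ = F t * NormedSpace.exp (t • B) := by rw [hF, mul_assoc]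
    _ = NormedSpace.exp (t • B) := by rw [hconst, hF0, one_mul]

end Claimed.Agent.R304
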