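/-
Row 304, block A4.  Owner: helper231.  PACKAGE gl11 (est. 500 lines).   `ad`, raw form: `Ad (exp (t x)) = exp (t ad x)`, `ad` is linear.

(D1) `gl_Ad_exp_smul`: `A t := glAd N (N.exp (t • x))` is continuous (`gl_continuous_Ad`, `gl_continuous_exp`), `A 0 = 1`, `A (s+t) = A s * A t`
  (`gl_exp_add_smul`, `gl_Ad_mul`).  `gl_opg_eq_exp` gives `B`; `deriv A 0 = B` by `hasDerivAt_exp_smul_const B 0`; so `B = gladFun N x`.
(D2) `gl_adFun_smul`: `A_{s x}(t) = A_x (s t) = exp ((s t) • ad x) = exp (t • (s • ad x))`; differentiate at `0`.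
(D3) `gl_adFun_add`: put `e t := (exp (t x) exp (t y))⁻¹ exp (t (x+y))`; `‖e t‖ = d(exp(tx)exp(ty), exp(t(x+y))) ≤ K t² ‖x‖‖y‖` for small `t` (`gl_exp_add_dist`), and
  `A_{x+y}(t) = A_x(t) A_y(t) Ad(e t)`, `‖Ad (e t) - 1‖ ≤ K' ‖e t‖` (`gl_Ad_sub_one_le`).  So `A_{x+y}(t) - A_x(t)A_y(t) = O(t²)`; both sides are differentiable at `0`
  and agree at `0`, so the derivatives agree: `ad (x+y) = ad x + ad y` (`HasDerivAt.mul` for the product).
-/
import Claimed.Agent.R304.GlAd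
import Claimed.Agent.R304.GlOpg

set_option autoImplicit false
set_option linter.unusedSectionVars false

namespace Claimed.Agent.R304

open Topology Filter

variable {G : Type*} [Group G] [TopologicalSpace G] [IsTopologicalGroup G] [LocallyCompactSpace G]
  (N : GleasonMetric G)

theorem gl_hasDerivAt_exp_smul_zero {𝔸 : Type*} [NormedRing 𝔸] [NormedAlgebra ℝ 𝔸] [CompleteSpace 𝔸]
    (B : 𝔸) : HasDerivAt (fun u : ℝ => NormedSpace.exp (u • B)) B 0 := by
  have := hasDerivAt_exp_smul_const (𝕂 := ℝ) B 0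
  rwa [zero_smul, NormedSpace.exp_zero, one_mul] at this

theorem gl_Ad_exp_smul (x : GlLie N) (t : ℝ) :
    glAd N (N.exp (t • x)) = NormedSpace.exp (t • gladFun N x) := by
  obtain ⟨B, hB⟩ := gl_opg_eq_exp (fun t : ℝ => glAd N (N.exp (t • x)))
    ((gl_continuous_Ad N).comp ((gl_continuous_exp N).comp (by fun_prop)))
    (by simp only [zero_smul, gl_exp_zero, gl_Ad_one])
    (fun s t => by simp only [gl_exp_add_smul, gl_Ad_mul])
  have h1 : gladFun N x = B := by
    rw [gladFun, funext hB]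
    exact (gl_hasDerivAt_exp_smul_zero B).deriv
  rw [h1]
  exact hB t

theorem gl_hasDerivAt_Ad_exp (x : GlLie N) :
    HasDerivAt (fun t : ℝ => glAd N (N.exp (t • x))) (gladFun N x) 0 := by
  rw [funext (gl_Ad_exp_smul N x)]
  exact gl_hasDerivAt_exp_smul_zero (gladFun N x)

theorem gl_adFun_smul (s : ℝ) (x : GlLie N) : gladFun N (s • x) = s • gladFun N x := by
  have h1 := gl_hasDerivAt_Ad_exp N (s • x)
  have h2 : (fun t : ℝ => glAd N (N.exp (t • s • x))) =
      fun t : ℝ => NormedSpace.exp (t • (s • gladFun N x)) := by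
    funext t
    rw [smul_smul, gl_Ad_exp_smul, smul_smul]
  rw [h2] at h1
  exact h1.unique (gl_hasDerivAt_exp_smul_zero (s • gladFun N x))

theorem gl_adFun_add (x y : GlLie N) : gladFun N (x + y) = gladFun N x + gladFun N y := by
  obtain ⟨ε₂, hε₂, K₂, hK₂, hadd⟩ := gl_exp_add_dist N
  obtain ⟨ε, hε, K, hK, hAd⟩ := gl_Ad_sub_one_le N
  set e : ℝ → G := fun t => (N.exp (t • x) * N.exp (t • y))⁻¹ * N.exp (t • (x + y)) with he
  -- bound for `e`
  set L : ℝ := K₂ * ‖x‖ * ‖y‖ with hL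
  have hL0 : 0 ≤ L := by positivity
  set δ : ℝ := min (min (ε₂ / (‖x‖ + 1)) (ε₂ / (‖y‖ + 1))) (min 1 (ε / (L + 1))) with hδ
  have hδ0 : 0 < δ := by positivity
  have hbound : ∀ t : ℝ, |t| ≤ δ → N.nrm (e t) ≤ L * t ^ 2 ∧ N.nrm (e t) ≤ ε := by
    intro t ht
    have ht1 : |t| ≤ ε₂ / (‖x‖ + 1) := ht.trans ((min_le_left _ _).trans (min_le_left _ _))
    have ht2 : |t| ≤ ε₂ / (‖y‖ + 1) := ht.trans ((min_le_left _ _).trans (min_le_right _ _))
    have ht3 : |t| ≤ 1 := ht.trans ((min_le_right _ _).trans (min_le_left _ _))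
    have ht4 : |t| ≤ ε / (L + 1) := ht.trans ((min_le_right _ _).trans (min_le_right _ _))
    rw [le_div_iff₀ (by positivity)] at ht1 ht2 ht4
    have hx : ‖t • x‖ ≤ ε₂ := by
      rw [norm_smul, Real.norm_eq_abs]
      nlinarith [abs_nonneg t, norm_nonneg x]
    have hy : ‖t • y‖ ≤ ε₂ := by
      rw [norm_smul, Real.norm_eq_abs]
      nlinarith [abs_nonneg t, norm_nonneg y]
    have h1 := hadd (t • x) (t • y) hx hy
    rw [← smul_add, N.dist_comm, norm_smul, norm_smul, Real.norm_eq_abs] at h1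
    have h2 : N.nrm (e t) ≤ L * t ^ 2 := by
      calc N.nrm (e t) ≤ K₂ * (|t| * ‖x‖) * (|t| * ‖y‖) := h1
        _ = L * |t| ^ 2 := by rw [hL]; ring
        _ = L * t ^ 2 := by rw [sq_abs]
    refine ⟨h2, h2.trans ?_⟩
    have h3 : t ^ 2 ≤ |t| := by
      rw [← sq_abs]
      nlinarith [abs_nonneg t]
    calc L * t ^ 2 ≤ L * |t| := mul_le_mul_of_nonneg_left h3 hL0
      _ ≤ ε := by nlinarith [abs_nonneg t]
  have he0 : e 0 = 1 := by
    simp [he, gl_exp_zero]
  have hder : HasDerivAt (fun t => glAd N (e t)) 0 0 := by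
    rw [hasDerivAt_iff_isLittleO_nhds_zero]
    simp only [zero_add, he0, gl_Ad_one, smul_zero, sub_zero]
    apply Asymptotics.IsLittleO.of_norm_left
    apply gl_isLittleO_of_sq (A := K * L) hδ0
    intro t ht
    obtain ⟨h1, h2⟩ := hbound t ht
    rw [abs_of_nonneg (norm_nonneg _)]
    calc ‖glAd N (e t) - 1‖ ≤ K * N.nrm (e t) := hAd _ h2
      _ ≤ K * (L * t ^ 2) := mul_le_mul_of_nonneg_left h1 hK
      _ = K * L * t ^ 2 := by ring
  have hprod := ((gl_hasDerivAt_Ad_exp N x).mul (gl_hasDerivAt_Ad_exp N y)).mul hder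
  have hfun : (fun t : ℝ => glAd N (N.exp (t • x)) * glAd N (N.exp (t • y)) * glAd N (e t)) =
      fun t : ℝ => glAd N (N.exp (t • (x + y))) := by
    funext t
    rw [← gl_Ad_mul, ← gl_Ad_mul, he]
    congr 1
    group
  have hprod' : HasDerivAt (fun t : ℝ => glAd N (N.exp (t • (x + y))))
      (gladFun N x + gladFun N y) 0 := by
    rw [← hfun]
    have e1 : gladFun N x + gladFun N y =
        (gladFun N x * glAd N (N.exp ((0 : ℝ) • y)) + glAd N (N.exp ((0 : ℝ) • x)) * gladFun N y) *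
          glAd N (e 0) +
        ((fun t : ℝ => glAd N (N.exp (t • x))) * fun t : ℝ => glAd N (N.exp (t • y))) 0 * 0 := by
      rw [he0, zero_smul, zero_smul, gl_exp_zero, gl_Ad_one, mul_one, mul_one, one_mul, mul_zero,
        add_zero]
    rw [e1]
    exact hprod
  exact (gl_hasDerivAt_Ad_exp N (x + y)).unique hprod'

end Claimed.Agent.R304
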