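/-
Row 304, block A4.  Owner: helper231.  DEFINITIONS (no sorry in this file): `ad` as a continuous linear map, `β(B) = ∫₀¹ e^{-sB} ds`,
`Φ(x) = β(ad x)`, and the right hand side `R` of the differential equation `Dμ = R(x, y, μ)` of the local group law.
-/
import Claimed.Agent.R304.GlAdj

set_option autoImplicit false

namespace Claimed.Agent.R304

open Topology Filter

/-- `β(B) = ∫₀¹ exp (-sB) ds = (1 - e^{-B})/B` in a Banach algebra. -/
noncomputable def glBeta {𝔸 : Type*} [NormedRing 𝔸] [NormedAlgebra ℝ 𝔸] (B : 𝔸) : 𝔸 :=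
  ∫ s in (0 : ℝ)..1, NormedSpace.exp (-(s • B))

variable {G : Type*} [Group G] [TopologicalSpace G] [IsTopologicalGroup G] [LocallyCompactSpace G]

/-- `ad : L(G) → End L(G)`, a continuous linear map (`L(G)` is finite dimensional). -/
noncomputable def glad (N : GleasonMetric G) : GlLie N →L[ℝ] (GlLie N →L[ℝ] GlLie N) :=
  LinearMap.toContinuousLinearMap
    { toFun := gladFun N
      map_add' := gl_adFun_add N
      map_smul' := gl_adFun_smul N }

theorem gl_ad_apply (N : GleasonMetric G) (x : GlLie N) : glad N x = gladFun N x := rfl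

/-- `Φ(x) = ∫₀¹ e^{-s ad x} ds`: the derivative of `exp` at `x`, read in the left trivialisation. -/
noncomputable def glPhi (N : GleasonMetric G) (x : GlLie N) : GlLie N →L[ℝ] GlLie N :=
  glBeta (glad N x)

/-- `R((x, y), z)(h, k) = Φ(z)⁻¹ (e^{-ad z} Φ(-x) h + Φ(y) k)`. -/
noncomputable def glR (N : GleasonMetric G) (q : (GlLie N × GlLie N) × GlLie N) :
    (GlLie N × GlLie N) →L[ℝ] GlLie N :=
  (Ring.inverse (glPhi N q.2)).comp
    (((NormedSpace.exp (-(glad N q.2))).comp (glPhi N (-q.1.1))).comp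
        (ContinuousLinearMap.fst ℝ (GlLie N) (GlLie N)) +
      (glPhi N q.1.2).comp (ContinuousLinearMap.snd ℝ (GlLie N) (GlLie N)))

/-- realises the equation lemmas here (unique names) -/
theorem gl_phiDefs_eqns_cite : True := by
  have := @glBeta.eq_1.{0}
  have := @glad.eq_1.{0}
  have := @glPhi.eq_1.{0}
  have := @glR.eq_1.{0}
  trivial

end Claimed.Agent.R304
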