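/-
Row 304, block A4.  Owner: helper231.  PACKAGE gl12 (est. 500 lines).   Pure Banach algebra facts on `β(B) = ∫₀¹ exp (-sB) ds`.

(B1) `gl_beta_zero`: the integrand is `exp 0 = 1`.
(B2) `gl_contDiff_beta`.  Three possible routes, the owner chooses:
  (i) Banach algebra `C(Set.Icc 0 1, 𝔸)` (`ContinuousMap` over a compact space is a complete normed algebra): `Λ B := (s ↦ -(s • B))` is continuous linear in `B`,
      `NormedSpace.exp` is analytic there (`NormedSpace.exp_analytic`, `AnalyticAt.contDiffAt`), evaluation at `s` is a continuous ring hom so it commutes with `exp`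
      (`NormedSpace.map_exp`), and `f ↦ ∫ s in 0..1, f s` is continuous linear (`LinearMap.mkContinuous`, bound `‖f‖`).   `β = I ∘ exp ∘ Λ`.
  (ii) power series `β(B) = Σ_k (-1)^k/(k+1)! B^k` via `FormalMultilinearSeries.ofScalars` (radius `⊤`) + termwise integration.
  (iii) `β(B)` = upper right block of `exp [[-B,1],[0,0]]`.
(B3) `gl_beta_riemann`: with `q = exp (-(1/n)•B)`: `exp (-(j/n)•B) = q^j`; splitting `∫₀¹ = Σ_j ∫_{j/n}^{(j+1)/n}` and substituting gives
  `β(B) = ((1/n) Σ_{j<n} q^j) * β((1/n)•B)`, and `β((1/n)•B) → β 0 = 1` (continuity from (B2)), it is eventually a unit with inverse `→ 1`.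
  (Alternatively: uniform continuity of `s ↦ exp (-sB)` on `[0,1]`.)
(B4) `gl_beta_unit`: `β`, `exp` are continuous, `β 0 = exp 0 = 1`, `‖1‖ ≤ 1 < 2`; the units form a neighbourhood of `1` (`Units.isOpen`/`Units.nhds`), and
  `Ring.inverse` is continuous at units (`NormedRing.inverse_continuousAt`), `Ring.inverse 1 = 1`.
-/
import Claimed.Agent.R304.GlPhiDefs

set_option autoImplicit false
set_option linter.unusedSectionVars false

namespace Claimed.Agent.R304

open Topology Filter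
open scoped ContDiff

/-- Riemann sums of a continuous function on `[0,1]`. -/
theorem gl_riemann {E : Type*} [NormedAddCommGroup E] [NormedSpace ℝ E] [CompleteSpace E] (f : ℝ → E)
    (hf : Continuous f) :
    Tendsto (fun n : ℕ => (n : ℝ)⁻¹ • ∑ j ∈ Finset.range n, f ((j : ℝ) / n)) atTop
      (𝓝 (∫ s in (0 : ℝ)..1, f s)) := by
  rw [Metric.tendsto_atTop]
  intro ε hε
  have huc : UniformContinuousOn f (Set.Icc 0 1) :=
    isCompact_Icc.uniformContinuousOn_of_continuous hf.continuousOn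
  obtain ⟨δ, hδ, hδf⟩ := Metric.uniformContinuousOn_iff.1 huc (ε / 2) (by positivity)
  obtain ⟨M, hM⟩ := exists_nat_gt (1 / δ)
  refine ⟨M, fun n hn => ?_⟩
  have hM0 : (0 : ℝ) < M := lt_of_le_of_lt (by positivity) hM
  have hn0 : (0 : ℝ) < n := lt_of_lt_of_le hM0 (by exact_mod_cast hn)
  have hnδ : 1 / (n : ℝ) < δ := by
    have h1 : 1 / δ < n := lt_of_lt_of_le hM (by exact_mod_cast hn)
    rw [div_lt_iff₀ hδ] at h1
    rw [div_lt_iff₀ hn0]
    linarith
  have hint : ∀ a b : ℝ, IntervalIntegrable f MeasureTheory.volume a b :=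
    fun a b => hf.intervalIntegrable a b
  have e1 : (∫ s in (0 : ℝ)..1, f s) =
      ∑ j ∈ Finset.range n, ∫ s in ((j : ℝ) / n)..(((j + 1 : ℕ) : ℝ) / n), f s := by
    rw [intervalIntegral.sum_integral_adjacent_intervals (a := fun j : ℕ => (j : ℝ) / n)
      (fun k _ => hint _ _)]
    simp [hn0.ne']
  have e2 : (n : ℝ)⁻¹ • ∑ j ∈ Finset.range n, f ((j : ℝ) / n) =
      ∑ j ∈ Finset.range n, ∫ _s in ((j : ℝ) / n)..(((j + 1 : ℕ) : ℝ) / n), f ((j : ℝ) / n) := by
    rw [Finset.smul_sum]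
    refine Finset.sum_congr rfl fun j _ => ?_
    rw [intervalIntegral.integral_const]
    congr 1
    push_cast
    field_simp
    ring
  rw [dist_eq_norm, e1, e2, ← Finset.sum_sub_distrib]
  have hterm : ∀ j ∈ Finset.range n,
      ‖(∫ _s in ((j : ℝ) / n)..(((j + 1 : ℕ) : ℝ) / n), f ((j : ℝ) / n)) -
        ∫ s in ((j : ℝ) / n)..(((j + 1 : ℕ) : ℝ) / n), f s‖ ≤ ε / 2 * (1 / n) := by
    intro j hj
    have hjn : j < n := Finset.mem_range.1 hj
    have hj1 : ((j + 1 : ℕ) : ℝ) ≤ n := by exact_mod_cast hjn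
    have hle : (j : ℝ) / n ≤ ((j + 1 : ℕ) : ℝ) / n := by
      apply div_le_div_of_nonneg_right _ hn0.le
      push_cast
      linarith
    rw [← intervalIntegral.integral_sub (by simp) (hint _ _)]
    have := intervalIntegral.norm_integral_le_of_norm_le_const (a := (j : ℝ) / n)
      (b := ((j + 1 : ℕ) : ℝ) / n) (C := ε / 2) (f := fun s => f ((j : ℝ) / n) - f s) (by
        intro s hs
        rw [Set.uIoc_of_le hle] at hs
        have hj0 : (0 : ℝ) ≤ (j : ℝ) / n := by positivity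
        have hj2 : ((j + 1 : ℕ) : ℝ) / n ≤ 1 := by rwa [div_le_one hn0]
        have h3 := hδf ((j : ℝ) / n) ⟨hj0, hle.trans hj2⟩ s ⟨hj0.trans hs.1.le, hs.2.trans hj2⟩ (by
          rw [Real.dist_eq, abs_sub_comm, abs_of_pos (by linarith [hs.1])]
          have : ((j + 1 : ℕ) : ℝ) / n = (j : ℝ) / n + 1 / n := by push_cast; ring
          linarith [hs.2])
        rw [dist_eq_norm] at h3
        exact h3.le)
    have e3 : |((j + 1 : ℕ) : ℝ) / n - (j : ℝ) / n| = 1 / n := by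
      have : ((j + 1 : ℕ) : ℝ) / n - (j : ℝ) / n = 1 / n := by push_cast; ring
      rw [this, abs_of_pos (by positivity)]
    rwa [e3] at this
  calc ‖∑ j ∈ Finset.range n,
        ((∫ _s in ((j : ℝ) / n)..(((j + 1 : ℕ) : ℝ) / n), f ((j : ℝ) / n)) -
          ∫ s in ((j : ℝ) / n)..(((j + 1 : ℕ) : ℝ) / n), f s)‖
      ≤ ∑ j ∈ Finset.range n, ε / 2 * (1 / n) := norm_sum_le_of_le _ hterm
    _ = ε / 2 := by
        rw [Finset.sum_const, Finset.card_range, nsmul_eq_mul]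
        field_simp
    _ < ε := by linarith

variable {𝔸 : Type*} [NormedRing 𝔸] [NormedAlgebra ℝ 𝔸] [CompleteSpace 𝔸]

theorem gl_continuous_exp_alg : Continuous (NormedSpace.exp : 𝔸 → 𝔸) := by
  let _ := NormedAlgebra.restrictScalars ℚ ℝ 𝔸
  exact NormedSpace.exp_continuous

theorem gl_beta_zero : glBeta (0 : 𝔸) = 1 := by
  simp [glBeta, NormedSpace.exp_zero]

/-- `B ↦ (s ↦ -(s • B))` -/
noncomputable def glBetaLam (𝔸 : Type*) [NormedRing 𝔸] [NormedAlgebra ℝ 𝔸] :
    𝔸 →L[ℝ] C(unitInterval, 𝔸) :=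
  LinearMap.mkContinuous
    { toFun := fun B => ⟨fun s => -((s : ℝ) • B), by fun_prop⟩
      map_add' := fun B B' => by ext s; simp [smul_add]; abel
      map_smul' := fun c B => by
        ext s
        change -((s : ℝ) • c • B) = c • -((s : ℝ) • B)
        rw [smul_neg, smul_comm] } 1 (by
    intro B
    rw [one_mul]
    apply (ContinuousMap.norm_le _ (norm_nonneg _)).2
    intro s
    change ‖-((s : ℝ) • B)‖ ≤ ‖B‖
    rw [norm_neg, norm_smul, Real.norm_eq_abs, abs_of_nonneg s.2.1]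
    exact mul_le_of_le_one_left (norm_nonneg _) s.2.2)

/-- `f ↦ ∫₀¹ f` -/
noncomputable def glBetaInt (𝔸 : Type*) [NormedRing 𝔸] [NormedAlgebra ℝ 𝔸] :
    C(unitInterval, 𝔸) →L[ℝ] 𝔸 :=
  LinearMap.mkContinuous
    { toFun := fun f => ∫ s in (0 : ℝ)..1, f (Set.projIcc 0 1 zero_le_one s)
      map_add' := fun f g => by
        simp only [ContinuousMap.add_apply]
        apply intervalIntegral.integral_add
        · exact (f.continuous.comp continuous_projIcc).intervalIntegrable _ _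
        · exact (g.continuous.comp continuous_projIcc).intervalIntegrable _ _
      map_smul' := fun c f => by
        simp only [ContinuousMap.smul_apply, RingHom.id_apply]
        exact intervalIntegral.integral_smul _ _ } 1 (by
    intro f
    have := intervalIntegral.norm_integral_le_of_norm_le_const (a := 0) (b := 1) (C := ‖f‖)
      (f := fun s => f (Set.projIcc 0 1 zero_le_one s)) (fun s _ => f.norm_coe_le_norm _)
    simpa using this)

/-- realises the equation lemmas here (unique names) -/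
theorem gl_beta_eqns_cite : True := by
  have := @glBetaLam.eq_1.{0}
  have := @glBetaInt.eq_1.{0}
  trivial

theorem gl_beta_eq (B : 𝔸) : glBeta B = glBetaInt 𝔸 (NormedSpace.exp (glBetaLam 𝔸 B)) := by
  let _ := NormedAlgebra.restrictScalars ℚ ℝ 𝔸
  let _ := NormedAlgebra.restrictScalars ℚ ℝ C(unitInterval, 𝔸)
  change (∫ s in (0 : ℝ)..1, NormedSpace.exp (-(s • B))) =
    ∫ s in (0 : ℝ)..1, (NormedSpace.exp (glBetaLam 𝔸 B)) (Set.projIcc 0 1 zero_le_one s)
  apply intervalIntegral.integral_congr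
  intro s hs
  rw [Set.uIcc_of_le zero_le_one] at hs
  have h1 := NormedSpace.map_exp
    ((Pi.evalRingHom (fun _ : unitInterval => 𝔸) (Set.projIcc (0 : ℝ) 1 zero_le_one s)).comp
      (ContinuousMap.coeFnRingHom : C(unitInterval, 𝔸) →+* _))
    (ContinuousMap.evalCLM ℝ (Set.projIcc (0 : ℝ) 1 zero_le_one s)).continuous (glBetaLam 𝔸 B)
  change _ = ((Pi.evalRingHom (fun _ : unitInterval => 𝔸) (Set.projIcc (0 : ℝ) 1 zero_le_one s)).comp
      (ContinuousMap.coeFnRingHom : C(unitInterval, 𝔸) →+* _))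
    (NormedSpace.exp (glBetaLam 𝔸 B))
  rw [h1]
  change _ = NormedSpace.exp (-(((Set.projIcc (0 : ℝ) 1 zero_le_one s : unitInterval) : ℝ) • B))
  rw [Set.projIcc_of_mem _ hs]

theorem gl_contDiff_beta : ContDiff ℝ ∞ (glBeta : 𝔸 → 𝔸) := by
  have h1 : ContDiff ℝ ∞ (NormedSpace.exp : C(unitInterval, 𝔸) → C(unitInterval, 𝔸)) :=
    contDiff_iff_contDiffAt.2 fun x => (NormedSpace.exp_analytic (𝕂 := ℝ) x).contDiffAt
  have h2 : (glBeta : 𝔸 → 𝔸) = fun B => glBetaInt 𝔸 (NormedSpace.exp (glBetaLam 𝔸 B)) :=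
    funext gl_beta_eq
  rw [h2]
  exact (glBetaInt 𝔸).contDiff.comp (h1.comp (glBetaLam 𝔸).contDiff)

theorem gl_beta_riemann (B : 𝔸) :
    Tendsto (fun n : ℕ => (n : ℝ)⁻¹ • ∑ j ∈ Finset.range n, NormedSpace.exp (-(((j : ℝ) / n) • B)))
      atTop (𝓝 (glBeta B)) :=
  gl_riemann (fun s => NormedSpace.exp (-(s • B))) (gl_continuous_exp_alg.comp (by fun_prop))

/-- near `0`, `β(B)` is a unit, and `β(B)`, `β(B)⁻¹`, `exp (-B)` have norm `≤ 2`.  (The hypothesis `‖1‖ ≤ 1`
holds in `E →L[ℝ] E` also when `E` is trivial: `ContinuousLinearMap.norm_id_le`.) -/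
theorem gl_beta_unit (h1 : ‖(1 : 𝔸)‖ ≤ 1) : ∃ ε : ℝ, 0 < ε ∧ ∀ B : 𝔸, ‖B‖ ≤ ε →
    IsUnit (glBeta B) ∧ ‖glBeta B‖ ≤ 2 ∧ ‖Ring.inverse (glBeta B)‖ ≤ 2 ∧
      ‖NormedSpace.exp (-B)‖ ≤ 2 := by
  have hβ : Continuous (glBeta : 𝔸 → 𝔸) := gl_contDiff_beta.continuous
  have hβ0 : Tendsto (glBeta : 𝔸 → 𝔸) (𝓝 0) (𝓝 1) := by
    have := hβ.tendsto 0
    rwa [gl_beta_zero] at this
  have a1 : ∀ᶠ B : 𝔸 in 𝓝 0, IsUnit (glBeta B) :=
    hβ0.eventually (Units.isOpen.mem_nhds isUnit_one)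
  have a2 : ∀ᶠ B : 𝔸 in 𝓝 0, ‖glBeta B‖ < 2 :=
    (hβ0.norm).eventually (gt_mem_nhds (by linarith))
  have a3 : ∀ᶠ B : 𝔸 in 𝓝 0, ‖Ring.inverse (glBeta B)‖ < 2 := by
    have h2 : Tendsto (Ring.inverse : 𝔸 → 𝔸) (𝓝 1) (𝓝 1) := by
      have := NormedRing.inverse_continuousAt (1 : 𝔸ˣ)
      rw [ContinuousAt] at this
      simpa using this
    exact ((h2.comp hβ0).norm).eventually (gt_mem_nhds (by linarith))
  have a4 : ∀ᶠ B : 𝔸 in 𝓝 0, ‖NormedSpace.exp (-B)‖ < 2 := by
    have h2 : Tendsto (fun B : 𝔸 => NormedSpace.exp (-B)) (𝓝 0) (𝓝 1) := by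
      have : Continuous fun B : 𝔸 => NormedSpace.exp (-B) := gl_continuous_exp_alg.comp continuous_neg
      simpa [NormedSpace.exp_zero] using this.tendsto 0
    exact (h2.norm).eventually (gt_mem_nhds (by linarith))
  obtain ⟨ε, hε, h⟩ := Metric.eventually_nhds_iff.1 (a1.and (a2.and (a3.and a4)))
  refine ⟨ε / 2, by positivity, fun B hB => ?_⟩
  obtain ⟨b1, b2, b3, b4⟩ := h (y := B) (by rw [dist_zero_right]; linarith)
  exact ⟨b1, b2.le, b3.le, b4.le⟩

end Claimed.Agent.R304
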