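/-
Row 304, block A4.  Owner: helper231.  PACKAGE gl13 (est. 1000 lines).   The derivative of `exp`:
   `d(exp (x + h), exp x · exp (Φ(x) h)) ≤ K ‖h‖²`,   `Φ(x) = ∫₀¹ e^{-s ad x} ds = glPhi N x`.

Constants: `(ε₂,K₂)` `gl_exp_add_dist`, `(ε_f,K_f)` `gl_pow_dist_le`, `(ε₅,K₅)` `gl_prod_exp_dist`, `(ε_A,K_A)` `gl_Ad_sub_one_le`.
Take `ε` so small that `2ε ≤ ε_f`, `ε ≤ ε₂`, `2ε ≤ ε₅`, `ε ≤ ε_A`, `K_A ε ≤ 1`.   Fix `x, h` with `‖x‖,‖h‖ ≤ ε` and `n ≥ 1`; `g = exp (x/n)`, `k = exp (h/n)`.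
 Step 1.  `d(exp((x+h)/n), g k) ≤ K₂‖x‖‖h‖/n²` (X2); `gl_pow_dist_le` (`n‖exp((x+h)/n)‖ ≤ ‖x+h‖ ≤ 2ε`, `n‖gk‖ ≤ 2ε`):
          `d(exp (x+h), (g k)ⁿ) ≤ K_f K₂ ‖x‖‖h‖/n`          (`exp(x+h) = exp((x+h)/n)ⁿ`, `gl_exp_nsmul`).
 Step 2.  `gl_conj_prod`: `(gk)ⁿ = gⁿ ∏_{j=n-1..0} g^{-j} k g^{j} = exp x · ∏_j exp (u_j)`, `u_j = Ad (g^j)⁻¹ (h/n) = Ad (exp (-(j/n) x)) (h/n) = (1/n) e^{-(j/n) ad x} h`
          (`gl_exp_Ad`, `gl_Ad_exp_smul`, `gl_ad_apply`).   `‖u_j‖ ≤ 2‖h‖/n` as `‖Ad (exp(-(j/n)x)) - 1‖ ≤ K_A ‖x‖ ≤ 1`.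
 Step 3.  `gl_prod_exp_dist` for the list `(u_j)`: `d(∏ exp u_j, exp (Σ u_j)) ≤ K₅ (2‖h‖)²`.
 Step 4.  `Σ_j u_j = ((1/n) Σ_{j<n} e^{-(j/n) ad x}) h → Φ(x) h` (`gl_beta_riemann`, evaluation at `h` is continuous), so `exp (Σ u_j) → exp (Φ(x) h)` (`gl_continuous_exp`).
 Conclusion: `d(exp(x+h), exp x exp(Φ(x)h)) ≤ K_fK₂‖x‖‖h‖/n + 4K₅‖h‖² + d(exp(Σu_j), exp(Φ(x)h))` for all `n`; let `n → ∞` (`le_of_tendsto'`).  `K = 4K₅`.
 `gl_der_right`: apply `gl_der_left` to `(-x,-h)`: `a = exp(-x-h)`, `b = exp(-x) exp(-Φ(-x)h)`, `d(a,b) ≤ K‖h‖²`;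
          `d(a⁻¹,b⁻¹) = ‖a b⁻¹‖ = ‖a (a⁻¹b)⁻¹ a⁻¹‖ ≤ 2 d(a,b)` (`nrm_conj_le_two`), `a⁻¹ = exp(x+h)`, `b⁻¹ = exp(Φ(-x)h) exp x`.
-/
import Claimed.Agent.R304.GlBeta

set_option autoImplicit false
set_option linter.unusedSectionVars false

namespace Claimed.Agent.R304

open Topology Filter

variable {G : Type*} [Group G] [TopologicalSpace G] [IsTopologicalGroup G] [LocallyCompactSpace G]
  (N : GleasonMetric G)

theorem gl_Ad_exp (x : GlLie N) : glAd N (N.exp x) = NormedSpace.exp (glad N x) := by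
  have := gl_Ad_exp_smul N x 1
  rwa [one_smul, one_smul] at this

theorem gl_list_sum_range_reverse {M : Type*} [AddCommMonoid M] (f : ℕ → M) (n : ℕ) :
    ((List.range n).reverse.map f).sum = ∑ j ∈ Finset.range n, f j := by
  induction n with
  | zero => simp
  | succ n ih =>
    rw [List.range_succ, List.reverse_append, List.reverse_singleton, List.singleton_append,
      List.map_cons, List.sum_cons, ih, Finset.sum_range_succ, add_comm]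

theorem gl_norm_Ad_le_two : ∃ ε : ℝ, 0 < ε ∧ ∀ g : G, N.nrm g ≤ ε → ‖glAd N g‖ ≤ 2 := by
  obtain ⟨ε, hε, K, hK, h⟩ := gl_Ad_sub_one_le N
  refine ⟨min ε (1 / (K + 1)), by positivity, fun g hg => ?_⟩
  have h1 := h g (hg.trans (min_le_left _ _))
  have h2 : N.nrm g ≤ 1 / (K + 1) := hg.trans (min_le_right _ _)
  rw [le_div_iff₀ (by positivity)] at h2
  have h3 : K * N.nrm g ≤ 1 := by nlinarith [N.nrm_nonneg g]
  have h4 : ‖glAd N g‖ ≤ ‖glAd N g - 1‖ + ‖(1 : GlLie N →L[ℝ] GlLie N)‖ := by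
    have := norm_add_le (glAd N g - 1) (1 : GlLie N →L[ℝ] GlLie N)
    rwa [sub_add_cancel] at this
  have h5 : ‖(1 : GlLie N →L[ℝ] GlLie N)‖ ≤ 1 := ContinuousLinearMap.norm_id_le
  linarith

theorem gl_der_left : ∃ ε : ℝ, 0 < ε ∧ ∃ K : ℝ, 0 ≤ K ∧ ∀ x h : GlLie N, ‖x‖ ≤ ε → ‖h‖ ≤ ε →
    N.dist (N.exp (x + h)) (N.exp x * N.exp (glPhi N x h)) ≤ K * ‖h‖ ^ 2 := by
  obtain ⟨ε₂, hε₂, K₂, hK₂, hadd⟩ := gl_exp_add_dist N
  obtain ⟨εf, hεf, Kf, hKf, hpow⟩ := gl_pow_dist_le N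
  obtain ⟨ε₅, hε₅, K₅, hK₅, hprod⟩ := gl_prod_exp_dist N
  obtain ⟨εA, hεA, hAd⟩ := gl_norm_Ad_le_two N
  refine ⟨min (min (εf / 2) ε₂) (min (ε₅ / 2) εA), by positivity, 4 * K₅, by positivity,
    fun x h hx hh => ?_⟩
  have hx1 : ‖x‖ ≤ εf / 2 := hx.trans ((min_le_left _ _).trans (min_le_left _ _))
  have hx2 : ‖x‖ ≤ ε₂ := hx.trans ((min_le_left _ _).trans (min_le_right _ _))
  have hx4 : ‖x‖ ≤ εA := hx.trans ((min_le_right _ _).trans (min_le_right _ _))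
  have hh1 : ‖h‖ ≤ εf / 2 := hh.trans ((min_le_left _ _).trans (min_le_left _ _))
  have hh2 : ‖h‖ ≤ ε₂ := hh.trans ((min_le_left _ _).trans (min_le_right _ _))
  have hh3 : ‖h‖ ≤ ε₅ / 2 := hh.trans ((min_le_right _ _).trans (min_le_left _ _))
  set S : ℕ → GlLie N := fun n =>
    ((n : ℝ)⁻¹ • ∑ j ∈ Finset.range n, NormedSpace.exp (-(((j : ℝ) / n) • glad N x))) h with hS
  have key : ∀ n : ℕ, 1 ≤ n → N.dist (N.exp (x + h)) (N.exp x * N.exp (glPhi N x h)) ≤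
      Kf * K₂ * ‖x‖ * ‖h‖ * (n : ℝ)⁻¹ + K₅ * (2 * ‖h‖) ^ 2 +
        N.dist (N.exp (glPhi N x h)) (N.exp (S n)) := by
    intro n hn
    have hn1 : (1 : ℝ) ≤ n := by exact_mod_cast hn
    have hn0 : (0 : ℝ) < n := by linarith
    have hinv0 : (0 : ℝ) < (n : ℝ)⁻¹ := by positivity
    have hinv1 : (n : ℝ)⁻¹ ≤ 1 := inv_le_one_of_one_le₀ hn1
    have hnorm : ∀ y : GlLie N, ‖(n : ℝ)⁻¹ • y‖ = (n : ℝ)⁻¹ * ‖y‖ := by
      intro y
      rw [norm_smul, Real.norm_eq_abs, abs_of_pos hinv0]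
    have hnorm' : ∀ y : GlLie N, ‖(n : ℝ)⁻¹ • y‖ ≤ ‖y‖ := by
      intro y
      rw [hnorm]
      exact mul_le_of_le_one_left (norm_nonneg _) hinv1
    have hpw : ∀ y : GlLie N, N.exp ((n : ℝ)⁻¹ • y) ^ n = N.exp y := by
      intro y
      rw [← gl_exp_nsmul, smul_smul, mul_inv_cancel₀ hn0.ne', one_smul]
    set g : G := N.exp ((n : ℝ)⁻¹ • x) with hg
    set k : G := N.exp ((n : ℝ)⁻¹ • h) with hk
    set a : G := N.exp ((n : ℝ)⁻¹ • (x + h)) with ha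
    -- Step 1
    have s1 : N.dist a (g * k) ≤ K₂ * ((n : ℝ)⁻¹ * ‖x‖) * ((n : ℝ)⁻¹ * ‖h‖) := by
      have := hadd ((n : ℝ)⁻¹ • x) ((n : ℝ)⁻¹ • h) ((hnorm' x).trans hx2) ((hnorm' h).trans hh2)
      rwa [← smul_add, hnorm, hnorm] at this
    have s1a : (n : ℝ) * N.nrm a ≤ εf := by
      calc (n : ℝ) * N.nrm a ≤ n * ((n : ℝ)⁻¹ * ‖x + h‖) := by
            apply mul_le_mul_of_nonneg_left _ hn0.le
            rw [← hnorm]
            exact gl_nrm_exp_le N _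
        _ = ‖x + h‖ := by field_simp
        _ ≤ ‖x‖ + ‖h‖ := norm_add_le _ _
        _ ≤ εf := by linarith
    have s1b : (n : ℝ) * N.nrm (g * k) ≤ εf := by
      have h1 : N.nrm g ≤ (n : ℝ)⁻¹ * ‖x‖ := by rw [← hnorm]; exact gl_nrm_exp_le N _
      have h2 : N.nrm k ≤ (n : ℝ)⁻¹ * ‖h‖ := by rw [← hnorm]; exact gl_nrm_exp_le N _
      calc (n : ℝ) * N.nrm (g * k) ≤ n * ((n : ℝ)⁻¹ * ‖x‖ + (n : ℝ)⁻¹ * ‖h‖) :=
            mul_le_mul_of_nonneg_left ((N.nrm_mul_le g k).trans (add_le_add h1 h2)) hn0.le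
        _ = ‖x‖ + ‖h‖ := by field_simp
        _ ≤ εf := by linarith
    have s1c : N.dist (N.exp (x + h)) ((g * k) ^ n) ≤ Kf * K₂ * ‖x‖ * ‖h‖ * (n : ℝ)⁻¹ := by
      have := hpow a (g * k) n s1a s1b
      rw [ha, hpw] at this
      calc N.dist (N.exp (x + h)) ((g * k) ^ n) ≤ Kf * ((n : ℝ) * N.dist a (g * k)) := this
        _ ≤ Kf * ((n : ℝ) * (K₂ * ((n : ℝ)⁻¹ * ‖x‖) * ((n : ℝ)⁻¹ * ‖h‖))) :=
            mul_le_mul_of_nonneg_left (mul_le_mul_of_nonneg_left s1 hn0.le) hKf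
        _ = Kf * K₂ * ‖x‖ * ‖h‖ * (n : ℝ)⁻¹ := by field_simp
    -- Step 2
    set u : ℕ → GlLie N := fun j => glAd N (g ^ j)⁻¹ ((n : ℝ)⁻¹ • h) with hu
    have s2a : ∀ j, (g ^ j)⁻¹ * k * g ^ j = N.exp (u j) := by
      intro j
      rw [hu, gl_exp_Ad, inv_inv]
    have s2b : ∀ j : ℕ, (g ^ j)⁻¹ = N.exp ((-((j : ℝ) / n)) • x) := by
      intro j
      rw [hg, ← gl_exp_nsmul, ← gl_exp_neg, smul_smul, neg_smul]
      congr 2
    have s2c : ∀ j : ℕ, u j = (n : ℝ)⁻¹ • (NormedSpace.exp (-(((j : ℝ) / n) • glad N x))) h := by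
      intro j
      rw [hu]
      simp only
      rw [s2b, gl_Ad_exp_smul, map_smul, neg_smul]
      rfl
    have s2d : ∀ j < n, ‖u j‖ ≤ 2 * ‖h‖ * (n : ℝ)⁻¹ := by
      intro j hj
      have hjn : (j : ℝ) / n ≤ 1 := by
        rw [div_le_one hn0]
        exact_mod_cast hj.le
      have h1 : N.nrm (g ^ j)⁻¹ ≤ εA := by
        rw [s2b]
        refine (gl_nrm_exp_le N _).trans ?_
        rw [norm_smul, Real.norm_eq_abs, abs_neg, abs_of_nonneg (by positivity)]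
        exact (mul_le_of_le_one_left (norm_nonneg _) hjn).trans hx4
      calc ‖u j‖ ≤ ‖glAd N (g ^ j)⁻¹‖ * ‖(n : ℝ)⁻¹ • h‖ := ContinuousLinearMap.le_opNorm _ _
        _ ≤ 2 * ((n : ℝ)⁻¹ * ‖h‖) := by
            rw [hnorm]
            exact mul_le_mul_of_nonneg_right (hAd _ h1) (by positivity)
        _ = 2 * ‖h‖ * (n : ℝ)⁻¹ := by ring
    set l : List (GlLie N) := (List.range n).reverse.map u with hl
    have s2e : (g * k) ^ n = N.exp x * (l.map N.exp).prod := by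
      rw [gl_conj_prod, hg, hpw, hl, List.map_map]
      congr 2
      apply List.map_congr_left
      intro j _
      exact s2a j
    -- Step 3
    have s3a : (l.map fun v => ‖v‖).sum ≤ 2 * ‖h‖ := by
      rw [hl, List.map_map, gl_list_sum_range_reverse]
      calc ∑ j ∈ Finset.range n, ((fun v => ‖v‖) ∘ u) j
          ≤ ∑ _j ∈ Finset.range n, 2 * ‖h‖ * (n : ℝ)⁻¹ :=
            Finset.sum_le_sum fun j hj => s2d j (Finset.mem_range.1 hj)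
        _ = 2 * ‖h‖ := by
            rw [Finset.sum_const, Finset.card_range, nsmul_eq_mul]
            field_simp
    have s3a0 : 0 ≤ (l.map fun v => ‖v‖).sum :=
      List.sum_nonneg (by
        intro r hr
        obtain ⟨v, _, rfl⟩ := List.mem_map.1 hr
        exact norm_nonneg _)
    have s3 : N.dist (l.map N.exp).prod (N.exp l.sum) ≤ K₅ * (2 * ‖h‖) ^ 2 := by
      refine (hprod l (s3a.trans (by linarith))).trans ?_
      exact mul_le_mul_of_nonneg_left (pow_le_pow_left₀ s3a0 s3a 2) hK₅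
    -- Step 4
    have s4 : l.sum = S n := by
      rw [hl, gl_list_sum_range_reverse, hS]
      simp only [s2c]
      rw [← Finset.smul_sum]
      simp
    rw [s4] at s3
    have t1 := N.dist_triangle (N.exp (x + h)) ((g * k) ^ n) (N.exp x * N.exp (glPhi N x h))
    have t2 := N.dist_triangle ((g * k) ^ n) (N.exp x * N.exp (S n)) (N.exp x * N.exp (glPhi N x h))
    rw [N.dist_mul_left, N.dist_comm (N.exp (S n))] at t2
    nth_rewrite 2 [s2e] at t2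
    rw [N.dist_mul_left] at t2
    linarith
  -- the limit
  have hlimS : Tendsto S atTop (𝓝 (glPhi N x h)) := by
    have h1 := gl_beta_riemann (glad N x)
    exact ((ContinuousLinearMap.apply ℝ (GlLie N) h).continuous.tendsto _).comp h1
  have hlim1 : Tendsto (fun n => N.dist (N.exp (glPhi N x h)) (N.exp (S n))) atTop (𝓝 0) :=
    (N.tendsto_nhds_iff).1 (((gl_continuous_exp N).tendsto _).comp hlimS)
  have hlim2 : Tendsto (fun n : ℕ => Kf * K₂ * ‖x‖ * ‖h‖ * (n : ℝ)⁻¹) atTop (𝓝 0) := by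
    simpa using tendsto_inv_atTop_nhds_zero_nat.const_mul (Kf * K₂ * ‖x‖ * ‖h‖)
  have hlim : Tendsto (fun n : ℕ => Kf * K₂ * ‖x‖ * ‖h‖ * (n : ℝ)⁻¹ + K₅ * (2 * ‖h‖) ^ 2 +
        N.dist (N.exp (glPhi N x h)) (N.exp (S n))) atTop (𝓝 (0 + K₅ * (2 * ‖h‖) ^ 2 + 0)) :=
    (hlim2.add tendsto_const_nhds).add hlim1
  have := ge_of_tendsto hlim ((eventually_ge_atTop 1).mono key)
  calc N.dist (N.exp (x + h)) (N.exp x * N.exp (glPhi N x h)) ≤ 0 + K₅ * (2 * ‖h‖) ^ 2 + 0 := this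
    _ = 4 * K₅ * ‖h‖ ^ 2 := by ring

theorem gl_der_right : ∃ ε : ℝ, 0 < ε ∧ ∃ K : ℝ, 0 ≤ K ∧ ∀ x h : GlLie N, ‖x‖ ≤ ε → ‖h‖ ≤ ε →
    N.dist (N.exp (x + h)) (N.exp (glPhi N (-x) h) * N.exp x) ≤ K * ‖h‖ ^ 2 := by
  obtain ⟨ε, hε, K, hK, hl⟩ := gl_der_left N
  have hC := N.C_pos
  refine ⟨min (min ε 1) (min (1 / (2 * N.C)) (1 / (N.C * (K + 1)))), by positivity, 2 * K,
    by positivity, fun x h hx hh => ?_⟩
  have hx1 : ‖x‖ ≤ ε := hx.trans ((min_le_left _ _).trans (min_le_left _ _))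
  have hx3 : ‖x‖ ≤ 1 / (2 * N.C) := hx.trans ((min_le_right _ _).trans (min_le_left _ _))
  have hh1 : ‖h‖ ≤ ε := hh.trans ((min_le_left _ _).trans (min_le_left _ _))
  have hh2 : ‖h‖ ≤ 1 := hh.trans ((min_le_left _ _).trans (min_le_right _ _))
  have hh3 : ‖h‖ ≤ 1 / (2 * N.C) := hh.trans ((min_le_right _ _).trans (min_le_left _ _))
  have hh4 : ‖h‖ ≤ 1 / (N.C * (K + 1)) := hh.trans ((min_le_right _ _).trans (min_le_right _ _))
  have h1 := hl (-x) (-h) (by rwa [norm_neg]) (by rwa [norm_neg])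
  rw [norm_neg, map_neg] at h1
  have h2 : N.nrm (N.exp (-x + -h)) ≤ 1 / N.C := by
    refine (gl_nrm_exp_le N _).trans ((norm_add_le _ _).trans ?_)
    rw [norm_neg, norm_neg]
    have : 1 / (2 * N.C) + 1 / (2 * N.C) = 1 / N.C := by field_simp; norm_num
    linarith
  have h3 : K * ‖h‖ ^ 2 ≤ 1 / N.C := by
    have h4 : ‖h‖ ^ 2 ≤ ‖h‖ := by nlinarith [norm_nonneg h]
    calc K * ‖h‖ ^ 2 ≤ (K + 1) * ‖h‖ := by nlinarith [norm_nonneg h]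
      _ ≤ (K + 1) * (1 / (N.C * (K + 1))) := mul_le_mul_of_nonneg_left hh4 (by positivity)
      _ = 1 / N.C := by field_simp
  have h5 := N.dist_inv_inv_le h2 (h1.trans h3)
  rw [mul_inv_rev, ← gl_exp_neg, ← gl_exp_neg, ← gl_exp_neg, neg_neg, neg_neg,
    neg_add, neg_neg, neg_neg] at h5
  linarith

end Claimed.Agent.R304
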