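/-
Row 304, block A4.  Owner: helper231.  PACKAGE gl14 (est. 800 lines).   First order expansion of the local group law (chart free form).

If `exp z = exp x exp y` and `exp z' = exp (x+h) exp (y+k)` (all small), then `‖z' - z - R((x,y),z)(h,k)‖ ≤ K (‖h‖+‖k‖)²`, where
`R((x,y),z)(h,k) = Φ(z)⁻¹ (e^{-ad z} Φ(-x) h + Φ(y) k) = glR N ((x,y),z) (h,k)`.

Constants: `(ε_d,K_d)` from `gl_der_left`/`gl_der_right` (min/max), `(ε₂,K₂)` `gl_exp_add_dist`, `(ε₃,K₃)` `gl_exp_bilipschitz`, `ε_β` from `gl_beta_unit` for `𝔸 = End L(G)`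
(`h1 := ContinuousLinearMap.norm_id_le`); `‖glad N x‖ ≤ ‖glad N‖ ‖x‖`, so for `‖x‖ ≤ r₂` (with `‖glad N‖ r₂ ≤ ε_β`): `Φ(x)` is a unit, `‖Φ(x)‖, ‖Φ(x)⁻¹‖, ‖e^{-ad x}‖ ≤ 2`.
 1. `gl_der_right (x,h)`:  `d(exp(x+h), exp h₁ exp x) ≤ K_d‖h‖²`, `h₁ = Φ(-x)h`.
 2. `gl_der_left (y,k)`:   `d(exp(y+k), exp y exp k₁) ≤ K_d‖k‖²`, `k₁ = Φ(y)k`.
 3. `P = exp(x+h)exp(y+k)`, `Q = exp h₁ exp x exp y exp k₁`:  `d(P,Q) ≤ K_d‖k‖² + 2K_d‖h‖²` (`dist_mul_left`, `dist_mul_right_le_two` with `w = exp y exp k₁`).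
 4. `exp h₁ exp z = exp z exp h₂`, `h₂ = Ad (exp (-z)) h₁ = e^{-ad z} h₁` (`gl_exp_Ad`, `gl_Ad_exp`, `map_neg`); so `Q = exp z exp h₂ exp k₁`.
 5. `d(exp h₂ exp k₁, exp (h₂+k₁)) ≤ K₂‖h₂‖‖k₁‖`.
 6. `v := Φ(z)⁻¹ (h₂+k₁)`; `gl_der_left (z,v)`: `d(exp(z+v), exp z exp(h₂+k₁)) ≤ K_d‖v‖²` (`Ring.mul_inverse_cancel`).
 7. `d(exp(z+v), P) ≤ K_d‖v‖² + K₂‖h₂‖‖k₁‖ + 3K_d(‖h‖+‖k‖)² ≤ K'(‖h‖+‖k‖)²` with `‖h₁‖ ≤ 2‖h‖`, `‖h₂‖ ≤ 4‖h‖`, `‖k₁‖ ≤ 2‖k‖`, `‖v‖ ≤ 8(‖h‖+‖k‖)`.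
 8. `exp z' = P`; `gl_exp_bilipschitz` for `z'` and `z+v` (`‖z+v‖ ≤ r₂ + 16δ ≤ ε₃`).   `v = glR N ((x,y),z) (h,k)` by unfolding.
-/
import Claimed.Agent.R304.GlDer

set_option autoImplicit false
set_option linter.unusedSectionVars false

namespace Claimed.Agent.R304

open Topology Filter

variable {G : Type*} [Group G] [TopologicalSpace G] [IsTopologicalGroup G] [LocallyCompactSpace G]
  (N : GleasonMetric G)

theorem gl_phi_unit : ∃ r : ℝ, 0 < r ∧ ∀ x : GlLie N, ‖x‖ ≤ r →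
    IsUnit (glPhi N x) ∧ ‖glPhi N x‖ ≤ 2 ∧ ‖Ring.inverse (glPhi N x)‖ ≤ 2 ∧
      ‖NormedSpace.exp (-(glad N x))‖ ≤ 2 := by
  obtain ⟨ε, hε, h⟩ := gl_beta_unit (𝔸 := GlLie N →L[ℝ] GlLie N) ContinuousLinearMap.norm_id_le
  refine ⟨ε / (‖glad N‖ + 1), by positivity, fun x hx => ?_⟩
  apply h
  rw [le_div_iff₀ (by positivity)] at hx
  calc ‖glad N x‖ ≤ ‖glad N‖ * ‖x‖ := (glad N).le_opNorm x
    _ ≤ ε := by nlinarith [norm_nonneg x, norm_nonneg (glad N)]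

theorem gl_mu_expansion : ∃ r₂ : ℝ, 0 < r₂ ∧ ∃ δ : ℝ, 0 < δ ∧ ∃ K : ℝ, 0 ≤ K ∧
    ∀ x y z h k z' : GlLie N, ‖x‖ ≤ r₂ → ‖y‖ ≤ r₂ → ‖z‖ ≤ r₂ → ‖z'‖ ≤ r₂ → ‖h‖ ≤ δ → ‖k‖ ≤ δ →
      N.exp z = N.exp x * N.exp y → N.exp z' = N.exp (x + h) * N.exp (y + k) →
        IsUnit (glPhi N z) ∧ ‖z' - z - glR N ((x, y), z) (h, k)‖ ≤ K * (‖h‖ + ‖k‖) ^ 2 := by
  obtain ⟨εl, hεl, Kl, hKl, hleft⟩ := gl_der_left N
  obtain ⟨εr, hεr, Kr, hKr, hright⟩ := gl_der_right N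
  obtain ⟨ε₂, hε₂, K₂, hK₂, hadd⟩ := gl_exp_add_dist N
  obtain ⟨ε₃, hε₃, K₃, hK₃, hbl⟩ := gl_exp_bilipschitz N
  obtain ⟨rφ, hrφ, hφ⟩ := gl_phi_unit N
  have hC := N.C_pos
  refine ⟨min (min rφ εr) (min εl (min (ε₃ / 2) (1 / (2 * N.C)))), by positivity,
    min (min (min εr (εl / 16)) (min (ε₂ / 4) (ε₃ / 32)))
      (min (1 / (4 * N.C)) (min 1 (1 / (N.C * (Kr + 1))))), by positivity,
    K₃ * (64 * Kl + 8 * K₂ + Kl + 2 * Kr), by positivity, ?_⟩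
  intro x y z h k z' hx hy hz hz' hh hk hzxy hz'xy
  have hx1 : ‖x‖ ≤ rφ := hx.trans ((min_le_left _ _).trans (min_le_left _ _))
  have hx2 : ‖x‖ ≤ εr := hx.trans ((min_le_left _ _).trans (min_le_right _ _))
  have hy1 : ‖y‖ ≤ rφ := hy.trans ((min_le_left _ _).trans (min_le_left _ _))
  have hy2 : ‖y‖ ≤ εl := hy.trans ((min_le_right _ _).trans (min_le_left _ _))
  have hy3 : ‖y‖ ≤ 1 / (2 * N.C) := hy.trans ((min_le_right _ _).trans ((min_le_right _ _).trans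
    (min_le_right _ _)))
  have hz1 : ‖z‖ ≤ rφ := hz.trans ((min_le_left _ _).trans (min_le_left _ _))
  have hz2 : ‖z‖ ≤ εl := hz.trans ((min_le_right _ _).trans (min_le_left _ _))
  have hz3 : ‖z‖ ≤ ε₃ / 2 := hz.trans ((min_le_right _ _).trans ((min_le_right _ _).trans
    (min_le_left _ _)))
  have hz'3 : ‖z'‖ ≤ ε₃ / 2 := hz'.trans ((min_le_right _ _).trans ((min_le_right _ _).trans
    (min_le_left _ _)))
  have hδ : ∀ w : GlLie N, ‖w‖ ≤ min (min (min εr (εl / 16)) (min (ε₂ / 4) (ε₃ / 32)))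
      (min (1 / (4 * N.C)) (min 1 (1 / (N.C * (Kr + 1))))) →
      ‖w‖ ≤ εr ∧ ‖w‖ ≤ εl / 16 ∧ ‖w‖ ≤ ε₂ / 4 ∧ ‖w‖ ≤ ε₃ / 32 ∧ ‖w‖ ≤ 1 / (4 * N.C) ∧ ‖w‖ ≤ 1 ∧
        ‖w‖ ≤ 1 / (N.C * (Kr + 1)) := by
    intro w hw
    refine ⟨hw.trans ((min_le_left _ _).trans ((min_le_left _ _).trans (min_le_left _ _))),
      hw.trans ((min_le_left _ _).trans ((min_le_left _ _).trans (min_le_right _ _))),
      hw.trans ((min_le_left _ _).trans ((min_le_right _ _).trans (min_le_left _ _))),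
      hw.trans ((min_le_left _ _).trans ((min_le_right _ _).trans (min_le_right _ _))),
      hw.trans ((min_le_right _ _).trans (min_le_left _ _)),
      hw.trans ((min_le_right _ _).trans ((min_le_right _ _).trans (min_le_left _ _))),
      hw.trans ((min_le_right _ _).trans ((min_le_right _ _).trans (min_le_right _ _)))⟩
  obtain ⟨hh1, hh2, hh3, hh4, hh5, hh6, hh7⟩ := hδ h hh
  obtain ⟨hk1, hk2, hk3, hk4, hk5, hk6, hk7⟩ := hδ k hk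
  obtain ⟨_, hφx, _, _⟩ := hφ (-x) (by rwa [norm_neg])
  obtain ⟨_, hφy, _, _⟩ := hφ y hy1
  obtain ⟨hUz, _, hφzi, hez⟩ := hφ z hz1
  refine ⟨hUz, ?_⟩
  have hh0 := norm_nonneg h
  have hk0 := norm_nonneg k
  set s : ℝ := ‖h‖ + ‖k‖ with hs
  set h₁ : GlLie N := glPhi N (-x) h with hh₁
  set k₁ : GlLie N := glPhi N y k with hk₁
  set h₂ : GlLie N := NormedSpace.exp (-(glad N z)) h₁ with hh₂
  set v : GlLie N := Ring.inverse (glPhi N z) (h₂ + k₁) with hv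
  have nh₁ : ‖h₁‖ ≤ 2 * ‖h‖ := (glPhi N (-x)).le_of_opNorm_le hφx h
  have nk₁ : ‖k₁‖ ≤ 2 * ‖k‖ := (glPhi N y).le_of_opNorm_le hφy k
  have nh₂ : ‖h₂‖ ≤ 4 * ‖h‖ := by
    have := (NormedSpace.exp (-(glad N z))).le_of_opNorm_le hez h₁
    linarith
  have nv : ‖v‖ ≤ 8 * s := by
    have h1 := (Ring.inverse (glPhi N z)).le_of_opNorm_le hφzi (h₂ + k₁)
    have h2 := norm_add_le h₂ k₁
    linarith
  have hvR : glR N ((x, y), z) (h, k) = v := rfl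
  rw [hvR]
  -- 1, 2
  have a1 : N.dist (N.exp (x + h)) (N.exp h₁ * N.exp x) ≤ Kr * ‖h‖ ^ 2 := hright x h hx2 hh1
  have a2 : N.dist (N.exp (y + k)) (N.exp y * N.exp k₁) ≤ Kl * ‖k‖ ^ 2 :=
    hleft y k hy2 (by linarith)
  -- 3
  set w : G := N.exp y * N.exp k₁ with hw
  have a3a : N.dist (N.exp (x + h) * N.exp (y + k)) (N.exp (x + h) * w) ≤ Kl * ‖k‖ ^ 2 := by
    rw [N.dist_mul_left]; exact a2
  have a3b : N.dist (N.exp (x + h) * w) (N.exp h₁ * N.exp x * w) ≤ 2 * (Kr * ‖h‖ ^ 2) := by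
    have b1 : Kr * ‖h‖ ^ 2 ≤ 1 / N.C := by
      have b0 : ‖h‖ ^ 2 ≤ ‖h‖ := by
        rw [sq]
        exact mul_le_of_le_one_left hh0 hh6
      calc Kr * ‖h‖ ^ 2 ≤ Kr * ‖h‖ := mul_le_mul_of_nonneg_left b0 hKr
        _ ≤ (Kr + 1) * ‖h‖ := mul_le_mul_of_nonneg_right (by linarith) hh0
        _ ≤ (Kr + 1) * (1 / (N.C * (Kr + 1))) := mul_le_mul_of_nonneg_left hh7 (by positivity)
        _ = 1 / N.C := by field_simp
    have b2 : N.nrm w ≤ 1 / N.C := by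
      have c1 := N.nrm_mul_le (N.exp y) (N.exp k₁)
      have c2 := gl_nrm_exp_le N y
      have c3 := gl_nrm_exp_le N k₁
      have c4 : 1 / (2 * N.C) + 2 * (1 / (4 * N.C)) = 1 / N.C := by field_simp; norm_num
      linarith
    exact (N.dist_mul_right_le_two (a1.trans b1) b2).trans (by linarith)
  -- 4
  have a4 : N.exp h₁ * N.exp x * w = N.exp z * (N.exp h₂ * N.exp k₁) := by
    have c1 : N.exp h₂ = (N.exp z)⁻¹ * N.exp h₁ * N.exp z := by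
      have : h₂ = glAd N (N.exp (-z)) h₁ := by
        rw [gl_Ad_exp, map_neg]
      rw [this, gl_exp_Ad, gl_exp_neg, inv_inv]
    rw [c1, hw, hzxy]
    group
  -- 5
  have a5 : N.dist (N.exp (h₂ + k₁)) (N.exp h₂ * N.exp k₁) ≤ K₂ * ‖h₂‖ * ‖k₁‖ :=
    hadd h₂ k₁ (by linarith) (by linarith)
  -- 6
  have a6 : N.dist (N.exp (z + v)) (N.exp z * N.exp (h₂ + k₁)) ≤ Kl * ‖v‖ ^ 2 := by
    have c1 : glPhi N z v = h₂ + k₁ := by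
      have := Ring.mul_inverse_cancel (glPhi N z) hUz
      have c2 := congrArg (fun T : GlLie N →L[ℝ] GlLie N => T (h₂ + k₁)) this
      exact c2
    have := hleft z v hz2 (by linarith)
    rwa [c1] at this
  -- 7
  have a7 : N.dist (N.exp (z + v)) (N.exp (x + h) * N.exp (y + k)) ≤
      (64 * Kl + 8 * K₂ + Kl + 2 * Kr) * s ^ 2 := by
    have t1 := N.dist_triangle (N.exp (z + v)) (N.exp z * N.exp (h₂ + k₁))
      (N.exp (x + h) * N.exp (y + k))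
    have t2 := N.dist_triangle (N.exp z * N.exp (h₂ + k₁)) (N.exp z * (N.exp h₂ * N.exp k₁))
      (N.exp (x + h) * N.exp (y + k))
    have t3 := N.dist_triangle (N.exp h₁ * N.exp x * w) (N.exp (x + h) * w)
      (N.exp (x + h) * N.exp (y + k))
    rw [N.dist_mul_left, ← a4] at t2
    have c1 := N.dist_comm (N.exp h₁ * N.exp x * w) (N.exp (x + h) * w)
    have c2 := N.dist_comm (N.exp (x + h) * w) (N.exp (x + h) * N.exp (y + k))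
    have hs0 : 0 ≤ s := by positivity
    have u1 : Kl * ‖v‖ ^ 2 ≤ 64 * Kl * s ^ 2 := by
      have := mul_le_mul_of_nonneg_left (pow_le_pow_left₀ (norm_nonneg _) nv 2) hKl
      calc Kl * ‖v‖ ^ 2 ≤ Kl * (8 * s) ^ 2 := this
        _ = 64 * Kl * s ^ 2 := by ring
    have u2 : K₂ * ‖h₂‖ * ‖k₁‖ ≤ 8 * K₂ * s ^ 2 := by
      have : K₂ * ‖h₂‖ * ‖k₁‖ ≤ K₂ * (4 * s) * (2 * s) := by
        apply mul_le_mul (mul_le_mul_of_nonneg_left (by linarith) hK₂) (by linarith) (norm_nonneg _)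
          (by positivity)
      calc K₂ * ‖h₂‖ * ‖k₁‖ ≤ K₂ * (4 * s) * (2 * s) := this
        _ = 8 * K₂ * s ^ 2 := by ring
    have u3 : Kl * ‖k‖ ^ 2 ≤ Kl * s ^ 2 :=
      mul_le_mul_of_nonneg_left (pow_le_pow_left₀ hk0 (by linarith) 2) hKl
    have u4 : Kr * ‖h‖ ^ 2 ≤ Kr * s ^ 2 :=
      mul_le_mul_of_nonneg_left (pow_le_pow_left₀ hh0 (by linarith) 2) hKr
    have e1 : (64 * Kl + 8 * K₂ + Kl + 2 * Kr) * s ^ 2 =
        64 * Kl * s ^ 2 + 8 * K₂ * s ^ 2 + Kl * s ^ 2 + 2 * (Kr * s ^ 2) := by ring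
    rw [e1]
    linarith
  -- 8
  have a8 := (hbl z' (z + v) (by linarith) (by
    have := norm_add_le z v
    linarith)).2
  rw [hz'xy, N.dist_comm] at a8
  calc ‖z' - z - v‖ = ‖z' - (z + v)‖ := by rw [sub_sub]
    _ ≤ K₃ * N.dist (N.exp (z + v)) (N.exp (x + h) * N.exp (y + k)) := a8
    _ ≤ K₃ * ((64 * Kl + 8 * K₂ + Kl + 2 * Kr) * s ^ 2) := mul_le_mul_of_nonneg_left a7 hK₃.le
    _ = K₃ * (64 * Kl + 8 * K₂ + Kl + 2 * Kr) * s ^ 2 := by ring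

end Claimed.Agent.R304
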