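/-
Row 304, block A4.  Owner: helper231.  PACKAGE gl16 (est. 600 lines).   The local group law is `C^∞` in exponential coordinates.

(Q1) `gl_contDiffOn_R`: `glPhi N = glBeta ∘ glad N` is `C^∞` (`gl_contDiff_beta`, `ContinuousLinearMap.contDiff`); `NormedSpace.exp` is `C^∞` (`NormedSpace.exp_analytic`);
  `Ring.inverse` is `C^∞` at units (`contDiffAt_ringInverse`); composition of continuous linear maps is bilinear continuous (`ContDiff.clm_comp`); `+`.
(Q2) `gl_mu_contDiffOn`.  `r₂,δ,K` from `gl_mu_expansion`; let `e` be a chart as in `gl_exists_chart` with radius `r ≤ r₂`.  `(x,y) ↦ exp x exp y` is continuous, `= 1 ∈ e.source` at `(0,0)`,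
  and `e.source` is a neighbourhood of `1`; so there is `r' ≤ r` with `exp x exp y ∈ e.source` on `ball 0 r' ×ˢ ball 0 r'`.  Put `μ p = e (exp p.1 exp p.2)`; then `μ p ∈ e.target = ball 0 r` and
  `exp (μ p) = e.symm (μ p) = exp p.1 exp p.2`.  For `p = (x,y)` in the product of balls and `(h,k)` small, `p + (h,k)` is again in it; `gl_mu_expansion` with `z = μ p`, `z' = μ (p + (h,k))` gives
  `‖μ(p+(h,k)) - μ p - R(p, μ p)(h,k)‖ ≤ K (‖h‖+‖k‖)² ≤ 4K ‖(h,k)‖²`: `HasFDerivAt μ (glR N (p, μ p)) p` (`HasFDerivAt.of_isLittleO`/`hasFDerivAt_iff_isLittleO_nhds_zero`, `IsBigO` of a square).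
  Apply `gl_bootstrap` with `U = ball ×ˢ ball`, `W = {q | IsUnit (glPhi N q.2)}`.
-/
import Claimed.Agent.R304.GlMu
import Claimed.Agent.R304.GlBoot
import Claimed.Agent.R304.GlChart

set_option autoImplicit false
set_option linter.unusedSectionVars false

namespace Claimed.Agent.R304

open Topology Filter
open scoped ContDiff

variable {G : Type*} [Group G] [TopologicalSpace G] [IsTopologicalGroup G] [LocallyCompactSpace G]
  (N : GleasonMetric G)

theorem gl_contDiff_phi : ContDiff ℝ ∞ (glPhi N) :=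
  gl_contDiff_beta.comp (glad N).contDiff

theorem gl_contDiffOn_R : ContDiffOn ℝ ∞ (glR N) {q | IsUnit (glPhi N q.2)} := by
  have hexp : ContDiff ℝ ∞ (NormedSpace.exp : (GlLie N →L[ℝ] GlLie N) → (GlLie N →L[ℝ] GlLie N)) :=
    contDiff_iff_contDiffAt.2 fun x => (NormedSpace.exp_analytic (𝕂 := ℝ) x).contDiffAt
  have hΦ := gl_contDiff_phi N
  intro q hq
  apply ContDiffAt.contDiffWithinAt
  obtain ⟨u, hu⟩ := (hq : IsUnit (glPhi N q.2))
  have h1 : ContDiffAt ℝ ∞ (fun q : (GlLie N × GlLie N) × GlLie N => Ring.inverse (glPhi N q.2)) q := by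
    have h2 : ContDiffAt ℝ ∞ (Ring.inverse : (GlLie N →L[ℝ] GlLie N) → _) (glPhi N q.2) := by
      rw [← hu]
      exact contDiffAt_ringInverse ℝ u
    exact h2.comp q (hΦ.comp contDiff_snd).contDiffAt
  have h3 : ContDiff ℝ ∞ (fun q : (GlLie N × GlLie N) × GlLie N =>
      ((NormedSpace.exp (-(glad N q.2))).comp (glPhi N (-q.1.1))).comp
        (ContinuousLinearMap.fst ℝ (GlLie N) (GlLie N)) +
      (glPhi N q.1.2).comp (ContinuousLinearMap.snd ℝ (GlLie N) (GlLie N))) := by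
    apply ContDiff.add
    · apply ContDiff.clm_comp _ contDiff_const
      apply ContDiff.clm_comp
      · exact hexp.comp (((glad N).contDiff.comp contDiff_snd).neg)
      · exact hΦ.comp ((contDiff_fst.comp contDiff_fst).neg)
    · apply ContDiff.clm_comp _ contDiff_const
      exact hΦ.comp (contDiff_snd.comp contDiff_fst)
  exact h1.clm_comp h3.contDiffAt

theorem gl_mu_contDiffOn : ∃ r₂ : ℝ, 0 < r₂ ∧ ∀ (r : ℝ) (e : OpenPartialHomeomorph G (GlLie N)),
    0 < r → r ≤ r₂ → e.target = Metric.ball 0 r → e.source = N.exp '' Metric.ball 0 r →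
    (∀ x ∈ Metric.ball (0 : GlLie N) r, e.symm x = N.exp x) →
    ∃ r' : ℝ, 0 < r' ∧ r' ≤ r ∧
      (∀ x ∈ Metric.ball (0 : GlLie N) r', ∀ y ∈ Metric.ball (0 : GlLie N) r',
        N.exp x * N.exp y ∈ e.source) ∧
      ContDiffOn ℝ ∞ (fun p : GlLie N × GlLie N => e (N.exp p.1 * N.exp p.2))
        (Metric.ball 0 r' ×ˢ Metric.ball 0 r') := by
  obtain ⟨r₂, hr₂, δ, hδ, K, hK, hexp⟩ := gl_mu_expansion N
  refine ⟨r₂, hr₂, fun r e hr hrr het hes hsymm => ?_⟩
  set m : GlLie N × GlLie N → G := fun p => N.exp p.1 * N.exp p.2 with hm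
  have hmc : Continuous m :=
    ((gl_continuous_exp N).comp continuous_fst).mul ((gl_continuous_exp N).comp continuous_snd)
  have h1s : m (0, 0) ∈ e.source := by
    rw [hes]
    exact ⟨0, Metric.mem_ball_self hr, by simp [hm, gl_exp_zero]⟩
  have hnh : m ⁻¹' e.source ∈ 𝓝 ((0, 0) : GlLie N × GlLie N) :=
    hmc.continuousAt.preimage_mem_nhds (e.open_source.mem_nhds h1s)
  obtain ⟨ρ, hρ, hρsub⟩ := Metric.mem_nhds_iff.1 hnh
  set r' : ℝ := min ρ r with hr'
  have hr'0 : 0 < r' := lt_min hρ hr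
  have hmem : ∀ x ∈ Metric.ball (0 : GlLie N) r', ∀ y ∈ Metric.ball (0 : GlLie N) r',
      N.exp x * N.exp y ∈ e.source := by
    intro x hx y hy
    have : (x, y) ∈ Metric.ball ((0, 0) : GlLie N × GlLie N) ρ := by
      rw [← ball_prod_same]
      exact ⟨Metric.ball_subset_ball (min_le_left _ _) hx,
        Metric.ball_subset_ball (min_le_left _ _) hy⟩
    exact hρsub this
  refine ⟨r', hr'0, min_le_right _ _, hmem, ?_⟩
  set U : Set (GlLie N × GlLie N) := Metric.ball 0 r' ×ˢ Metric.ball 0 r' with hU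
  have hUo : IsOpen U := Metric.isOpen_ball.prod Metric.isOpen_ball
  set μ : GlLie N × GlLie N → GlLie N := fun p => e (m p) with hμ
  have hμ1 : ∀ p ∈ U, ‖μ p‖ ≤ r₂ ∧ N.exp (μ p) = m p := by
    intro p hp
    have hs : m p ∈ e.source := hmem p.1 hp.1 p.2 hp.2
    have ht : μ p ∈ Metric.ball (0 : GlLie N) r := het ▸ e.map_source hs
    refine ⟨?_, ?_⟩
    · have : ‖μ p‖ < r := by simpa using ht
      linarith
    · rw [← hsymm _ ht]
      exact e.left_inv hs
  have hUn : ∀ p ∈ U, ‖p.1‖ ≤ r₂ ∧ ‖p.2‖ ≤ r₂ := by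
    intro p hp
    have h1 : ‖p.1‖ < r' := by simpa using hp.1
    have h2 : ‖p.2‖ < r' := by simpa using hp.2
    have h3 : r' ≤ r := min_le_right _ _
    exact ⟨by linarith, by linarith⟩
  apply gl_bootstrap hUo (gl_contDiffOn_R N)
  intro p hp
  have hev : ∀ᶠ q : GlLie N × GlLie N in 𝓝 0, p + q ∈ U ∧ ‖q‖ ≤ δ := by
    have h1 : Tendsto (fun q : GlLie N × GlLie N => p + q) (𝓝 0) (𝓝 p) := by
      have : Continuous fun q : GlLie N × GlLie N => p + q := by fun_prop
      simpa using this.tendsto 0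
    have h2 : ∀ᶠ q : GlLie N × GlLie N in 𝓝 0, ‖q‖ < δ := by
      have := Metric.ball_mem_nhds (0 : GlLie N × GlLie N) hδ
      filter_upwards [this] with q hq
      simpa using hq
    filter_upwards [h1.eventually (hUo.mem_nhds hp), h2] with q hq1 hq2
    exact ⟨hq1, hq2.le⟩
  have hunit : IsUnit (glPhi N (μ p)) := by
    have := hexp p.1 p.2 (μ p) 0 0 (μ p) (hUn p hp).1 (hUn p hp).2 (hμ1 p hp).1 (hμ1 p hp).1
      (by simpa using hδ.le) (by simpa using hδ.le) (hμ1 p hp).2 (by simpa using (hμ1 p hp).2)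
    exact this.1
  refine ⟨hunit, ?_⟩
  rw [hasFDerivAt_iff_isLittleO_nhds_zero]
  have hO : (fun q : GlLie N × GlLie N => μ (p + q) - μ p - glR N (p, μ p) q) =O[𝓝 0]
      fun q : GlLie N × GlLie N => ‖q‖ ^ 2 := by
    apply Asymptotics.IsBigO.of_bound (4 * K)
    filter_upwards [hev] with q hq
    have h1 := (hexp p.1 p.2 (μ p) q.1 q.2 (μ (p + q)) (hUn p hp).1 (hUn p hp).2 (hμ1 p hp).1
      (hμ1 _ hq.1).1 ((norm_fst_le q).trans hq.2) ((norm_snd_le q).trans hq.2) (hμ1 p hp).2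
      (hμ1 _ hq.1).2).2
    have h2 : (‖q.1‖ + ‖q.2‖) ^ 2 ≤ (2 * ‖q‖) ^ 2 := by
      apply pow_le_pow_left₀ (by positivity)
      linarith [norm_fst_le q, norm_snd_le q]
    rw [Real.norm_eq_abs, abs_of_nonneg (by positivity)]
    calc ‖μ (p + q) - μ p - glR N (p, μ p) q‖ ≤ K * (‖q.1‖ + ‖q.2‖) ^ 2 := h1
      _ ≤ K * (2 * ‖q‖) ^ 2 := mul_le_mul_of_nonneg_left h2 hK
      _ = 4 * K * ‖q‖ ^ 2 := by ring
  exact hO.trans_isLittleO (Asymptotics.isLittleO_norm_pow_id one_lt_two)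

end Claimed.Agent.R304
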