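/-
Row 304, block A3+A4.  Owner: helper231.  EXPORT of the block (wiring, no sorry in this file):
a locally compact group with a Gleason metric is a `C^∞` Lie group.
-/
import Claimed.Agent.R304.TopDefs
import Claimed.Agent.R304.GlSmooth
import Claimed.Agent.R304.GlGlue

set_option autoImplicit false

namespace Claimed.Agent.R304

open Topology Filter Set
open scoped ContDiff Manifold

theorem gl_lie_of_gleason {G : Type*} [Group G] [TopologicalSpace G] [IsTopologicalGroup G]
    [LocallyCompactSpace G] (N : GleasonMetric G) : HsIsLie G := by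
  obtain ⟨r₁, hr₁, hchart⟩ := gl_exists_chart N
  obtain ⟨r₂, hr₂, hmu⟩ := gl_mu_contDiffOn N
  have hr : 0 < min r₁ r₂ := lt_min hr₁ hr₂
  obtain ⟨e, het, hes, hsymm⟩ := hchart (min r₁ r₂) hr (min_le_left _ _)
  obtain ⟨r', hr', hr'r, hmem, hsm⟩ := hmu (min r₁ r₂) e hr (min_le_right _ _) het hes hsymm
  set r := min r₁ r₂ with hrdef
  -- basic facts on the chart
  have h0r : (0 : GlLie N) ∈ Metric.ball (0 : GlLie N) r := Metric.mem_ball_self hr
  have hlog : ∀ x ∈ Metric.ball (0 : GlLie N) r, e (N.exp x) = x := by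
    intro x hx
    rw [← hsymm x hx]
    exact e.right_inv (het ▸ hx)
  have hsrc : ∀ x ∈ Metric.ball (0 : GlLie N) r, N.exp x ∈ e.source := by
    intro x hx
    rw [hes]
    exact ⟨x, hx, rfl⟩
  have h1s : (1 : G) ∈ e.source := by
    have := hsrc 0 h0r
    rwa [gl_exp_zero] at this
  have he1 : e 1 = 0 := by
    have := hlog 0 h0r
    rwa [gl_exp_zero] at this
  -- pass to the Euclidean model
  let T : GlLie N ≃L[ℝ] EuclideanSpace ℝ (Fin (Module.finrank ℝ (GlLie N))) := toEuclidean
  let e' : OpenPartialHomeomorph G (EuclideanSpace ℝ (Fin (Module.finrank ℝ (GlLie N)))) :=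
    e.trans T.toHomeomorph.toOpenPartialHomeomorph
  have he'app : ∀ g, e' g = T (e g) := fun _ => rfl
  have he'symm : ∀ x, e'.symm x = e.symm (T.symm x) := fun _ => rfl
  have he'src : e'.source = e.source := by
    simp [e']
  have he'tgt : e'.target = T.symm ⁻¹' e.target := by
    simp [e']
  have hball : ∀ ρ : ℝ, IsOpen (T.symm ⁻¹' Metric.ball (0 : GlLie N) ρ) := fun ρ =>
    Metric.isOpen_ball.preimage T.symm.continuous
  have hsub : ∀ ρ : ℝ, ρ ≤ r → T.symm ⁻¹' Metric.ball (0 : GlLie N) ρ ⊆ e'.target := by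
    intro ρ hρ x hx
    rw [he'tgt, het]
    exact Metric.ball_subset_ball hρ hx
  have he'1 : e' 1 = 0 := by rw [he'app, he1, map_zero]
  have hzero : ∀ ρ : ℝ, 0 < ρ → e' 1 ∈ T.symm ⁻¹' Metric.ball (0 : GlLie N) ρ := by
    intro ρ hρ
    rw [he'1]
    show T.symm 0 ∈ Metric.ball (0 : GlLie N) ρ
    rw [map_zero]
    exact Metric.mem_ball_self hρ
  obtain ⟨cs, hM, hL⟩ := gl_lieGroup_of_chart e' (he'src ▸ h1s)
    (T.symm ⁻¹' Metric.ball (0 : GlLie N) r') (hball r') (hsub r' hr'r) (hzero r' hr')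
    (by
      intro x hx y hy
      rw [he'src, he'symm, he'symm, hsymm _ (Metric.ball_subset_ball hr'r hx),
        hsymm _ (Metric.ball_subset_ball hr'r hy)]
      exact hmem _ hx _ hy)
    (by
      have h1 : ContDiffOn ℝ ∞
          (fun p : EuclideanSpace ℝ (Fin (Module.finrank ℝ (GlLie N))) ×
              EuclideanSpace ℝ (Fin (Module.finrank ℝ (GlLie N))) =>
            T (e (N.exp (T.symm p.1) * N.exp (T.symm p.2))))
          ((T.symm ⁻¹' Metric.ball (0 : GlLie N) r') ×ˢ (T.symm ⁻¹' Metric.ball (0 : GlLie N) r')) := by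
        refine T.contDiff.comp_contDiffOn (hsm.comp
          (f := fun p : EuclideanSpace ℝ (Fin (Module.finrank ℝ (GlLie N))) ×
              EuclideanSpace ℝ (Fin (Module.finrank ℝ (GlLie N))) => (T.symm p.1, T.symm p.2))
          ?_ ?_)
        · exact ((T.symm.contDiff.comp contDiff_fst).prodMk
            (T.symm.contDiff.comp contDiff_snd)).contDiffOn
        · rintro p ⟨hp1, hp2⟩
          exact ⟨hp1, hp2⟩
      refine h1.congr ?_
      rintro p ⟨hp1, hp2⟩
      show e' (e'.symm p.1 * e'.symm p.2) = _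
      rw [he'app, he'symm, he'symm, hsymm _ (Metric.ball_subset_ball hr'r hp1),
        hsymm _ (Metric.ball_subset_ball hr'r hp2)])
    (by
      refine ⟨T.symm ⁻¹' Metric.ball (0 : GlLie N) r, hball r, hzero r hr, hsub r le_rfl, ?_⟩
      have h1 : ContDiffOn ℝ ∞
          (fun x : EuclideanSpace ℝ (Fin (Module.finrank ℝ (GlLie N))) => -x)
          (T.symm ⁻¹' Metric.ball (0 : GlLie N) r) := contDiff_neg.contDiffOn
      refine h1.congr ?_
      intro x hx
      have hx' : T.symm x ∈ Metric.ball (0 : GlLie N) r := hx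
      have hnx : -T.symm x ∈ Metric.ball (0 : GlLie N) r := by
        rw [mem_ball_zero_iff, norm_neg]
        exact mem_ball_zero_iff.1 hx'
      show e' (e'.symm x)⁻¹ = -x
      rw [he'app, he'symm, hsymm _ hx', ← gl_exp_neg, hlog _ hnx, map_neg,
        ContinuousLinearEquiv.apply_symm_apply])
    (by
      intro g
      let A : EuclideanSpace ℝ (Fin (Module.finrank ℝ (GlLie N))) →L[ℝ] GlLie N :=
        (glAd N g).comp (T.symm : EuclideanSpace ℝ (Fin (Module.finrank ℝ (GlLie N))) →L[ℝ] GlLie N)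
      refine ⟨T.symm ⁻¹' Metric.ball (0 : GlLie N) r ∩ A ⁻¹' Metric.ball (0 : GlLie N) r,
        (hball r).inter (Metric.isOpen_ball.preimage A.continuous), ⟨hzero r hr, ?_⟩,
        fun x hx => hsub r le_rfl hx.1, ?_⟩
      · rw [he'1]
        show A 0 ∈ Metric.ball (0 : GlLie N) r
        rw [map_zero]
        exact h0r
      · have h1 : ContDiffOn ℝ ∞
            (fun x : EuclideanSpace ℝ (Fin (Module.finrank ℝ (GlLie N))) => T (A x))
            (T.symm ⁻¹' Metric.ball (0 : GlLie N) r ∩ A ⁻¹' Metric.ball (0 : GlLie N) r) :=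
          (T.contDiff.comp A.contDiff).contDiffOn
        refine h1.congr ?_
        rintro x ⟨hx1, hx2⟩
        have hx1' : T.symm x ∈ Metric.ball (0 : GlLie N) r := hx1
        have hx2' : glAd N g (T.symm x) ∈ Metric.ball (0 : GlLie N) r := hx2
        show e' (g * e'.symm x * g⁻¹) = T (A x)
        rw [he'app, he'symm, hsymm _ hx1', ← gl_exp_Ad, hlog _ hx2']
        rfl)
  exact ⟨Module.finrank ℝ (GlLie N), cs, hM, hL⟩

end Claimed.Agent.R304
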