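/-
Row 304 (S0559, Hilbert-Smith).  Block A2: a locally compact NSS group carries a Gleason metric.
Owner / designer: helper27.   DEFINITIONS of the block (frozen; ask helper27 before changing).

Source of the mathematics: T. Tao, "Hilbert's fifth problem and related topics", Sec. 5.3-5.4
(escape norms, Gleason lemmas), in the self-contained form of helper89's scheme (msg 4824), re-derived
and slightly simplified by helper27.  OVERVIEW OF THE CHAIN (files Ns*.lean, prefix ns):

  NsEsc   escape norm `nsEsc U g = 1/(first exit time of g, g^2, .. from U)`; Facts 0, 1 (only use of NSS)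
  NsDiff  difference operators `nsD g f x = f x - f (g⁻¹ x)`: (I1), (I2), commutator identity
  NsPsi   the function `nsPsi` built from lists (p1)-(p5)
  NsConv  convolution with a Haar measure, equivariance, second difference estimate
  NsBoot  bootstrap  P(c,M) -> P(c, C* + M/2)  and the KEY THEOREM `ns_key`
  NsNorm  the list norm `nsNorm`: (n1)-(n5)
  NsComm  commutator estimate (n6)
  NsMain  `ns_gleason : HsNSS G -> Nonempty (GleasonMetric G)`
-/
import Claimed.Agent.R304.TopDefs
import Claimed.Agent.R304.GlDefs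

set_option autoImplicit false

namespace Claimed.Agent.R304

open Topology Filter MeasureTheory
open scoped Pointwise

section

variable {G : Type*} [Group G]

open Classical in
/-- The *escape norm* of `g` relative to `U`: `1 / (n + 1)` where `n` is the largest number such that
`g, g ^ 2, …, g ^ n ∈ U` (so `g ^ (n + 1)` is the first power outside `U`), and `0` if all positive
powers of `g` lie in `U`. -/
noncomputable def nsEsc (U : Set G) (g : G) : ℝ :=
  if h : ∃ i : ℕ, g ^ (i + 1) ∉ U then 1 / ((Nat.find h : ℝ) + 1) else 0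

/-- The cost of a list for the weight `N`. -/
def nsCost (N : G → ℝ) (l : List G) : ℝ := (l.map N).sum

/-- `P(N, M)`: every list of cost `< 1 / M` has its product in `U0`. -/
def NsP (U0 : Set G) (N : G → ℝ) (M : ℝ) : Prop :=
  ∀ l : List G, M * nsCost N l < 1 → l.prod ∈ U0

open Classical in
/-- `ψ(x) = sup ({0} ∪ {1 - M cost(l) : x ∈ (prod l) U1})`. -/
noncomputable def nsPsi (U1 : Set G) (N : G → ℝ) (M : ℝ) (x : G) : ℝ :=
  ⨆ l : List G, if l.prod⁻¹ * x ∈ U1 then max 0 (1 - M * nsCost N l) else 0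

/-- The difference operator `(∂_g f)(x) = f x - f (g⁻¹ x)`. -/
def nsD (g : G) (f : G → ℝ) (x : G) : ℝ := f x - f (g⁻¹ * x)

/-- The list norm `|x| = inf {∑ e_{U1}(g_i) : g_1 ⋯ g_n = x}`. -/
noncomputable def nsNorm (U1 : Set G) (x : G) : ℝ :=
  ⨅ l : {l : List G // l.prod = x}, nsCost (nsEsc U1) l.1

/-- The bump function `max 0 (1 - M |x|)`. -/
noncomputable def nsBump (U1 : Set G) (M : ℝ) (x : G) : ℝ := max 0 (1 - M * nsNorm U1 x)

/-- Convolution `(ψ * η)(x) = ∫ ψ(y) η(y⁻¹ x) dμ(y)`. -/
noncomputable def nsConv [MeasurableSpace G] (μ : Measure G) (ψ η : G → ℝ) (x : G) : ℝ :=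
  ∫ y, ψ y * η (y⁻¹ * x) ∂μ

variable [TopologicalSpace G]

/-- A *good* neighbourhood of `1`: symmetric, with compact closure, and the closure contains no
nontrivial subgroup. -/
structure NsGood (U : Set G) : Prop where
  isOpen : IsOpen U
  one_mem : (1 : G) ∈ U
  inv_eq : U⁻¹ = U
  compact : IsCompact (closure U)
  nss : ∀ H : Subgroup G, (H : Set G) ⊆ closure U → H = ⊥

/-- The two nested good neighbourhoods `U1 ⊆ U1 ^ 4 ⊆ U0 ⊆ U0 ^ 2` used in the whole block. -/
structure NsTower (U0 U1 : Set G) : Prop where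
  good00 : NsGood (U0 * U0)
  good0 : NsGood U0
  good1 : NsGood U1
  sub : U1 * U1 * U1 * U1 ⊆ U0

/-- The data of the bootstrap that are chosen BEFORE the parameters `c, M`: a bump function `η`
supported in `U1` and a neighbourhood `W` of `1` on which the conjugated translates of `η` move by
less than `m / (2 M1 μ(K))`, where `m = ∫ η(z⁻¹) dz`, `K = closure (U1 U0 U1)`. -/
structure NsBootData [MeasurableSpace G] (μ : Measure G) (U0 U1 : Set G) (M1 : ℕ) (η : G → ℝ)
    (W : Set G) : Prop where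
  cont : Continuous η
  supp : HasCompactSupport η
  nonneg : ∀ z, 0 ≤ η z
  sub : ∀ z, η z ≠ 0 → z ∈ U1
  pos : 0 < ∫ z, η z⁻¹ ∂μ
  nhds : W ∈ 𝓝 (1 : G)
  small : ∀ h ∈ W, ∀ y ∈ closure (U1 * U0 * U1), ∀ z,
    |η z - η ((y⁻¹ * h * y)⁻¹ * z)| * (μ (closure (U1 * U0 * U1))).toReal
      ≤ (∫ z, η z⁻¹ ∂μ) / (2 * M1)

/-- The properties (p1)-(p5) of `ψ` used by the bootstrap; `L g` bounds the first differences. -/
structure NsPsiLike [MeasurableSpace G] (U0 U1 : Set G) (M1 : ℕ) (L : G → ℝ) (ψ : G → ℝ) :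
    Prop where
  meas : Measurable ψ
  nonneg : ∀ x, 0 ≤ ψ x
  le_one : ∀ x, ψ x ≤ 1
  eq_one : ∀ x ∈ U1, ψ x = 1
  support : ∀ x, ψ x ≠ 0 → x ∈ U0 * U1
  near_one : ∀ x, 1 - 1 / (M1 : ℝ) < ψ x → x ∈ U1 * U1
  diff : ∀ g x, |nsD g ψ x| ≤ L g

end

/-- realises the equation lemmas here (unique names) -/
theorem ns_defs_eqns_cite : True := by
  have := @nsEsc.eq_1.{0}
  have := @nsCost.eq_1.{0}
  have := @NsP.eq_1.{0}
  have := @nsPsi.eq_1.{0}
  have := @nsD.eq_1.{0}
  have := @nsNorm.eq_1.{0}
  have := @nsBump.eq_1.{0}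
  have := @nsConv.eq_1.{0}
  trivial

end Claimed.Agent.R304
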