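/-
Row 304, block A2 (designer helper27).  PACKAGE NsEsc: the escape norm, Facts 0 and 1.   PROVED (sorry-free).

PROOF PLANS.
* `nsEsc_cases` is the workhorse: unfold `nsEsc`, `Nat.find_spec`, `Nat.find_min`.  All other algebraic
  lemmas follow from it and from `nsEsc_le_iff`.
* `nsEsc_le_iff`: by `nsEsc_cases`; `1/(N+1) ≤ 1/(n+1) ↔ n ≤ N`.
* `nsEsc_le_of_imp`: the exit time of `g'` from `V` is at least that of `g` from `U`.
* `nsEsc_le_mul_of`: if `nsEsc U g = 1/(N+1)` put `n = N / M` (Nat division); `M * n ≤ N`, so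
  `g^(i+1) ∈ V` for `i < n`, `nsEsc V g ≤ 1/(n+1)` and `N + 1 ≤ M * (n + 1)`.
* `nsEsc_mul_self_pow`: if `nsEsc U (g^n) = 1/(k+1)`: every `1 ≤ a ≤ n (k+1)` is `a = n j + r` with
  `j ≤ k`, `r ≤ n` (`j = (a-1)/n`, `r = a - n j ∈ [1,n]`), `g^a = (g^n)^j g^r ∈ U * U` (`j = 0`: `1 ∈ U`).
* `ns_fact0`: `local_compact_nhds` gives compact `K ⊆ U`, `K ∈ 𝓝 1`; `N0 := interior K ∩ (interior K)⁻¹`;
  `closure N0 ⊆ K` since `K` is closed (T2).
* `ns_exists_tower`: `exists_open_nhds_one_mul_subset` / `exists_open_nhds_one_split` twice + symmetrise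
  (`V ∩ V⁻¹`), `NsGood.mono`; `U0 * U0` is symmetric since `(U0 * U0)⁻¹ = U0⁻¹ * U0⁻¹`.
* `ns_fact1` (ONLY USE OF NSS): by contradiction.  For every `M ≥ 1` there is `g_M` violating
  `nsEsc V g ≤ M * nsEsc U g`; by `nsEsc_le_mul_of` there are `n`, `i < n` with `g^(j+1) ∈ U` for all
  `j < M n` and `h_M := g^(i+1) ∉ V`; then `h_M^(j+1) ∈ U` for `j < M`.  `h_M ∈ closure U` compact: take a
  cluster point `h` along `atTop` (`IsCompact.exists_clusterPt` or an ultrafilter).  `h ∉ interior V`, so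
  `h ≠ 1`.  For each `j`, eventually `h_M^(j+1) ∈ U`, so `h^(j+1) ∈ closure U`; with `U⁻¹ = U` all integer
  powers are in `closure U`, so `Subgroup.zpowers h = ⊥`, `h = 1`.  Contradiction.
-/
import Claimed.Agent.R304.NsDefs

set_option autoImplicit false

namespace Claimed.Agent.R304

open Topology Filter
open scoped Pointwise

section algebra

variable {G : Type*} [Group G]

theorem nsEsc_cases (U : Set G) (g : G) :
    (nsEsc U g = 0 ∧ ∀ i : ℕ, g ^ (i + 1) ∈ U) ∨
      ∃ n : ℕ, nsEsc U g = 1 / ((n : ℝ) + 1) ∧ (∀ i < n, g ^ (i + 1) ∈ U) ∧ g ^ (n + 1) ∉ U := by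
  classical
  by_cases h : ∃ i : ℕ, g ^ (i + 1) ∉ U
  · right
    refine ⟨Nat.find h, ?_, ?_, Nat.find_spec h⟩
    · rw [nsEsc, dif_pos h]
    · intro i hi
      by_contra hcon
      exact Nat.find_min h hi hcon
  · left
    refine ⟨by rw [nsEsc, dif_neg h], ?_⟩
    intro i
    by_contra hcon
    exact h ⟨i, hcon⟩

theorem nsEsc_nonneg (U : Set G) (g : G) : 0 ≤ nsEsc U g := by
  rcases nsEsc_cases U g with ⟨h, _⟩ | ⟨n, h, _, _⟩
  · rw [h]
  · rw [h]; positivity

theorem nsEsc_le_one (U : Set G) (g : G) : nsEsc U g ≤ 1 := by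
  rcases nsEsc_cases U g with ⟨h, _⟩ | ⟨n, h, _, _⟩
  · rw [h]; norm_num
  · rw [h, div_le_one (by positivity)]
    have : (0 : ℝ) ≤ n := Nat.cast_nonneg n
    linarith

/-- The main characterisation. -/
theorem nsEsc_le_iff (U : Set G) (g : G) (n : ℕ) :
    nsEsc U g ≤ 1 / ((n : ℝ) + 1) ↔ ∀ i < n, g ^ (i + 1) ∈ U := by
  rcases nsEsc_cases U g with ⟨h, hall⟩ | ⟨N, h, hN, hN'⟩
  · rw [h]
    exact ⟨fun _ i _ => hall i, fun _ => by positivity⟩
  · rw [h, one_div_le_one_div (by positivity) (by positivity)]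
    constructor
    · intro hle i hi
      apply hN
      have : (n : ℝ) ≤ N := by linarith
      have : n ≤ N := by exact_mod_cast this
      omega
    · intro hall
      have : n ≤ N := by
        by_contra hcon
        exact hN' (hall N (by omega))
      have : (n : ℝ) ≤ N := by exact_mod_cast this
      linarith

theorem nsEsc_eq_zero_iff (U : Set G) (g : G) : nsEsc U g = 0 ↔ ∀ i : ℕ, g ^ (i + 1) ∈ U := by
  rcases nsEsc_cases U g with ⟨h, hall⟩ | ⟨N, h, _, hN'⟩
  · exact ⟨fun _ => hall, fun _ => h⟩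
  · constructor
    · intro h0
      rw [h] at h0
      have : (0 : ℝ) < 1 / ((N : ℝ) + 1) := by positivity
      linarith
    · intro hall
      exact absurd (hall N) hN'

theorem nsEsc_eq_one_of_notMem {U : Set G} {g : G} (h : g ∉ U) : nsEsc U g = 1 := by
  rcases nsEsc_cases U g with ⟨_, hall⟩ | ⟨N, hN0, hN, _⟩
  · exact absurd (by simpa using hall 0) h
  · have : N = 0 := by
      by_contra hcon
      exact h (by simpa using hN 0 (Nat.pos_of_ne_zero hcon))
    rw [hN0, this]; norm_num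

theorem nsEsc_lt_one_iff (U : Set G) (g : G) : nsEsc U g < 1 ↔ g ∈ U := by
  constructor
  · intro h
    by_contra hcon
    rw [nsEsc_eq_one_of_notMem hcon] at h
    exact lt_irrefl _ h
  · intro h
    have : nsEsc U g ≤ 1 / (((1 : ℕ) : ℝ) + 1) := by
      rw [nsEsc_le_iff]
      intro i hi
      have : i = 0 := by omega
      subst this
      simpa using h
    norm_num at this
    linarith

/-- Comparison principle. -/
theorem nsEsc_le_of_imp {U V : Set G} {g g' : G}
    (h : ∀ i : ℕ, g ^ (i + 1) ∈ U → g' ^ (i + 1) ∈ V) : nsEsc V g' ≤ nsEsc U g := by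
  rcases nsEsc_cases U g with ⟨h0, hall⟩ | ⟨N, hN0, hN, _⟩
  · rw [h0, (nsEsc_eq_zero_iff V g').mpr fun i => h i (hall i)]
  · rw [hN0, nsEsc_le_iff]
    exact fun i hi => h i (hN i hi)

theorem nsEsc_anti {U V : Set G} (h : U ⊆ V) (g : G) : nsEsc V g ≤ nsEsc U g :=
  nsEsc_le_of_imp fun _ hi => h hi

theorem nsEsc_inv {U : Set G} (hU : U⁻¹ = U) (g : G) : nsEsc U g⁻¹ = nsEsc U g := by
  have key : ∀ a : G, ∀ i : ℕ, a ^ (i + 1) ∈ U → a⁻¹ ^ (i + 1) ∈ U := by
    intro a i hi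
    rw [inv_pow, ← hU, Set.mem_inv, inv_inv]
    exact hi
  apply le_antisymm
  · exact nsEsc_le_of_imp (key g)
  · have := nsEsc_le_of_imp (U := U) (V := U) (g := g⁻¹) (g' := g) (by
      intro i hi
      have := key g⁻¹ i hi
      rwa [inv_inv] at this)
    exact this

theorem nsEsc_one {U : Set G} (h : (1 : G) ∈ U) : nsEsc U 1 = 0 :=
  (nsEsc_eq_zero_iff U 1).mpr fun i => by simpa using h

/-- Comparison with a factor. -/
theorem nsEsc_le_mul_of {U V : Set G} {g : G} {M : ℕ} (hM : 1 ≤ M)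
    (h : ∀ n : ℕ, (∀ i < M * n, g ^ (i + 1) ∈ U) → ∀ i < n, g ^ (i + 1) ∈ V) :
    nsEsc V g ≤ M * nsEsc U g := by
  rcases nsEsc_cases U g with ⟨h0, hall⟩ | ⟨N, hN0, hN, _⟩
  · rw [h0, mul_zero]
    refine le_of_eq ((nsEsc_eq_zero_iff V g).mpr fun i => ?_)
    exact h (i + 1) (fun j _ => hall j) i (Nat.lt_succ_self i)
  · have h1 : nsEsc V g ≤ 1 / (((N / M : ℕ) : ℝ) + 1) := by
      rw [nsEsc_le_iff]
      apply h
      intro i hi
      apply hN
      exact lt_of_lt_of_le hi (Nat.mul_div_le N M)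
    refine h1.trans ?_
    rw [hN0]
    have h2 : N + 1 ≤ M * (N / M + 1) := by
      have := Nat.lt_mul_div_succ N (by omega : 0 < M)
      omega
    have h3 : ((N : ℝ) + 1) ≤ M * (((N / M : ℕ) : ℝ) + 1) := by exact_mod_cast h2
    rw [mul_one_div, div_le_div_iff₀ (by positivity) (by positivity)]
    linarith

/-- Used for the escape property (n4). -/
theorem nsEsc_mul_self_pow {U : Set G} (h1 : (1 : G) ∈ U) {g : G} {n : ℕ}
    (hn : ∀ i < n, g ^ (i + 1) ∈ U) : (n : ℝ) * nsEsc (U * U) g ≤ nsEsc U (g ^ n) := by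
  rcases Nat.eq_zero_or_pos n with rfl | hnpos
  · simpa using nsEsc_nonneg U (1 : G)
  -- decomposition of powers
  have hdec : ∀ k : ℕ, (∀ j < k, (g ^ n) ^ (j + 1) ∈ U) → ∀ a < n * (k + 1), g ^ (a + 1) ∈ U * U := by
    intro k hk a ha
    have hj : a / n ≤ k := by
      have : a / n < k + 1 := by
        rw [Nat.div_lt_iff_lt_mul hnpos]
        rwa [mul_comm] at ha
      omega
    have hr : a % n < n := Nat.mod_lt _ hnpos
    have e : a + 1 = n * (a / n) + (a % n + 1) := by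
      have := Nat.div_add_mod a n
      omega
    rw [e, pow_add, pow_mul]
    refine Set.mul_mem_mul ?_ (hn _ hr)
    rcases Nat.eq_zero_or_pos (a / n) with h0 | h0
    · rw [h0]; simpa using h1
    · have := hk (a / n - 1) (by omega)
      rwa [Nat.sub_add_cancel h0] at this
  rcases nsEsc_cases U (g ^ n) with ⟨h0, hall⟩ | ⟨k, hk0, hk, _⟩
  · rw [h0]
    have : nsEsc (U * U) g = 0 := by
      rw [nsEsc_eq_zero_iff]
      intro a
      refine hdec a (fun j _ => hall j) a ?_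
      calc a < a + 1 := Nat.lt_succ_self a
        _ ≤ n * (a + 1) := Nat.le_mul_of_pos_left _ hnpos
    rw [this, mul_zero]
  · have h2 : nsEsc (U * U) g ≤ 1 / (((n * (k + 1) : ℕ) : ℝ) + 1) := by
      rw [nsEsc_le_iff]
      exact hdec k hk
    rw [hk0]
    have hn0 : (0 : ℝ) < n := by exact_mod_cast hnpos
    calc (n : ℝ) * nsEsc (U * U) g ≤ n * (1 / (((n * (k + 1) : ℕ) : ℝ) + 1)) :=
          mul_le_mul_of_nonneg_left h2 hn0.le
      _ ≤ 1 / ((k : ℝ) + 1) := by
          push_cast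
          rw [mul_one_div, div_le_div_iff₀ (by positivity) (by positivity)]
          nlinarith

end algebra

section topology

variable {G : Type*} [Group G] [TopologicalSpace G] [IsTopologicalGroup G]

theorem nsEsc_nhds {U : Set G} (hU : U ∈ 𝓝 (1 : G)) {ε : ℝ} (hε : 0 < ε) :
    {g : G | nsEsc U g < ε} ∈ 𝓝 (1 : G) := by
  obtain ⟨n, hn⟩ := exists_nat_one_div_lt hε
  have h1 : ∀ i : ℕ, {g : G | g ^ (i + 1) ∈ U} ∈ 𝓝 (1 : G) := by
    intro i
    have hc : ContinuousAt (fun g : G => g ^ (i + 1)) 1 := (continuous_pow (i + 1)).continuousAt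
    apply hc.preimage_mem_nhds
    simpa using hU
  have h2 : (⋂ i ∈ Finset.range n, {g : G | g ^ (i + 1) ∈ U}) ∈ 𝓝 (1 : G) :=
    (Filter.biInter_finset_mem _).mpr fun i _ => h1 i
  refine Filter.mem_of_superset h2 ?_
  intro g hg
  simp only [Set.mem_iInter, Finset.mem_range, Set.mem_ofPred_eq] at hg
  exact lt_of_le_of_lt ((nsEsc_le_iff U g n).mpr hg) hn

theorem NsGood.mem_nhds {U : Set G} (h : NsGood U) : U ∈ 𝓝 (1 : G) :=
  h.isOpen.mem_nhds h.one_mem

theorem NsGood.eq_one {U : Set G} (h : NsGood U) {g : G} (hg : nsEsc U g = 0) : g = 1 := by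
  have hall := (nsEsc_eq_zero_iff U g).mp hg
  have hnat : ∀ i : ℕ, g ^ i ∈ U := by
    intro i
    rcases Nat.eq_zero_or_pos i with rfl | hi
    · simpa using h.one_mem
    · have := hall (i - 1)
      rwa [Nat.sub_add_cancel hi] at this
  have hsub : (Subgroup.zpowers g : Set G) ⊆ closure U := by
    rintro _ ⟨k, rfl⟩
    apply subset_closure
    show g ^ k ∈ U
    cases k with
    | ofNat i => simpa using hnat i
    | negSucc i =>
      rw [zpow_negSucc, ← h.inv_eq, Set.mem_inv, inv_inv]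
      exact hnat _
  have := h.nss _ hsub
  rwa [Subgroup.zpowers_eq_bot] at this

theorem NsGood.mono {U V : Set G} (hU : NsGood U) (hVo : IsOpen V) (h1 : (1 : G) ∈ V)
    (hinv : V⁻¹ = V) (hVU : V ⊆ U) : NsGood V where
  isOpen := hVo
  one_mem := h1
  inv_eq := hinv
  compact := hU.compact.of_isClosed_subset isClosed_closure (closure_mono hVU)
  nss := fun H hH => hU.nss H (hH.trans (closure_mono hVU))

theorem ns_fact0 [LocallyCompactSpace G] [T2Space G] (h : HsNSS G) : ∃ N0 : Set G, NsGood N0 := by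
  obtain ⟨U, hU, hns⟩ := h
  obtain ⟨K, hK, hKU, hKc⟩ := local_compact_nhds hU
  have hsub : interior K ∩ (interior K)⁻¹ ⊆ K := fun x hx => interior_subset hx.1
  have hcl : closure (interior K ∩ (interior K)⁻¹) ⊆ K := closure_minimal hsub hKc.isClosed
  refine ⟨interior K ∩ (interior K)⁻¹, ?_, ?_, ?_, ?_, ?_⟩
  · exact isOpen_interior.inter isOpen_interior.inv
  · have : (1 : G) ∈ interior K := mem_interior_iff_mem_nhds.mpr hK
    exact ⟨this, by simpa using this⟩
  · rw [Set.inter_inv, inv_inv, Set.inter_comm]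
  · exact hKc.of_isClosed_subset isClosed_closure hcl
  · exact fun H hH => hns H (hH.trans (hcl.trans hKU))

/-- symmetric square root of a neighbourhood -/
theorem ns_exists_sqrt {N : Set G} (hN : N ∈ 𝓝 (1 : G)) :
    ∃ V : Set G, IsOpen V ∧ (1 : G) ∈ V ∧ V⁻¹ = V ∧ V * V ⊆ N := by
  obtain ⟨V, hVo, hV1, hVV⟩ := exists_open_nhds_one_mul_subset hN
  refine ⟨V ∩ V⁻¹, hVo.inter hVo.inv, ⟨hV1, by simpa using hV1⟩, ?_, ?_⟩
  · rw [Set.inter_inv, inv_inv, Set.inter_comm]
  · exact (Set.mul_subset_mul Set.inter_subset_left Set.inter_subset_left).trans hVV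

theorem ns_exists_tower [LocallyCompactSpace G] [T2Space G] (h : HsNSS G) :
    ∃ U0 U1 : Set G, NsTower U0 U1 := by
  obtain ⟨N0, hN0⟩ := ns_fact0 h
  obtain ⟨U0, hU0o, hU01, hU0i, hU0N⟩ := ns_exists_sqrt hN0.mem_nhds
  obtain ⟨V, hVo, hV1, hVi, hVU⟩ := ns_exists_sqrt (hU0o.mem_nhds hU01)
  obtain ⟨U1, hU1o, hU11, hU1i, hU1V⟩ := ns_exists_sqrt (hVo.mem_nhds hV1)
  have h00 : NsGood (U0 * U0) := by
    refine hN0.mono (hU0o.mul_left) ⟨1, hU01, 1, hU01, by simp⟩ ?_ hU0N
    rw [mul_inv_rev, hU0i]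
  have hsub0 : U0 ⊆ U0 * U0 := fun x hx => ⟨x, hx, 1, hU01, by simp⟩
  have h0 : NsGood U0 := h00.mono hU0o hU01 hU0i hsub0
  have h4 : U1 * U1 * U1 * U1 ⊆ U0 := by
    rw [mul_assoc (U1 * U1)]
    exact (Set.mul_subset_mul hU1V hU1V).trans hVU
  have hsub1 : U1 ⊆ U0 := by
    intro x hx
    apply h4
    exact ⟨x * 1 * 1, ⟨x * 1, ⟨x, hx, 1, hU11, rfl⟩, 1, hU11, rfl⟩, 1, hU11, by simp⟩
  exact ⟨U0, U1, h00, h0, h0.mono hU1o hU11 hU1i hsub1, h4⟩

theorem NsTower.sub3 {U0 U1 : Set G} (T : NsTower U0 U1) : U1 * U1 * U1 ⊆ U0 := by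
  intro x hx
  exact T.sub ⟨x, hx, 1, T.good1.one_mem, by simp⟩

theorem NsTower.sub2 {U0 U1 : Set G} (T : NsTower U0 U1) : U1 * U1 ⊆ U0 := by
  intro x hx
  exact NsTower.sub3 T ⟨x, hx, 1, T.good1.one_mem, by simp⟩

theorem NsTower.sub1 {U0 U1 : Set G} (T : NsTower U0 U1) : U1 ⊆ U0 := by
  intro x hx
  exact NsTower.sub2 T ⟨x, hx, 1, T.good1.one_mem, by simp⟩

/-- **Fact 1** (the only use of NSS). -/
theorem ns_fact1 {U V : Set G} (hU : NsGood U) (hV : V ∈ 𝓝 (1 : G)) :
    ∃ M : ℕ, 1 ≤ M ∧ ∀ g : G, nsEsc V g ≤ M * nsEsc U g := by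
  by_contra hcon
  push Not at hcon
  have h1 : ∀ M : ℕ, ∃ h : G, h ∉ V ∧ ∀ j < M + 1, h ^ (j + 1) ∈ U := by
    intro M
    obtain ⟨g, hg⟩ := hcon (M + 1) (by omega)
    by_contra hno
    push Not at hno
    refine absurd (nsEsc_le_mul_of (U := U) (V := V) (g := g) (M := M + 1) (by omega) ?_)
      (not_le.mpr hg)
    intro n hn i hi
    by_contra hiV
    obtain ⟨j, hj, hjU⟩ := hno (g ^ (i + 1)) hiV
    apply hjU
    rw [← pow_mul]
    have hpos : 1 ≤ (i + 1) * (j + 1) := Nat.mul_pos (by omega) (by omega)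
    have hle : (i + 1) * (j + 1) ≤ (M + 1) * n := by
      calc (i + 1) * (j + 1) ≤ n * (M + 1) := Nat.mul_le_mul (by omega) (by omega)
        _ = (M + 1) * n := Nat.mul_comm _ _
    have := hn ((i + 1) * (j + 1) - 1) (by omega)
    rwa [Nat.sub_add_cancel hpos] at this
  choose hseq hV' hU' using h1
  have hmem : ∀ M, hseq M ∈ closure U := fun M =>
    subset_closure (by simpa using hU' M 0 (by omega))
  obtain ⟨h, _, hcl⟩ := hU.compact (f := map hseq atTop)
    (le_principal_iff.mpr (mem_map.mpr (Filter.univ_mem' hmem)))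
  -- `h` is not in the interior of `V`
  have hnot : h ∉ interior V := by
    intro hin
    have hfreq : ∃ᶠ y in map hseq atTop, y ∈ interior V :=
      hcl.frequently (isOpen_interior.mem_nhds hin)
    obtain ⟨M, hM⟩ := (Filter.frequently_map.mp hfreq).exists
    exact hV' M (interior_subset hM)
  have hpow : ∀ j : ℕ, h ^ (j + 1) ∈ closure U := by
    intro j
    rw [mem_closure_iff_clusterPt]
    have hc : ClusterPt (h ^ (j + 1)) (map (fun x : G => x ^ (j + 1)) (map hseq atTop)) :=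
      hcl.map (continuous_pow (j + 1)).continuousAt tendsto_map
    refine hc.mono ?_
    rw [map_map, le_principal_iff, mem_map]
    filter_upwards [eventually_ge_atTop j] with M hM
    exact hU' M j (by omega)
  have hnat : ∀ i : ℕ, h ^ i ∈ closure U := by
    intro i
    rcases Nat.eq_zero_or_pos i with rfl | hi
    · simpa using subset_closure hU.one_mem
    · have := hpow (i - 1)
      rwa [Nat.sub_add_cancel hi] at this
  have hclinv : (closure U)⁻¹ = closure U := by rw [inv_closure, hU.inv_eq]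
  have hsub : (Subgroup.zpowers h : Set G) ⊆ closure U := by
    rintro _ ⟨k, rfl⟩
    show h ^ k ∈ closure U
    cases k with
    | ofNat i => simpa using hnat i
    | negSucc i =>
      rw [zpow_negSucc, ← hclinv, Set.mem_inv, inv_inv]
      exact hnat _
  have h1' := hU.nss _ hsub
  rw [Subgroup.zpowers_eq_bot] at h1'
  rw [h1'] at hnot
  exact hnot (mem_interior_iff_mem_nhds.mpr hV)

end topology

end Claimed.Agent.R304
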