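/-
Row 304, block A2 (designer helper27).  PACKAGE NsPsi: lists, costs and the function `nsPsi`.   PROVED (sorry-free).

`nsPsi U1 N M x = ⨆ l, if l.prod⁻¹ * x ∈ U1 then max 0 (1 - M * nsCost N l) else 0`.
Standing hypotheses: `hN : ∀ g, 0 ≤ N g`, `hM : 0 ≤ M`; then every member of the family lies in `[0,1]`
(`BddAbove` by `1`), use `le_ciSup`, `ciSup_le`, `exists_lt_of_lt_ciSup`.
PROOF PLANS.
(p1) `nsPsi_nonneg`, `nsPsi_le_one`, `nsPsi_eq_one` (`l = []`).
(p2) `nsPsi_diff`: if `l.prod⁻¹ * x ∈ U1` then `(g⁻¹ :: l).prod⁻¹ * (g⁻¹ * x) ∈ U1` and the cost grows by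
     `N g⁻¹ = N g`; so `nsPsi x - M N g ≤ nsPsi (g⁻¹ x)` (use `nsPsi_exists_of_lt` / `le_nsPsi`); the other
     inequality is the same statement for `g⁻¹` at the point `g⁻¹ * x`.
(p3) `nsPsi_support`: `0 < ψ x` gives `l` with `M cost l < 1`, so `l.prod ∈ U0`, `x = l.prod * (l.prod⁻¹ x)`.
(p4) `nsPsi_near_one`: `1 - 1/M1 < ψ x` gives `l` with `M cost l < 1/M1`; `y = l.prod`; for `j < M1` the list
     `(List.replicate (j+1) l).flatten` has product `y^(j+1)` and cost `(j+1) cost l`, so `y^(j+1) ∈ U0`;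
     `nsEsc U0 y ≤ 1/(M1+1)` (`nsEsc_le_iff`), `nsEsc U1 y ≤ M1/(M1+1) < 1`, `y ∈ U1` (`nsEsc_lt_one_iff`).
(p5) `nsPsi_lsc`: `{x | a < ψ x}` is `univ` for `a < 0` and for `a ≥ 0` the union over `l` with
     `a < 1 - M cost l` of the preimages of `U1` under `x ↦ l.prod⁻¹ * x`.
-/
import Claimed.Agent.R304.NsEsc

set_option autoImplicit false

namespace Claimed.Agent.R304

open Topology Filter
open scoped Pointwise

section cost

variable {G : Type*} [Group G]

@[simp] theorem nsCost_nil (N : G → ℝ) : nsCost N [] = 0 := by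
  simp [nsCost]

@[simp] theorem nsCost_cons (N : G → ℝ) (g : G) (l : List G) :
    nsCost N (g :: l) = N g + nsCost N l := by
  simp [nsCost]

@[simp] theorem nsCost_append (N : G → ℝ) (l l' : List G) :
    nsCost N (l ++ l') = nsCost N l + nsCost N l' := by
  simp [nsCost]

theorem nsCost_nonneg {N : G → ℝ} (hN : ∀ g, 0 ≤ N g) (l : List G) : 0 ≤ nsCost N l := by
  induction l with
  | nil => simp
  | cons a l ih => rw [nsCost_cons]; exact add_nonneg (hN a) ih

theorem nsCost_mono {N N' : G → ℝ} (h : ∀ g, N g ≤ N' g) (l : List G) :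
    nsCost N l ≤ nsCost N' l := by
  induction l with
  | nil => simp
  | cons a l ih => rw [nsCost_cons, nsCost_cons]; exact add_le_add (h a) ih

theorem nsCost_add_const (N : G → ℝ) (c : ℝ) (l : List G) :
    nsCost (fun g => N g + c) l = nsCost N l + c * l.length := by
  induction l with
  | nil => simp
  | cons a l ih =>
    rw [nsCost_cons, nsCost_cons, ih, List.length_cons]
    push_cast
    ring

theorem nsCost_const_mul (N : G → ℝ) (a : ℝ) (l : List G) :
    nsCost (fun g => a * N g) l = a * nsCost N l := by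
  induction l with
  | nil => simp
  | cons b l ih =>
    rw [nsCost_cons, nsCost_cons, ih]
    ring

theorem nsCost_add (N N' : G → ℝ) (l : List G) :
    nsCost (fun g => N g + N' g) l = nsCost N l + nsCost N' l := by
  induction l with
  | nil => simp
  | cons b l ih =>
    rw [nsCost_cons, nsCost_cons, nsCost_cons, ih]
    ring

/-- repetition of a list -/
theorem nsCost_replicate (N : G → ℝ) (l : List G) (j : ℕ) :
    nsCost N (List.replicate j l).flatten = j * nsCost N l := by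
  induction j with
  | zero => simp
  | succ j ih =>
    rw [List.replicate_succ, List.flatten_cons, nsCost_append, ih]
    push_cast
    ring

theorem ns_prod_replicate (l : List G) (j : ℕ) :
    (List.replicate j l).flatten.prod = l.prod ^ j := by
  induction j with
  | zero => simp
  | succ j ih =>
    rw [List.replicate_succ, List.flatten_cons, List.prod_append, ih, pow_succ']

/-- the reversed list of inverses -/
theorem nsCost_inv_reverse {N : G → ℝ} (hN : ∀ g, N g⁻¹ = N g) (l : List G) :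
    nsCost N (l.map (·⁻¹)).reverse = nsCost N l := by
  induction l with
  | nil => simp
  | cons b l ih =>
    rw [List.map_cons, List.reverse_cons, nsCost_append, ih, nsCost_cons, nsCost_cons, nsCost_nil, hN]
    ring

theorem ns_prod_inv_reverse (l : List G) : (l.map (·⁻¹)).reverse.prod = l.prod⁻¹ := by
  induction l with
  | nil => simp
  | cons b l ih =>
    rw [List.map_cons, List.reverse_cons, List.prod_append, ih]
    simp

theorem NsP.mono {U0 : Set G} {N : G → ℝ} (hN : ∀ g, 0 ≤ N g) {M M' : ℝ} (h : NsP U0 N M)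
    (hMM : M ≤ M') : NsP U0 N M' := by
  intro l hl
  apply h l
  exact lt_of_le_of_lt (mul_le_mul_of_nonneg_right hMM (nsCost_nonneg hN l)) hl

end cost

section psi

variable {G : Type*} [Group G] {U0 U1 : Set G} {N : G → ℝ} {M : ℝ}

open Classical in
theorem nsPsi_member_le_one (U1 : Set G) (hN : ∀ g, 0 ≤ N g) (hM : 0 ≤ M) (x : G) (l : List G) :
    (if l.prod⁻¹ * x ∈ U1 then max 0 (1 - M * nsCost N l) else 0) ≤ (1 : ℝ) := by
  split_ifs
  · apply max_le zero_le_one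
    have := mul_nonneg hM (nsCost_nonneg hN l)
    linarith
  · exact zero_le_one

open Classical in
theorem nsPsi_bddAbove (U1 : Set G) (hN : ∀ g, 0 ≤ N g) (hM : 0 ≤ M) (x : G) :
    BddAbove (Set.range fun l : List G =>
      if l.prod⁻¹ * x ∈ U1 then max 0 (1 - M * nsCost N l) else (0 : ℝ)) := by
  refine ⟨1, ?_⟩
  rintro _ ⟨l, rfl⟩
  exact nsPsi_member_le_one U1 hN hM x l

theorem nsPsi_nonneg (hN : ∀ g, 0 ≤ N g) (hM : 0 ≤ M) (x : G) : 0 ≤ nsPsi U1 N M x := by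
  classical
  refine le_trans ?_ (le_ciSup (nsPsi_bddAbove U1 hN hM x) [])
  split_ifs
  · exact le_max_left _ _
  · exact le_rfl

theorem nsPsi_le_one (hN : ∀ g, 0 ≤ N g) (hM : 0 ≤ M) (x : G) : nsPsi U1 N M x ≤ 1 :=
  ciSup_le (nsPsi_member_le_one U1 hN hM x)

theorem le_nsPsi (hN : ∀ g, 0 ≤ N g) (hM : 0 ≤ M) {x : G} (l : List G) (h : l.prod⁻¹ * x ∈ U1) :
    1 - M * nsCost N l ≤ nsPsi U1 N M x := by
  classical
  refine le_trans ?_ (le_ciSup (nsPsi_bddAbove U1 hN hM x) l)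
  rw [if_pos h]
  exact le_max_right _ _

theorem nsPsi_exists_of_lt (hN : ∀ g, 0 ≤ N g) (hM : 0 ≤ M) {x : G} {a : ℝ} (ha : 0 ≤ a)
    (h : a < nsPsi U1 N M x) : ∃ l : List G, l.prod⁻¹ * x ∈ U1 ∧ a < 1 - M * nsCost N l := by
  classical
  obtain ⟨l, hl⟩ := exists_lt_of_lt_ciSup h
  refine ⟨l, ?_⟩
  split_ifs at hl with hmem
  · refine ⟨hmem, ?_⟩
    rcases lt_max_iff.mp hl with h0 | h0
    · exact absurd h0 (not_lt.mpr ha)
    · exact h0
  · exact absurd hl (not_lt.mpr ha)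

/-- (p1) -/
theorem nsPsi_eq_one (hN : ∀ g, 0 ≤ N g) (hM : 0 ≤ M) {x : G} (h : x ∈ U1) :
    nsPsi U1 N M x = 1 := by
  apply le_antisymm (nsPsi_le_one hN hM x)
  have := le_nsPsi (U1 := U1) hN hM (x := x) [] (by simpa using h)
  simpa using this

theorem nsPsi_sub_le (hN : ∀ g, 0 ≤ N g) (hM : 0 ≤ M) (hinv : ∀ g, N g⁻¹ = N g) (g x : G) :
    nsPsi U1 N M x - M * N g ≤ nsPsi U1 N M (g⁻¹ * x) := by
  by_contra hcon
  push Not at hcon
  have h0 : 0 ≤ nsPsi U1 N M (g⁻¹ * x) + M * N g :=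
    add_nonneg (nsPsi_nonneg hN hM _) (mul_nonneg hM (hN g))
  obtain ⟨l, hl, hlt⟩ := nsPsi_exists_of_lt hN hM h0 (by linarith : _ < nsPsi U1 N M x)
  have := le_nsPsi (U1 := U1) hN hM (x := g⁻¹ * x) (g⁻¹ :: l) (by
    rw [List.prod_cons, mul_inv_rev, inv_inv]
    simpa [mul_assoc] using hl)
  rw [nsCost_cons, hinv] at this
  linarith

/-- (p2) -/
theorem nsPsi_diff (hN : ∀ g, 0 ≤ N g) (hM : 0 ≤ M) (hinv : ∀ g, N g⁻¹ = N g) (g x : G) :
    |nsD g (nsPsi U1 N M) x| ≤ M * N g := by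
  rw [nsD, abs_le]
  constructor
  · have := nsPsi_sub_le (U1 := U1) hN hM hinv g⁻¹ (g⁻¹ * x)
    rw [inv_inv, mul_inv_cancel_left, hinv] at this
    linarith
  · have := nsPsi_sub_le (U1 := U1) hN hM hinv g x
    linarith

/-- (p3) -/
theorem nsPsi_support (hN : ∀ g, 0 ≤ N g) (hM : 0 ≤ M) (hP : NsP U0 N M) {x : G}
    (h : nsPsi U1 N M x ≠ 0) : x ∈ U0 * U1 := by
  have hpos : 0 < nsPsi U1 N M x := lt_of_le_of_ne (nsPsi_nonneg hN hM x) (Ne.symm h)
  obtain ⟨l, hl, hlt⟩ := nsPsi_exists_of_lt hN hM le_rfl hpos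
  exact ⟨l.prod, hP l (by linarith), l.prod⁻¹ * x, hl, by simp⟩

/-- (p4) -/
theorem nsPsi_near_one (hN : ∀ g, 0 ≤ N g) (hM : 0 ≤ M) (hP : NsP U0 N M) {M1 : ℕ} (hM1 : 1 ≤ M1)
    (h01 : ∀ g, nsEsc U1 g ≤ M1 * nsEsc U0 g) {x : G} (h : 1 - 1 / (M1 : ℝ) < nsPsi U1 N M x) :
    x ∈ U1 * U1 := by
  have hM1' : (1 : ℝ) ≤ M1 := by exact_mod_cast hM1
  have hM1pos : (0 : ℝ) < M1 := by linarith
  have h0 : 0 ≤ 1 - 1 / (M1 : ℝ) := by
    rw [sub_nonneg, div_le_one hM1pos]
    exact hM1'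
  obtain ⟨l, hl, hlt⟩ := nsPsi_exists_of_lt hN hM h0 h
  have hcost : M * nsCost N l < 1 / (M1 : ℝ) := by linarith
  have hpow : ∀ j < M1, l.prod ^ (j + 1) ∈ U0 := by
    intro j hj
    rw [← ns_prod_replicate]
    apply hP
    rw [nsCost_replicate]
    have hj' : ((j + 1 : ℕ) : ℝ) ≤ M1 := by exact_mod_cast hj
    have hnn : 0 ≤ M * nsCost N l := mul_nonneg hM (nsCost_nonneg hN l)
    calc M * (((j + 1 : ℕ) : ℝ) * nsCost N l) = ((j + 1 : ℕ) : ℝ) * (M * nsCost N l) := by ring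
      _ ≤ M1 * (M * nsCost N l) := mul_le_mul_of_nonneg_right hj' hnn
      _ < M1 * (1 / (M1 : ℝ)) := mul_lt_mul_of_pos_left hcost hM1pos
      _ = 1 := by field_simp
  have h1 : nsEsc U0 l.prod ≤ 1 / ((M1 : ℝ) + 1) := (nsEsc_le_iff U0 l.prod M1).mpr hpow
  have h2 : nsEsc U1 l.prod < 1 := by
    calc nsEsc U1 l.prod ≤ M1 * nsEsc U0 l.prod := h01 _
      _ ≤ M1 * (1 / ((M1 : ℝ) + 1)) := mul_le_mul_of_nonneg_left h1 hM1pos.le
      _ < 1 := by
        rw [mul_one_div, div_lt_one (by linarith)]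
        linarith
  exact ⟨l.prod, (nsEsc_lt_one_iff U1 _).mp h2, l.prod⁻¹ * x, hl, by simp⟩

/-- (p5) -/
theorem nsPsi_lsc [TopologicalSpace G] [IsTopologicalGroup G] (hN : ∀ g, 0 ≤ N g) (hM : 0 ≤ M)
    (hU : IsOpen U1) : LowerSemicontinuous (nsPsi U1 N M) := by
  intro x a ha
  rcases lt_or_ge a 0 with ha0 | ha0
  · exact Filter.Eventually.of_forall fun y => lt_of_lt_of_le ha0 (nsPsi_nonneg hN hM y)
  · obtain ⟨l, hl, hlt⟩ := nsPsi_exists_of_lt hN hM ha0 ha
    have hc : Continuous fun y : G => l.prod⁻¹ * y := continuous_const.mul continuous_id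
    have : (fun y : G => l.prod⁻¹ * y) ⁻¹' U1 ∈ 𝓝 x := (hU.preimage hc).mem_nhds hl
    filter_upwards [this] with y hy
    exact lt_of_lt_of_le hlt (le_nsPsi hN hM l hy)

theorem nsPsi_measurable [TopologicalSpace G] [IsTopologicalGroup G] [MeasurableSpace G]
    [BorelSpace G] (hN : ∀ g, 0 ≤ N g) (hM : 0 ≤ M) (hU : IsOpen U1) :
    Measurable (nsPsi U1 N M) :=
  (nsPsi_lsc hN hM hU).measurable

end psi

end Claimed.Agent.R304
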