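/-
Row 304, block A2 (designer helper27).  PACKAGE NsBoot: the bootstrap and the KEY THEOREM.   PROVED (sorry-free).

NOTATION.  `T : NsTower U0 U1`;  `M1` with `nsEsc U1 ≤ M1 * nsEsc U0` (Fact 1 for `(U0, U1)`);  `D : NsBootData μ U0 U1 M1 η W`;
`m = ∫ η z⁻¹`;  `K = closure (U1 * U0 * U1)`;  `MW` with `nsEsc W ≤ MW * nsEsc U1` (Fact 1 for `(U1, W)`);
`Ψ : NsPsiLike U0 U1 M1 L ψ`;  `φ = nsConv μ ψ η`.    ORDER OF CHOICES: `U0, U1, M1, η, W, MW`; nothing depends on `c, M`.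
PROOF PLANS.
* `ns_bootData_exists`: `exists_continuous_one_zero_of_isCompact` with `s = {1}`, `t = U1ᶜ` gives `η`;
  `m > 0` by `Continuous.integral_pos_of_hasCompactSupport_nonneg_nonzero` for `z ↦ η z⁻¹`;  `K` is compact: it is a closed
  subset of `closure U1 * closure U0 * closure U1` (`IsCompact.mul`);  `W` from `ns_unif_conj` with
  `ε = m / (2 M1) / ((μ K).toReal + 1)`.
* `ns_boot_range`: `nsConv_nonneg`, `nsConv_le_of` with `t = 1`.
* `ns_boot_one`: `nsConv_eq_of`: `η z⁻¹ ≠ 0 → z⁻¹ ∈ U1 → z ∈ U1 → ψ (1 * z) = 1`.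
* `ns_boot_far`: `nsConv_le_of` with `t = 1 - 1/M1`: if `η z⁻¹ ≠ 0` and `1 - 1/M1 < ψ (x z)` then `x z ∈ U1 U1`, so
  `x = (x z) z⁻¹ ∈ U1 U1 U1`.
* `ns_boot_second`: `ns_second_diff` with `a = L g`, `K`, `b (μ K) ≤ m/(2 M1)` from `D.small`; for `g ∈ U1` the function
  `nsD g ψ` vanishes off `U0 U1 ∪ g U0 U1 ⊆ U1 U0 U1 ⊆ K`.
* `ns_boot_first`: if `g ∉ U1`: `nsEsc U1 g = 1`, `|nsD g φ| ≤ m ≤ m MW`.  If `g ∈ U1`: `nsEsc_cases W g`.  In the case
  `nsEsc W g = 1/(n+1)` apply `nsD_le_of_second` with `n + 1` (`i = 0`: `nsD_one`; `1 ≤ i ≤ n`: `g^i ∈ W`, `ns_boot_second`):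
  `|nsD g φ| ≤ m/(n+1) + b = m nsEsc W g + b`.  In the case "all powers in `W`" the same for every `n`, let `n → ∞`.
* `ns_boot_concl`: `nsD_list_prod_le` with `B g = m MW nsEsc U1 g + L g m/(2 M1)`, `L g = M (nsEsc U1 g + c)`:
  `|nsD p φ x| ≤ (m/M1) (MW M1 + M/2) cost_c(l) < m/M1` for `p = l.prod`; if `p ∉ U1 U1 U1` then
  `|nsD p φ p| = φ 1 - φ p ≥ m/M1` (`ns_boot_one`, `ns_boot_far`).
* `ns_boot_step`: put `borel G`, `μ := Measure.haar` locally; `ψ := nsPsi U1 (nsEsc U1 + c) M` is `NsPsiLike` by NsPsi;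
  `Cs := MW * M1`; conclude with `T.sub3`.
* `ns_boot_base`: `(1/c) * cost < 1` forces `l = []` (every entry costs at least `c`).
* `ns_boot_all`: iterate `M ↦ Cs + M/2`: `M_j = 2 Cs + (M_0 - 2 Cs)/2^j ≤ 2 Cs + 1` for large `j`; `NsP.mono`.
* `ns_key`: `Ms := 2 Cs + 2`.  Given `l` with `Ms cost_0(l) < 1` choose `c > 0` with
  `(2 Cs + 1)(cost_0(l) + c * length l) < 1` (`nsCost_add_const`).
-/
import Claimed.Agent.R304.NsPsi
import Claimed.Agent.R304.NsConv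

set_option autoImplicit false

namespace Claimed.Agent.R304

open Topology Filter MeasureTheory
open scoped Pointwise

section measure

variable {G : Type*} [Group G] [TopologicalSpace G] [IsTopologicalGroup G] [LocallyCompactSpace G]
  [T2Space G] [MeasurableSpace G] [BorelSpace G] (μ : Measure G) [μ.IsHaarMeasure]
  {U0 U1 W : Set G} {M1 : ℕ} {η ψ : G → ℝ} {L : G → ℝ}

omit [LocallyCompactSpace G] [MeasurableSpace G] [BorelSpace G] in
theorem NsTower.compactK (T : NsTower U0 U1) : IsCompact (closure (U1 * U0 * U1)) := by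
  have hc : IsCompact (closure U1 * closure U0 * closure U1) :=
    (T.good1.compact.mul T.good0.compact).mul T.good1.compact
  refine hc.of_isClosed_subset isClosed_closure ?_
  apply closure_minimal _ hc.isClosed
  exact Set.mul_subset_mul (Set.mul_subset_mul subset_closure subset_closure) subset_closure

theorem ns_bootData_exists (T : NsTower U0 U1) (hM1 : 1 ≤ M1) :
    ∃ (η : G → ℝ) (W : Set G), NsBootData μ U0 U1 M1 η W := by
  obtain ⟨f, hf1, hf0, hfc, hf01⟩ := exists_continuous_one_zero_of_isCompact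
    (isCompact_singleton (x := (1 : G))) T.good1.isOpen.isClosed_compl
    (Set.disjoint_singleton_left.mpr (fun h => h T.good1.one_mem))
  have hcont : Continuous (f : G → ℝ) := f.continuous
  have hpos : 0 < ∫ z, f z⁻¹ ∂μ := by
    have hc : Continuous fun z : G => f z⁻¹ := hcont.comp continuous_inv
    have hs : HasCompactSupport fun z : G => f z⁻¹ := hfc.comp_homeomorph (Homeomorph.inv G)
    refine hc.integral_pos_of_hasCompactSupport_nonneg_nonzero hs (fun z => (hf01 _).1) (x := 1) ?_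
    have : f (1 : G) = 1 := hf1 rfl
    simp [this]
  have hM1pos : (0 : ℝ) < M1 := by exact_mod_cast hM1
  set K : Set G := closure (U1 * U0 * U1) with hK
  have hμ : 0 ≤ (μ K).toReal := ENNReal.toReal_nonneg
  have hε : 0 < (∫ z, f z⁻¹ ∂μ) / (2 * M1) / ((μ K).toReal + 1) := by positivity
  obtain ⟨W, hW, hW'⟩ := ns_unif_conj hcont hfc T.compactK hε
  refine ⟨f, W, hcont, hfc, fun z => (hf01 z).1, ?_, hpos, hW, ?_⟩
  · intro z hz
    by_contra hzU
    exact hz (hf0 hzU)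
  · intro h hh y hy z
    have h1 := hW' h hh y hy z
    calc |f z - f ((y⁻¹ * h * y)⁻¹ * z)| * (μ K).toReal
        ≤ (∫ z, f z⁻¹ ∂μ) / (2 * M1) / ((μ K).toReal + 1) * (μ K).toReal :=
          mul_le_mul_of_nonneg_right h1 hμ
      _ ≤ (∫ z, f z⁻¹ ∂μ) / (2 * M1) / ((μ K).toReal + 1) * ((μ K).toReal + 1) :=
          mul_le_mul_of_nonneg_left (by linarith) hε.le
      _ = (∫ z, f z⁻¹ ∂μ) / (2 * M1) := by field_simp

variable {μ}

omit [IsTopologicalGroup G] [LocallyCompactSpace G] [T2Space G] [BorelSpace G] in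
theorem NsPsiLike.abs_le_one (Ψ : NsPsiLike U0 U1 M1 L ψ) (y : G) : |ψ y| ≤ 1 := by
  rw [abs_of_nonneg (Ψ.nonneg y)]
  exact Ψ.le_one y

omit [IsTopologicalGroup G] [LocallyCompactSpace G] [T2Space G] [BorelSpace G] in
theorem NsPsiLike.L_nonneg (Ψ : NsPsiLike U0 U1 M1 L ψ) (g : G) : 0 ≤ L g :=
  (abs_nonneg _).trans (Ψ.diff g 1)

theorem ns_boot_range (D : NsBootData μ U0 U1 M1 η W) (Ψ : NsPsiLike U0 U1 M1 L ψ) (x : G) :
    0 ≤ nsConv μ ψ η x ∧ nsConv μ ψ η x ≤ ∫ z, η z⁻¹ ∂μ := by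
  refine ⟨nsConv_nonneg μ Ψ.nonneg D.nonneg x, ?_⟩
  have := nsConv_le_of μ Ψ.meas Ψ.abs_le_one D.cont D.supp D.nonneg (x := x) (t := 1)
    (fun z _ => Ψ.le_one _)
  rwa [one_mul] at this

theorem ns_boot_one (T : NsTower U0 U1) (D : NsBootData μ U0 U1 M1 η W)
    (Ψ : NsPsiLike U0 U1 M1 L ψ) : nsConv μ ψ η 1 = ∫ z, η z⁻¹ ∂μ := by
  apply nsConv_eq_of
  intro z hz
  rw [one_mul]
  apply Ψ.eq_one
  have := D.sub _ hz
  rwa [← Set.mem_inv, T.good1.inv_eq] at this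

theorem ns_boot_far (T : NsTower U0 U1) (D : NsBootData μ U0 U1 M1 η W)
    (Ψ : NsPsiLike U0 U1 M1 L ψ) {x : G} (hx : x ∉ U1 * U1 * U1) :
    nsConv μ ψ η x ≤ (1 - 1 / (M1 : ℝ)) * ∫ z, η z⁻¹ ∂μ := by
  apply nsConv_le_of μ Ψ.meas Ψ.abs_le_one D.cont D.supp D.nonneg
  intro z hz
  by_contra hcon
  push Not at hcon
  exact hx ⟨x * z, Ψ.near_one _ hcon, z⁻¹, D.sub _ hz, by simp⟩

theorem ns_boot_second (T : NsTower U0 U1) (D : NsBootData μ U0 U1 M1 η W)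
    (Ψ : NsPsiLike U0 U1 M1 L ψ) {g h : G} (hg : g ∈ U1) (hh : h ∈ W) (x : G) :
    |nsD h (nsD g (nsConv μ ψ η)) x| ≤ L g * ((∫ z, η z⁻¹ ∂μ) / (2 * M1)) := by
  set K : Set G := closure (U1 * U0 * U1) with hK
  have hopen : IsOpen (U1 * U0 * U1) := T.good1.isOpen.mul_left
  have hne : (U1 * U0 * U1).Nonempty :=
    ⟨1 * 1 * 1, Set.mul_mem_mul (Set.mul_mem_mul T.good1.one_mem T.good0.one_mem) T.good1.one_mem⟩
  have hμpos : 0 < μ K := lt_of_lt_of_le (hopen.measure_pos μ hne) (measure_mono subset_closure)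
  have hμfin : μ K < ⊤ := T.compactK.measure_lt_top
  have hμ : 0 < (μ K).toReal := ENNReal.toReal_pos hμpos.ne' hμfin.ne
  have h1 := ns_second_diff μ Ψ.meas Ψ.abs_le_one D.cont D.supp T.compactK (g := g) (h := h)
    (a := L g) (b := (∫ z, η z⁻¹ ∂μ) / (2 * M1) / (μ K).toReal) (Ψ.diff g) ?_ ?_ x
  · rwa [div_mul_cancel₀ _ hμ.ne'] at h1
  · intro y hy
    have h2 : ψ y = 0 := by
      by_contra hne0
      apply hy
      apply subset_closure
      obtain ⟨a, ha, b, hb, hab⟩ := Ψ.support y hne0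
      exact ⟨1 * a, ⟨1, T.good1.one_mem, a, ha, rfl⟩, b, hb, by simpa using hab⟩
    have h3 : ψ (g⁻¹ * y) = 0 := by
      by_contra hne0
      apply hy
      apply subset_closure
      obtain ⟨a, ha, b, hb, hab⟩ := Ψ.support _ hne0
      refine ⟨g * a, ⟨g, hg, a, ha, rfl⟩, b, hb, ?_⟩
      have hab' : a * b = g⁻¹ * y := hab
      show g * a * b = y
      rw [mul_assoc, hab', mul_inv_cancel_left]
    rw [nsD, h2, h3, sub_zero]
  · intro y hy z
    rw [le_div_iff₀ hμ]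
    exact D.small h hh y hy z

theorem ns_boot_osc (D : NsBootData μ U0 U1 M1 η W) (Ψ : NsPsiLike U0 U1 M1 L ψ) (x y : G) :
    |nsConv μ ψ η x - nsConv μ ψ η y| ≤ ∫ z, η z⁻¹ ∂μ := by
  have h1 := ns_boot_range D Ψ x
  have h2 := ns_boot_range D Ψ y
  rw [abs_le]
  constructor <;> linarith [h1.1, h1.2, h2.1, h2.2]

theorem ns_boot_first_aux (T : NsTower U0 U1) (D : NsBootData μ U0 U1 M1 η W)
    (Ψ : NsPsiLike U0 U1 M1 L ψ) {g : G} (hg : g ∈ U1) (n : ℕ) (hn : ∀ i < n, g ^ (i + 1) ∈ W)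
    (x : G) :
    |nsD g (nsConv μ ψ η) x|
      ≤ (∫ z, η z⁻¹ ∂μ) * (1 / ((n : ℝ) + 1)) + L g * ((∫ z, η z⁻¹ ∂μ) / (2 * M1)) := by
  have hb : 0 ≤ L g * ((∫ z, η z⁻¹ ∂μ) / (2 * M1)) :=
    mul_nonneg (Ψ.L_nonneg g) (div_nonneg D.pos.le (by positivity))
  have := nsD_le_of_second (nsConv μ ψ η) g (n + 1) (by omega) (∫ z, η z⁻¹ ∂μ)
    (L g * ((∫ z, η z⁻¹ ∂μ) / (2 * M1))) (ns_boot_osc D Ψ) (by
      intro i hi y
      rcases Nat.eq_zero_or_pos i with rfl | hipos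
      · rw [pow_zero, nsD_one, abs_zero]
        exact hb
      · have hW := hn (i - 1) (by omega)
        rw [Nat.sub_add_cancel hipos] at hW
        exact ns_boot_second T D Ψ hg hW y) x
  push_cast at this
  rwa [mul_one_div]

theorem ns_boot_first (T : NsTower U0 U1) (D : NsBootData μ U0 U1 M1 η W)
    (Ψ : NsPsiLike U0 U1 M1 L ψ) {MW : ℕ} (hMW1 : 1 ≤ MW)
    (hMW : ∀ g, nsEsc W g ≤ MW * nsEsc U1 g) (g x : G) :
    |nsD g (nsConv μ ψ η) x|
      ≤ (∫ z, η z⁻¹ ∂μ) * MW * nsEsc U1 g + L g * ((∫ z, η z⁻¹ ∂μ) / (2 * M1)) := by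
  have hm := D.pos
  have hb : 0 ≤ L g * ((∫ z, η z⁻¹ ∂μ) / (2 * M1)) :=
    mul_nonneg (Ψ.L_nonneg g) (div_nonneg D.pos.le (by positivity))
  have hMW1' : (1 : ℝ) ≤ MW := by exact_mod_cast hMW1
  by_cases hg : g ∈ U1
  · rcases nsEsc_cases W g with ⟨h0, hall⟩ | ⟨n, hn0, hn, _⟩
    · have h1 : |nsD g (nsConv μ ψ η) x| ≤ L g * ((∫ z, η z⁻¹ ∂μ) / (2 * M1)) := by
        apply le_of_forall_pos_le_add
        intro ε hε
        obtain ⟨n, hn⟩ := exists_nat_one_div_lt (div_pos hε hm)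
        have h2 := ns_boot_first_aux T D Ψ hg n (fun i _ => hall i) x
        have h3 : (∫ z, η z⁻¹ ∂μ) * (1 / ((n : ℝ) + 1)) ≤ ε := by
          have := mul_le_mul_of_nonneg_left hn.le hm.le
          rwa [mul_div_cancel₀ _ hm.ne'] at this
        linarith
      have h4 : 0 ≤ (∫ z, η z⁻¹ ∂μ) * MW * nsEsc U1 g :=
        mul_nonneg (mul_nonneg hm.le (by linarith)) (nsEsc_nonneg U1 g)
      linarith
    · have h2 := ns_boot_first_aux T D Ψ hg n hn x
      rw [← hn0] at h2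
      have h3 : (∫ z, η z⁻¹ ∂μ) * nsEsc W g ≤ (∫ z, η z⁻¹ ∂μ) * MW * nsEsc U1 g := by
        rw [mul_assoc]
        exact mul_le_mul_of_nonneg_left (hMW g) hm.le
      linarith
  · rw [nsEsc_eq_one_of_notMem hg, mul_one]
    have h1 : |nsD g (nsConv μ ψ η) x| ≤ ∫ z, η z⁻¹ ∂μ := ns_boot_osc D Ψ _ _
    have h2 : (∫ z, η z⁻¹ ∂μ) ≤ (∫ z, η z⁻¹ ∂μ) * MW := le_mul_of_one_le_right hm.le hMW1'
    linarith

theorem ns_boot_concl (T : NsTower U0 U1) (hM1 : 1 ≤ M1) (D : NsBootData μ U0 U1 M1 η W)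
    {c M : ℝ} (hc : 0 ≤ c) (hM : 0 ≤ M)
    (Ψ : NsPsiLike U0 U1 M1 (fun g => M * (nsEsc U1 g + c)) ψ) {MW : ℕ} (hMW1 : 1 ≤ MW)
    (hMW : ∀ g, nsEsc W g ≤ MW * nsEsc U1 g) (l : List G)
    (hl : ((MW : ℝ) * M1 + M / 2) * nsCost (fun g => nsEsc U1 g + c) l < 1) :
    l.prod ∈ U1 * U1 * U1 := by
  by_contra hcon
  have hm := D.pos
  set m : ℝ := ∫ z, η z⁻¹ ∂μ with hmdef
  have hM1pos : (0 : ℝ) < M1 := by exact_mod_cast hM1
  have hMW0 : (0 : ℝ) ≤ MW := Nat.cast_nonneg _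
  have h1 := nsD_list_prod_le (nsConv μ ψ η)
    (fun g => m * MW * nsEsc U1 g + (M * (nsEsc U1 g + c)) * (m / (2 * M1))) l
    (fun g _ x => ns_boot_first T D Ψ hMW1 hMW g x) l.prod
  have h2 : nsCost (fun g => m * MW * nsEsc U1 g + (M * (nsEsc U1 g + c)) * (m / (2 * M1))) l
      ≤ nsCost (fun g => (m / M1 * ((MW : ℝ) * M1 + M / 2)) * (nsEsc U1 g + c)) l := by
    apply nsCost_mono
    intro g
    have e : (m / M1 * ((MW : ℝ) * M1 + M / 2)) * (nsEsc U1 g + c)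
        = m * MW * (nsEsc U1 g + c) + (M * (nsEsc U1 g + c)) * (m / (2 * M1)) := by
      field_simp
    rw [e]
    have : m * MW * nsEsc U1 g ≤ m * MW * (nsEsc U1 g + c) :=
      mul_le_mul_of_nonneg_left (by linarith) (mul_nonneg hm.le hMW0)
    linarith
  rw [nsCost_const_mul] at h2
  have h3 : nsD l.prod (nsConv μ ψ η) l.prod = nsConv μ ψ η l.prod - m := by
    rw [nsD, inv_mul_cancel, ns_boot_one T D Ψ]
  have h4 := ns_boot_far T D Ψ hcon
  rw [← hmdef] at h4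
  have h5 : m / M1 ≤ |nsD l.prod (nsConv μ ψ η) l.prod| := by
    rw [h3, abs_sub_comm]
    refine le_trans ?_ (le_abs_self _)
    have : (1 - 1 / (M1 : ℝ)) * m = m - m / M1 := by ring
    linarith
  have h6 : m / M1 * ((MW : ℝ) * M1 + M / 2) * nsCost (fun g => nsEsc U1 g + c) l < m / M1 := by
    have hpos : 0 < m / M1 := div_pos hm hM1pos
    calc m / M1 * ((MW : ℝ) * M1 + M / 2) * nsCost (fun g => nsEsc U1 g + c) l
        = m / M1 * (((MW : ℝ) * M1 + M / 2) * nsCost (fun g => nsEsc U1 g + c) l) := by ring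
      _ < m / M1 * 1 := mul_lt_mul_of_pos_left hl hpos
      _ = m / M1 := mul_one _
  linarith

end measure

section key

variable {G : Type*} [Group G] [TopologicalSpace G] [IsTopologicalGroup G] [LocallyCompactSpace G]
  [T2Space G] {U0 U1 : Set G}

/-- (B) -/
theorem ns_boot_step (T : NsTower U0 U1) :
    ∃ Cs : ℝ, 0 < Cs ∧ ∀ c M : ℝ, 0 < c → 0 < M → NsP U0 (fun g => nsEsc U1 g + c) M →
      NsP U0 (fun g => nsEsc U1 g + c) (Cs + M / 2) := by
  letI : MeasurableSpace G := borel G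
  haveI : BorelSpace G := ⟨rfl⟩
  obtain ⟨M1, hM1, h01⟩ := ns_fact1 T.good0 T.good1.mem_nhds
  obtain ⟨η, W, D⟩ := ns_bootData_exists (Measure.haar : Measure G) T hM1
  obtain ⟨MW, hMW1, hMW⟩ := ns_fact1 T.good1 D.nhds
  have hM1pos : (0 : ℝ) < M1 := by exact_mod_cast hM1
  have hMWpos : (0 : ℝ) < MW := by exact_mod_cast hMW1
  refine ⟨MW * M1, by positivity, ?_⟩
  intro c M hc hM hP
  have hN : ∀ g : G, 0 ≤ nsEsc U1 g + c := fun g => add_nonneg (nsEsc_nonneg U1 g) hc.le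
  have hinv : ∀ g : G, nsEsc U1 g⁻¹ + c = nsEsc U1 g + c := fun g => by
    rw [nsEsc_inv T.good1.inv_eq]
  have Ψ : NsPsiLike U0 U1 M1 (fun g => M * (nsEsc U1 g + c))
      (nsPsi U1 (fun g => nsEsc U1 g + c) M) :=
    { meas := nsPsi_measurable hN hM.le T.good1.isOpen
      nonneg := nsPsi_nonneg hN hM.le
      le_one := nsPsi_le_one hN hM.le
      eq_one := fun x hx => nsPsi_eq_one hN hM.le hx
      support := fun x hx => nsPsi_support hN hM.le hP hx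
      near_one := fun x hx => nsPsi_near_one hN hM.le hP hM1 h01 hx
      diff := fun g x => nsPsi_diff hN hM.le hinv g x }
  intro l hl
  exact T.sub3 (ns_boot_concl T hM1 D hc.le hM.le Ψ hMW1 hMW l hl)

omit [TopologicalSpace G] [IsTopologicalGroup G] [LocallyCompactSpace G] [T2Space G] in
/-- (A) -/
theorem ns_boot_base (h1 : (1 : G) ∈ U0) {c : ℝ} (hc : 0 < c) :
    NsP U0 (fun g => nsEsc U1 g + c) (1 / c) := by
  intro l hl
  cases l with
  | nil => simpa using h1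
  | cons g l =>
    exfalso
    rw [nsCost_cons] at hl
    have h2 : 0 ≤ nsCost (fun g => nsEsc U1 g + c) l :=
      nsCost_nonneg (fun g => add_nonneg (nsEsc_nonneg U1 g) hc.le) l
    have h3 := nsEsc_nonneg U1 g
    rw [one_div, inv_mul_lt_iff₀ hc] at hl
    linarith

omit [TopologicalSpace G] [IsTopologicalGroup G] [LocallyCompactSpace G] [T2Space G] in
/-- (C), abstract iteration -/
theorem ns_boot_all (h1 : (1 : G) ∈ U0) {Cs : ℝ} (hCs : 0 < Cs)
    (hstep : ∀ c M : ℝ, 0 < c → 0 < M → NsP U0 (fun g => nsEsc U1 g + c) M →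
      NsP U0 (fun g => nsEsc U1 g + c) (Cs + M / 2)) {c : ℝ} (hc : 0 < c) :
    NsP U0 (fun g => nsEsc U1 g + c) (2 * Cs + 1) := by
  have hN : ∀ g : G, 0 ≤ nsEsc U1 g + c := fun g => add_nonneg (nsEsc_nonneg U1 g) hc.le
  have hit : ∀ j : ℕ, ∃ M : ℝ, 0 < M ∧ M ≤ 2 * Cs + (1 / c) / 2 ^ j ∧
      NsP U0 (fun g => nsEsc U1 g + c) M := by
    intro j
    induction j with
    | zero =>
      refine ⟨1 / c, by positivity, ?_, ns_boot_base h1 hc⟩
      simp only [pow_zero, div_one]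
      linarith
    | succ j ih =>
      obtain ⟨M, hM, hle, hP⟩ := ih
      refine ⟨Cs + M / 2, by positivity, ?_, hstep c M hc hM hP⟩
      have : (1 / c) / 2 ^ (j + 1) = (1 / c) / 2 ^ j / 2 := by
        rw [pow_succ]
        field_simp
      rw [this]
      linarith
  obtain ⟨n, hn⟩ := pow_unbounded_of_one_lt (1 / c) (one_lt_two : (1 : ℝ) < 2)
  obtain ⟨M, _, hle, hP⟩ := hit n
  refine hP.mono hN (hle.trans ?_)
  have : (1 / c) / 2 ^ n ≤ 1 := by
    rw [div_le_one (by positivity)]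
    exact hn.le
  linarith

/-- **KEY THEOREM G'.** -/
theorem ns_key (T : NsTower U0 U1) : ∃ Ms : ℝ, 0 < Ms ∧ NsP U0 (nsEsc U1) Ms := by
  obtain ⟨Cs, hCs, hstep⟩ := ns_boot_step T
  refine ⟨2 * Cs + 1, by positivity, ?_⟩
  intro l hl
  set A : ℝ := 2 * Cs + 1 with hA
  have hApos : 0 < A := by positivity
  set δ : ℝ := 1 - A * nsCost (nsEsc U1) l with hδ
  have hδpos : 0 < δ := by linarith
  have hlen : (0 : ℝ) ≤ l.length := Nat.cast_nonneg _
  have hcpos : 0 < δ / (A * ((l.length : ℝ) + 1)) := by positivity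
  apply ns_boot_all T.good0.one_mem hCs hstep hcpos l
  rw [nsCost_add_const, ← hA]
  have e : A * (nsCost (nsEsc U1) l + δ / (A * ((l.length : ℝ) + 1)) * l.length)
      = A * nsCost (nsEsc U1) l + δ * (l.length / ((l.length : ℝ) + 1)) := by
    field_simp
  rw [e]
  have h2 : (l.length : ℝ) / ((l.length : ℝ) + 1) < 1 := by
    rw [div_lt_one (by positivity)]
    linarith
  have h3 : δ * (l.length / ((l.length : ℝ) + 1)) < δ * 1 := mul_lt_mul_of_pos_left h2 hδpos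
  linarith

end key

end Claimed.Agent.R304
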