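/-
Row 304, block A2 (designer helper27).  PACKAGE NsNorm: the list norm, (n1)-(n5).   PROVED (sorry-free, modulo its imports).

`nsNorm U1 x = ⨅ l : {l // l.prod = x}, nsCost (nsEsc U1) l`.  The index type is nonempty (`[x]`), the family is bounded below
by `0`: use `ciInf_le`, `le_ciInf`, `exists_lt_of_ciInf_lt`.
Standing data: `T : NsTower U0 U1`, `hMs : 0 < Ms`, `key : NsP U0 (nsEsc U1) Ms` (from `ns_key`).
PROOF PLANS.
(n1) `nsNorm_one` (empty list), `nsNorm_inv` (`ns_prod_inv_reverse`, `nsCost_inv_reverse`, `nsEsc_inv`), `nsNorm_mul_le` (append).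
(n2) `nsEsc_le_nsNorm`: `nsEsc_cases U0 x`; in the case `1/(n+1)`, `x^(n+1) ∉ U0`: if `Ms * nsNorm x < 1/(n+1)` take `l` with product
     `x`, `Ms * cost l * (n+1) < 1`; the list repeated `n+1` times has product `x^(n+1)`, so `x^(n+1) ∈ U0` by `key`.
     `nsNorm_eq_zero`: then `nsEsc U0 x = 0`, `T.good0.eq_one`.
(n3) `nsNorm_basis`: `{nsNorm < ε} ⊇ {nsEsc U1 < ε} ∈ 𝓝 1` (`nsEsc_nhds`); conversely for `V ∈ 𝓝 1`, `ns_fact1 T.good0 hV` gives `MV`;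
     `nsNorm x < 1/(MV Ms)` implies `nsEsc V x ≤ MV Ms nsNorm x < 1`, so `x ∈ V`.
(n4) `nsNorm_escape`: `M2` from `ns_fact1 T.good00 T.good1.mem_nhds`; `C := max 1 (max (2 Ms) (M2 Ms))`.  `n = 0` trivial.  For `n ≥ 1`:
     `nsEsc U0 g ≤ Ms |g| ≤ 1/(2n) ≤ 1/(n+1)`, so `g^(i+1) ∈ U0` for `i < n`; `nsEsc_mul_self_pow`;
     `n |g| ≤ n nsEsc U1 g ≤ n M2 nsEsc (U0 U0) g ≤ M2 nsEsc U0 (g^n) ≤ M2 Ms |g^n|`.
(n5) `nsNorm_conj`: `ns_conj_nhds hK T.good1.mem_nhds` gives `W'`; `nsEsc U1 (y⁻¹ g y) ≤ nsEsc W' g` (`nsEsc_le_of_imp`,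
     `(y⁻¹ g y)^i = y⁻¹ g^i y`) `≤ MW' nsEsc U0 g ≤ MW' Ms |g|`.
`nsNorm_continuous`: `| |x| - |y| | ≤ |x⁻¹ y|` and (n3).
-/
import Claimed.Agent.R304.NsBoot

set_option autoImplicit false

namespace Claimed.Agent.R304

open Topology Filter
open scoped Pointwise

section algebra

variable {G : Type*} [Group G] {U0 U1 : Set G}

theorem nsNorm_bddBelow (U1 : Set G) (x : G) :
    BddBelow (Set.range fun l : {l : List G // l.prod = x} => nsCost (nsEsc U1) l.1) := by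
  refine ⟨0, ?_⟩
  rintro _ ⟨l, rfl⟩
  exact nsCost_nonneg (nsEsc_nonneg U1) l.1

theorem nsNorm_nonneg (U1 : Set G) (x : G) : 0 ≤ nsNorm U1 x := by
  haveI : Nonempty {l : List G // l.prod = x} := ⟨⟨[x], by simp⟩⟩
  exact le_ciInf fun l => nsCost_nonneg (nsEsc_nonneg U1) l.1

theorem nsNorm_le_cost (U1 : Set G) (l : List G) : nsNorm U1 l.prod ≤ nsCost (nsEsc U1) l :=
  ciInf_le (nsNorm_bddBelow U1 l.prod) (⟨l, rfl⟩ : {l' : List G // l'.prod = l.prod})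

theorem nsNorm_le_esc (U1 : Set G) (x : G) : nsNorm U1 x ≤ nsEsc U1 x := by
  have := nsNorm_le_cost U1 [x]
  simpa using this

theorem nsNorm_le_one (U1 : Set G) (x : G) : nsNorm U1 x ≤ 1 :=
  (nsNorm_le_esc U1 x).trans (nsEsc_le_one U1 x)

theorem nsNorm_exists_of_lt {x : G} {r : ℝ} (h : nsNorm U1 x < r) :
    ∃ l : List G, l.prod = x ∧ nsCost (nsEsc U1) l < r := by
  haveI : Nonempty {l : List G // l.prod = x} := ⟨⟨[x], by simp⟩⟩
  obtain ⟨l, hl⟩ := exists_lt_of_ciInf_lt h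
  exact ⟨l.1, l.2, hl⟩

/-- (n1) -/
theorem nsNorm_one (U1 : Set G) : nsNorm U1 (1 : G) = 0 := by
  apply le_antisymm _ (nsNorm_nonneg U1 1)
  have := nsNorm_le_cost U1 ([] : List G)
  simpa using this

theorem nsNorm_inv_le (hU : U1⁻¹ = U1) (x : G) : nsNorm U1 x⁻¹ ≤ nsNorm U1 x := by
  apply le_of_forall_gt
  intro r hr
  obtain ⟨l, hl, hlt⟩ := nsNorm_exists_of_lt hr
  have := nsNorm_le_cost U1 (l.map (·⁻¹)).reverse
  rw [ns_prod_inv_reverse, nsCost_inv_reverse (nsEsc_inv hU), hl] at this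
  exact lt_of_le_of_lt this hlt

theorem nsNorm_inv (hU : U1⁻¹ = U1) (x : G) : nsNorm U1 x⁻¹ = nsNorm U1 x := by
  apply le_antisymm (nsNorm_inv_le hU x)
  have := nsNorm_inv_le hU x⁻¹
  rwa [inv_inv] at this

theorem nsNorm_mul_le (U1 : Set G) (x y : G) : nsNorm U1 (x * y) ≤ nsNorm U1 x + nsNorm U1 y := by
  apply le_of_forall_pos_lt_add
  intro ε hε
  obtain ⟨l, hl, hlt⟩ := nsNorm_exists_of_lt (show nsNorm U1 x < nsNorm U1 x + ε / 2 by linarith)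
  obtain ⟨l', hl', hlt'⟩ := nsNorm_exists_of_lt (show nsNorm U1 y < nsNorm U1 y + ε / 2 by linarith)
  have := nsNorm_le_cost U1 (l ++ l')
  rw [List.prod_append, nsCost_append, hl, hl'] at this
  linarith

theorem nsNorm_pow_le (U1 : Set G) (x : G) (n : ℕ) : nsNorm U1 (x ^ n) ≤ n * nsNorm U1 x := by
  induction n with
  | zero => simp [nsNorm_one]
  | succ n ih =>
    rw [pow_succ]
    push_cast
    have := nsNorm_mul_le U1 (x ^ n) x
    linarith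

theorem nsNorm_sub_le (hU : U1⁻¹ = U1) (x y : G) :
    |nsNorm U1 x - nsNorm U1 y| ≤ nsNorm U1 (x⁻¹ * y) := by
  rw [abs_le]
  constructor
  · have := nsNorm_mul_le U1 x (x⁻¹ * y)
    rw [mul_inv_cancel_left] at this
    linarith
  · have := nsNorm_mul_le U1 y (x⁻¹ * y)⁻¹
    rw [nsNorm_inv hU, mul_inv_rev, inv_inv, mul_inv_cancel_left] at this
    linarith

/-- first differences of the norm -/
theorem nsNorm_diff (hU : U1⁻¹ = U1) (g x : G) : |nsD g (nsNorm U1) x| ≤ nsNorm U1 g := by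
  rw [nsD, abs_le]
  constructor
  · have := nsNorm_mul_le U1 g⁻¹ x
    rw [nsNorm_inv hU] at this
    linarith
  · have := nsNorm_mul_le U1 g (g⁻¹ * x)
    rw [mul_inv_cancel_left] at this
    linarith

/-- (n2) -/
theorem nsEsc_le_nsNorm {Ms : ℝ} (hMs : 0 < Ms) (key : NsP U0 (nsEsc U1) Ms) (x : G) :
    nsEsc U0 x ≤ Ms * nsNorm U1 x := by
  rcases nsEsc_cases U0 x with ⟨h0, _⟩ | ⟨n, hn0, _, hn⟩
  · rw [h0]; exact mul_nonneg hMs.le (nsNorm_nonneg U1 x)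
  · rw [hn0]
    by_contra hcon
    push Not at hcon
    have hn1 : (0 : ℝ) < (n : ℝ) + 1 := by positivity
    have h1 : nsNorm U1 x < 1 / ((n : ℝ) + 1) / Ms := by
      rw [lt_div_iff₀ hMs]; linarith
    obtain ⟨l, hl, hlt⟩ := nsNorm_exists_of_lt h1
    apply hn
    rw [← hl, ← ns_prod_replicate]
    apply key
    rw [nsCost_replicate]
    rw [lt_div_iff₀ hMs, lt_div_iff₀ hn1] at hlt
    push_cast
    linarith

end algebra

section topology

variable {G : Type*} [Group G] [TopologicalSpace G] [IsTopologicalGroup G] {U0 U1 : Set G} {Ms : ℝ}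

theorem nsNorm_eq_zero (T : NsTower U0 U1) (hMs : 0 < Ms) (key : NsP U0 (nsEsc U1) Ms) {x : G}
    (h : nsNorm U1 x = 0) : x = 1 := by
  apply T.good0.eq_one
  apply le_antisymm _ (nsEsc_nonneg U0 x)
  have := nsEsc_le_nsNorm hMs key x
  rwa [h, mul_zero] at this

/-- every neighbourhood of `1` contains a ball -/
theorem nsNorm_ball_sub (T : NsTower U0 U1) (hMs : 0 < Ms) (key : NsP U0 (nsEsc U1) Ms) {V : Set G}
    (hV : V ∈ 𝓝 (1 : G)) : ∃ ε : ℝ, 0 < ε ∧ ∀ x : G, nsNorm U1 x < ε → x ∈ V := by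
  obtain ⟨MV, hMV1, hMV⟩ := ns_fact1 T.good0 hV
  have hMVpos : (0 : ℝ) < MV := by exact_mod_cast hMV1
  refine ⟨1 / (MV * Ms), by positivity, fun x hx => ?_⟩
  rw [← nsEsc_lt_one_iff]
  calc nsEsc V x ≤ MV * nsEsc U0 x := hMV x
    _ ≤ MV * (Ms * nsNorm U1 x) := mul_le_mul_of_nonneg_left (nsEsc_le_nsNorm hMs key x) hMVpos.le
    _ = (MV * Ms) * nsNorm U1 x := by ring
    _ < (MV * Ms) * (1 / (MV * Ms)) := mul_lt_mul_of_pos_left hx (by positivity)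
    _ = 1 := by field_simp

/-- (n3) -/
theorem nsNorm_basis (T : NsTower U0 U1) (hMs : 0 < Ms) (key : NsP U0 (nsEsc U1) Ms) :
    (𝓝 (1 : G)).HasBasis (fun ε : ℝ => 0 < ε) (fun ε => {g | nsNorm U1 g < ε}) := by
  rw [Filter.hasBasis_iff]
  intro V
  constructor
  · intro hV
    obtain ⟨ε, hε, h⟩ := nsNorm_ball_sub T hMs key hV
    exact ⟨ε, hε, fun x hx => h x hx⟩
  · rintro ⟨ε, hε, h⟩
    refine Filter.mem_of_superset (nsEsc_nhds T.good1.mem_nhds hε) (fun x hx => h ?_)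
    exact lt_of_le_of_lt (nsNorm_le_esc U1 x) hx

theorem nsNorm_continuous (T : NsTower U0 U1) : Continuous (nsNorm U1 : G → ℝ) := by
  rw [continuous_iff_continuousAt]
  intro x
  rw [ContinuousAt, Metric.tendsto_nhds]
  intro ε hε
  have h1 : {g : G | nsEsc U1 g < ε} ∈ 𝓝 (1 : G) := nsEsc_nhds T.good1.mem_nhds hε
  have hc : ContinuousAt (fun y : G => x⁻¹ * y) x :=
    (continuous_const.mul continuous_id).continuousAt
  have h2 : (fun y : G => x⁻¹ * y) ⁻¹' {g : G | nsEsc U1 g < ε} ∈ 𝓝 x := by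
    apply hc.preimage_mem_nhds
    simpa using h1
  filter_upwards [h2] with y hy
  rw [Real.dist_eq, abs_sub_comm]
  exact lt_of_le_of_lt ((nsNorm_sub_le T.good1.inv_eq x y).trans (nsNorm_le_esc U1 _)) hy

/-- (n4) -/
theorem nsNorm_escape (T : NsTower U0 U1) (hMs : 0 < Ms) (key : NsP U0 (nsEsc U1) Ms) :
    ∃ C : ℝ, 1 ≤ C ∧ ∀ (g : G) (n : ℕ), (n : ℝ) * nsNorm U1 g ≤ 1 / C →
      (n : ℝ) * nsNorm U1 g ≤ C * nsNorm U1 (g ^ n) := by
  obtain ⟨M2, hM21, hM2⟩ := ns_fact1 T.good00 T.good1.mem_nhds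
  have hM2pos : (0 : ℝ) < M2 := by exact_mod_cast hM21
  refine ⟨max 1 (max (2 * Ms) (M2 * Ms)), le_max_left _ _, ?_⟩
  intro g n hn
  set C : ℝ := max 1 (max (2 * Ms) (M2 * Ms)) with hC
  have hC1 : 1 ≤ C := le_max_left _ _
  have hC2 : 2 * Ms ≤ C := (le_max_left _ _).trans (le_max_right _ _)
  have hC3 : M2 * Ms ≤ C := (le_max_right _ _).trans (le_max_right _ _)
  have hCpos : 0 < C := by linarith
  rcases Nat.eq_zero_or_pos n with rfl | hnpos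
  · simpa using mul_nonneg hCpos.le (nsNorm_nonneg U1 (1 : G))
  have hn0 : (0 : ℝ) < n := by exact_mod_cast hnpos
  have hn1 : (1 : ℝ) ≤ n := by exact_mod_cast hnpos
  have hnn := nsNorm_nonneg U1 g
  -- `Ms |g| ≤ 1 / (n + 1)`
  have h1 : nsEsc U0 g ≤ 1 / ((n : ℝ) + 1) := by
    refine (nsEsc_le_nsNorm hMs key g).trans ?_
    rw [le_div_iff₀ (by positivity)]
    have h2 : C * ((n : ℝ) * nsNorm U1 g) ≤ 1 := by
      rw [le_div_iff₀ hCpos] at hn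
      linarith
    have h3 : 2 * Ms * ((n : ℝ) * nsNorm U1 g) ≤ C * ((n : ℝ) * nsNorm U1 g) :=
      mul_le_mul_of_nonneg_right hC2 (mul_nonneg hn0.le hnn)
    have h4 : Ms * nsNorm U1 g * ((n : ℝ) + 1) ≤ 2 * Ms * ((n : ℝ) * nsNorm U1 g) := by
      have : 0 ≤ Ms * nsNorm U1 g := mul_nonneg hMs.le hnn
      nlinarith
    linarith
  have h5 := (nsEsc_le_iff U0 g n).mp h1
  have h6 := nsEsc_mul_self_pow T.good0.one_mem h5
  calc (n : ℝ) * nsNorm U1 g ≤ n * nsEsc U1 g :=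
        mul_le_mul_of_nonneg_left (nsNorm_le_esc U1 g) hn0.le
    _ ≤ n * (M2 * nsEsc (U0 * U0) g) := mul_le_mul_of_nonneg_left (hM2 g) hn0.le
    _ = M2 * (n * nsEsc (U0 * U0) g) := by ring
    _ ≤ M2 * nsEsc U0 (g ^ n) := mul_le_mul_of_nonneg_left h6 hM2pos.le
    _ ≤ M2 * (Ms * nsNorm U1 (g ^ n)) :=
        mul_le_mul_of_nonneg_left (nsEsc_le_nsNorm hMs key _) hM2pos.le
    _ = (M2 * Ms) * nsNorm U1 (g ^ n) := by ring
    _ ≤ C * nsNorm U1 (g ^ n) := mul_le_mul_of_nonneg_right hC3 (nsNorm_nonneg U1 _)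

omit [TopologicalSpace G] [IsTopologicalGroup G] in
theorem ns_conj_pow (y g : G) (i : ℕ) : (y⁻¹ * g * y) ^ i = y⁻¹ * g ^ i * y := by
  have := conj_pow (a := y⁻¹) (b := g) (i := i)
  simpa using this

/-- (n5) -/
theorem nsNorm_conj (T : NsTower U0 U1) (hMs : 0 < Ms) (key : NsP U0 (nsEsc U1) Ms) {K : Set G}
    (hK : IsCompact K) :
    ∃ C : ℝ, 0 ≤ C ∧ ∀ y ∈ K, ∀ g : G, nsNorm U1 (y⁻¹ * g * y) ≤ C * nsNorm U1 g := by
  obtain ⟨W, hW, hW'⟩ := ns_conj_nhds hK T.good1.mem_nhds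
  obtain ⟨MW, hMW1, hMW⟩ := ns_fact1 T.good0 hW
  have hMWpos : (0 : ℝ) < MW := by exact_mod_cast hMW1
  refine ⟨MW * Ms, by positivity, fun y hy g => ?_⟩
  calc nsNorm U1 (y⁻¹ * g * y) ≤ nsEsc U1 (y⁻¹ * g * y) := nsNorm_le_esc U1 _
    _ ≤ nsEsc W g := nsEsc_le_of_imp fun i hi => by
        rw [ns_conj_pow]
        exact hW' _ hi y hy
    _ ≤ MW * nsEsc U0 g := hMW g
    _ ≤ MW * (Ms * nsNorm U1 g) :=
        mul_le_mul_of_nonneg_left (nsEsc_le_nsNorm hMs key g) hMWpos.le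
    _ = MW * Ms * nsNorm U1 g := by ring

end topology

end Claimed.Agent.R304
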