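/-
Row 304, block A2 (designer helper27).  PACKAGE NsComm: the commutator estimate (n6).   PROVED (sorry-free).

Standing data: `T : NsTower U0 U1`, `hMs : 0 < Ms`, `key : NsP U0 (nsEsc U1) Ms`; `|x| = nsNorm U1 x`; `μ` a Haar measure.
`β = nsBump U1 M3`, `β x = max 0 (1 - M3 |x|)`, where `M3 > 0` is chosen with `|x| < 2 / M3 → x ∈ U1` (`nsNorm_ball_sub`).
`φ2 = nsConv μ β β`, `K2 = closure (U1 * U1)` (compact: closed subset of `closure U0`), `CK` from `nsNorm_conj` for `K2`.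
PROOF PLANS.
* `nsBump_*`: `β` is continuous (`nsNorm_continuous`), `0 ≤ β ≤ 1`, `β 1 = 1`, `β x⁻¹ = β x`, `β x ≠ 0 → |x| < 1/M3 → x ∈ U1`;
  `tsupport β ⊆ {|x| ≤ 1/M3} ⊆ U1 ⊆ closure U1` compact, so `HasCompactSupport β`; `|nsD g β x| ≤ M3 |g|` (`nsNorm_diff`,
  `max 0 ·` and `1 - M3 ·` are Lipschitz: `abs_max_sub_max_le_abs`).
* `ns_comm_second`: `ns_second_diff` with `ψ = η = β`, `K = K2`, `a = M3 |g|`, `b = M3 CK |h|`: for `g ∈ U1`, `nsD g β` vanishes off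
  `U1 ∪ g U1 ⊆ U1 U1`; `|β z - β (v⁻¹ z)| = |nsD v β z| ≤ M3 |v|` with `v = y⁻¹ h y`, `|v| ≤ CK |h|`.
* `ns_comm_upper`: `nsD_commutator_le` for `g, h ∈ U1`: `|nsD (g⁻¹ h⁻¹ g h) φ2 x| ≤ 2 M3² CK μ(K2) |g| |h|`.
* `ns_comm_c1`: `c1 := φ2 1 = ∫ β(y) β(y⁻¹) = ∫ β² > 0` (`Continuous.integral_pos_of_hasCompactSupport_nonneg_nonzero`).
* `ns_comm_vanish`: `x ∉ U1 U1 → φ2 x = 0` (integrand `β y β (y⁻¹ x) ≠ 0` forces `x = y (y⁻¹ x) ∈ U1 U1`).
* `ns_comm_lower`: if `∀ y, |nsD x φ2 y| ≤ t` then `|x| ≤ (M1 / c1) t`.  `x = 1` trivial.  Else `nsEsc_cases (U1 * U1) x`: the case "all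
  powers inside" is excluded by NSS (`U1 U1 ⊆ U0`, `nsEsc_anti`, `T.good0.eq_one`); in the case `1/(n+1)`, `x^(n+1) ∉ U1 U1`:
  `c1 = |nsD (x^(n+1)) φ2 (x^(n+1))| ≤ (n+1) t` (`nsD_pow_le`), and
  `|x| ≤ nsEsc U1 x ≤ M1 nsEsc U0 x ≤ M1 nsEsc (U1 U1) x = M1/(n+1) ≤ M1 t / c1`.
* `nsNorm_comm`: choose `C ≥ 1` so large that `|g| ≤ 1/C → g ∈ U1` (`nsNorm_ball_sub`) and `C ≥ (M1/c1) 2 M3² CK μ(K2)`; apply the above to
  `g⁻¹, h⁻¹` (`nsNorm_inv`): `(g⁻¹)⁻¹ (h⁻¹)⁻¹ g⁻¹ h⁻¹ = g h g⁻¹ h⁻¹`.  `borel G` and `Measure.haar` are introduced locally.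
-/
import Claimed.Agent.R304.NsNorm

set_option autoImplicit false

namespace Claimed.Agent.R304

open Topology Filter MeasureTheory
open scoped Pointwise

section bump

variable {G : Type*} [Group G] [TopologicalSpace G] [IsTopologicalGroup G] {U0 U1 : Set G}
  {M3 : ℝ}

omit [TopologicalSpace G] [IsTopologicalGroup G] in
theorem nsBump_nonneg (U1 : Set G) (M3 : ℝ) (x : G) : 0 ≤ nsBump U1 M3 x :=
  le_max_left _ _

omit [TopologicalSpace G] [IsTopologicalGroup G] in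
theorem nsBump_le_one (U1 : Set G) (hM3 : 0 ≤ M3) (x : G) : nsBump U1 M3 x ≤ 1 := by
  apply max_le zero_le_one
  have := mul_nonneg hM3 (nsNorm_nonneg U1 x)
  linarith

omit [TopologicalSpace G] [IsTopologicalGroup G] in
theorem nsBump_one (U1 : Set G) (M3 : ℝ) : nsBump U1 M3 (1 : G) = 1 := by
  rw [nsBump, nsNorm_one]
  simp

omit [TopologicalSpace G] [IsTopologicalGroup G] in
theorem nsBump_inv (hU : U1⁻¹ = U1) (M3 : ℝ) (x : G) : nsBump U1 M3 x⁻¹ = nsBump U1 M3 x := by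
  rw [nsBump, nsBump, nsNorm_inv hU]

omit [TopologicalSpace G] [IsTopologicalGroup G] in
theorem nsBump_ne_zero (hM3 : 0 < M3) {x : G} (h : nsBump U1 M3 x ≠ 0) :
    nsNorm U1 x < 1 / M3 := by
  by_contra hcon
  push Not at hcon
  apply h
  rw [nsBump]
  apply max_eq_left
  rw [div_le_iff₀ hM3] at hcon
  linarith

omit [TopologicalSpace G] [IsTopologicalGroup G] in
theorem nsBump_diff (hU : U1⁻¹ = U1) (hM3 : 0 ≤ M3) (g x : G) :
    |nsD g (nsBump U1 M3) x| ≤ M3 * nsNorm U1 g := by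
  rw [nsD, nsBump, nsBump, max_comm 0, max_comm 0]
  refine (abs_max_sub_max_le_abs _ _ _).trans ?_
  have e : 1 - M3 * nsNorm U1 x - (1 - M3 * nsNorm U1 (g⁻¹ * x))
      = -(M3 * nsD g (nsNorm U1) x) := by
    rw [nsD]; ring
  rw [e, abs_neg, abs_mul, abs_of_nonneg hM3]
  exact mul_le_mul_of_nonneg_left (nsNorm_diff hU g x) hM3

theorem nsBump_continuous (T : NsTower U0 U1) (M3 : ℝ) : Continuous (nsBump U1 M3 : G → ℝ) := by
  unfold nsBump
  exact continuous_const.max (continuous_const.sub (continuous_const.mul (nsNorm_continuous T)))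

omit [TopologicalSpace G] [IsTopologicalGroup G] in
theorem nsBump_mem (hM3 : 0 < M3) (hsub : ∀ x : G, nsNorm U1 x < 2 / M3 → x ∈ U1) {x : G}
    (h : nsBump U1 M3 x ≠ 0) : x ∈ U1 := by
  apply hsub
  refine (nsBump_ne_zero hM3 h).trans ?_
  rw [div_lt_div_iff_of_pos_right hM3]
  norm_num

theorem nsBump_hasCompactSupport (T : NsTower U0 U1) (hM3 : 0 < M3)
    (hsub : ∀ x : G, nsNorm U1 x < 2 / M3 → x ∈ U1) : HasCompactSupport (nsBump U1 M3 : G → ℝ) := by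
  refine HasCompactSupport.intro T.good1.compact ?_
  intro x hx
  by_contra hne
  exact hx (subset_closure (nsBump_mem hM3 hsub hne))

end bump

section measure

variable {G : Type*} [Group G] [TopologicalSpace G] [IsTopologicalGroup G] [LocallyCompactSpace G]
  [T2Space G] [MeasurableSpace G] [BorelSpace G] (μ : Measure G) [μ.IsHaarMeasure]
  {U0 U1 : Set G} {Ms M3 CK : ℝ}

omit [LocallyCompactSpace G] [MeasurableSpace G] [BorelSpace G] in
theorem NsTower.compactK2 (T : NsTower U0 U1) : IsCompact (closure (U1 * U1)) :=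
  T.good0.compact.of_isClosed_subset isClosed_closure (closure_mono T.sub2)

theorem ns_comm_second (T : NsTower U0 U1) (hM3 : 0 < M3)
    (hsub : ∀ x : G, nsNorm U1 x < 2 / M3 → x ∈ U1) (hCK : 0 ≤ CK)
    (hconj : ∀ y ∈ closure (U1 * U1), ∀ g : G, nsNorm U1 (y⁻¹ * g * y) ≤ CK * nsNorm U1 g)
    {g : G} (hg : g ∈ U1) (h x : G) :
    |nsD h (nsD g (nsConv μ (nsBump U1 M3) (nsBump U1 M3))) x|
      ≤ M3 * nsNorm U1 g * (M3 * (CK * nsNorm U1 h) * (μ (closure (U1 * U1))).toReal) := by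
  have hc := nsBump_continuous T M3
  have hb1 : ∀ y : G, |nsBump U1 M3 y| ≤ 1 := fun y => by
    rw [abs_of_nonneg (nsBump_nonneg U1 M3 y)]
    exact nsBump_le_one U1 hM3.le y
  refine ns_second_diff μ hc.measurable hb1 hc (nsBump_hasCompactSupport T hM3 hsub) T.compactK2
    (nsBump_diff T.good1.inv_eq hM3.le g) ?_ ?_ x
  · intro y hy
    have h2 : nsBump U1 M3 y = 0 := by
      by_contra hne0
      apply hy
      apply subset_closure
      exact ⟨1, T.good1.one_mem, y, nsBump_mem hM3 hsub hne0, one_mul y⟩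
    have h3 : nsBump U1 M3 (g⁻¹ * y) = 0 := by
      by_contra hne0
      apply hy
      apply subset_closure
      exact ⟨g, hg, g⁻¹ * y, nsBump_mem hM3 hsub hne0, mul_inv_cancel_left g y⟩
    rw [nsD, h2, h3, sub_zero]
  · intro y hy z
    have h4 := nsBump_diff (M3 := M3) T.good1.inv_eq hM3.le (y⁻¹ * h * y) z
    rw [nsD] at h4
    exact h4.trans (mul_le_mul_of_nonneg_left (hconj y hy h) hM3.le)

theorem ns_comm_upper (T : NsTower U0 U1) (hM3 : 0 < M3)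
    (hsub : ∀ x : G, nsNorm U1 x < 2 / M3 → x ∈ U1) (hCK : 0 ≤ CK)
    (hconj : ∀ y ∈ closure (U1 * U1), ∀ g : G, nsNorm U1 (y⁻¹ * g * y) ≤ CK * nsNorm U1 g)
    {g h : G} (hg : g ∈ U1) (hh : h ∈ U1) (x : G) :
    |nsD (g⁻¹ * h⁻¹ * g * h) (nsConv μ (nsBump U1 M3) (nsBump U1 M3)) x|
      ≤ 2 * (M3 ^ 2 * CK * (μ (closure (U1 * U1))).toReal) * (nsNorm U1 g * nsNorm U1 h) := by
  have := nsD_commutator_le g h (nsConv μ (nsBump U1 M3) (nsBump U1 M3))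
    (M3 ^ 2 * CK * (μ (closure (U1 * U1))).toReal * (nsNorm U1 g * nsNorm U1 h))
    (fun y => by
      refine (ns_comm_second μ T hM3 hsub hCK hconj hh g y).trans (le_of_eq ?_)
      ring)
    (fun y => by
      refine (ns_comm_second μ T hM3 hsub hCK hconj hg h y).trans (le_of_eq ?_)
      ring) x
  refine this.trans (le_of_eq ?_)
  ring

theorem ns_comm_c1 (T : NsTower U0 U1) (hM3 : 0 < M3)
    (hsub : ∀ x : G, nsNorm U1 x < 2 / M3 → x ∈ U1) :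
    0 < nsConv μ (nsBump U1 M3) (nsBump U1 M3) 1 := by
  have hc := nsBump_continuous T M3
  have hs := nsBump_hasCompactSupport T hM3 hsub
  have hc2 : Continuous fun y : G => nsBump U1 M3 y * nsBump U1 M3 (y⁻¹ * 1) :=
    hc.mul (hc.comp (continuous_inv.mul continuous_const))
  have hs2 : HasCompactSupport fun y : G => nsBump U1 M3 y * nsBump U1 M3 (y⁻¹ * 1) :=
    hs.mul_right
  refine hc2.integral_pos_of_hasCompactSupport_nonneg_nonzero hs2
    (fun y => mul_nonneg (nsBump_nonneg U1 M3 _) (nsBump_nonneg U1 M3 _)) (x := 1) ?_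
  simp [nsBump_one]

theorem ns_comm_vanish (hM3 : 0 < M3) (hsub : ∀ x : G, nsNorm U1 x < 2 / M3 → x ∈ U1) {x : G}
    (hx : x ∉ U1 * U1) : nsConv μ (nsBump U1 M3) (nsBump U1 M3) x = 0 := by
  rw [nsConv]
  have : (fun y : G => nsBump U1 M3 y * nsBump U1 M3 (y⁻¹ * x)) = fun _ => 0 := by
    funext y
    by_contra hne
    have h1 : nsBump U1 M3 y ≠ 0 := left_ne_zero_of_mul hne
    have h2 : nsBump U1 M3 (y⁻¹ * x) ≠ 0 := right_ne_zero_of_mul hne
    exact hx ⟨y, nsBump_mem hM3 hsub h1, y⁻¹ * x, nsBump_mem hM3 hsub h2, mul_inv_cancel_left y x⟩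
  rw [this]
  simp

theorem ns_comm_lower (T : NsTower U0 U1) (hM3 : 0 < M3)
    (hsub : ∀ x : G, nsNorm U1 x < 2 / M3 → x ∈ U1) {M1 : ℕ}
    (hM1 : ∀ g, nsEsc U1 g ≤ M1 * nsEsc U0 g) {x : G} {t : ℝ}
    (ht : ∀ y, |nsD x (nsConv μ (nsBump U1 M3) (nsBump U1 M3)) y| ≤ t) :
    nsNorm U1 x * nsConv μ (nsBump U1 M3) (nsBump U1 M3) 1 ≤ M1 * t := by
  have ht0 : 0 ≤ t := (abs_nonneg _).trans (ht 1)
  have hM10 : (0 : ℝ) ≤ M1 := Nat.cast_nonneg _
  have hc1 := ns_comm_c1 μ T hM3 hsub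
  rcases nsEsc_cases (U1 * U1) x with ⟨h0, _⟩ | ⟨n, hn0, _, hn⟩
  · have h1 : nsEsc U0 x = 0 :=
      le_antisymm ((nsEsc_anti T.sub2 x).trans h0.le) (nsEsc_nonneg U0 x)
    rw [T.good0.eq_one h1, nsNorm_one, zero_mul]
    exact mul_nonneg hM10 ht0
  · have h1 := nsD_pow_le (nsConv μ (nsBump U1 M3) (nsBump U1 M3)) x t ht (n + 1) (x ^ (n + 1))
    rw [nsD, inv_mul_cancel, ns_comm_vanish μ hM3 hsub hn, zero_sub, abs_neg,
      abs_of_pos hc1] at h1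
    push_cast at h1
    have h2 : nsNorm U1 x ≤ M1 * (1 / ((n : ℝ) + 1)) := by
      calc nsNorm U1 x ≤ nsEsc U1 x := nsNorm_le_esc U1 x
        _ ≤ M1 * nsEsc U0 x := hM1 x
        _ ≤ M1 * nsEsc (U1 * U1) x := mul_le_mul_of_nonneg_left (nsEsc_anti T.sub2 x) hM10
        _ = M1 * (1 / ((n : ℝ) + 1)) := by rw [hn0]
    have hn1 : (0 : ℝ) < (n : ℝ) + 1 := by positivity
    calc nsNorm U1 x * nsConv μ (nsBump U1 M3) (nsBump U1 M3) 1
        ≤ M1 * (1 / ((n : ℝ) + 1)) * (((n : ℝ) + 1) * t) :=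
          mul_le_mul h2 h1 hc1.le (by positivity)
      _ = M1 * t := by field_simp

end measure

/-- (n6) -/
theorem nsNorm_comm {G : Type*} [Group G] [TopologicalSpace G] [IsTopologicalGroup G]
    [LocallyCompactSpace G] [T2Space G] {U0 U1 : Set G} {Ms : ℝ} (T : NsTower U0 U1) (hMs : 0 < Ms)
    (key : NsP U0 (nsEsc U1) Ms) :
    ∃ C : ℝ, 1 ≤ C ∧ ∀ g h : G, nsNorm U1 g ≤ 1 / C → nsNorm U1 h ≤ 1 / C →
      nsNorm U1 (g * h * g⁻¹ * h⁻¹) ≤ C * nsNorm U1 g * nsNorm U1 h := by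
  letI : MeasurableSpace G := borel G
  haveI : BorelSpace G := ⟨rfl⟩
  obtain ⟨ε, hε, hball⟩ := nsNorm_ball_sub T hMs key T.good1.mem_nhds
  obtain ⟨CK, hCK, hconj⟩ := nsNorm_conj T hMs key T.compactK2
  obtain ⟨M1, _, hM1⟩ := ns_fact1 T.good0 T.good1.mem_nhds
  have hM3 : 0 < 2 / ε := by positivity
  have hsub : ∀ x : G, nsNorm U1 x < 2 / (2 / ε) → x ∈ U1 := by
    intro x hx
    apply hball
    have : 2 / (2 / ε) = ε := by field_simp
    rwa [this] at hx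
  set μ : Measure G := Measure.haar with hμ
  set c1 : ℝ := nsConv μ (nsBump U1 (2 / ε)) (nsBump U1 (2 / ε)) 1 with hc1def
  have hc1 : 0 < c1 := ns_comm_c1 μ T hM3 hsub
  set A : ℝ := 2 * ((2 / ε) ^ 2 * CK * (μ (closure (U1 * U1))).toReal) with hA
  have hA0 : 0 ≤ A := by positivity
  have hM10 : (0 : ℝ) ≤ M1 := Nat.cast_nonneg _
  have main : ∀ g h : G, g ∈ U1 → h ∈ U1 →
      nsNorm U1 (g⁻¹ * h⁻¹ * g * h) ≤ M1 * A / c1 * (nsNorm U1 g * nsNorm U1 h) := by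
    intro g h hg hh
    have h1 := ns_comm_lower μ T hM3 hsub hM1 (x := g⁻¹ * h⁻¹ * g * h)
      (t := A * (nsNorm U1 g * nsNorm U1 h))
      (fun y => ns_comm_upper μ T hM3 hsub hCK hconj hg hh y)
    rw [← hc1def] at h1
    rw [div_mul_eq_mul_div, le_div_iff₀ hc1]
    linarith
  refine ⟨max 1 (max (2 / ε) (M1 * A / c1)), le_max_left _ _, ?_⟩
  intro g h hg hh
  set C : ℝ := max 1 (max (2 / ε) (M1 * A / c1)) with hC
  have hC1 : 1 ≤ C := le_max_left _ _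
  have hC2 : 2 / ε ≤ C := (le_max_left _ _).trans (le_max_right _ _)
  have hC3 : M1 * A / c1 ≤ C := (le_max_right _ _).trans (le_max_right _ _)
  have hlt : 1 / C < ε := by
    have h1 : 1 / C ≤ 1 / (2 / ε) := one_div_le_one_div_of_le hM3 hC2
    have h2 : 1 / (2 / ε) = ε / 2 := by field_simp
    rw [h2] at h1
    linarith
  have hgU : g⁻¹ ∈ U1 := hball _ (by rw [nsNorm_inv T.good1.inv_eq]; exact lt_of_le_of_lt hg hlt)
  have hhU : h⁻¹ ∈ U1 := hball _ (by rw [nsNorm_inv T.good1.inv_eq]; exact lt_of_le_of_lt hh hlt)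
  have h3 := main g⁻¹ h⁻¹ hgU hhU
  rw [inv_inv, inv_inv, nsNorm_inv T.good1.inv_eq, nsNorm_inv T.good1.inv_eq] at h3
  refine h3.trans ?_
  rw [mul_assoc C]
  exact mul_le_mul_of_nonneg_right hC3 (mul_nonneg (nsNorm_nonneg U1 _) (nsNorm_nonneg U1 _))

end Claimed.Agent.R304
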