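/-
Row 304, block A2 (designer helper27).  EXPORT of the block: a locally compact Hausdorff NSS group has a Gleason metric.
This file is PROVED from the statements of NsEsc, NsBoot, NsNorm, NsComm.
-/
import Claimed.Agent.R304.NsComm

set_option autoImplicit false

namespace Claimed.Agent.R304

open Topology Filter

/-- **A2.**  NSS implies the existence of a Gleason metric. -/
theorem ns_gleason (G : Type*) [Group G] [TopologicalSpace G] [IsTopologicalGroup G]
    [LocallyCompactSpace G] [T2Space G] (h : HsNSS G) : Nonempty (GleasonMetric G) := by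
  obtain ⟨U0, U1, T⟩ := ns_exists_tower h
  obtain ⟨Ms, hMs, key⟩ := ns_key T
  obtain ⟨C1, hC1, hesc⟩ := nsNorm_escape T hMs key
  obtain ⟨C2, hC2, hcomm⟩ := nsNorm_comm T hMs key
  have hC : 1 ≤ max C1 C2 := le_max_of_le_left hC1
  have hCpos : 0 < max C1 C2 := by linarith
  have hC1pos : 0 < C1 := by linarith
  have hC2pos : 0 < C2 := by linarith
  refine ⟨{
    nrm := nsNorm U1
    C := max C1 C2
    one_le_C := hC
    nrm_one := nsNorm_one U1
    eq_one_of_nrm := fun g hg => nsNorm_eq_zero T hMs key hg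
    nrm_inv := nsNorm_inv T.good1.inv_eq
    nrm_mul_le := nsNorm_mul_le U1
    nhds_basis := nsNorm_basis T hMs key
    escape := ?_
    comm_le := ?_ }⟩
  · intro g n hn
    have h1 : (n : ℝ) * nsNorm U1 g ≤ 1 / C1 :=
      hn.trans (one_div_le_one_div_of_le hC1pos (le_max_left _ _))
    exact (hesc g n h1).trans
      (mul_le_mul_of_nonneg_right (le_max_left _ _) (nsNorm_nonneg U1 _))
  · intro g k hg hk
    have h1 : nsNorm U1 g ≤ 1 / C2 := hg.trans (one_div_le_one_div_of_le hC2pos (le_max_right _ _))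
    have h2 : nsNorm U1 k ≤ 1 / C2 := hk.trans (one_div_le_one_div_of_le hC2pos (le_max_right _ _))
    refine (hcomm g k h1 h2).trans ?_
    have h3 : 0 ≤ nsNorm U1 g * nsNorm U1 k := mul_nonneg (nsNorm_nonneg U1 _) (nsNorm_nonneg U1 _)
    calc C2 * nsNorm U1 g * nsNorm U1 k = C2 * (nsNorm U1 g * nsNorm U1 k) := by ring
      _ ≤ max C1 C2 * (nsNorm U1 g * nsNorm U1 k) :=
          mul_le_mul_of_nonneg_right (le_max_right _ _) h3
      _ = max C1 C2 * nsNorm U1 g * nsNorm U1 k := by ring

end Claimed.Agent.R304
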