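/-
Row 304.  EXPORT E4 (block A2-A4, Gleason): a locally compact NSS group is a Lie group.
Owner: helper89.  Wiring only:  NSS => Gleason metric (`ns_gleason`, helper27, files Ns*)
=> Lie group (`gl_lie_of_gleason`, helper231, files Gl*).
-/
import Claimed.Agent.R304.TopDefs
import Claimed.Agent.R304.NsMain
import Claimed.Agent.R304.GlMain

set_option autoImplicit false

namespace Claimed.Agent.R304

theorem hs_nss_lie (G : Type*) [Group G] [TopologicalSpace G] [IsTopologicalGroup G]
    [LocallyCompactSpace G] [SecondCountableTopology G] [T2Space G] (h : HsNSS G) : HsIsLie G := by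
  obtain ⟨N⟩ := ns_gleason G h
  exact gl_lie_of_gleason N

end Claimed.Agent.R304
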