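/-
Row 304 (S0559).  Owner: helper138 (statements), helper13 (proof).  SORRY-FREE.  PACKAGE FinArith: the arithmetic at the end of paper Theorem 6.9, in abstract form.
-/
import Mathlib

set_option autoImplicit false

namespace Claimed.Agent.R304

theorem hsf_iter_mul {Λ : Type*} (m : ℕ) (ρ : Λ → Λ) (hper : ∀ l, ρ^[m] l = l) (q : ℕ) (l : Λ) :
    ρ^[m * q] l = l := by
  induction q with
  | zero => rfl
  | succ q ih => rw [Nat.mul_succ, Function.iterate_add_apply, hper, ih]

/-- EQUAL PARTS.  `Z` a finitely additive integer valued function on the subsets of `Λ`, invariant under a permutation `ρ` all of whose orbits have exactly `m` elements.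
Then `m ∣ Z univ`.
Plan: the relation `λ ~ μ ↔ ∃ i, ρ^[i] λ = μ` is an equivalence relation (periodicity); `D₀` = a set of representatives (`Quotient.out`); `D i = ρ^[i] '' D₀`, `i < m`, are pairwise disjoint
(freeness) and cover `Λ`; by induction `Z (⋃ i < l, D i) = l * Z D₀` (`hadd`, `hinv` iterated). -/
theorem hsf_arith {Λ : Type*} (Z : Set Λ → ℤ)
    (hadd : ∀ D D' : Set Λ, Disjoint D D' → Z (D ∪ D') = Z D + Z D')
    (m : ℕ) (hm : 0 < m) (ρ : Λ → Λ) (hper : ∀ l, ρ^[m] l = l)
    (hfree : ∀ i, 0 < i → i < m → ∀ l, ρ^[i] l ≠ l) (hinv : ∀ D : Set Λ, Z (ρ '' D) = Z D) :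
    (m : ℤ) ∣ Z Set.univ := by
  classical
  have hmul := hsf_iter_mul m ρ hper
  -- the orbit relation
  let S : Setoid Λ :=
    { r := fun l μ => ∃ i, ρ^[i] l = μ
      iseqv :=
        { refl := fun l => ⟨0, rfl⟩
          symm := by
            rintro l μ ⟨i, rfl⟩
            refine ⟨m * i - i, ?_⟩
            rw [← Function.iterate_add_apply, Nat.sub_add_cancel (Nat.le_mul_of_pos_left i hm), hmul]
          trans := by
            rintro l μ ν ⟨i, rfl⟩ ⟨j, rfl⟩
            exact ⟨j + i, Function.iterate_add_apply _ _ _ _⟩ } }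
  have hinj : ∀ i, Function.Injective (ρ^[i]) := by
    intro i a b hab
    have := congrArg (ρ^[m * i - i]) hab
    rw [← Function.iterate_add_apply, ← Function.iterate_add_apply,
      Nat.sub_add_cancel (Nat.le_mul_of_pos_left i hm), hmul, hmul] at this
    exact this
  let D₀ : Set Λ := Set.range fun q : Quotient S => q.out
  have hrep : ∀ a ∈ D₀, ∀ b ∈ D₀, S.r a b → a = b := by
    rintro _ ⟨q, rfl⟩ _ ⟨q', rfl⟩ h
    have : (Quotient.mk S q.out) = Quotient.mk S q'.out := Quotient.sound h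
    rw [Quotient.out_eq, Quotient.out_eq] at this
    rw [this]
  have hZi : ∀ (i : ℕ) (D : Set Λ), Z (ρ^[i] '' D) = Z D := by
    intro i
    induction i with
    | zero => intro D; simp
    | succ i ih =>
      intro D
      rw [Function.iterate_succ', Set.image_comp, hinv, ih]
  have hZ0 : Z ∅ = 0 := by
    have := hadd ∅ ∅ (Set.disjoint_empty _)
    rw [Set.union_empty] at this
    linarith
  have hdis : ∀ i j, i < j → j < m → Disjoint (ρ^[i] '' D₀) (ρ^[j] '' D₀) := by
    intro i j hij hj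
    rw [Set.disjoint_left]
    rintro _ ⟨a, ha, rfl⟩ ⟨b, hb, hab⟩
    have hba : S.r b a := S.iseqv.trans ⟨j, hab⟩ (S.iseqv.symm ⟨i, rfl⟩)
    have e := hrep b hb a ha hba
    subst e
    have e2 : ρ^[i] (ρ^[j - i] b) = ρ^[i] b := by
      rw [← Function.iterate_add_apply, Nat.add_sub_cancel' hij.le, hab]
    exact hfree (j - i) (by omega) (by omega) b (hinj i e2)
  have hU : ∀ l, l ≤ m → Z {x | ∃ i, i < l ∧ x ∈ ρ^[i] '' D₀} = l * Z D₀ := by
    intro l
    induction l with
    | zero =>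
      intro _
      have : {x | ∃ i, i < 0 ∧ x ∈ ρ^[i] '' D₀} = (∅ : Set Λ) := by
        ext x
        simp
      rw [this, hZ0]
      simp
    | succ l ih =>
      intro hl
      have e : {x | ∃ i, i < l + 1 ∧ x ∈ ρ^[i] '' D₀} = {x | ∃ i, i < l ∧ x ∈ ρ^[i] '' D₀} ∪ ρ^[l] '' D₀ := by
        ext x
        constructor
        · rintro ⟨i, hi, hx⟩
          rcases Nat.lt_succ_iff_lt_or_eq.1 hi with h | h
          · exact Or.inl ⟨i, h, hx⟩
          · subst h
            exact Or.inr hx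
        · rintro (⟨i, hi, hx⟩ | hx)
          · exact ⟨i, by omega, hx⟩
          · exact ⟨l, by omega, hx⟩
      have hd : Disjoint {x | ∃ i, i < l ∧ x ∈ ρ^[i] '' D₀} (ρ^[l] '' D₀) := by
        rw [Set.disjoint_left]
        rintro x ⟨i, hi, hx⟩ hx'
        exact Set.disjoint_left.1 (hdis i l hi (by omega)) hx hx'
      rw [e, hadd _ _ hd, ih (by omega), hZi]
      push_cast
      ring
  have hcov : {x | ∃ i, i < m ∧ x ∈ ρ^[i] '' D₀} = (Set.univ : Set Λ) := by
    ext x
    simp only [Set.mem_univ, iff_true]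
    obtain ⟨i, hi⟩ : S.r (Quotient.mk S x).out x := Quotient.exact (Quotient.out_eq _)
    refine ⟨i % m, Nat.mod_lt _ hm, (Quotient.mk S x).out, ⟨_, rfl⟩, ?_⟩
    conv_rhs => rw [← hi, ← Nat.mod_add_div i m]
    rw [Function.iterate_add_apply, hmul]
  rw [← hcov, hU m le_rfl]
  exact Dvd.intro _ rfl

/-- a nonzero integer is not divisible by all powers of `p` -/
theorem hsf_final (p : ℕ) (hp : p.Prime) (N : ℤ) (hN : N ≠ 0) (h : ∀ k : ℕ, ((p ^ k : ℕ) : ℤ) ∣ N) :
    False := by
  have h1 : ((p ^ N.natAbs : ℕ) : ℤ) ∣ N := h N.natAbs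
  have h2 : p ^ N.natAbs ∣ N.natAbs := Int.natCast_dvd.1 h1
  have h3 : p ^ N.natAbs ≤ N.natAbs := Nat.le_of_dvd (Int.natAbs_pos.2 hN) h2
  have h4 : N.natAbs < p ^ N.natAbs := Nat.lt_pow_self hp.one_lt
  omega

end Claimed.Agent.R304
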