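/-
Row 304 (S0559).  Owner: helper138 (statements), helper13 (proofs).  SORRY-FREE.  PACKAGE S5Pinch: the pinch map, extension of compactly supported maps to the one point
compactification, compactly supported homotopies (`S5Htpy`), moving a pinch along a path (paper L5.3 first half, P5.8 first half).
-/
import Claimed.Agent.R304.S5Avg
import Claimed.Agent.R304.S5GeoDefs

set_option autoImplicit false

namespace Claimed.Agent.R304

open Topology Metric

/-! ### the pinch map -/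

theorem s5_mul_sinc (y : ℝ) : y * Real.sinc y = Real.sin y := by
  by_cases h : y = 0
  · simp [h]
  · rw [Real.sinc_of_ne_zero h]
    field_simp

theorem s5_sinc_pos (y : ℝ) (h0 : 0 ≤ y) (h1 : y < Real.pi) : 0 < Real.sinc y := by
  rcases eq_or_lt_of_le h0 with h | h
  · rw [← h]
    simp
  · rw [Real.sinc_of_ne_zero h.ne']
    exact div_pos (Real.sin_pos_of_pos_of_lt_pi h h1) h

theorem s5_pinchVec_zero_coord (d : ℕ) (x : EuclideanSpace ℝ (Fin d)) :
    s5PinchVec d x 0 = -Real.cos (Real.pi * min ‖x‖ 1) := rfl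

theorem s5_pinchVec_succ_coord (d : ℕ) (x : EuclideanSpace ℝ (Fin d)) (i : Fin d) :
    s5PinchVec d x i.succ = Real.pi * Real.sinc (Real.pi * min ‖x‖ 1) * x i := rfl

theorem s5_norm_sq_succ (d : ℕ) (v : S5E d) : ‖v‖ ^ 2 = v 0 ^ 2 + ∑ i : Fin d, v i.succ ^ 2 := by
  rw [EuclideanSpace.norm_sq_eq, Fin.sum_univ_succ]
  simp

theorem s5_pinchVec_norm (d : ℕ) (x : EuclideanSpace ℝ (Fin d)) : ‖s5PinchVec d x‖ = 1 := by
  have h : ‖s5PinchVec d x‖ ^ 2 = 1 := by
    rw [s5_norm_sq_succ, s5_pinchVec_zero_coord]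
    simp only [s5_pinchVec_succ_coord, mul_pow]
    rw [← Finset.mul_sum]
    have hx : ∑ i : Fin d, x i ^ 2 = ‖x‖ ^ 2 := by
      rw [EuclideanSpace.norm_sq_eq]
      simp
    rw [hx]
    rcases le_total ‖x‖ 1 with h1 | h1
    · rw [min_eq_left h1]
      have := s5_mul_sinc (Real.pi * ‖x‖)
      have e : Real.pi ^ 2 * Real.sinc (Real.pi * ‖x‖) ^ 2 * ‖x‖ ^ 2 = Real.sin (Real.pi * ‖x‖) ^ 2 := by
        rw [← this]
        ring
      rw [e, neg_sq, Real.cos_sq_add_sin_sq]
    · rw [min_eq_right h1, mul_one]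
      have : Real.sinc Real.pi = 0 := by
        rw [Real.sinc_of_ne_zero Real.pi_ne_zero, Real.sin_pi, zero_div]
      rw [this, Real.cos_pi]
      norm_num
  have h0 : 0 ≤ ‖s5PinchVec d x‖ := norm_nonneg _
  nlinarith

theorem s5_pinch_coe (d : ℕ) (x : EuclideanSpace ℝ (Fin d)) :
    ((s5Pinch d x : S5Sph d) : S5E d) = s5PinchVec d x := by
  have hn := s5_pinchVec_norm d x
  have h0 : s5PinchVec d x ≠ 0 := by
    intro h
    rw [h, norm_zero] at hn
    exact zero_ne_one hn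
  rw [s5Pinch, s5_nrm_coe d _ h0, hn, inv_one, one_smul]

theorem s5_pinchVec_cont (d : ℕ) : Continuous (s5PinchVec d) := by
  unfold s5PinchVec
  apply (PiLp.continuous_toLp 2 _).comp
  apply continuous_pi
  intro i
  refine Fin.cases ?_ (fun i => ?_) i
  · simp only [Fin.cons_zero]
    fun_prop
  · simp only [Fin.cons_succ]
    fun_prop

theorem s5_pinch_cont (d : ℕ) : Continuous (s5Pinch d) := by
  apply s5_nrm_comp_cont d _ (s5_pinchVec_cont d)
  intro x h
  have hn := s5_pinchVec_norm d x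
  rw [h, norm_zero] at hn
  exact zero_ne_one hn

theorem s5_e0_zero (d : ℕ) : s5e0 d 0 = 1 := by simp [s5e0]

theorem s5_e0_succ (d : ℕ) (i : Fin d) : s5e0 d i.succ = 0 := by
  simp [s5e0, Fin.succ_ne_zero]

theorem s5_ext_coord (d : ℕ) (v w : S5E d) (h0 : v 0 = w 0) (h : ∀ i : Fin d, v i.succ = w i.succ) : v = w := by
  ext i
  refine Fin.cases h0 h i

theorem s5_pinch_outside (d : ℕ) (x : EuclideanSpace ℝ (Fin d)) (hx : 1 ≤ ‖x‖) :
    s5Pinch d x = s5North d := by
  apply Subtype.ext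
  rw [s5_pinch_coe]
  show s5PinchVec d x = s5e0 d
  have hs : Real.sinc Real.pi = 0 := by
    rw [Real.sinc_of_ne_zero Real.pi_ne_zero, Real.sin_pi, zero_div]
  apply s5_ext_coord
  · rw [s5_pinchVec_zero_coord, min_eq_right hx, mul_one, Real.cos_pi, s5_e0_zero, neg_neg]
  · intro i
    rw [s5_pinchVec_succ_coord, min_eq_right hx, mul_one, hs, s5_e0_succ]
    ring

theorem s5_pinch_zero (d : ℕ) : s5Pinch d 0 = s5South d := by
  apply Subtype.ext
  rw [s5_pinch_coe]
  show s5PinchVec d 0 = -s5e0 d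
  apply s5_ext_coord
  · rw [s5_pinchVec_zero_coord]
    simp [s5_e0_zero]
  · intro i
    rw [s5_pinchVec_succ_coord]
    simp [s5_e0_succ]

/-- the zeroth coordinate -/
theorem s5_pinch_height (d : ℕ) (x : EuclideanSpace ℝ (Fin d)) :
    ((s5Pinch d x : S5Sph d) : S5E d) 0 = -Real.cos (Real.pi * min ‖x‖ 1) := by
  rw [s5_pinch_coe, s5_pinchVec_zero_coord]

theorem s5_pinch_eq_north_iff (d : ℕ) (x : EuclideanSpace ℝ (Fin d)) :
    s5Pinch d x = s5North d ↔ 1 ≤ ‖x‖ := by
  refine ⟨fun h => ?_, s5_pinch_outside d x⟩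
  by_contra hlt
  have hlt' : ‖x‖ < 1 := not_le.1 hlt
  have hh := s5_pinch_height d x
  rw [h, min_eq_left hlt'.le] at hh
  have h1 : ((s5North d : S5Sph d) : S5E d) 0 = 1 := s5_e0_zero d
  rw [h1] at hh
  have hcos : Real.cos (Real.pi * ‖x‖) = Real.cos Real.pi := by
    rw [Real.cos_pi]
    linarith
  have hpi := Real.pi_pos
  have := Real.injOn_cos ⟨by positivity, by nlinarith [norm_nonneg x]⟩ ⟨hpi.le, le_rfl⟩ hcos
  nlinarith

theorem s5_pinch_closedMap (d : ℕ) : IsClosedMap (s5Pinch d) := by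
  intro C hC
  have e : s5Pinch d '' C = s5Pinch d '' (C ∩ closedBall 0 1) ∪ s5Pinch d '' (C \ closedBall 0 1) := by
    rw [← Set.image_union, Set.inter_union_sdiff]
  rw [e]
  refine IsClosed.union ?_ ?_
  · exact ((isCompact_closedBall (0 : EuclideanSpace ℝ (Fin d)) 1).inter_left hC).image (s5_pinch_cont d) |>.isClosed
  · apply Set.Subsingleton.isClosed
    have : ∀ y ∈ s5Pinch d '' (C \ closedBall 0 1), y = s5North d := by
      rintro _ ⟨x, ⟨_, hx⟩, rfl⟩
      apply s5_pinch_outside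
      rw [mem_closedBall, dist_zero_right, not_le] at hx
      exact hx.le
    intro a ha b hb
    rw [this a ha, this b hb]

theorem s5_pinch_injOn (d : ℕ) (x x' : EuclideanSpace ℝ (Fin d)) (hx : ‖x‖ < 1) (hx' : ‖x'‖ < 1)
    (h : s5Pinch d x = s5Pinch d x') : x = x' := by
  have hpi := Real.pi_pos
  have h0 := s5_pinch_height d x
  rw [h, s5_pinch_height, min_eq_left hx.le, min_eq_left hx'.le] at h0
  have hcos : Real.cos (Real.pi * ‖x‖) = Real.cos (Real.pi * ‖x'‖) := by linarith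
  have hn := Real.injOn_cos ⟨by positivity, by nlinarith [norm_nonneg x]⟩
    ⟨by positivity, by nlinarith [norm_nonneg x']⟩ hcos
  have hv : s5PinchVec d x = s5PinchVec d x' := by
    rw [← s5_pinch_coe, ← s5_pinch_coe, h]
  have hs : 0 < Real.pi * Real.sinc (Real.pi * ‖x‖) :=
    mul_pos hpi (s5_sinc_pos _ (by positivity) (by nlinarith [norm_nonneg x]))
  ext i
  have hi := congrFun (congrArg (fun v : S5E d => (v : Fin (d + 1) → ℝ)) hv) i.succ
  simp only [s5_pinchVec_succ_coord, min_eq_left hx.le, min_eq_left hx'.le, ← hn] at hi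
  exact mul_left_cancel₀ hs.ne' hi

theorem s5_pinch_surj (d : ℕ) (y : S5Sph d) (hy : y ≠ s5North d) :
    ∃ x : EuclideanSpace ℝ (Fin d), ‖x‖ < 1 ∧ s5Pinch d x = y := by
  have hpi := Real.pi_pos
  have hnorm : (y : S5E d) 0 ^ 2 + ∑ i : Fin d, (y : S5E d) i.succ ^ 2 = 1 := by
    rw [← s5_norm_sq_succ]
    have : ‖(y : S5E d)‖ = 1 := by simp
    rw [this]
    norm_num
  set y0 := (y : S5E d) 0 with hy0
  have hsum0 : 0 ≤ ∑ i : Fin d, (y : S5E d) i.succ ^ 2 := Finset.sum_nonneg fun i _ => sq_nonneg _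
  have hle1 : y0 ≤ 1 := by nlinarith
  have hge1 : -1 ≤ y0 := by nlinarith
  have hne1 : y0 ≠ 1 := by
    intro h1
    apply hy
    apply Subtype.ext
    show (y : S5E d) = s5e0 d
    have hz : ∑ i : Fin d, (y : S5E d) i.succ ^ 2 = 0 := by
      rw [h1] at hnorm
      linarith
    rw [Finset.sum_eq_zero_iff_of_nonneg (fun i _ => sq_nonneg _)] at hz
    apply s5_ext_coord
    · rw [s5_e0_zero, ← hy0, h1]
    · intro i
      rw [s5_e0_succ]
      exact pow_eq_zero_iff (two_ne_zero) |>.1 (hz i (Finset.mem_univ i))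
  set θ := Real.arccos (-y0) with hθ
  have hθ0 : 0 ≤ θ := Real.arccos_nonneg _
  have hθπ : θ < Real.pi := by
    refine lt_of_le_of_ne (Real.arccos_le_pi _) ?_
    intro h
    rw [hθ, Real.arccos_eq_pi] at h
    exact hne1 (le_antisymm hle1 (by linarith))
  have hcos : Real.cos θ = -y0 := Real.cos_arccos (by linarith) (by linarith)
  have hsin : Real.sin θ ^ 2 = ∑ i : Fin d, (y : S5E d) i.succ ^ 2 := by
    have := Real.sin_sq_add_cos_sq θ
    rw [hcos] at this
    nlinarith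
  have hsc : 0 < Real.sinc θ := s5_sinc_pos θ hθ0 hθπ
  set s := Real.pi * Real.sinc θ with hs
  have hspos : 0 < s := mul_pos hpi hsc
  set x : EuclideanSpace ℝ (Fin d) := WithLp.toLp 2 (fun i : Fin d => s⁻¹ * (y : S5E d) i.succ) with hx
  have hxi : ∀ i, x i = s⁻¹ * (y : S5E d) i.succ := fun i => rfl
  have hxn : ‖x‖ = θ / Real.pi := by
    have h2 : ‖x‖ ^ 2 = (θ / Real.pi) ^ 2 := by
      rw [EuclideanSpace.norm_sq_eq]
      simp only [hxi, Real.norm_eq_abs, sq_abs, mul_pow]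
      rw [← Finset.mul_sum, ← hsin, ← s5_mul_sinc θ, hs]
      field_simp
    have h3 : 0 ≤ θ / Real.pi := div_nonneg hθ0 hpi.le
    exact (pow_left_inj₀ (norm_nonneg x) h3 two_ne_zero).1 h2
  have hlt : ‖x‖ < 1 := by
    rw [hxn, div_lt_one hpi]
    exact hθπ
  have hmul : Real.pi * min ‖x‖ 1 = θ := by
    rw [min_eq_left hlt.le, hxn]
    field_simp
  refine ⟨x, hlt, ?_⟩
  apply Subtype.ext
  rw [s5_pinch_coe]
  apply s5_ext_coord
  · rw [s5_pinchVec_zero_coord, hmul, hcos, neg_neg]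
  · intro i
    rw [s5_pinchVec_succ_coord, hmul, hxi, ← hs, ← mul_assoc, mul_inv_cancel₀ hspos.ne', one_mul]

theorem s5_pinch_homeo (d : ℕ) :
    ∃ h : ball (0 : EuclideanSpace ℝ (Fin d)) 1 ≃ₜ {y : S5Sph d // y ≠ s5North d},
      ∀ x, ((h x : {y : S5Sph d // y ≠ s5North d}) : S5Sph d) = s5Pinch d x := by
  have hpre : s5Pinch d ⁻¹' {y | y ≠ s5North d} = ball (0 : EuclideanSpace ℝ (Fin d)) 1 := by
    ext x
    rw [Set.mem_preimage, mem_ball, dist_zero_right]
    show s5Pinch d x ≠ s5North d ↔ _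
    rw [Ne, s5_pinch_eq_north_iff, not_le]
  have hbij : Function.Bijective (Set.restrictPreimage {y | y ≠ s5North d} (s5Pinch d)) := by
    constructor
    · rintro ⟨x, hx⟩ ⟨x', hx'⟩ h
      have hx1 : ‖x‖ < 1 := by
        rw [hpre, mem_ball, dist_zero_right] at hx
        exact hx
      have hx1' : ‖x'‖ < 1 := by
        rw [hpre, mem_ball, dist_zero_right] at hx'
        exact hx'
      exact Subtype.ext (s5_pinch_injOn d x x' hx1 hx1' (congrArg Subtype.val h))
    · rintro ⟨y, hy⟩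
      obtain ⟨x, _, hxy⟩ := s5_pinch_surj d y hy
      exact ⟨⟨x, by rw [Set.mem_preimage, hxy]; exact hy⟩, Subtype.ext hxy⟩
  exact ⟨(Homeomorph.setCongr hpre.symm).trans
    ((Equiv.ofBijective _ hbij).toHomeomorphOfContinuousClosed ((s5_pinch_cont d).restrictPreimage)
      ((s5_pinch_closedMap d).restrictPreimage _)), fun x => rfl⟩

/-! ### extension to the one point compactification -/

theorem s5_elim_cont {W Y T : Type*} [TopologicalSpace W] [T2Space W] [TopologicalSpace Y]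
    [TopologicalSpace T] (ξ : T) (F : W × Y → T) (hF : Continuous F) (K : Set W) (hK : IsCompact K)
    (hoff : ∀ w y, w ∉ K → F (w, y) = ξ) :
    Continuous fun q : OnePoint W × Y => q.1.elim ξ (fun w => F (w, q.2)) := by
  rw [continuous_iff_continuousAt]
  rintro ⟨x, y⟩
  induction x using OnePoint.rec with
  | infty =>
    have hopen : IsOpen (((↑) '' K)ᶜ : Set (OnePoint W)) :=
      OnePoint.isOpen_compl_image_coe.2 ⟨hK.isClosed, hK⟩
    have hmem : (((↑) '' K)ᶜ : Set (OnePoint W)) ×ˢ (Set.univ : Set Y) ∈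
        𝓝 ((OnePoint.infty, y) : OnePoint W × Y) :=
      prod_mem_nhds (hopen.mem_nhds (by
        rintro ⟨w, _, hw⟩
        exact OnePoint.coe_ne_infty w hw)) Filter.univ_mem
    have hconst : (fun _ : OnePoint W × Y => ξ) =ᶠ[𝓝 ((OnePoint.infty, y) : OnePoint W × Y)]
        (fun q : OnePoint W × Y => q.1.elim ξ (fun w => F (w, q.2))) := by
      filter_upwards [hmem] with q hq
      obtain ⟨x, y'⟩ := q
      induction x using OnePoint.rec with
      | infty => rfl
      | coe w => exact (hoff w y' (fun hw => hq.1 ⟨w, hw, rfl⟩)).symm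
    exact continuousAt_const.congr hconst
  | coe w =>
    have hemb : IsOpenEmbedding (fun q : W × Y => (((q.1 : OnePoint W), q.2) : OnePoint W × Y)) :=
      OnePoint.isOpenEmbedding_coe.prodMap IsOpenEmbedding.id
    exact (hemb.continuousAt_iff (g := fun q : OnePoint W × Y => q.1.elim ξ (fun w => F (w, q.2)))
      (x := (w, y))).1 hF.continuousAt

theorem s5_pinchAt_coe (d : ℕ) (O : Set (EuclideanSpace ℝ (Fin d))) (z : EuclideanSpace ℝ (Fin d))
    (r : ℝ) (w : O) :
    s5PinchAt d O z r (w : OnePoint O) = s5Pinch d (r⁻¹ • ((w : EuclideanSpace ℝ (Fin d)) - z)) := rfl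

theorem s5_pinchAt_infty (d : ℕ) (O : Set (EuclideanSpace ℝ (Fin d)))
    (z : EuclideanSpace ℝ (Fin d)) (r : ℝ) : s5PinchAt d O z r OnePoint.infty = s5North d := rfl

theorem s5_pinch_scaled_outside (d : ℕ) (z w : EuclideanSpace ℝ (Fin d)) (r : ℝ) (hr : 0 < r)
    (hw : w ∉ ball z r) : s5Pinch d (r⁻¹ • (w - z)) = s5North d := by
  apply s5_pinch_outside
  rw [mem_ball, not_lt, dist_eq_norm] at hw
  rw [norm_smul, Real.norm_eq_abs, abs_of_pos (inv_pos.2 hr), ← div_eq_inv_mul, le_div_iff₀ hr, one_mul]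
  exact hw

theorem s5_pinchAt_outside (d : ℕ) (O : Set (EuclideanSpace ℝ (Fin d)))
    (z : EuclideanSpace ℝ (Fin d)) (r : ℝ) (hr : 0 < r) (w : O)
    (hw : (w : EuclideanSpace ℝ (Fin d)) ∉ ball z r) : s5PinchAt d O z r (w : OnePoint O) = s5North d :=
  s5_pinch_scaled_outside d z w r hr hw

theorem s5_compact_preimage (d : ℕ) (O L : Set (EuclideanSpace ℝ (Fin d))) (hL : IsCompact L) (hLO : L ⊆ O) :
    IsCompact ((↑) ⁻¹' L : Set O) :=
  (IsInducing.subtypeVal.isCompact_preimage_iff (by rw [Subtype.range_coe]; exact hLO)).2 hL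

/-! ### compactly supported homotopies -/

theorem s5_htpy_symm (d : ℕ) {W : Type} [TopologicalSpace W] (f g : OnePoint W → S5Sph d)
    (h : S5Htpy d f g) : S5Htpy d g f := by
  obtain ⟨F, hF, hF0, hF1, K, hK, hoff⟩ := h
  refine ⟨fun q => F (q.1, unitInterval.symm q.2),
    hF.comp (continuous_fst.prodMk (unitInterval.continuous_symm.comp continuous_snd)), ?_, ?_, K, hK, ?_⟩
  · intro x
    show F (x, unitInterval.symm 0) = g x
    rw [unitInterval.symm_zero, hF1]
  · intro x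
    show F (x, unitInterval.symm 1) = f x
    rw [unitInterval.symm_one, hF0]
  · intro x hx t
    exact hoff x hx _

theorem s5_htpy_trans (d : ℕ) {W : Type} [TopologicalSpace W] (f g h : OnePoint W → S5Sph d)
    (h1 : S5Htpy d f g) (h2 : S5Htpy d g h) : S5Htpy d f h := by
  obtain ⟨F, hF, hF0, hF1, K, hK, hoff⟩ := h1
  obtain ⟨G, hG, hG0, hG1, K', hK', hoff'⟩ := h2
  have hf : Continuous f := by
    have : f = fun x => F (x, 0) := funext fun x => (hF0 x).symm
    rw [this]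
    exact hF.comp (continuous_id.prodMk continuous_const)
  have hg : Continuous g := by
    have : g = fun x => F (x, 1) := funext fun x => (hF1 x).symm
    rw [this]
    exact hF.comp (continuous_id.prodMk continuous_const)
  have hh : Continuous h := by
    have : h = fun x => G (x, 1) := funext fun x => (hG1 x).symm
    rw [this]
    exact hG.comp (continuous_id.prodMk continuous_const)
  let HF : ContinuousMap.Homotopy (⟨f, hf⟩ : C(OnePoint W, S5Sph d)) ⟨g, hg⟩ :=
    { toFun := fun q => F (q.2, q.1)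
      continuous_toFun := hF.comp continuous_swap
      map_zero_left := hF0
      map_one_left := hF1 }
  let HG : ContinuousMap.Homotopy (⟨g, hg⟩ : C(OnePoint W, S5Sph d)) ⟨h, hh⟩ :=
    { toFun := fun q => G (q.2, q.1)
      continuous_toFun := hG.comp continuous_swap
      map_zero_left := hG0
      map_one_left := hG1 }
  refine ⟨fun q => (HF.trans HG) (q.2, q.1), (HF.trans HG).continuous.comp continuous_swap,
    fun x => (HF.trans HG).map_zero_left x, fun x => (HF.trans HG).map_one_left x, K ∪ K', hK.union hK', ?_⟩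
  intro x hx t
  rw [Set.image_union] at hx
  show (HF.trans HG) (t, x) = s5North d
  rw [ContinuousMap.Homotopy.trans_apply]
  split_ifs
  · exact hoff x (fun h => hx (Or.inl h)) _
  · exact hoff' x (fun h => hx (Or.inr h)) _

theorem s5_htpy_of_close (d : ℕ) {W : Type} [TopologicalSpace W] (f g : OnePoint W → S5Sph d)
    (hf : Continuous f) (hg : Continuous g) (hclose : ∀ x, dist (f x) (g x) < 1)
    (K : Set W) (hK : IsCompact K)
    (hoff : ∀ x : OnePoint W, x ∉ ((↑) '' K : Set (OnePoint W)) → f x = s5North d ∧ g x = s5North d) :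
    S5Htpy d f g := by
  refine ⟨fun q => s5Nrm d ((1 - (q.2 : ℝ)) • (f q.1 : S5E d) + (q.2 : ℝ) • (g q.1 : S5E d)), ?_, ?_, ?_,
    K, hK, ?_⟩
  · apply s5_nrm_comp_cont d (fun q : OnePoint W × unitInterval =>
      (1 - (q.2 : ℝ)) • (f q.1 : S5E d) + (q.2 : ℝ) • (g q.1 : S5E d))
    · fun_prop
    · rintro ⟨x, t⟩
      apply s5_ne_zero_of_close d (f x)
      have e : (1 - (t : ℝ)) • (f x : S5E d) + (t : ℝ) • (g x : S5E d) - (f x : S5E d) =
          (t : ℝ) • ((g x : S5E d) - (f x : S5E d)) := by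
        rw [sub_smul, one_smul, smul_sub]
        abel
      show ‖(1 - (t : ℝ)) • (f x : S5E d) + (t : ℝ) • (g x : S5E d) - (f x : S5E d)‖ < 1
      rw [e, norm_smul, Real.norm_eq_abs, abs_of_nonneg t.2.1]
      have h1 : ‖(g x : S5E d) - (f x : S5E d)‖ < 1 := by
        rw [← dist_eq_norm, ← Subtype.dist_eq, dist_comm]
        exact hclose x
      have h2 := norm_nonneg ((g x : S5E d) - (f x : S5E d))
      have h3 := t.2.2
      have h4 := t.2.1
      nlinarith
  · intro x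
    simp [s5_nrm_of_unit]
  · intro x
    simp [s5_nrm_of_unit]
  · intro x hx t
    obtain ⟨h1, h2⟩ := hoff x hx
    show s5Nrm d ((1 - (t : ℝ)) • (f x : S5E d) + (t : ℝ) • (g x : S5E d)) = s5North d
    rw [h1, h2, ← add_smul, sub_add_cancel, one_smul, s5_nrm_of_unit]

/-! ### moving a pinch -/

theorem s5_htpy_family (d : ℕ) (O : Set (EuclideanSpace ℝ (Fin d)))
    (γ : unitInterval → EuclideanSpace ℝ (Fin d)) (ρ : unitInterval → ℝ) (hγ : Continuous γ)
    (hρ : Continuous ρ) (hpos : ∀ t, 0 < ρ t) (hball : ∀ t, closedBall (γ t) (ρ t) ⊆ O) :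
    S5Htpy d (s5PinchAt d O (γ 0) (ρ 0)) (s5PinchAt d O (γ 1) (ρ 1)) := by
  set L : Set (EuclideanSpace ℝ (Fin d)) :=
    (fun q : unitInterval × EuclideanSpace ℝ (Fin d) => γ q.1 + ρ q.1 • q.2) ''
      (Set.univ ×ˢ closedBall (0 : EuclideanSpace ℝ (Fin d)) 1) with hL
  have hLc : IsCompact L := by
    apply (isCompact_univ.prod (isCompact_closedBall _ _)).image
    fun_prop
  have hmemL : ∀ t w, w ∈ closedBall (γ t) (ρ t) → w ∈ L := by
    intro t w hw
    refine ⟨(t, (ρ t)⁻¹ • (w - γ t)), ⟨trivial, ?_⟩, ?_⟩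
    · rw [mem_closedBall, dist_eq_norm] at hw
      rw [mem_closedBall, dist_zero_right, norm_smul, Real.norm_eq_abs, abs_of_pos (inv_pos.2 (hpos t)),
        ← div_eq_inv_mul, div_le_one (hpos t)]
      exact hw
    · show γ t + ρ t • ((ρ t)⁻¹ • (w - γ t)) = w
      rw [smul_smul, mul_inv_cancel₀ (hpos t).ne', one_smul]
      abel
  have hLO : L ⊆ O := by
    rintro _ ⟨⟨t, v⟩, ⟨_, hv⟩, rfl⟩
    apply hball t
    rw [mem_closedBall, dist_zero_right] at hv
    rw [mem_closedBall, dist_eq_norm]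
    show ‖γ t + ρ t • v - γ t‖ ≤ ρ t
    rw [add_sub_cancel_left, norm_smul, Real.norm_eq_abs, abs_of_pos (hpos t)]
    have := hpos t
    nlinarith
  have hK := s5_compact_preimage d O L hLc hLO
  have hoff : ∀ (w : O) (t : unitInterval), w ∉ ((↑) ⁻¹' L : Set O) →
      s5Pinch d ((ρ t)⁻¹ • ((w : EuclideanSpace ℝ (Fin d)) - γ t)) = s5North d := by
    intro w t hw
    apply s5_pinch_scaled_outside d _ _ _ (hpos t)
    intro hb
    exact hw (hmemL t w (ball_subset_closedBall hb))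
  have hFc : Continuous fun q : O × unitInterval =>
      s5Pinch d ((ρ q.2)⁻¹ • ((q.1 : EuclideanSpace ℝ (Fin d)) - γ q.2)) := by
    apply (s5_pinch_cont d).comp
    exact Continuous.smul ((hρ.comp continuous_snd).inv₀ (fun q => (hpos q.2).ne'))
      ((continuous_subtype_val.comp continuous_fst).sub (hγ.comp continuous_snd))
  refine ⟨fun q => q.1.elim (s5North d)
      (fun w => s5Pinch d ((ρ q.2)⁻¹ • ((w : EuclideanSpace ℝ (Fin d)) - γ q.2))),
    s5_elim_cont (s5North d) (fun q : O × unitInterval =>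
      s5Pinch d ((ρ q.2)⁻¹ • ((q.1 : EuclideanSpace ℝ (Fin d)) - γ q.2))) hFc _ hK hoff,
    fun x => rfl, fun x => rfl, _, hK, ?_⟩
  intro x hx t
  induction x using OnePoint.rec with
  | infty => rfl
  | coe w => exact hoff w t (fun hw => hx ⟨w, hw, rfl⟩)

theorem s5_pinchAt_cont (d : ℕ) (O : Set (EuclideanSpace ℝ (Fin d)))
    (z : EuclideanSpace ℝ (Fin d)) (r : ℝ) (hr : 0 < r) (hball : closedBall z r ⊆ O) :
    Continuous (s5PinchAt d O z r) := by
  obtain ⟨F, hF, hF0, _⟩ := s5_htpy_family d O (fun _ => z) (fun _ => r) continuous_const continuous_const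
    (fun _ => hr) (fun _ => hball)
  have : s5PinchAt d O z r = fun x => F (x, 0) := funext fun x => (hF0 x).symm
  rw [this]
  exact hF.comp (continuous_id.prodMk continuous_const)

theorem s5_move_exists (d : ℕ) (O : Set (EuclideanSpace ℝ (Fin d))) (hO : IsOpen O)
    (hc : IsConnected O) (z : EuclideanSpace ℝ (Fin d)) (r : ℝ) (hr : 0 < r)
    (hball : closedBall z r ⊆ O) (V : Set (EuclideanSpace ℝ (Fin d))) (hV : IsOpen V) (hVO : V ⊆ O)
    (hne : V.Nonempty) :
    ∃ (γ : unitInterval → EuclideanSpace ℝ (Fin d)) (ρ : unitInterval → ℝ), Continuous γ ∧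
      Continuous ρ ∧ (∀ t, 0 < ρ t) ∧ (∀ t, closedBall (γ t) (ρ t) ⊆ O) ∧ γ 0 = z ∧ ρ 0 = r ∧
      closedBall (γ 1) (ρ 1) ⊆ V := by
  obtain ⟨z₁, hz₁⟩ := hne
  have hzO : z ∈ O := hball (mem_closedBall_self hr.le)
  have hpc : IsPathConnected O := hO.isConnected_iff_isPathConnected.1 hc
  obtain ⟨γ₀, hγ₀⟩ := hpc.joinedIn z hzO z₁ (hVO hz₁)
  have hcomp : IsCompact (Set.range γ₀) := isCompact_range γ₀.continuous
  have hsub : Set.range γ₀ ⊆ O := by
    rintro _ ⟨t, rfl⟩
    exact hγ₀ t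
  obtain ⟨δ, hδ, hδO⟩ := hcomp.exists_cthickening_subset_open hO hsub
  obtain ⟨δ', hδ', hδV⟩ := Metric.nhds_basis_closedBall.mem_iff.1 (hV.mem_nhds hz₁)
  set ρ₀ := min r (min δ δ') with hρ₀
  have hρ₀pos : 0 < ρ₀ := lt_min hr (lt_min hδ hδ')
  have hρ₀r : ρ₀ ≤ r := min_le_left _ _
  have hρ₀δ : ρ₀ ≤ δ := le_trans (min_le_right _ _) (min_le_left _ _)
  have hρ₀δ' : ρ₀ ≤ δ' := le_trans (min_le_right _ _) (min_le_right _ _)
  refine ⟨fun t => γ₀.extend (2 * (t : ℝ) - 1), fun t => max ρ₀ (r * (1 - 2 * (t : ℝ))), ?_, ?_, ?_, ?_, ?_, ?_, ?_⟩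
  · exact γ₀.continuous_extend.comp (by fun_prop)
  · fun_prop
  · intro t
    exact lt_of_lt_of_le hρ₀pos (le_max_left _ _)
  · intro t
    rcases le_total (2 * (t : ℝ) - 1) 0 with h | h
    · show closedBall (γ₀.extend (2 * (t : ℝ) - 1)) _ ⊆ O
      rw [γ₀.extend_of_le_zero h]
      refine (closedBall_subset_closedBall (max_le hρ₀r ?_)).trans hball
      have := t.2.1
      nlinarith
    · have e : max ρ₀ (r * (1 - 2 * (t : ℝ))) = ρ₀ := by
        apply max_eq_left
        have : r * (1 - 2 * (t : ℝ)) ≤ 0 := mul_nonpos_of_nonneg_of_nonpos hr.le (by linarith)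
        linarith
      show closedBall (γ₀.extend (2 * (t : ℝ) - 1)) (max ρ₀ (r * (1 - 2 * (t : ℝ)))) ⊆ O
      rw [e]
      have hmem : γ₀.extend (2 * (t : ℝ) - 1) ∈ Set.range γ₀ := by
        rw [← γ₀.extend_range]
        exact ⟨_, rfl⟩
      exact ((closedBall_subset_closedBall hρ₀δ).trans (closedBall_subset_cthickening hmem δ)).trans hδO
  · show γ₀.extend (2 * ((0 : unitInterval) : ℝ) - 1) = z
    exact γ₀.extend_of_le_zero (by simp)
  · show max ρ₀ (r * (1 - 2 * ((0 : unitInterval) : ℝ))) = r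
    simp [hρ₀r]
  · show closedBall (γ₀.extend (2 * ((1 : unitInterval) : ℝ) - 1)) (max ρ₀ (r * (1 - 2 * ((1 : unitInterval) : ℝ)))) ⊆ V
    rw [γ₀.extend_of_one_le (by simp; norm_num)]
    have e : max ρ₀ (r * (1 - 2 * ((1 : unitInterval) : ℝ))) = ρ₀ := by
      apply max_eq_left
      have h1 : ((1 : unitInterval) : ℝ) = 1 := rfl
      rw [h1]
      linarith
    rw [e]
    exact (closedBall_subset_closedBall hρ₀δ').trans hδV

/-- EXPORT: the pinch can be moved into any nonempty o-p-e-n subset of the connected `O`. -/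
theorem s5_pinch_move (d : ℕ) (O : Set (EuclideanSpace ℝ (Fin d))) (hO : IsOpen O)
    (hc : IsConnected O) (z : EuclideanSpace ℝ (Fin d)) (r : ℝ) (hr : 0 < r)
    (hball : closedBall z r ⊆ O) (V : Set (EuclideanSpace ℝ (Fin d))) (hV : IsOpen V) (hVO : V ⊆ O)
    (hne : V.Nonempty) :
    ∃ (z₁ : EuclideanSpace ℝ (Fin d)) (r₁ : ℝ), 0 < r₁ ∧ closedBall z₁ r₁ ⊆ V ∧
      S5Htpy d (s5PinchAt d O z r) (s5PinchAt d O z₁ r₁) := by
  obtain ⟨γ, ρ, hγ, hρ, hpos, hb, h0, hr0, h1⟩ := s5_move_exists d O hO hc z r hr hball V hV hVO hne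
  refine ⟨γ 1, ρ 1, hpos 1, h1, ?_⟩
  have := s5_htpy_family d O γ ρ hγ hρ hpos hb
  rw [h0, hr0] at this
  exact this

end Claimed.Agent.R304
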