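/-
Row 304 (S0559).  Owner: helper138 (statements), helper13 (proofs).  SORRY-FREE.  PACKAGE S5Main: the averaged test (paper L5.3), helper248's Serre-free replacement of paper P5.8
(average the pinch moving homotopy over a small subgroup, assemble cyclically, subdivide), and the GEOMETRIC EXPORT `s5_main` of Sec.5.

NOTATION.  `O ⊆ ℝ^d`, `W = ↥O`, `P = OnePoint W`, `ξ = s5North d`, `G = ℤ_p` acting through `A`, `G_j = p^j G` (= `A.rescale j`).
-/
import Claimed.Agent.R304.S5Pinch
import Claimed.Agent.R304.S5Sheets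
import Claimed.Agent.R304.S5Cyc

set_option autoImplicit false

namespace Claimed.Agent.R304

open Topology Metric

variable {p : ℕ} [Fact p.Prime]

theorem s5_test_exists (d : ℕ) (O : Set (EuclideanSpace ℝ (Fin d))) (A : S5Act p O)
    (z : EuclideanSpace ℝ (Fin d)) (r : ℝ) (hr : 0 < r) (hball : closedBall z r ⊆ O) :
    ∃ (j : ℕ) (τ : OnePoint O → S5Sph d), Continuous τ ∧ (A.rescale j).plus.InvFun τ ∧
      τ OnePoint.infty = s5North d ∧
      (∀ a x, dist (s5PinchAt d O z r ((A.rescale j).plus.act a x)) (s5PinchAt d O z r x) < 1 / 4) ∧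
      S5Htpy d (s5PinchAt d O z r) τ := by
  have hP := s5_pinchAt_cont d O z r hr hball
  obtain ⟨j, hj⟩ := s5_equicont A.plus (s5PinchAt d O z r) hP (1 / 4) (by norm_num)
  have hj' : ∀ a x, dist (s5PinchAt d O z r ((A.rescale j).plus.act a x)) (s5PinchAt d O z r x) < 1 / 4 :=
    fun a x => hj a x
  obtain ⟨τ, hτc, hτi, hτd, hτv⟩ := s5_avg_sphere (A.rescale j).plus d (s5PinchAt d O z r) hP (1 / 4)
    (by norm_num) (fun a x => (hj' a x).le)
  have hinf : τ OnePoint.infty = s5North d := hτv _ _ (fun _ => rfl)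
  refine ⟨j, τ, hτc, hτi, hinf, hj', ?_⟩
  have hKc : IsCompact (s5Sat (A.rescale j) ((↑) ⁻¹' closedBall z r : Set O)) :=
    s5_sat_compact _ _ (s5_compact_preimage d O _ (isCompact_closedBall z r) hball)
  refine s5_htpy_of_close d _ _ hP hτc ?_ _ hKc ?_
  · intro x
    rw [dist_comm]
    exact lt_of_le_of_lt (hτd x) (by norm_num)
  · intro x hx
    induction x using OnePoint.rec with
    | infty => exact ⟨rfl, hinf⟩
    | coe w =>
      have hw : w ∉ s5Sat (A.rescale j) ((↑) ⁻¹' closedBall z r : Set O) := fun h => hx ⟨w, h, rfl⟩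
      have hout : ∀ a, s5PinchAt d O z r ((A.rescale j).plus.act a (w : OnePoint O)) = s5North d := by
        intro a
        have hnot : (A.rescale j).act a w ∉ ((↑) ⁻¹' closedBall z r : Set O) :=
          s5_not_mem_sat (A.rescale j) _ w hw a
        have hnb : (((A.rescale j).act a w : O) : EuclideanSpace ℝ (Fin d)) ∉ ball z r := by
          intro hb
          have hb' : (((A.rescale j).act a w : O) : EuclideanSpace ℝ (Fin d)) ∈ closedBall z r :=
            ball_subset_closedBall hb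
          exact hnot (Set.mem_preimage.2 hb')
        exact s5_pinchAt_outside d O z r hr ((A.rescale j).act a w) hnb
      refine ⟨?_, hτv _ _ hout⟩
      have := hout 0
      rwa [(A.rescale j).plus.act_zero] at this

theorem s5_theta_bar (d : ℕ) {W : Type} [TopologicalSpace W] [T2Space W] (A : S5Act p W)
    (Θ : OnePoint W × unitInterval → S5Sph d) (hΘ : Continuous Θ) :
    ∃ (j : ℕ) (Θb : OnePoint W × unitInterval → S5Sph d), Continuous Θb ∧
      (∀ a x t, Θb ((A.rescale j).plus.act a x, t) = Θb (x, t)) ∧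
      ∀ x t v, (∀ a, Θ ((A.rescale j).plus.act a x, t) = v) → Θb (x, t) = v := by
  obtain ⟨j, hj⟩ := s5_equicont (A.plus.prodRight unitInterval) Θ hΘ (1 / 4) (by norm_num)
  obtain ⟨Θb, hc, hi, _, hv⟩ := s5_avg_sphere ((A.plus.prodRight unitInterval).rescale j) d Θ hΘ (1 / 4)
    (by norm_num) (fun a x => (hj a x).le)
  exact ⟨j, Θb, hc, fun a x t => hi a (x, t), fun x t v h => hv (x, t) v h⟩

theorem s5_subdivide (d : ℕ) {X : Type*} [TopologicalSpace X] [CompactSpace X]
    (Θb : X × unitInterval → S5Sph d) (hΘ : Continuous Θb) :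
    ∃ δ : ℝ, 0 < δ ∧ ∀ (x : X) (t t' : unitInterval), dist t t' ≤ δ → dist (Θb (x, t)) (Θb (x, t')) ≤ 1 := by
  have hD : Continuous fun q : X × (unitInterval × unitInterval) => dist (Θb (q.1, q.2.1)) (Θb (q.1, q.2.2)) :=
    (hΘ.comp (continuous_fst.prodMk (continuous_fst.comp continuous_snd))).dist
      (hΘ.comp (continuous_fst.prodMk (continuous_snd.comp continuous_snd)))
  have hcl : IsClosed {q : X × (unitInterval × unitInterval) | 1 ≤ dist (Θb (q.1, q.2.1)) (Θb (q.1, q.2.2))} :=
    isClosed_le continuous_const hD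
  have hC : IsClosed (Prod.snd '' {q : X × (unitInterval × unitInterval) |
      1 ≤ dist (Θb (q.1, q.2.1)) (Θb (q.1, q.2.2))}) := isClosedMap_snd_of_compactSpace _ hcl
  set C := Prod.snd '' {q : X × (unitInterval × unitInterval) |
      1 ≤ dist (Θb (q.1, q.2.1)) (Θb (q.1, q.2.2))} with hCdef
  rcases C.eq_empty_or_nonempty with hemp | hne
  · refine ⟨1, one_pos, fun x t t' _ => ?_⟩
    by_contra hcon
    have : (t, t') ∈ C := ⟨(x, (t, t')), (not_le.1 hcon).le, rfl⟩
    rw [hemp] at this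
    exact this
  · obtain ⟨q0, hq0, hmin⟩ := hC.isCompact.exists_isMinOn hne
      (continuous_fst.dist continuous_snd : Continuous fun q : unitInterval × unitInterval => dist q.1 q.2).continuousOn
    have hpos : 0 < dist q0.1 q0.2 := by
      obtain ⟨⟨x, t, t'⟩, hq, rfl⟩ := hq0
      rw [dist_pos]
      intro h
      have h1 : (1 : ℝ) ≤ dist (Θb (x, t)) (Θb (x, t')) := hq
      have h2 : t = t' := h
      rw [h2, dist_self] at h1
      linarith
    refine ⟨dist q0.1 q0.2 / 2, half_pos hpos, fun x t t' htt => ?_⟩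
    by_contra hcon
    have hmem : (t, t') ∈ C := ⟨(x, (t, t')), (not_le.1 hcon).le, rfl⟩
    have := hmin hmem
    have h3 : dist q0.1 q0.2 ≤ dist t t' := this
    linarith

theorem s5_step_of_close (d : ℕ) {W : Type} [TopologicalSpace W] [T2Space W] (A : S5Act p W) (j : ℕ)
    (f f' : OnePoint W → S5Sph d) (hf : Continuous f) (hf' : Continuous f')
    (hi : (A.rescale j).plus.InvFun f) (hi' : (A.rescale j).plus.InvFun f')
    (h0 : f OnePoint.infty = s5North d) (h0' : f' OnePoint.infty = s5North d)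
    (hclose : ∀ x, dist (f x) (f' x) ≤ 1) :
    S5Step A (p ^ j) d (s5Assemble A.plus j f) (s5Assemble A.plus j f') := by
  refine ⟨s5Assemble A.plus j (fun x => (⟨(f x, f' x), s5_close_of_dist d _ _ (hclose x)⟩ : S5Close d)),
    ?_, ?_, ?_, fun x => rfl, fun x => rfl⟩
  · exact s5_assemble_cont A.plus j _ (Continuous.subtype_mk (hf.prodMk hf') _)
  · apply s5_assemble_inv A.plus j
    intro a x
    exact Subtype.ext (Prod.ext (hi a x) (hi' a x))
  · apply s5_assemble_const A.plus j
    intro a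
    exact Subtype.ext (Prod.ext h0 h0')

theorem s5_plus_not_mem {W : Type} [TopologicalSpace W] [T2Space W] (A : S5Act p W) (V : Set W)
    (hV : A.InvSet V) (x : OnePoint W) (hx : x ∉ ((↑) '' V : Set (OnePoint W))) (a : ℤ_[p]) :
    A.plus.act a x ∉ ((↑) '' V : Set (OnePoint W)) := by
  rintro ⟨v, hv, hvx⟩
  apply hx
  refine ⟨A.act (-a) v, hV _ _ hv, ?_⟩
  have : A.plus.act (-a) (A.plus.act a x) = x := A.plus.act_neg_act a x
  rw [← this, ← hvx]
  rfl

theorem s5_chain (d : ℕ) {W : Type} [TopologicalSpace W] [T2Space W] (A : S5Act p W)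
    (τ g : OnePoint W → S5Sph d) (hτ : A.plus.InvFun τ) (V : Set W) (hV : A.InvSet V)
    (hg : ∀ x : OnePoint W, x ∉ ((↑) '' V : Set (OnePoint W)) → g x = s5North d)
    (hH : S5Htpy d τ g) :
    ∃ (j : ℕ) (h : OnePoint W → S5Cyc (p ^ j) (S5Sph d)),
      Relation.ReflTransGen (S5Step A (p ^ j) d) (fun x => s5CycDiag (p ^ j) (S5Sph d) (τ x)) h ∧
      ∀ x : OnePoint W, x ∉ ((↑) '' V : Set (OnePoint W)) →
        h x = s5CycDiag (p ^ j) (S5Sph d) (s5North d) := by
  obtain ⟨Θ, hΘ, hΘ0, hΘ1, K, hK, hoff⟩ := hH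
  obtain ⟨j, Θb, hc, hinv, hval⟩ := s5_theta_bar d A Θ hΘ
  have hb0 : ∀ x, Θb (x, 0) = τ x := by
    intro x
    apply hval
    intro a
    rw [hΘ0]
    exact hτ _ x
  have hbinf : ∀ t, Θb (OnePoint.infty, t) = s5North d := by
    intro t
    apply hval
    intro a
    apply hoff
    rintro ⟨w, _, hw⟩
    exact OnePoint.coe_ne_infty w hw
  have hb1 : ∀ x : OnePoint W, x ∉ ((↑) '' V : Set (OnePoint W)) → Θb (x, 1) = s5North d := by
    intro x hx
    apply hval
    intro a
    rw [hΘ1]
    exact hg _ (s5_plus_not_mem A V hV x hx _)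
  obtain ⟨δ, hδ, hsub⟩ := s5_subdivide d Θb hc
  obtain ⟨n, hn⟩ := exists_nat_gt (1 / δ)
  have hnpos : (0 : ℝ) < n := lt_trans (by positivity) hn
  have hn1 : 1 / (n : ℝ) ≤ δ := by
    rw [div_le_iff₀ hnpos]
    rw [div_lt_iff₀ hδ] at hn
    linarith
  let t : ℕ → unitInterval := fun l => ⟨min ((l : ℝ) / n) 1, le_min (by positivity) zero_le_one, min_le_right _ _⟩
  have ht0 : t 0 = 0 := by
    apply Subtype.ext
    show min (((0 : ℕ) : ℝ) / n) 1 = 0
    simp
  have htn : t n = 1 := by
    apply Subtype.ext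
    show min ((n : ℝ) / n) 1 = 1
    rw [div_self hnpos.ne', min_self]
  have htd : ∀ l, dist (t l) (t (l + 1)) ≤ δ := by
    intro l
    rw [Subtype.dist_eq, Real.dist_eq]
    show |min ((l : ℝ) / n) 1 - min (((l + 1 : ℕ) : ℝ) / n) 1| ≤ δ
    refine le_trans (abs_min_sub_min_le_max _ _ _ _) ?_
    rw [sub_self, abs_zero]
    apply max_le _ hδ.le
    have e : (l : ℝ) / n - ((l + 1 : ℕ) : ℝ) / n = -(1 / n) := by
      push_cast
      ring
    rw [e, abs_neg, abs_of_pos (by positivity)]
    exact hn1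
  have hstep : ∀ l, S5Step A (p ^ j) d (s5Assemble A.plus j (fun x => Θb (x, t l)))
      (s5Assemble A.plus j (fun x => Θb (x, t (l + 1)))) := by
    intro l
    apply s5_step_of_close d A j
    · exact hc.comp (continuous_id.prodMk continuous_const)
    · exact hc.comp (continuous_id.prodMk continuous_const)
    · exact fun a x => hinv a x _
    · exact fun a x => hinv a x _
    · exact hbinf _
    · exact hbinf _
    · exact fun x => hsub x _ _ (htd l)
  have hchain : ∀ l, Relation.ReflTransGen (S5Step A (p ^ j) d) (s5Assemble A.plus j (fun x => Θb (x, t 0)))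
      (s5Assemble A.plus j (fun x => Θb (x, t l))) := by
    intro l
    induction l with
    | zero => exact Relation.ReflTransGen.refl
    | succ l ih => exact ih.tail (hstep l)
  refine ⟨j, s5Assemble A.plus j (fun x => Θb (x, t n)), ?_, ?_⟩
  · have e : (fun x => s5CycDiag (p ^ j) (S5Sph d) (τ x)) = s5Assemble A.plus j (fun x => Θb (x, t 0)) := by
      funext x
      rw [ht0]
      have : (fun x => Θb (x, 0)) = τ := funext hb0
      rw [this, s5_assemble_of_inv A.plus j τ hτ x]
    rw [e]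
    exact hchain n
  · intro x hx
    rw [htn]
    apply s5_assemble_const A.plus j
    intro a
    exact hb1 _ (s5_plus_not_mem A V hV x hx a)

/-- the data produced by Sec.5 for an action `B` on `O` (already rescaled) -/
structure S5Out (d : ℕ) (O : Set (EuclideanSpace ℝ (Fin d))) (B : S5Act p O) where
  /-- centre of the pinch -/
  z : EuclideanSpace ℝ (Fin d)
  /-- radius of the pinch -/
  r : ℝ
  /-- the averaged test -/
  τ : OnePoint O → S5Sph d
  r_pos : 0 < r
  ball_sub : closedBall z r ⊆ O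
  τ_cont : Continuous τ
  τ_inv : B.plus.InvFun τ
  τ_infty : τ OnePoint.infty = s5North d
  /-- every group element moves the pinch very little (so it acts trivially on the top cohomology with compact supports) -/
  pinch_close : ∀ a x, dist (s5PinchAt d O z r (B.plus.act a x)) (s5PinchAt d O z r x) < 1 / 4
  htpy : S5Htpy d (s5PinchAt d O z r) τ
  /-- for every `k`: sheets `V, σ` and a chain of close pair steps from `Δ ∘ τ` to a test concentrated in `V` -/
  conc : ∀ k : ℕ, ∃ (V : Set O) (σ : O → ZMod (p ^ k)) (i : ℕ)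
    (h : OnePoint O → S5Cyc (p ^ i) (S5Sph d)), S5Sheet B k V σ ∧
    Relation.ReflTransGen (S5Step B (p ^ i) d) (fun x => s5CycDiag (p ^ i) (S5Sph d) (τ x)) h ∧
    ∀ x : OnePoint O, x ∉ ((↑) '' V : Set (OnePoint O)) → h x = s5CycDiag (p ^ i) (S5Sph d) (s5North d)

theorem s5_main (d : ℕ) (O : Set (EuclideanSpace ℝ (Fin d))) (hO : IsOpen O) (hc : IsConnected O)
    (A : S5Act p O) (hA : A.Faithful) :
    ∃ j : ℕ, Nonempty (S5Out d O (A.rescale j)) := by
  obtain ⟨z, hz⟩ := hc.nonempty
  obtain ⟨r, hr, hball⟩ := Metric.nhds_basis_closedBall.mem_iff.1 (hO.mem_nhds hz)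
  obtain ⟨j, τ, hτc, hτi, hτinf, hclose, hH⟩ := s5_test_exists d O A z r hr hball
  have hB : (A.rescale j).Faithful := s5_rescale_faithful A hA j
  have : Nonempty O := ⟨⟨z, hz⟩⟩
  refine ⟨j, ⟨{ z := z, r := r, τ := τ, r_pos := hr, ball_sub := hball, τ_cont := hτc, τ_inv := hτi,
                τ_infty := hτinf, pinch_close := hclose, htpy := hH, conc := ?_ }⟩⟩
  intro k
  obtain ⟨V, σ, hVne, hsheet⟩ := s5_sheets (A.rescale j) hB k
  have hVo : IsOpen ((↑) '' V : Set (EuclideanSpace ℝ (Fin d))) :=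
    hO.isOpenEmbedding_subtypeVal.isOpenMap _ hsheet.isOpen
  have hVO : ((↑) '' V : Set (EuclideanSpace ℝ (Fin d))) ⊆ O := by
    rintro _ ⟨w, _, rfl⟩
    exact w.2
  obtain ⟨z₁, r₁, hr₁, hb₁, hmove⟩ := s5_pinch_move d O hO hc z r hr hball _ hVo hVO (hVne.image _)
  have hg : ∀ x : OnePoint O, x ∉ ((↑) '' V : Set (OnePoint O)) → s5PinchAt d O z₁ r₁ x = s5North d := by
    intro x hx
    induction x using OnePoint.rec with
    | infty => rfl
    | coe w =>
      apply s5_pinchAt_outside d O z₁ r₁ hr₁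
      intro hb
      have hb' : (w : EuclideanSpace ℝ (Fin d)) ∈ closedBall z₁ r₁ := ball_subset_closedBall hb
      obtain ⟨w', hw', hww⟩ := hb₁ hb'
      have : w' = w := Subtype.ext hww
      exact hx ⟨w, this ▸ hw', rfl⟩
  obtain ⟨i, h, hch, hcon⟩ := s5_chain d (A.rescale j) τ _ hτi V hsheet.inv hg
    (s5_htpy_trans d _ _ _ (s5_htpy_symm d _ _ hH) hmove)
  exact ⟨V, σ, i, h, hsheet, hch, hcon⟩

end Claimed.Agent.R304
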