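/-
Row 304 (S0559, Hilbert-Smith).  Owner: helper89.  CONSUMER INTERFACE OF SEC. 6: the character classes.

* `SmLam p`        : the characters of `ℤ_p` = the `p`-power roots of unity in the circle (`λ ↔ χ(1)`);
* `smRot p k`      : multiplication by `ζ_k = exp(2πi/p^k)` on `SmLam p` (a free permutation of order `p^k`);
* `smCollapse d O` : the collapse `c : [-1,1]^d → OnePoint O`  (identity on `O`, everything else goes to `∞`);
* `EhChar T κ d O hO B` : the classes `z_D(t) ∈ Q_d(X; ⊤, U)` of an invariant test `t : OnePoint O → X`, `t ∞ ∈ U`, `D ⊆ SmLam p`: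
     additive in `D` (paper P6.5), `z_univ = mult • (t ∘ c)_* kap` (`mult = 4`), covariant (P6.6),
     invariant under `D ↦ ζ_k D` for tests which are constant off a system of `p^k` sheets (P6.8).
  Homotopy invariance (P6.7) is NOT a field: it follows from covariance and `EhTheory.htpy` (close pair spaces), see `FinCore.lean`.
-/
import Claimed.Agent.R304.EhDefs
import Claimed.Agent.R304.S5GeoDefs

set_option autoImplicit false

namespace Claimed.Agent.R304

open Topology TopologicalSpace

universe u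

/-- the characters of `ℤ_p`: the roots of unity of `p`-power order -/
def SmLam (p : ℕ) : Type := {l : Circle // ∃ j : ℕ, l ^ (p ^ j) = 1}

/-- `ζ_k = exp(2πi/p^k)` -/
noncomputable def smZeta (p k : ℕ) : Circle := Circle.exp (2 * Real.pi / ((p ^ k : ℕ) : ℝ))

theorem smZeta_pow (p k : ℕ) (hp : 0 < p) : smZeta p k ^ (p ^ k) = 1 := by
  have h0 : ((p ^ k : ℕ) : ℝ) ≠ 0 := by positivity
  rw [smZeta, ← Circle.exp_nsmul, nsmul_eq_mul, mul_div_cancel₀ _ h0, Circle.exp_two_pi]

/-- multiplication by `ζ_k` -/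
noncomputable def smRot (p : ℕ) [Fact p.Prime] (k : ℕ) (l : SmLam p) : SmLam p :=
  ⟨smZeta p k * l.1, by
    obtain ⟨j, hj⟩ := l.2
    have hp : 0 < p := (Fact.out : p.Prime).pos
    refine ⟨j + k, ?_⟩
    rw [mul_pow, pow_add, pow_mul', pow_mul, smZeta_pow p k hp, hj, one_pow, one_pow, one_mul]⟩

theorem smRot_iterate (p : ℕ) [Fact p.Prime] (k i : ℕ) (l : SmLam p) :
    ((smRot p k)^[i] l).1 = smZeta p k ^ i * l.1 := by
  induction i with
  | zero => simp
  | succ n ih =>
    rw [Function.iterate_succ_apply']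
    show smZeta p k * ((smRot p k)^[n] l).1 = _
    rw [ih, pow_succ, mul_assoc]
    exact mul_left_comm _ _ _

theorem smRot_per (p : ℕ) [Fact p.Prime] (k : ℕ) (l : SmLam p) : (smRot p k)^[p ^ k] l = l := by
  apply Subtype.ext
  rw [smRot_iterate, smZeta_pow p k (Fact.out : p.Prime).pos, one_mul]

theorem smZeta_pow_ne_one (p : ℕ) [Fact p.Prime] (k i : ℕ) (h0 : 0 < i) (h1 : i < p ^ k) :
    smZeta p k ^ i ≠ 1 := by
  have hp : 0 < p := (Fact.out : p.Prime).pos
  have hN : (0 : ℝ) < ((p ^ k : ℕ) : ℝ) := by positivity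
  rw [smZeta, ← Circle.exp_nsmul, nsmul_eq_mul]
  intro h
  rw [Circle.exp_eq_one] at h
  obtain ⟨n, hn⟩ := h
  have hpi : Real.pi ≠ 0 := Real.pi_ne_zero
  have h2 : (i : ℝ) = n * ((p ^ k : ℕ) : ℝ) := by
    field_simp at hn
    nlinarith [hn, Real.pi_pos]
  have h3 : ((i : ℤ) : ℝ) = ((n * ((p ^ k : ℕ) : ℤ) : ℤ) : ℝ) := by
    push_cast
    push_cast at h2
    exact h2
  have h4 : (i : ℤ) = n * ((p ^ k : ℕ) : ℤ) := by exact_mod_cast h3
  have hnpos : 0 < n := by
    by_contra hcon
    rw [not_lt] at hcon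
    have : n * ((p ^ k : ℕ) : ℤ) ≤ 0 := mul_nonpos_of_nonpos_of_nonneg hcon (by positivity)
    omega
  have : ((p ^ k : ℕ) : ℤ) ≤ n * ((p ^ k : ℕ) : ℤ) := by nlinarith [show (0 : ℤ) ≤ ((p ^ k : ℕ) : ℤ) by positivity]
  omega

theorem smRot_free (p : ℕ) [Fact p.Prime] (k i : ℕ) (h0 : 0 < i) (h1 : i < p ^ k) (l : SmLam p) :
    (smRot p k)^[i] l ≠ l := by
  intro h
  have h2 := congrArg Subtype.val h
  rw [smRot_iterate] at h2
  exact smZeta_pow_ne_one p k i h0 h1 (mul_eq_right.1 h2)

/-- a point of the cube as a vector -/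
noncomputable def smVec (d : ℕ) (x : EhCb d) : EuclideanSpace ℝ (Fin d) := WithLp.toLp 2 (fun i => (x i : ℝ))

theorem smVec_cont (d : ℕ) : Continuous (smVec d) := by
  unfold smVec
  fun_prop

open Classical in
/-- the collapse `[-1,1]^d → OnePoint O` as a function -/
noncomputable def smColl (d : ℕ) (O : Set (EuclideanSpace ℝ (Fin d))) (x : EhCb d) : OnePoint O :=
  if h : smVec d x ∈ O then ((⟨smVec d x, h⟩ : O) : OnePoint O) else OnePoint.infty

theorem smColl_of_mem (d : ℕ) (O : Set (EuclideanSpace ℝ (Fin d))) (x : EhCb d) (h : smVec d x ∈ O) :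
    smColl d O x = ((⟨smVec d x, h⟩ : O) : OnePoint O) := dif_pos h

theorem smColl_of_not_mem (d : ℕ) (O : Set (EuclideanSpace ℝ (Fin d))) (x : EhCb d) (h : smVec d x ∉ O) :
    smColl d O x = OnePoint.infty := dif_neg h

theorem smColl_cont (d : ℕ) (O : Set (EuclideanSpace ℝ (Fin d))) (hO : IsOpen O) :
    Continuous (smColl d O) := by
  rw [continuous_def]
  intro s hs
  by_cases hinf : OnePoint.infty ∈ s
  · -- the complement of the preimage is the preimage of a compact subset of `O`
    obtain ⟨hcl, hcp⟩ := (OnePoint.isOpen_iff_of_mem hinf).1 hs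
    set K : Set O := ((↑) ⁻¹' s : Set O)ᶜ with hK
    have hK' : IsCompact (Subtype.val '' K) := hcp.image continuous_subtype_val
    have : smColl d O ⁻¹' s = (smVec d ⁻¹' (Subtype.val '' K))ᶜ := by
      ext x
      simp only [Set.mem_preimage, Set.mem_compl_iff, Set.mem_image, Subtype.exists, exists_and_right,
        exists_eq_right, not_exists]
      constructor
      · intro hx h hk
        rw [smColl_of_mem d O x h] at hx
        exact hk hx
      · intro hx
        by_cases h : smVec d x ∈ O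
        · rw [smColl_of_mem d O x h]
          by_contra hcon
          exact hx h hcon
        · rw [smColl_of_not_mem d O x h]
          exact hinf
    rw [this]
    exact (hK'.isClosed.preimage (smVec_cont d)).isOpen_compl
  · have hs' : IsOpen ((↑) ⁻¹' s : Set O) := (OnePoint.isOpen_iff_of_notMem hinf).1 hs
    have hop : IsOpen (Subtype.val '' ((↑) ⁻¹' s : Set O)) := hO.isOpenMap_subtype_val _ hs'
    have : smColl d O ⁻¹' s = smVec d ⁻¹' (Subtype.val '' ((↑) ⁻¹' s : Set O)) := by
      ext x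
      simp only [Set.mem_preimage, Set.mem_image, Subtype.exists, exists_and_right, exists_eq_right]
      constructor
      · intro hx
        by_cases h : smVec d x ∈ O
        · rw [smColl_of_mem d O x h] at hx
          exact ⟨h, hx⟩
        · rw [smColl_of_not_mem d O x h] at hx
          exact absurd hx hinf
      · rintro ⟨h, hx⟩
        rw [smColl_of_mem d O x h]
        exact hx
    rw [this]
    exact hop.preimage (smVec_cont d)

/-- the collapse `c : [-1,1]^d → OnePoint O` -/
noncomputable def smCollapse (d : ℕ) (O : Set (EuclideanSpace ℝ (Fin d))) (hO : IsOpen O) :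
    C(EhCb d, OnePoint O) := ⟨smColl d O, smColl_cont d O hO⟩

/-- THE INTERFACE: the character classes of the action `B` on `O`. -/
structure EhChar (T : EhTheory.{u}) (κ : EhCube T) {p : ℕ} [Fact p.Prime] (d : ℕ)
    (O : Set (EuclideanSpace ℝ (Fin d))) (hO : IsOpen O) (B : S5Act p O) where
  /-- `z_D(t)` -/
  z : ∀ {X : Type} [TopologicalSpace X] [EhSp X] (t : C(OnePoint O, X)), B.plus.InvFun t →
    ∀ U : Opens X, t OnePoint.infty ∈ U → Set (SmLam p) → T.Q (d : ℤ) X ⊤ U
  /-- the multiplicity of the total class (`4` in the model) -/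
  mult : ℕ
  mult_pos : 0 < mult
  z_add : ∀ {X : Type} [TopologicalSpace X] [EhSp X] (t : C(OnePoint O, X)) (ht : B.plus.InvFun t)
    (U : Opens X) (hU : t OnePoint.infty ∈ U) (D D' : Set (SmLam p)), Disjoint D D' →
    z t ht U hU (D ∪ D') = z t ht U hU D + z t ht U hU D'
  z_univ : ∀ {X : Type} [TopologicalSpace X] [EhSp X] (t : C(OnePoint O, X)) (ht : B.plus.InvFun t)
    (U : Opens X) (hU : t OnePoint.infty ∈ U) (W : Opens (EhCb d)) (hW : ehCbBd d ⊆ (W : Set (EhCb d)))
    (hf : Set.MapsTo (t.comp (smCollapse d O hO)) (W : Set (EhCb d)) (U : Set X)),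
    z t ht U hU Set.univ =
      mult • T.push (d : ℤ) (t.comp (smCollapse d O hO)) (V := ⊤) (V' := ⊤) (fun _ _ => trivial) hf
        (κ.kap d (d : ℤ) rfl W hW)
  z_push : ∀ {X X' : Type} [TopologicalSpace X] [EhSp X] [TopologicalSpace X'] [EhSp X']
    (t : C(OnePoint O, X)) (ht : B.plus.InvFun t) (U : Opens X) (hU : t OnePoint.infty ∈ U)
    (g : C(X, X')) (U' : Opens X') (hg : Set.MapsTo g (U : Set X) (U' : Set X'))
    (ht' : B.plus.InvFun (g.comp t)) (hU' : (g.comp t) OnePoint.infty ∈ U') (D : Set (SmLam p)),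
    T.push (d : ℤ) g (V := ⊤) (V' := ⊤) (fun _ _ => trivial) hg (z t ht U hU D) = z (g.comp t) ht' U' hU' D
  z_shift : ∀ {X : Type} [TopologicalSpace X] [EhSp X] (t : C(OnePoint O, X)) (ht : B.plus.InvFun t)
    (U : Opens X) (hU : t OnePoint.infty ∈ U) (k : ℕ) (V : Set O) (σ : O → ZMod (p ^ k)),
    S5Sheet B k V σ → (∀ x : OnePoint O, x ∉ ((↑) '' V : Set (OnePoint O)) → t x = t OnePoint.infty) →
    ∀ D : Set (SmLam p), z t ht U hU (smRot p k '' D) = z t ht U hU D

/-- realises the equation lemmas here (unique names) -/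
theorem sm_iface_eqns_cite : True := by
  have := @SmLam.eq_1
  have := @smZeta.eq_1
  have := @smRot.eq_1
  have := @smVec.eq_1
  have := @smColl.eq_1
  have := @smCollapse.eq_1
  trivial

end Claimed.Agent.R304
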