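/-
Row 304 (S0559).  Owner: helper89.  THE FINAL ARGUMENT (paper Theorem 6.9, new route), PROVED from the interfaces:
`EhTheory`, `EhCube` (layer E), `EhChar` (Sec. 6), `S5Out` (Sec. 5), `eh_phi_ne_zero`, `eh_K_phi` (helper13), `hsf_arith`, `hsf_final` (helper138).

  Z(D) := Φ(z_D(τ)) ∈ ℤ  is finitely additive,  Z(univ) = mult * Φ((τ c)_* kap) ≠ 0  (τ c is homotopic to the pinch),
  Z(ζ_k D) = Z(D) for every k  (Δ_* z_D(τ) = z_D(Δ τ) = z_D(h) = z_{ζ_k D}(h) = ... , and Δ_* is injective up to torsion),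
  hence p^k ∣ Z(univ) for all k: contradiction.
-/
import Claimed.Agent.R304.SmIface
import Claimed.Agent.R304.S5Main
import Claimed.Agent.R304.EhPhi
import Claimed.Agent.R304.EhOI
import Claimed.Agent.R304.FinArith
import Claimed.Agent.R304.NmIface

set_option autoImplicit false

namespace Claimed.Agent.R304

open Topology TopologicalSpace Metric

universe u

variable {p : ℕ} [Fact p.Prime]

/-- `z` only depends on the underlying function of the test -/
theorem fin_z_congr {T : EhTheory.{u}} {κ : EhCube T} {d : ℕ} {O : Set (EuclideanSpace ℝ (Fin d))}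
    {hO : IsOpen O} {B : S5Act p O} (χ : EhChar T κ d O hO B) {X : Type} [TopologicalSpace X] [EhSp X]
    {t t' : C(OnePoint O, X)} (htt : t = t') (ht : B.plus.InvFun t) (ht' : B.plus.InvFun t')
    (U : Opens X) (hU : t OnePoint.infty ∈ U) (hU' : t' OnePoint.infty ∈ U) (D : Set (SmLam p)) :
    χ.z t ht U hU D = χ.z t' ht' U hU' D := by
  subst htt
  rfl

/-- the cap part of the cyclic power of the close pair space -/
def finCloseCapO (m d : ℕ) [NeZero m] (c : ℝ) : Opens (S5Cyc m (S5Close d)) :=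
  ⟨s5CycSet m (s5CloseCap d c), s5_cycSet_open m _ (s5_closeCap_open d c)⟩

/-- PAPER P6.7 (one close pair step): covariance + homotopy invariance. -/
theorem fin_step {T : EhTheory.{u}} {κ : EhCube T} {d : ℕ} {O : Set (EuclideanSpace ℝ (Fin d))}
    {hO : IsOpen O} {B : S5Act p O} (χ : EhChar T κ d O hO B) (m : ℕ) [NeZero m] (c : ℝ) (hc0 : 0 ≤ c)
    (hc1 : c < 1) (h h' : C(OnePoint O, EhY m d)) (hi : B.plus.InvFun h) (hi' : B.plus.InvFun h')
    (hU : h OnePoint.infty ∈ ehCycCapO m d c) (hU' : h' OnePoint.infty ∈ ehCycCapO m d c)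
    (hstep : S5Step B m d h h') (D : Set (SmLam p)) :
    χ.z h hi (ehCycCapO m d c) hU D = χ.z h' hi' (ehCycCapO m d c) hU' D := by
  obtain ⟨Tt, hTc, hTi, hTinf, hfst, hsnd⟩ := hstep
  have := s5_close_compact d
  let tT : C(OnePoint O, S5Cyc m (S5Close d)) := ⟨Tt, hTc⟩
  have htTU : tT OnePoint.infty ∈ finCloseCapO m d c := by
    show Tt OnePoint.infty ∈ s5CycSet m (s5CloseCap d c)
    rw [hTinf]
    exact (s5_cycMk_mem_cycSet m _ _).2 (fun _ => s5_closeBase_mem d c hc1)
  let H : C(unitInterval × S5Cyc m (S5Close d), EhY m d) :=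
    ⟨fun q => s5CycMap m (fun x => s5CloseHtpy d x q.1) q.2,
      (s5_cyc_htpy_cont m (fun q : S5Close d × unitInterval => s5CloseHtpy d q.1 q.2)
        (s5_closeHtpy_cont d)).comp (continuous_snd.prodMk continuous_fst)⟩
  have hHU : ∀ r, Set.MapsTo (H.curry r) (finCloseCapO m d c : Set (S5Cyc m (S5Close d)))
      (ehCycCapO m d c : Set (EhY m d)) := by
    rintro r _ ⟨z, hz, rfl⟩
    show s5CycMap m (fun x => s5CloseHtpy d x r) (s5CycMk m _ z) ∈ s5CycSet m (s5Cap d c)
    rw [s5_cycMap_mk]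
    exact (s5_cycMk_mem_cycSet m _ _).2 (fun i => s5_closeHtpy_cap d c hc0 (z i) (hz i) r)
  have key := T.htpy (d : ℤ) H (V := ⊤) (U := finCloseCapO m d c) (V' := ⊤) (U' := ehCycCapO m d c)
    (fun _ _ _ => trivial) hHU (χ.z tT hTi (finCloseCapO m d c) htTU D)
  have e0 : (H.curry 0).comp tT = h := by
    ext x
    show s5CycMap m (fun y => s5CloseHtpy d y 0) (Tt x) = h x
    rw [← hfst x]
    congr 1
    funext y
    exact s5_closeHtpy_zero d y
  have e1 : (H.curry 1).comp tT = h' := by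
    ext x
    show s5CycMap m (fun y => s5CloseHtpy d y 1) (Tt x) = h' x
    rw [← hsnd x]
    congr 1
    funext y
    exact s5_closeHtpy_one d y
  rw [χ.z_push tT hTi (finCloseCapO m d c) htTU (H.curry 0) (ehCycCapO m d c) (hHU 0)
      (by rw [e0]; exact hi) (by rw [e0]; exact hU) D,
    χ.z_push tT hTi (finCloseCapO m d c) htTU (H.curry 1) (ehCycCapO m d c) (hHU 1)
      (by rw [e1]; exact hi') (by rw [e1]; exact hU') D] at key
  rw [fin_z_congr χ e0.symm hi (by rw [e0]; exact hi) _ hU (by rw [e0]; exact hU) D, key]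
  exact fin_z_congr χ e1 _ hi' _ _ hU' D

/-- a test which is the end of a close pair step is continuous, invariant and has the right value at infinity -/
theorem fin_step_right {d : ℕ} {W : Type} [TopologicalSpace W] [T2Space W] {B : S5Act p W} {m : ℕ}
    {h h' : OnePoint W → S5Cyc m (S5Sph d)} (hstep : S5Step B m d h h') :
    Continuous h' ∧ B.plus.InvFun h' ∧ h' OnePoint.infty = s5CycDiag m (S5Sph d) (s5North d) := by
  obtain ⟨Tt, hTc, hTi, hTinf, _, hsnd⟩ := hstep
  have e : h' = fun x => s5CycMap m (s5CloseSnd d) (Tt x) := funext fun x => (hsnd x).symm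
  refine ⟨?_, ?_, ?_⟩
  · rw [e]
    exact (s5_cycMap_cont m _ (s5_closeSnd_cont d)).comp hTc
  · intro a x
    rw [e]
    show s5CycMap m (s5CloseSnd d) (Tt _) = s5CycMap m (s5CloseSnd d) (Tt x)
    rw [hTi a x]
  · rw [← hsnd, hTinf]
    rfl

/-- PAPER P6.7 (a chain of close pair steps). -/
theorem fin_chain {T : EhTheory.{u}} {κ : EhCube T} {d : ℕ} {O : Set (EuclideanSpace ℝ (Fin d))}
    {hO : IsOpen O} {B : S5Act p O} (χ : EhChar T κ d O hO B) (m : ℕ) [NeZero m] (c : ℝ) (hc0 : 0 ≤ c)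
    (hc1 : c < 1) (h0 : C(OnePoint O, EhY m d)) (hi0 : B.plus.InvFun h0)
    (hU0 : h0 OnePoint.infty ∈ ehCycCapO m d c) (D : Set (SmLam p))
    (h : OnePoint O → EhY m d) (hch : Relation.ReflTransGen (S5Step B m d) h0 h) :
    ∀ (hc : Continuous h) (hi : B.plus.InvFun h) (hU : h OnePoint.infty ∈ ehCycCapO m d c),
      χ.z h0 hi0 (ehCycCapO m d c) hU0 D = χ.z ⟨h, hc⟩ hi (ehCycCapO m d c) hU D := by
  induction hch with
  | refl =>
    intro hc hi hU
    rfl
  | @tail b e hab hbe ih =>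
    intro hc hi hU
    have hb : Continuous b ∧ B.plus.InvFun b ∧ b OnePoint.infty ∈ ehCycCapO m d c := by
      rcases Relation.ReflTransGen.cases_tail hab with hb | ⟨a, _, hstep⟩
      · subst hb
        exact ⟨h0.continuous, hi0, hU0⟩
      · obtain ⟨h1, h2, h3⟩ := fin_step_right hstep
        refine ⟨h1, h2, ?_⟩
        rw [h3]
        exact (s5_cycMk_mem_cycSet m _ _).2 (fun _ => s5_north_mem_cap d c hc1)
    rw [ih hb.1 hb.2.1 hb.2.2]
    exact fin_step χ m c hc0 hc1 ⟨b, hb.1⟩ ⟨e, hc⟩ hb.2.1 hi hb.2.2 hU hbe D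

/-- the end of a chain of close pair steps is again a test -/
theorem fin_chain_end {d : ℕ} {W : Type} [TopologicalSpace W] [T2Space W] {B : S5Act p W} {m : ℕ}
    {h0 h : OnePoint W → S5Cyc m (S5Sph d)} (hch : Relation.ReflTransGen (S5Step B m d) h0 h)
    (hc0 : Continuous h0) (hi0 : B.plus.InvFun h0) : Continuous h ∧ B.plus.InvFun h := by
  rcases Relation.ReflTransGen.cases_tail hch with hb | ⟨a, _, hstep⟩
  · subst hb
    exact ⟨hc0, hi0⟩
  · obtain ⟨h1, h2, _⟩ := fin_step_right hstep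
    exact ⟨h1, h2⟩

theorem smVec_inj (d : ℕ) : Function.Injective (smVec d) := by
  intro x y h
  funext i
  apply Subtype.ext
  have := congrArg (fun v : EuclideanSpace ℝ (Fin d) => v i) h
  simpa [smVec] using this

/-- the complement of the north pole -/
def finNoN (d : ℕ) : Opens (S5Sph d) := ⟨{y | y ≠ s5North d}, isOpen_ne⟩

/-- the pinch composed with the collapse is a homeomorphism over the complement of the north pole (only injectivity and surjectivity are used) -/
theorem fin_pinch_local (d : ℕ) (O : Set (EuclideanSpace ℝ (Fin d)))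
    (hbox : O ⊆ nmBox d (fun _ => -1) (fun _ => 1)) (z : EuclideanSpace ℝ (Fin d)) (r : ℝ) (hr : 0 < r)
    (hball : closedBall z r ⊆ O) (f : EhCb d → S5Sph d)
    (hf : ∀ x, f x = s5PinchAt d O z r (smColl d O x)) :
    Set.InjOn f (f ⁻¹' (finNoN d : Set (S5Sph d))) ∧ (finNoN d : Set (S5Sph d)) ⊆ Set.range f := by
  obtain ⟨h, hh⟩ := s5_pinch_homeo d
  have hpinj : ∀ u v : EuclideanSpace ℝ (Fin d), ‖u‖ < 1 → ‖v‖ < 1 → s5Pinch d u = s5Pinch d v → u = v := by
    intro u v hu hv huv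
    have hu' : u ∈ ball (0 : EuclideanSpace ℝ (Fin d)) 1 := by simpa using hu
    have hv' : v ∈ ball (0 : EuclideanSpace ℝ (Fin d)) 1 := by simpa using hv
    have : h ⟨u, hu'⟩ = h ⟨v, hv'⟩ := by
      apply Subtype.ext
      rw [hh, hh]
      exact huv
    exact congrArg Subtype.val (h.injective this)
  -- description of the points which are not mapped to the north pole
  have hdesc : ∀ x, f x ≠ s5North d → ∃ hx : smVec d x ∈ O,
      f x = s5Pinch d (r⁻¹ • (smVec d x - z)) ∧ ‖r⁻¹ • (smVec d x - z)‖ < 1 := by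
    intro x hx
    by_cases hm : smVec d x ∈ O
    · refine ⟨hm, ?_⟩
      have e : f x = s5Pinch d (r⁻¹ • (smVec d x - z)) := by
        rw [hf, smColl_of_mem d O x hm]
        rfl
      refine ⟨e, ?_⟩
      by_contra hcon
      rw [not_lt] at hcon
      exact hx (e.trans (s5_pinch_outside d _ hcon))
    · exfalso
      apply hx
      rw [hf, smColl_of_not_mem d O x hm]
      rfl
  constructor
  · intro x hx y hy hxy
    obtain ⟨_, e1, n1⟩ := hdesc x hx
    obtain ⟨_, e2, n2⟩ := hdesc y hy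
    have h3 := hpinj _ _ n1 n2 (by rw [← e1, ← e2, hxy])
    have h4 : smVec d x - z = smVec d y - z := smul_right_injective _ (inv_ne_zero hr.ne') h3
    exact smVec_inj d (sub_left_injective h4)
  · intro y hy
    obtain ⟨u, hu⟩ := h.surjective ⟨y, hy⟩
    have hu1 : ‖(u : EuclideanSpace ℝ (Fin d))‖ < 1 := by
      have := u.2
      rwa [mem_ball, dist_zero_right] at this
    have hyu : y = s5Pinch d u := by
      rw [← hh, hu]
    set w : EuclideanSpace ℝ (Fin d) := z + r • (u : EuclideanSpace ℝ (Fin d)) with hw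
    have hwO : w ∈ O := by
      apply hball
      rw [mem_closedBall, dist_eq_norm, hw, add_sub_cancel_left, norm_smul, Real.norm_of_nonneg hr.le]
      nlinarith
    have hwb := hbox hwO
    let x : EhCb d := fun i => ⟨w i, (hwb i).1.le, (hwb i).2.le⟩
    have hxw : smVec d x = w := by
      ext i
      simp [smVec, x]
    refine ⟨x, ?_⟩
    rw [hf, smColl_of_mem d O x (hxw ▸ hwO), hyu]
    show s5Pinch d (r⁻¹ • (smVec d x - z)) = _
    rw [hxw, hw, add_sub_cancel_left, smul_smul, inv_mul_cancel₀ hr.ne', one_smul]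

/-- THE CORE THEOREM, abstract form. -/
theorem hs_core_abs (T : EhTheory.{u}) (κ : EhCube T) (d : ℕ) (O : Set (EuclideanSpace ℝ (Fin d)))
    (hO : IsOpen O) (hbox : O ⊆ nmBox d (fun _ => -1) (fun _ => 1)) (B : S5Act p O)
    (out : S5Out d O B) (χ : EhChar T κ d O hO B) : False := by
  have hS : s5South d ∉ ehCapO d 0 := s5_south_not_mem_cap d 0 (by norm_num)
  have hNU : s5North d ∈ ehCapO d 0 := s5_north_mem_cap d 0 (by norm_num)
  let τ : C(OnePoint O, S5Sph d) := ⟨out.τ, out.τ_cont⟩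
  have hτU : τ OnePoint.infty ∈ ehCapO d 0 := by
    show out.τ OnePoint.infty ∈ ehCapO d 0
    rw [out.τ_infty]
    exact hNU
  let Z : Set (SmLam p) → ℤ := fun D => T.phi d (d : ℤ) rfl (ehCapO d 0) hS (χ.z τ out.τ_inv (ehCapO d 0) hτU D)
  have hadd : ∀ D D' : Set (SmLam p), Disjoint D D' → Z (D ∪ D') = Z D + Z D' := by
    intro D D' hDD
    show T.phi d (d : ℤ) rfl (ehCapO d 0) hS _ = _
    rw [χ.z_add τ out.τ_inv (ehCapO d 0) hτU D D' hDD, map_add]
  -- the total class
  have hne : Z Set.univ ≠ 0 := by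
    obtain ⟨F, hFc, hF0, hF1, K, hK, hFK⟩ := out.htpy
    let c := smCollapse d O hO
    let W : Opens (EhCb d) := ⟨c ⁻¹' ((↑) '' K : Set (OnePoint O))ᶜ,
      (OnePoint.isOpen_compl_image_coe.2 ⟨hK.isClosed, hK⟩).preimage c.continuous⟩
    have hW : ehCbBd d ⊆ (W : Set (EhCb d)) := by
      rintro x ⟨i, hi⟩
      have hx : smVec d x ∉ O := by
        intro hx
        have h1 := hbox hx i
        have h2 : (smVec d x) i = (x i : ℝ) := by simp [smVec]
        rw [h2] at h1
        have : |(x i : ℝ)| < 1 := abs_lt.2 h1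
        linarith
      show smColl d O x ∉ ((↑) '' K : Set (OnePoint O))
      rw [smColl_of_not_mem d O x hx]
      rintro ⟨y, _, hy⟩
      exact OnePoint.coe_ne_infty y hy
    let H : C(unitInterval × EhCb d, S5Sph d) :=
      ⟨fun q => F (c q.2, q.1), hFc.comp ((c.continuous.comp continuous_snd).prodMk continuous_fst)⟩
    have hHW : ∀ t, Set.MapsTo (H.curry t) (W : Set (EhCb d)) (ehCapO d 0 : Set (S5Sph d)) := by
      intro t x hx
      show F (c x, t) ∈ ehCapO d 0
      rw [hFK (c x) hx t]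
      exact hNU
    have key := T.htpy (d : ℤ) H (V := ⊤) (U := W) (V' := ⊤) (U' := ehCapO d 0) (fun _ _ _ => trivial) hHW
      (κ.kap d (d : ℤ) rfl W hW)
    have e1 : H.curry 1 = τ.comp c := ContinuousMap.ext fun x => hF1 (c x)
    have hloc := fin_pinch_local d O hbox out.z out.r out.r_pos out.ball_sub (H.curry 0)
      (fun x => hF0 (c x))
    have hsn : s5South d ∈ finNoN d := by
      intro h
      exact hS (h ▸ hNU)
    have h0 := eh_phi_ne_zero T κ d (d : ℤ) rfl (H.curry 0) W hW (ehCapO d 0) hS (hHW 0) (finNoN d) hsn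
      hloc.1 hloc.2
    have hmaps : Set.MapsTo (τ.comp c) (W : Set (EhCb d)) (ehCapO d 0 : Set (S5Sph d)) := e1 ▸ hHW 1
    show T.phi d (d : ℤ) rfl (ehCapO d 0) hS (χ.z τ out.τ_inv (ehCapO d 0) hτU Set.univ) ≠ 0
    rw [χ.z_univ τ out.τ_inv (ehCapO d 0) hτU W hW hmaps, map_nsmul,
      eh_push_congr T (d : ℤ) e1.symm (V := ⊤) (V' := ⊤) (fun _ _ => trivial) hmaps (fun _ _ => trivial)
        (hHW 1), ← key]
    intro hz
    rcases smul_eq_zero.1 hz with h | h
    · exact χ.mult_pos.ne' h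
    · exact h0 h
  -- invariance under the rotations
  have hinv : ∀ (k : ℕ) (D : Set (SmLam p)), Z (smRot p k '' D) = Z D := by
    intro k D
    obtain ⟨V, σ, i, h, hsheet, hchain, hconst⟩ := out.conc k
    have : NeZero (p ^ i) := ⟨pow_ne_zero _ (Fact.out : p.Prime).ne_zero⟩
    let h0 : C(OnePoint O, EhY (p ^ i) d) := (ehDelta (p ^ i) d).comp τ
    have hi0 : B.plus.InvFun h0 := by
      intro a x
      show s5CycDiag (p ^ i) (S5Sph d) (out.τ _) = s5CycDiag (p ^ i) (S5Sph d) (out.τ x)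
      rw [out.τ_inv a x]
    have hU0 : h0 OnePoint.infty ∈ ehCycCapO (p ^ i) d 0 := ehDelta_mapsTo_cap (p ^ i) d 0 hτU
    have hchain' : Relation.ReflTransGen (S5Step B (p ^ i) d) h0 h := hchain
    obtain ⟨hc, hi⟩ := fin_chain_end hchain' h0.continuous hi0
    have hinf : h OnePoint.infty = s5CycDiag (p ^ i) (S5Sph d) (s5North d) := by
      apply hconst
      rintro ⟨y, _, hy⟩
      exact OnePoint.coe_ne_infty y hy
    have hU : h OnePoint.infty ∈ ehCycCapO (p ^ i) d 0 := by
      rw [hinf]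
      exact (s5_cycMk_mem_cycSet (p ^ i) _ _).2 (fun _ => hNU)
    have hpush : ∀ D' : Set (SmLam p),
        T.push (d : ℤ) (ehDelta (p ^ i) d) (V := ⊤) (V' := ⊤) (fun _ _ => trivial)
          (ehDelta_mapsTo_cap (p ^ i) d 0) (χ.z τ out.τ_inv (ehCapO d 0) hτU D') =
        χ.z ⟨h, hc⟩ hi (ehCycCapO (p ^ i) d 0) hU D' := by
      intro D'
      rw [χ.z_push τ out.τ_inv (ehCapO d 0) hτU (ehDelta (p ^ i) d) (ehCycCapO (p ^ i) d 0)
        (ehDelta_mapsTo_cap (p ^ i) d 0) hi0 hU0 D']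
      exact fin_chain χ (p ^ i) 0 le_rfl (by norm_num) h0 hi0 hU0 D' h hchain' hc hi hU
    apply eh_K_phi T (p ^ i) d (d : ℤ) rfl 0 le_rfl (by norm_num) hS
    rw [hpush, hpush]
    exact χ.z_shift ⟨h, hc⟩ hi (ehCycCapO (p ^ i) d 0) hU k V σ hsheet
      (fun x hx => (hconst x hx).trans hinf.symm) D
  -- arithmetic
  have hp : p.Prime := Fact.out
  refine hsf_final p hp (Z Set.univ) hne (fun k => ?_)
  exact hsf_arith Z hadd (p ^ k) (pow_pos hp.pos k) (smRot p k) (smRot_per p k)
    (fun i h0 h1 l => smRot_free p k i h0 h1 l) (hinv k)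

/-- realises the equation lemmas here (unique names) -/
theorem fin_glue_eqns_cite : True := by
  have := @finCloseCapO.eq_1
  have := @finNoN.eq_1
  trivial

end Claimed.Agent.R304
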