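/-
Row 304 (S0559, Hilbert-Smith).  Owner/designer: helper154.  LAYER S, package `FcLG`:
the LOCAL-TO-GLOBAL TOOLBOX for differential objects of `FC(X)` (file `FcDefs`).  Prefix `fcg` / `Fcg`.

Everything is elementary: linear algebra of differential vector spaces (Sec. 0), Urysohn operators + compactness.
`X` is Hausdorff; local compactness is assumed only where stated.

CONTENTS
 0. differential vector spaces: `FcgRelAcyc d W W'` (`H(W/W') = 0`), two-out-of-three, functionals.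
 1. supports, cut-off operators, decompositions subordinate to finite covers by opens.
 2. acyclicity on opens: Mayer-Vietoris, directed unions, LG2 (basis closed under intersections), unions of opens.
 3. closed sets: `A.AcycG K` (`H(M / M(X∖K)) = 0`), excision, closed Mayer-Vietoris, continuity.
 4. quasi-isomorphisms `FcHom.QiAt`, cones.
 5. the dual: vanishing off the support, `H(M^∨(U)) = colim_K H(Γ(K))^*` in elementary form.

PROOFS.  Each statement has its proof in the docstring.  All are short (5-60 lines) except `fcg_LG2`,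
`fcg_splitN`, `fcg_dual_vanish`, `fcg_dual_qi` (100-200 lines).  Estimated total: 1500 lines.
-/
import Claimed.Agent.R304.FcDefs

set_option autoImplicit false

namespace Claimed.Agent.R304

open Topology

/-! ### 0. Differential vector spaces -/

section Dv

variable {V : Type} [AddCommGroup V] [Module ℝ V]

/-- `H(W / W') = 0` (used for `W' ≤ W`, both stable under `d`) -/
def FcgRelAcyc (d : V →ₗ[ℝ] V) (W W' : Submodule ℝ V) : Prop :=
  ∀ v ∈ W, d v ∈ W' → ∃ w ∈ W, v - d w ∈ W'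

/-- `v ∈ W`, `d v ∈ W'' ≤ W'`: `v - d w ∈ W'`, `d (v - d w) = d v ∈ W''`, so `v - d w - d w' ∈ W''`. -/
theorem fcg_rel_trans (d : V →ₗ[ℝ] V) (hd : ∀ v, d (d v) = 0) {W W' W'' : Submodule ℝ V}
    (h1 : W'' ≤ W') (h2 : W' ≤ W) (ha : FcgRelAcyc d W W') (hb : FcgRelAcyc d W' W'') :
    FcgRelAcyc d W W'' := by
  intro v hv hdv
  obtain ⟨w, hw, hvw⟩ := ha v hv (h1 hdv)
  obtain ⟨w', hw', hvw'⟩ := hb (v - d w) hvw (by rw [map_sub, hd, sub_zero]; exact hdv)
  refine ⟨w + w', W.add_mem hw (h2 hw'), ?_⟩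
  have e : v - d (w + w') = v - d w - d w' := by rw [map_add]; abel
  rw [e]; exact hvw'

/-- `v ∈ W`, `d v ∈ W'`: `d v - d w' ∈ W''` with `w' ∈ W'`; `v - w' - d w ∈ W''`; so `v - d w ∈ W'`. -/
theorem fcg_rel_quot (d : V →ₗ[ℝ] V) (hd : ∀ v, d (d v) = 0) {W W' W'' : Submodule ℝ V}
    (h1 : W'' ≤ W') (h2 : W' ≤ W) (ha : FcgRelAcyc d W W'') (hb : FcgRelAcyc d W' W'') :
    FcgRelAcyc d W W' := by
  intro v hv hdv
  obtain ⟨w', hw', hvw'⟩ := hb (d v) hdv (by rw [hd]; exact W''.zero_mem)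
  obtain ⟨w, hw, hvw⟩ := ha (v - w') (W.sub_mem hv (h2 hw')) (by rw [map_sub]; exact hvw')
  refine ⟨w, hw, ?_⟩
  have e : v - d w = (v - w' - d w) + w' := by abel
  rw [e]; exact W'.add_mem (h1 hvw) hw'

/-- `v ∈ W'`, `d v ∈ W''`: `v - d w ∈ W''`, so `d w ∈ W'`, `w - d u ∈ W'`, and `d (w - d u) = d w`. -/
theorem fcg_rel_sub (d : V →ₗ[ℝ] V) (hd : ∀ v, d (d v) = 0) {W W' W'' : Submodule ℝ V}
    (h1 : W'' ≤ W') (h2 : W' ≤ W) (ha : FcgRelAcyc d W W'') (hb : FcgRelAcyc d W W') :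
    FcgRelAcyc d W' W'' := by
  intro v hv hdv
  obtain ⟨w, hw, hvw⟩ := ha v (h2 hv) hdv
  have hdw : d w ∈ W' := by
    have e : d w = v - (v - d w) := by abel
    rw [e]; exact W'.sub_mem hv (h1 hvw)
  obtain ⟨u, _, hwu⟩ := hb w hw hdw
  refine ⟨w - d u, hwu, ?_⟩
  rw [map_sub, hd, sub_zero]; exact hvw

/-- A functional which vanishes on the relative cycles of `(V, W')` is a coboundary of a functional vanishing
on `W'`.  (On `d V + W'` put `ψ (d v + w') = φ v`: well defined by `hz`; `LinearMap.exists_extend`.) -/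
theorem fcg_dv_cobound (d : V →ₗ[ℝ] V) (W' : Submodule ℝ V) (φ : V →ₗ[ℝ] ℝ)
    (hz : ∀ v, d v ∈ W' → φ v = 0) :
    ∃ ψ : V →ₗ[ℝ] ℝ, (∀ v ∈ W', ψ v = 0) ∧ ∀ v, ψ (d v) = φ v := by
  obtain ⟨ψ, hψ⟩ := fc_factor (d.coprod W'.subtype) (φ ∘ₗ LinearMap.fst ℝ _ _) (by
    rintro ⟨v, w⟩ hvw
    have hvw' : d v + w.1 = 0 := hvw
    show φ v = 0
    refine hz v ?_
    rw [eq_neg_of_add_eq_zero_left hvw']
    exact W'.neg_mem w.2)
  refine ⟨ψ, fun v hv => ?_, fun v => ?_⟩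
  · have := hψ (0, ⟨v, hv⟩)
    simpa using this
  · have := hψ (v, 0)
    simpa using this

/-- The dual of an acyclic differential space is acyclic. -/
theorem fcg_dv_dual (d : V →ₗ[ℝ] V) (W' : Submodule ℝ V) (h : FcgRelAcyc d ⊤ W') (φ : V →ₗ[ℝ] ℝ)
    (h0 : ∀ v ∈ W', φ v = 0) (hc : ∀ v, φ (d v) = 0) :
    ∃ ψ : V →ₗ[ℝ] ℝ, (∀ v ∈ W', ψ v = 0) ∧ ∀ v, ψ (d v) = φ v := by
  refine fcg_dv_cobound d W' φ (fun v hv => ?_)
  obtain ⟨w, _, hw⟩ := h v Submodule.mem_top hv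
  have e : φ v = φ (v - d w) + φ (d w) := by rw [← map_add]; congr 1; abel
  rw [e, h0 _ hw, hc, add_zero]

/-- A functional on the relative cycles which kills `W'` and the boundaries extends to a closed functional
vanishing on `W'`.  (`LinearMap.exists_extend`.) -/
theorem fcg_dv_extend (d : V →ₗ[ℝ] V) (hd : ∀ v, d (d v) = 0) (W' : Submodule ℝ V)
    (Z : Submodule ℝ V) (hZ : ∀ v, v ∈ Z ↔ d v ∈ W') (f : Z →ₗ[ℝ] ℝ)
    (h0 : ∀ z : Z, (z : V) ∈ W' → f z = 0) (h1 : ∀ (z : Z) (v : V), (z : V) = d v → f z = 0) :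
    ∃ μ : V →ₗ[ℝ] ℝ, (∀ z : Z, μ z = f z) ∧ (∀ v, μ (d v) = 0) := by
  obtain ⟨μ, hμ⟩ := LinearMap.exists_extend f
  have hμ' : ∀ z : Z, μ z = f z := fun z => by
    rw [← hμ]; rfl
  refine ⟨μ, hμ', fun v => ?_⟩
  have hz : d v ∈ Z := by rw [hZ, hd]; exact W'.zero_mem
  have := hμ' ⟨d v, hz⟩
  rw [h1 ⟨d v, hz⟩ v rfl] at this
  exact this

end Dv

variable {X : Type} [TopologicalSpace X]

/-! ### 1. Supports and decompositions -/

theorem fcg_supp_zero (A : FcObj X) : A.supp 0 = ∅ := (A.supp_empty_iff 0).2 rfl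

theorem fcg_supp_neg (A : FcObj X) (m : A.carrier) : A.supp (-m) = A.supp m := by
  refine Set.Subset.antisymm (A.supp_neg m) ?_
  have := A.supp_neg (-m)
  rwa [neg_neg] at this

theorem fcg_supp_sub (A : FcObj X) (m m' : A.carrier) : A.supp (m - m') ⊆ A.supp m ∪ A.supp m' := by
  exact A.supp_sub m m'

theorem fcg_supp_sum (A : FcObj X) {ι : Type*} (s : Finset ι) (f : ι → A.carrier) :
    A.supp (∑ i ∈ s, f i) ⊆ ⋃ i ∈ s, A.supp (f i) := by
  classical
  induction s using Finset.induction_on with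
  | empty => simp [fcg_supp_zero]
  | insert a s ha ih =>
    rw [Finset.sum_insert ha, Finset.set_biUnion_insert]
    exact (A.supp_add _ _).trans (Set.union_subset_union_right _ ih)

/-- CUT-OFF OPERATOR.  `K ∖ V` and `K ∖ U` are disjoint compact sets; separate them by disjoint opens `E ⊇ K ∖ V`,
`E' ⊇ K ∖ U` (`IsCompact.separation_of_disjoint` / `SeparatedNhds`); take `π` from `A.ury E`:
`closure E ∩ E' = ∅`, `closure Eᶜ = Eᶜ`. -/
theorem fcg_cut [T2Space X] (A : FcObj X) (K U V : Set X) (hK : IsCompact K) (hU : IsOpen U)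
    (hV : IsOpen V) (hKUV : K ⊆ U ∪ V) :
    ∃ π : A.carrier →ₗ[ℝ] A.carrier, (∀ m, A.supp (π m) ⊆ A.supp m) ∧
      (∀ m, A.supp (m - π m) ⊆ A.supp m) ∧
      ∀ m, A.supp m ⊆ K → A.supp (π m) ⊆ U ∧ A.supp (m - π m) ⊆ V := by
  have hd : Disjoint (K \ V) (K \ U) := by
    rw [Set.disjoint_left]
    rintro x ⟨hx, hx2⟩ ⟨_, hx1⟩
    rcases hKUV hx with h | h
    · exact hx1 h
    · exact hx2 h
  obtain ⟨E, E', hE, hE', hs, hs', hEE'⟩ :=
    SeparatedNhds.of_isCompact_isCompact (hK.diff hV) (hK.diff hU) hd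
  obtain ⟨π, hπ⟩ := A.ury E
  refine ⟨π, fun m => (hπ m).1.trans Set.inter_subset_left,
    fun m => (hπ m).2.trans Set.inter_subset_left, fun m hm => ⟨?_, ?_⟩⟩
  · intro x hx
    obtain ⟨hxm, hxc⟩ := (hπ m).1 hx
    by_contra hxU
    exact Set.disjoint_left.1 (hEE'.closure_left hE') hxc (hs' ⟨hm hxm, hxU⟩)
  · intro x hx
    obtain ⟨hxm, hxc⟩ := (hπ m).2 hx
    rw [hE.isClosed_compl.closure_eq] at hxc
    by_contra hxV
    exact hxc (hs ⟨hm hxm, hxV⟩)

/-- CUT-OFF NEAR A COMPACT SET: `π m` lives in the open set `W`, `m - π m` lives off the compact set `K ⊆ W`,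
for ALL `m` (no condition on `supp m`), and `π m = m` if `supp m ⊆ K`.
(`X` locally compact or not: take disjoint opens `E ⊇ K`... NOT possible in general; we assume an open `E` with
`K ⊆ E`, `closure E ⊆ W` is given.) -/
theorem fcg_cut_near (A : FcObj X) (K E W : Set X) (hE : IsOpen E) (hKE : K ⊆ E)
    (hEW : closure E ⊆ W) :
    ∃ π : A.carrier →ₗ[ℝ] A.carrier, (∀ m, A.supp (π m) ⊆ A.supp m ∩ W) ∧
      (∀ m, A.supp (m - π m) ⊆ A.supp m \ K) ∧ ∀ m, A.supp m ⊆ E → π m = m := by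
  obtain ⟨π, hπ⟩ := A.ury E
  have h2 : ∀ m, A.supp (m - π m) ⊆ A.supp m ∩ Eᶜ := fun m => by
    have := (hπ m).2
    rwa [hE.isClosed_compl.closure_eq] at this
  refine ⟨π, fun m x hx => ⟨((hπ m).1 hx).1, hEW ((hπ m).1 hx).2⟩,
    fun m x hx => ⟨(h2 m hx).1, fun hxK => (h2 m hx).2 (hKE hxK)⟩, fun m hm => ?_⟩
  have h0 : A.supp (m - π m) = ∅ := by
    rw [← Set.subset_empty_iff]
    exact fun x hx => (h2 m hx).2 (hm (h2 m hx).1)
  have := (A.supp_empty_iff _).1 h0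
  exact (sub_eq_zero.1 this).symm

theorem fcg_split2 [T2Space X] (A : FcObj X) (m : A.carrier) (U V : Set X) (hU : IsOpen U)
    (hV : IsOpen V) (h : A.supp m ⊆ U ∪ V) :
    ∃ m1 m2, m = m1 + m2 ∧ A.supp m1 ⊆ U ∩ A.supp m ∧ A.supp m2 ⊆ V ∩ A.supp m := by
  obtain ⟨m1, m2, e, h1, h2⟩ := A.decomp hU hV m h
  exact ⟨m1, m2, e, by rw [Set.inter_comm]; exact h1, by rw [Set.inter_comm]; exact h2⟩

/-- induction on the finite set `s` with `fcg_split2` -/
theorem fcg_splitN [T2Space X] (A : FcObj X) {ι : Type*} (s : Finset ι) (U : ι → Set X)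
    (hU : ∀ i ∈ s, IsOpen (U i)) (m : A.carrier) (h : A.supp m ⊆ ⋃ i ∈ s, U i) :
    ∃ f : ι → A.carrier, m = ∑ i ∈ s, f i ∧ ∀ i ∈ s, A.supp (f i) ⊆ U i ∩ A.supp m := by
  classical
  induction s using Finset.induction_on generalizing m with
  | empty =>
    refine ⟨fun _ => 0, ?_, fun i hi => absurd hi (Finset.notMem_empty i)⟩
    have h0 : A.supp m = ∅ := by
      rw [← Set.subset_empty_iff]
      simpa using h
    simpa using (A.supp_empty_iff m).1 h0
  | insert a s ha ih =>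
    have hUs : ∀ i ∈ s, IsOpen (U i) := fun i hi => hU i (Finset.mem_insert_of_mem hi)
    rw [Finset.set_biUnion_insert] at h
    obtain ⟨m1, m2, e, h1, h2⟩ := fcg_split2 A m (U a) (⋃ i ∈ s, U i)
      (hU a (Finset.mem_insert_self a s)) (isOpen_biUnion hUs) h
    obtain ⟨f, hf, hfs⟩ := ih hUs m2 (h2.trans Set.inter_subset_left)
    refine ⟨Function.update f a m1, ?_, fun i hi => ?_⟩
    · rw [Finset.sum_insert ha, Function.update_self, e, hf]
      congr 1
      refine Finset.sum_congr rfl fun i hi => ?_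
      rw [Function.update_of_ne (fun hia : i = a => ha (hia ▸ hi))]
    · rcases Finset.mem_insert.1 hi with rfl | hi
      · rw [Function.update_self]; exact h1
      · rw [Function.update_of_ne (fun hia : i = a => ha (hia ▸ hi))]
        exact fun x hx => ⟨(hfs i hi hx).1, (h2 (hfs i hi hx).2).2⟩

/-! ### 2. Acyclicity on opens -/

theorem fcg_acycAt_empty (A : FcD X) : A.AcycAt ∅ := by
  intro m hm _
  have h0 : m = 0 := (A.supp_empty_iff m).1 (Set.subset_empty_iff.1 hm)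
  exact ⟨0, by rw [A.supp_zero], by rw [h0, map_zero]⟩

/-- MAYER-VIETORIS.  `m ∈ M(U ∪ V)` a cycle, `m = m1 + m2`; `d m1 = - d m2 ∈ M(U ∩ V)` is a cycle, `= d n`;
`m1 - n`, `m2 + n` are cycles in `M(U)`, `M(V)`. -/
theorem fcg_mv [T2Space X] (A : FcD X) {U V : Set X} (hU : IsOpen U) (hV : IsOpen V)
    (h1 : A.AcycAt U) (h2 : A.AcycAt V) (h3 : A.AcycAt (U ∩ V)) : A.AcycAt (U ∪ V) := by
  intro m hm hd
  obtain ⟨m1, m2, e, hm1, hm2⟩ := A.toFcObj.decomp hU hV m hm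
  have hm1U : A.supp m1 ⊆ U := hm1.trans Set.inter_subset_right
  have hm2V : A.supp m2 ⊆ V := hm2.trans Set.inter_subset_right
  have e1 : A.d m1 = -A.d m2 := by
    rw [e, map_add] at hd
    exact eq_neg_of_add_eq_zero_left hd
  have hs : A.supp (A.d m1) ⊆ U ∩ V := by
    refine Set.subset_inter ((A.d_loc _).trans hm1U) ?_
    rw [e1]
    exact (A.supp_neg _).trans ((A.d_loc _).trans hm2V)
  obtain ⟨n, hn, hdn⟩ := h3 (A.d m1) hs (A.d_sq _)
  obtain ⟨a, ha, hda⟩ := h1 (m1 - n)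
    ((A.supp_sub _ _).trans (Set.union_subset hm1U (hn.trans Set.inter_subset_left)))
    (by rw [map_sub, hdn, sub_self])
  obtain ⟨b, hb, hdb⟩ := h2 (m2 + n)
    ((A.supp_add _ _).trans (Set.union_subset hm2V (hn.trans Set.inter_subset_right)))
    (by rw [map_add, hdn, e1]; abel)
  refine ⟨a + b, (A.supp_add _ _).trans (Set.union_subset_union ha hb), ?_⟩
  rw [map_add, hda, hdb, e]; abel

/-- `m ∈ M(U ∩ V)` a cycle: `m = d a = d b` with `a ∈ M(U)`, `b ∈ M(V)`; `a - b` is a cycle in `M(U ∪ V)`,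
`= d c`, `c = c1 + c2`; then `a - d c1 = b + d c2 ∈ M(U ∩ V)` has boundary `m`. -/
theorem fcg_mv_inter [T2Space X] (A : FcD X) {U V : Set X} (hU : IsOpen U) (hV : IsOpen V)
    (h1 : A.AcycAt U) (h2 : A.AcycAt V) (h3 : A.AcycAt (U ∪ V)) : A.AcycAt (U ∩ V) := by
  intro m hm hd
  obtain ⟨a, ha, hda⟩ := h1 m (hm.trans Set.inter_subset_left) hd
  obtain ⟨b, hb, hdb⟩ := h2 m (hm.trans Set.inter_subset_right) hd
  obtain ⟨c, hc, hdc⟩ := h3 (a - b) ((A.supp_sub _ _).trans (Set.union_subset_union ha hb))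
    (by rw [map_sub, hda, hdb, sub_self])
  obtain ⟨c1, c2, e, hc1, hc2⟩ := A.toFcObj.decomp hU hV c hc
  have hc1U : A.supp c1 ⊆ U := hc1.trans Set.inter_subset_right
  have hc2V : A.supp c2 ⊆ V := hc2.trans Set.inter_subset_right
  have e1 : a - A.d c1 = b + A.d c2 := by
    rw [e, map_add] at hdc
    have : a = (a - b) + b := by abel
    rw [this, ← hdc]; abel
  refine ⟨a - A.d c1, Set.subset_inter ?_ ?_, by rw [map_sub, A.d_sq, sub_zero, hda]⟩
  · exact (A.supp_sub _ _).trans (Set.union_subset ha ((A.d_loc _).trans hc1U))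
  · rw [e1]
    exact (A.supp_add _ _).trans (Set.union_subset hb ((A.d_loc _).trans hc2V))

/-- `m ∈ M(U)` a cycle: `m = d c`, `c = c1 + c2 ∈ M(U) + M(V)`; `m - d c1 = d c2 ∈ M(U ∩ V)` is a cycle. -/
theorem fcg_mv_left [T2Space X] (A : FcD X) {U V : Set X} (hU : IsOpen U) (hV : IsOpen V)
    (h1 : A.AcycAt (U ∩ V)) (h2 : A.AcycAt (U ∪ V)) : A.AcycAt U := by
  intro m hm hd
  obtain ⟨c, hc, hdc⟩ := h2 m (hm.trans Set.subset_union_left) hd
  obtain ⟨c1, c2, e, hc1, hc2⟩ := A.toFcObj.decomp hU hV c hc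
  have hc1U : A.supp c1 ⊆ U := hc1.trans Set.inter_subset_right
  have hc2V : A.supp c2 ⊆ V := hc2.trans Set.inter_subset_right
  have e1 : m - A.d c1 = A.d c2 := by
    rw [← hdc, e, map_add]; abel
  obtain ⟨n, hn, hdn⟩ := h1 (A.d c2) (Set.subset_inter (by
      rw [← e1]
      exact (A.supp_sub _ _).trans (Set.union_subset hm ((A.d_loc _).trans hc1U)))
    ((A.d_loc _).trans hc2V)) (A.d_sq _)
  refine ⟨c1 + n, (A.supp_add _ _).trans (Set.union_subset hc1U (hn.trans Set.inter_subset_left)), ?_⟩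
  rw [map_add, hdn, ← e1]; abel

/-- a compact support lies in one member of a directed family of opens -/
theorem fcg_directed (A : FcD X) {ι : Type*} [Nonempty ι] (U : ι → Set X) (hU : ∀ i, IsOpen (U i))
    (hdir : Directed (· ⊆ ·) U) (h : ∀ i, A.AcycAt (U i)) : A.AcycAt (⋃ i, U i) := by
  intro m hm hd
  obtain ⟨i, hi⟩ := (A.supp_compact m).elim_directed_cover U hU hm hdir
  obtain ⟨m', hm', hd'⟩ := h i m hi hd
  exact ⟨m', hm'.trans (Set.subset_iUnion U i), hd'⟩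

/-- **LG2.**  Finite unions `B_1 ∪ .. ∪ B_n` by induction on `n` for ALL families simultaneously
(`(B_1 ∪ .. ∪ B_n) ∩ B_{n+1}` is a union of `n` members), `fcg_mv`; then `fcg_directed` over the finite subsets of `S`. -/
theorem fcg_LG2 [T2Space X] (A : FcD X) (𝔅 : Set (Set X)) (hopen : ∀ B ∈ 𝔅, IsOpen B)
    (hinter : ∀ B ∈ 𝔅, ∀ B' ∈ 𝔅, B ∩ B' ∈ 𝔅) (hac : ∀ B ∈ 𝔅, A.AcycAt B) (S : Set (Set X))
    (hS : S ⊆ 𝔅) : A.AcycAt (⋃₀ S) := by
  classical
  have fin : ∀ (n : ℕ) (T : Finset (Set X)), T.card ≤ n → (∀ B ∈ T, B ∈ 𝔅) →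
      A.AcycAt (⋃₀ (T : Set (Set X))) := by
    intro n
    induction n with
    | zero =>
      intro T hT _
      have : T = ∅ := Finset.card_eq_zero.1 (Nat.le_zero.1 hT)
      rw [this]
      simpa using fcg_acycAt_empty A
    | succ n ih =>
      intro T hT hTB
      rcases T.eq_empty_or_nonempty with rfl | ⟨B, hB⟩
      · simpa using fcg_acycAt_empty A
      · have hcard : (T.erase B).card ≤ n := by
          rw [Finset.card_erase_of_mem hB]; omega
        have hTB' : ∀ B' ∈ T.erase B, B' ∈ 𝔅 := fun B' hB' => hTB B' (Finset.mem_of_mem_erase hB')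
        have e : ⋃₀ (T : Set (Set X)) = ⋃₀ ((T.erase B : Finset (Set X)) : Set (Set X)) ∪ B := by
          conv_lhs => rw [← Finset.insert_erase hB]
          rw [Finset.coe_insert, Set.sUnion_insert, Set.union_comm]
        have e2 : ⋃₀ ((T.erase B : Finset (Set X)) : Set (Set X)) ∩ B =
            ⋃₀ (((T.erase B).image (fun B' => B' ∩ B) : Finset (Set X)) : Set (Set X)) := by
          ext x
          simp only [Set.mem_inter_iff, Set.mem_sUnion, Finset.mem_coe, Finset.mem_image]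
          constructor
          · rintro ⟨⟨B', hB', hx⟩, hxB⟩
            exact ⟨B' ∩ B, ⟨B', hB', rfl⟩, hx, hxB⟩
          · rintro ⟨_, ⟨B', hB', rfl⟩, hx, hxB⟩
            exact ⟨⟨B', hB', hx⟩, hxB⟩
        rw [e]
        refine fcg_mv A (isOpen_sUnion fun B' hB' => hopen B' (hTB' B' hB')) (hopen B (hTB B hB))
          (ih _ hcard hTB') (hac B (hTB B hB)) ?_
        rw [e2]
        refine ih _ (Finset.card_image_le.trans hcard) ?_
        intro B'' hB''
        obtain ⟨B', hB', rfl⟩ := Finset.mem_image.1 hB''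
        exact hinter B' (hTB' B' hB') B (hTB B hB)
  have e : ⋃₀ S = ⋃ T : {T : Finset (Set X) // ∀ B ∈ T, B ∈ S}, ⋃₀ ((T.1 : Finset (Set X)) : Set (Set X)) := by
    ext x
    simp only [Set.mem_sUnion, Set.mem_iUnion, Finset.mem_coe]
    constructor
    · rintro ⟨B, hB, hx⟩
      exact ⟨⟨{B}, fun B' hB' => by rw [Finset.mem_singleton.1 hB']; exact hB⟩, B,
        Finset.mem_singleton_self B, hx⟩
    · rintro ⟨T, B, hB, hx⟩
      exact ⟨B, T.2 B hB, hx⟩
  rw [e]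
  have : Nonempty {T : Finset (Set X) // ∀ B ∈ T, B ∈ S} :=
    ⟨⟨∅, fun B hB => absurd hB (Finset.notMem_empty B)⟩⟩
  refine fcg_directed A _ (fun T => isOpen_sUnion fun B hB => hopen B (hS (T.2 B hB))) ?_
    (fun T => fin _ T.1 le_rfl (fun B hB => hS (T.2 B hB)))
  intro T T'
  refine ⟨⟨T.1 ∪ T'.1, fun B hB => ?_⟩, ?_, ?_⟩
  · rcases Finset.mem_union.1 hB with h | h
    · exact T.2 B h
    · exact T'.2 B h
  · exact Set.sUnion_subset_sUnion (fun B hB => Finset.mem_union_left _ hB)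
  · exact Set.sUnion_subset_sUnion (fun B hB => Finset.mem_union_right _ hB)

/-- LG2 with `𝔅` = the opens contained in a member of the family -/
theorem fcg_acycOn_sUnion [T2Space X] (A : FcD X) (S : Set (Set X)) (hopen : ∀ O ∈ S, IsOpen O)
    (h : ∀ O ∈ S, A.AcycOn O) : A.AcycOn (⋃₀ S) := by
  intro U hU hUS
  have e : U = ⋃₀ {B | ∃ O ∈ S, B = U ∩ O} := by
    ext x
    simp only [Set.mem_sUnion, Set.mem_ofPred_eq]
    constructor
    · intro hx
      obtain ⟨O, hO, hxO⟩ := hUS hx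
      exact ⟨U ∩ O, ⟨O, hO, rfl⟩, hx, hxO⟩
    · rintro ⟨_, ⟨O, _, rfl⟩, hx, _⟩
      exact hx
  rw [e]
  refine fcg_LG2 A {B | IsOpen B ∧ ∃ O ∈ S, B ⊆ O} (fun B hB => hB.1) ?_ ?_ _ ?_
  · rintro B ⟨hB, O, hO, hBO⟩ B' ⟨hB', _⟩
    exact ⟨hB.inter hB', O, hO, Set.inter_subset_left.trans hBO⟩
  · rintro B ⟨hB, O, hO, hBO⟩
    exact h O hO B hB hBO
  · rintro _ ⟨O, hO, rfl⟩
    exact ⟨hU.inter (hopen O hO), O, hO, Set.inter_subset_right⟩

theorem fcg_acycOn_union [T2Space X] (A : FcD X) {O O' : Set X} (hO : IsOpen O) (hO' : IsOpen O')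
    (h : A.AcycOn O) (h' : A.AcycOn O') : A.AcycOn (O ∪ O') := by
  have := fcg_acycOn_sUnion A {O, O'} (by
      rintro B (rfl | rfl)
      · exact hO
      · exact hO') (by
      rintro B (rfl | rfl)
      · exact h
      · exact h')
  rwa [Set.sUnion_pair] at this

theorem fcg_acycOn_mono (A : FcD X) {O O' : Set X} (hOO' : O ⊆ O') (h : A.AcycOn O') : A.AcycOn O :=
  fun U hU hUO => h U hU (hUO.trans hOO')

/-- LG2 in the form used for cylinders: a basis of `O` closed under intersections -/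
theorem fcg_acycOn_of_basis [T2Space X] (A : FcD X) (O : Set X) (𝔅 : Set (Set X))
    (hopen : ∀ B ∈ 𝔅, IsOpen B) (hinter : ∀ B ∈ 𝔅, ∀ B' ∈ 𝔅, B ∩ B' ∈ 𝔅)
    (hbasis : ∀ U, IsOpen U → U ⊆ O → ∀ x ∈ U, ∃ B ∈ 𝔅, x ∈ B ∧ B ⊆ U)
    (hac : ∀ B ∈ 𝔅, A.AcycAt B) : A.AcycOn O := by
  intro U hU hUO
  have e : U = ⋃₀ {B | B ∈ 𝔅 ∧ B ⊆ U} := by
    ext x
    simp only [Set.mem_sUnion, Set.mem_ofPred_eq]
    constructor
    · intro hx
      obtain ⟨B, hB, hxB, hBU⟩ := hbasis U hU hUO x hx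
      exact ⟨B, ⟨hB, hBU⟩, hxB⟩
    · rintro ⟨B, ⟨_, hBU⟩, hxB⟩
      exact hBU hxB
  rw [e]
  exact fcg_LG2 A 𝔅 hopen hinter hac _ (fun B hB => hB.1)

/-! ### 3. Closed sets -/

/-- `H(Γ(K)) = 0`, `Γ(K) = M / M(X ∖ K)` -/
def FcD.AcycG (A : FcD X) (K : Set X) : Prop :=
  ∀ m, Disjoint (A.supp (A.d m)) K → ∃ m', Disjoint (A.supp (m - A.d m')) K

/-- EXCISION `Γ(K) = M(W)/M(W ∖ K)`.  `m = m1 + m2` subordinate to `W ∪ Kᶜ`; `d m1 ∈ M(W ∖ K)` is a cycle `= d n`;
`m1 - n ∈ M(W)` is a cycle `= d m'`; `m - d m' = m2 + n`. -/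
theorem fcg_acycG_of_open [T2Space X] (A : FcD X) {K W : Set X} (hK : IsClosed K) (hW : IsOpen W)
    (hKW : K ⊆ W) (h1 : A.AcycAt W) (h2 : A.AcycAt (W \ K)) : A.AcycG K := by
  intro m hm
  obtain ⟨m1, m2, e, hm1, hm2⟩ := A.toFcObj.decomp hW hK.isOpen_compl m (by
    intro x _
    by_cases hxK : x ∈ K
    · exact Or.inl (hKW hxK)
    · exact Or.inr hxK)
  have hm1W : A.supp m1 ⊆ W := hm1.trans Set.inter_subset_right
  have hm2K : A.supp m2 ⊆ Kᶜ := hm2.trans Set.inter_subset_right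
  have e1 : A.d m1 = A.d m - A.d m2 := by rw [e, map_add]; abel
  have hs : A.supp (A.d m1) ⊆ W \ K := by
    intro x hx
    refine ⟨hm1W (A.d_loc _ hx), fun hxK => ?_⟩
    rw [e1] at hx
    rcases A.supp_sub _ _ hx with hx | hx
    · exact Set.disjoint_left.1 hm hx hxK
    · exact hm2K (A.d_loc _ hx) hxK
  obtain ⟨n, hn, hdn⟩ := h2 (A.d m1) hs (A.d_sq _)
  obtain ⟨m', _, hdm'⟩ := h1 (m1 - n)
    ((A.supp_sub _ _).trans (Set.union_subset hm1W (hn.trans Set.sdiff_subset)))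
    (by rw [map_sub, hdn, sub_self])
  refine ⟨m', ?_⟩
  have e2 : m - A.d m' = m2 + n := by rw [hdm', e]; abel
  rw [e2, Set.disjoint_left]
  intro x hx hxK
  rcases A.supp_add _ _ hx with hx | hx
  · exact hm2K hx hxK
  · exact (hn hx).2 hxK

/-- `m ∈ M(W)` a cycle; `m - d m'` lives off `K`; `m' = m1' + m2'` subordinate to `W ∪ Kᶜ`;
`m - d m1' ∈ M(W ∖ K)` is a cycle. -/
theorem fcg_acycAt_of_G [T2Space X] (A : FcD X) {K W : Set X} (hK : IsClosed K) (hW : IsOpen W)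
    (hKW : K ⊆ W) (h1 : A.AcycG K) (h2 : A.AcycAt (W \ K)) : A.AcycAt W := by
  intro m hm hd
  obtain ⟨m', hm'⟩ := h1 m (by rw [hd, A.supp_zero]; exact Set.empty_disjoint _)
  obtain ⟨m1, m2, e, hm1, hm2⟩ := A.toFcObj.decomp hW hK.isOpen_compl m' (by
    intro x _
    by_cases hxK : x ∈ K
    · exact Or.inl (hKW hxK)
    · exact Or.inr hxK)
  have hm1W : A.supp m1 ⊆ W := hm1.trans Set.inter_subset_right
  have hm2K : A.supp m2 ⊆ Kᶜ := hm2.trans Set.inter_subset_right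
  have e1 : m - A.d m1 = (m - A.d m') + A.d m2 := by rw [e, map_add]; abel
  have hs : A.supp (m - A.d m1) ⊆ W \ K := by
    intro x hx
    refine ⟨?_, fun hxK => ?_⟩
    · rcases A.supp_sub _ _ hx with hx | hx
      · exact hm hx
      · exact hm1W (A.d_loc _ hx)
    · rw [e1] at hx
      rcases A.supp_add _ _ hx with hx | hx
      · exact Set.disjoint_left.1 hm' hx hxK
      · exact hm2K (A.d_loc _ hx) hxK
  obtain ⟨n, hn, hdn⟩ := h2 (m - A.d m1) hs (by rw [map_sub, hd, A.d_sq, sub_zero])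
  refine ⟨m1 + n, (A.supp_add _ _).trans (Set.union_subset hm1W (hn.trans Set.sdiff_subset)), ?_⟩
  rw [map_add, hdn]; abel

/-- `m ∈ M(W ∖ K)` a cycle, `m = d a`, `a ∈ M(W)`; `a` is a relative cycle of `Γ(K)`: `a - d a'` lives off `K`;
cut `a'` into `M(W)`. -/
theorem fcg_acycAt_diff [T2Space X] (A : FcD X) {K W : Set X} (hK : IsClosed K) (hW : IsOpen W)
    (hKW : K ⊆ W) (h1 : A.AcycG K) (h2 : A.AcycAt W) : A.AcycAt (W \ K) := by
  intro m hm hd
  obtain ⟨a, ha, hda⟩ := h2 m (hm.trans Set.sdiff_subset) hd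
  obtain ⟨a', ha'⟩ := h1 a (by
    rw [hda, Set.disjoint_left]
    exact fun x hx hxK => (hm hx).2 hxK)
  obtain ⟨a1, a2, e, ha1, ha2⟩ := A.toFcObj.decomp hW hK.isOpen_compl a' (by
    intro x _
    by_cases hxK : x ∈ K
    · exact Or.inl (hKW hxK)
    · exact Or.inr hxK)
  have ha1W : A.supp a1 ⊆ W := ha1.trans Set.inter_subset_right
  have ha2K : A.supp a2 ⊆ Kᶜ := ha2.trans Set.inter_subset_right
  have e1 : a - A.d a1 = (a - A.d a') + A.d a2 := by rw [e, map_add]; abel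
  refine ⟨a - A.d a1, ?_, by rw [map_sub, A.d_sq, sub_zero, hda]⟩
  intro x hx
  refine ⟨?_, fun hxK => ?_⟩
  · rcases A.supp_sub _ _ hx with hx | hx
    · exact ha hx
    · exact ha1W (A.d_loc _ hx)
  · rw [e1] at hx
    rcases A.supp_add _ _ hx with hx | hx
    · exact Set.disjoint_left.1 ha' hx hxK
    · exact ha2K (A.d_loc _ hx) hxK

/-- an object which is locally acyclic on an open set `O` has `H(Γ(K)) = 0` for closed `K ⊆ O` -/
theorem fcg_acycG_of_acycOn [T2Space X] (A : FcD X) {K O : Set X} (hK : IsClosed K) (hO : IsOpen O)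
    (hKO : K ⊆ O) (h : A.AcycOn O) : A.AcycG K :=
  fcg_acycG_of_open A hK hO hKO (h O hO subset_rfl)
    (h _ (hO.sdiff hK) Set.sdiff_subset)

/-- CLOSED MAYER-VIETORIS.  `0 → Γ(K ∪ L) → Γ(K) ⊕ Γ(L) → Γ(K ∩ L) → 0`. -/
theorem fcg_mvG [T2Space X] (A : FcD X) {K L : Set X} (hK : IsClosed K) (hL : IsClosed L)
    (h1 : A.AcycG K) (h2 : A.AcycG L) (h3 : A.AcycG (K ∩ L)) : A.AcycG (K ∪ L) := by
  intro m hm
  rw [Set.disjoint_union_right] at hm
  obtain ⟨a, ha⟩ := h1 m hm.1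
  obtain ⟨b, hb⟩ := h2 m hm.2
  obtain ⟨c, hc⟩ := h3 (a - b) (by
    have e : A.d (a - b) = (m - A.d b) - (m - A.d a) := by rw [map_sub]; abel
    rw [e, Set.disjoint_left]
    rintro x hx ⟨hxK, hxL⟩
    rcases A.supp_sub _ _ hx with hx | hx
    · exact Set.disjoint_left.1 hb hx hxL
    · exact Set.disjoint_left.1 ha hx hxK)
  obtain ⟨n1, n2, e, hn1, hn2⟩ := A.toFcObj.decomp hK.isOpen_compl hL.isOpen_compl
    (a - b - A.d c) (by
      intro x hx
      by_cases hxK : x ∈ K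
      · exact Or.inr fun hxL => Set.disjoint_left.1 hc hx ⟨hxK, hxL⟩
      · exact Or.inl hxK)
  have hn1K : A.supp n1 ⊆ Kᶜ := hn1.trans Set.inter_subset_right
  have hn2L : A.supp n2 ⊆ Lᶜ := hn2.trans Set.inter_subset_right
  refine ⟨a - n1, ?_⟩
  rw [Set.disjoint_union_right]
  constructor
  · have e1 : m - A.d (a - n1) = (m - A.d a) + A.d n1 := by rw [map_sub]; abel
    rw [e1, Set.disjoint_left]
    intro x hx hxK
    rcases A.supp_add _ _ hx with hx | hx
    · exact Set.disjoint_left.1 ha hx hxK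
    · exact hn1K (A.d_loc _ hx) hxK
  · have e0 : a - n1 = b + A.d c + n2 := by
      have : a = (a - b - A.d c) + b + A.d c := by abel
      rw [this, e]; abel
    have e1 : m - A.d (a - n1) = (m - A.d b) - A.d n2 := by
      rw [e0, map_add, map_add, A.d_sq]; abel
    rw [e1, Set.disjoint_left]
    intro x hx hxL
    rcases A.supp_sub _ _ hx with hx | hx
    · exact Set.disjoint_left.1 hb hx hxL
    · exact hn2L (A.d_loc _ hx) hxL

theorem fcg_acycG_empty (A : FcD X) : A.AcycG ∅ := fun _ _ => ⟨0, Set.disjoint_empty _⟩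

/-! ### 4. Quasi-isomorphisms on sections -/

/-- `f` induces an isomorphism `H(A(U)) → H(B(U))` -/
def FcHom.QiAt {A B : FcD X} (f : FcHom A B) (U : Set X) : Prop :=
  (∀ b, B.supp b ⊆ U → B.d b = 0 →
    ∃ a b', A.supp a ⊆ U ∧ A.d a = 0 ∧ B.supp b' ⊆ U ∧ b = f.f a + B.d b') ∧
  (∀ a b', A.supp a ⊆ U → A.d a = 0 → B.supp b' ⊆ U → f.f a = B.d b' →
    ∃ a', A.supp a' ⊆ U ∧ a = A.d a')

/-- the differential of the cone -/
theorem fcg_cone_d {A B : FcD X} (f : FcHom A B) (a : A.C) (b : B.C) :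
    (fcCone f).d (a, b) = (-A.d a, f.f a + B.d b) := rfl

theorem fcg_cone_supp {A B : FcD X} (f : FcHom A B) (a : A.C) (b : B.C) :
    (fcCone f).supp (a, b) = A.supp a ∪ B.supp b := rfl

/-- direct computation with `D (a, b) = (- d a, f a + d b)` -/
theorem fcg_cone_acycAt_iff {A B : FcD X} (f : FcHom A B) (U : Set X) :
    (fcCone f).AcycAt U ↔ f.QiAt U := by
  constructor
  · intro h
    constructor
    · intro b hb hd
      obtain ⟨⟨a', b'⟩, hs, hD⟩ := h (0, b) (by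
          show A.supp 0 ∪ B.supp b ⊆ U
          rw [A.supp_zero, Set.empty_union]; exact hb) (by
          show (-(A.d 0), f.f 0 + B.d b) = 0
          rw [hd]; simp)
      have hD' : (-(A.d a'), f.f a' + B.d b') = ((0 : A.C), b) := hD
      have e1 : A.d a' = 0 := by simpa using congrArg Prod.fst hD'
      exact ⟨a', b', Set.subset_union_left.trans hs, e1, Set.subset_union_right.trans hs,
        (congrArg Prod.snd hD').symm⟩
    · intro a b' ha hd hb' hfa
      obtain ⟨⟨a', b''⟩, hs, hD⟩ := h (a, -b') (Set.union_subset ha ((B.supp_neg _).trans hb')) (by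
          show (-(A.d a), f.f a + B.d (-b')) = 0
          rw [hd, hfa, map_neg]; simp)
      have hD' : (-(A.d a'), f.f a' + B.d b'') = (a, -b') := hD
      refine ⟨-a', (A.supp_neg _).trans (Set.subset_union_left.trans hs), ?_⟩
      rw [map_neg]
      exact (congrArg Prod.fst hD').symm
  · rintro ⟨hsurj, hinj⟩ ⟨a, b⟩ hs hD
    have hD' : (-(A.d a), f.f a + B.d b) = (0 : A.C × B.C) := hD
    have ha : A.supp a ⊆ U := Set.subset_union_left.trans hs
    have hb : B.supp b ⊆ U := Set.subset_union_right.trans hs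
    have e1 : A.d a = 0 := by simpa using congrArg Prod.fst hD'
    have e2 : f.f a + B.d b = 0 := congrArg Prod.snd hD'
    obtain ⟨a', ha', hda'⟩ := hinj a (-b) ha e1 ((B.supp_neg _).trans hb) (by
      rw [map_neg]; exact eq_neg_of_add_eq_zero_left e2)
    obtain ⟨a'', b'', ha'', hda'', hb'', e3⟩ := hsurj (b + f.f a')
      ((B.supp_add _ _).trans (Set.union_subset hb ((f.loc _).trans ha')))
      (by rw [map_add, ← f.comm, ← hda', add_comm]; exact e2)
    refine ⟨(-a' + a'', b''), Set.union_subset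
      ((A.supp_add _ _).trans (Set.union_subset ((A.supp_neg _).trans ha') ha'')) hb'', ?_⟩
    show (-(A.d (-a' + a'')), f.f (-a' + a'') + B.d b'') = (a, b)
    refine Prod.ext ?_ ?_
    · show -(A.d (-a' + a'')) = a
      rw [map_add, map_neg, hda'', ← hda']; abel
    · show f.f (-a' + a'') + B.d b'' = b
      have : b = (b + f.f a') - f.f a' := by abel
      rw [this, e3, map_add, map_neg]; abel

theorem fcg_qiAt_comp {A B C : FcD X} (f : FcHom A B) (g : FcHom B C) (U : Set X)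
    (hf : f.QiAt U) (hg : g.QiAt U) : (g.comp f).QiAt U := by
  constructor
  · intro c hc hd
    obtain ⟨b, c', hb, hdb, hc', e⟩ := hg.1 c hc hd
    obtain ⟨a, b', ha, hda, hb', e'⟩ := hf.1 b hb hdb
    refine ⟨a, g.f b' + c', ha, hda,
      (C.supp_add _ _).trans (Set.union_subset ((g.loc _).trans hb') hc'), ?_⟩
    show c = g.f (f.f a) + C.d (g.f b' + c')
    rw [e, e', map_add, map_add, g.comm]; abel
  · intro a c' ha hda hc' e
    obtain ⟨b', hb', e'⟩ := hg.2 (f.f a) c' ((f.loc _).trans ha) (by rw [← f.comm, hda, map_zero]) hc' e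
    exact hf.2 a b' ha hda hb' e'

theorem fcg_qiAt_of_comp_left {A B C : FcD X} (f : FcHom A B) (g : FcHom B C) (U : Set X)
    (hg : g.QiAt U) (hgf : (g.comp f).QiAt U) : f.QiAt U := by
  constructor
  · intro b hb hd
    obtain ⟨a, c', ha, hda, hc', e⟩ := hgf.1 (g.f b) ((g.loc _).trans hb) (by rw [← g.comm, hd, map_zero])
    have e' : g.f b = g.f (f.f a) + C.d c' := e
    obtain ⟨b', hb', e''⟩ := hg.2 (b - f.f a) c'
      ((B.supp_sub _ _).trans (Set.union_subset hb ((f.loc _).trans ha)))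
      (by rw [map_sub, hd, ← f.comm, hda, map_zero, sub_zero]) hc' (by rw [map_sub, e']; abel)
    exact ⟨a, b', ha, hda, hb', by rw [← e'']; abel⟩
  · intro a b' ha hda hb' e
    refine hgf.2 a (g.f b') ha hda ((g.loc _).trans hb') ?_
    show g.f (f.f a) = C.d (g.f b')
    rw [e, g.comm]

theorem fcg_qiAt_of_comp_right {A B C : FcD X} (f : FcHom A B) (g : FcHom B C) (U : Set X)
    (hf : f.QiAt U) (hgf : (g.comp f).QiAt U) : g.QiAt U := by
  constructor
  · intro c hc hd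
    obtain ⟨a, c', ha, hda, hc', e⟩ := hgf.1 c hc hd
    exact ⟨f.f a, c', (f.loc _).trans ha, by rw [← f.comm, hda, map_zero], hc', e⟩
  · intro b c' hb hdb hc' e
    obtain ⟨a, b', ha, hda, hb', e'⟩ := hf.1 b hb hdb
    obtain ⟨a', ha', e''⟩ := hgf.2 a (c' - g.f b') ha hda
      ((C.supp_sub _ _).trans (Set.union_subset hc' ((g.loc _).trans hb'))) (by
        show g.f (f.f a) = C.d (c' - g.f b')
        rw [map_sub, ← e, ← g.comm, e', map_add]; abel)
    refine ⟨f.f a' + b', (B.supp_add _ _).trans (Set.union_subset ((f.loc _).trans ha') hb'), ?_⟩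
    rw [map_add, ← f.comm, ← e'', e']

/-- criterion: an injective chain map `Φ : C' → C` with `H(C(W)/C'(W)) = 0` for all opens `W` has locally acyclic cone -/
theorem fcg_sub_acyc {C' C : FcD X} (Φ : FcHom C' C) (hinj : ∀ c', Φ.f c' = 0 → c' = 0)
    (hrel : ∀ W, IsOpen W → ∀ c, C.supp c ⊆ W → (∃ c', C'.supp c' ⊆ W ∧ Φ.f c' = C.d c) →
      ∃ e c'', C.supp e ⊆ W ∧ C'.supp c'' ⊆ W ∧ c = C.d e + Φ.f c'') :
    (fcCone Φ).Acyc := by
  rintro W hW _ ⟨c', c⟩ hm hd
  have hd' : (-(C'.d c'), Φ.f c' + C.d c) = (0 : C'.C × C.C) := hd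
  have h2 : Φ.f c' + C.d c = 0 := congrArg Prod.snd hd'
  have hc' : C'.supp c' ⊆ W := Set.subset_union_left.trans hm
  have hc : C.supp c ⊆ W := Set.subset_union_right.trans hm
  obtain ⟨e, c'', he, hc'', hce⟩ := hrel W hW c hc ⟨-c', (C'.supp_neg _).trans hc', by
    rw [map_neg]; exact neg_eq_of_add_eq_zero_right h2⟩
  refine ⟨(c'', e), Set.union_subset hc'' he, ?_⟩
  show (-(C'.d c''), Φ.f c'' + C.d e) = (c', c)
  refine Prod.ext ?_ ?_
  · show -(C'.d c'') = c'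
    have h3 : Φ.f (C'.d c'' + c') = 0 := by
      rw [map_add, Φ.comm]
      have h4 : C.d c = C.d (Φ.f c'') := by rw [hce, map_add, C.d_sq, zero_add]
      rw [← h4, add_comm]; exact h2
    exact neg_eq_of_add_eq_zero_right (hinj _ h3)
  · show Φ.f c'' + C.d e = c
    rw [hce, add_comm]

/-- if `A` is acyclic off the closed set `C ⊆ V` (`V` open) then `A(V) → A` is a local quasi-isomorphism
(`O = (V ∩ O) ∪ (O ∖ C)`, `fcg_mv_left` for the cone / direct argument) -/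
theorem fcg_res_qi [T2Space X] (A : FcD X) {C V : Set X} (hC : IsClosed C) (hV : IsOpen V)
    (hCV : C ⊆ V) (h : A.AcycOn Cᶜ) : (fcCone (fcResIncl A V)).Acyc := by
  apply fcg_sub_acyc
  · intro c' hc'
    exact Subtype.ext hc'
  · rintro W hW c hc ⟨c', hc'W, hD⟩
    have hD' : c'.1 = A.d c := hD
    obtain ⟨c₁, c₂, hcc, h1, h2⟩ := A.toFcObj.decomp (hV.inter hW) (hW.inter hC.isOpen_compl) c (by
      intro x hx
      by_cases hxC : x ∈ C
      · exact Or.inl ⟨hCV hxC, hc hx⟩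
      · exact Or.inr ⟨hc hx, hxC⟩)
    have hc1V : A.supp c₁ ⊆ V := fun x hx => (h1 hx).2.1
    have hc1W : A.supp c₁ ⊆ W := fun x hx => (h1 hx).2.2
    have hc2W : A.supp c₂ ⊆ W := fun x hx => (h2 hx).2.1
    have hc2C : A.supp c₂ ⊆ Cᶜ := fun x hx => (h2 hx).2.2
    have key : A.d c₂ = c'.1 - A.d c₁ := by
      rw [hD', hcc, map_add]; abel
    have hs : A.supp (A.d c₂) ⊆ (V ∩ W) ∩ Cᶜ := by
      intro x hx
      refine ⟨⟨?_, hc2W (A.d_loc _ hx)⟩, hc2C (A.d_loc _ hx)⟩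
      rw [key] at hx
      rcases A.supp_sub _ _ hx with hx | hx
      · exact c'.2 hx
      · exact hc1V (A.d_loc _ hx)
    obtain ⟨n, hn, hdn⟩ := h _ ((hV.inter hW).inter hC.isOpen_compl) Set.inter_subset_right
      (A.d c₂) hs (A.d_sq _)
    obtain ⟨e, he, hde⟩ := h _ (hW.inter hC.isOpen_compl) Set.inter_subset_right (c₂ - n)
      ((A.supp_sub _ _).trans (Set.union_subset (Set.subset_inter hc2W hc2C)
        (fun x hx => ⟨(hn hx).1.2, (hn hx).2⟩)))
      (by rw [map_sub, hdn, sub_self])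
    refine ⟨e, ⟨c₁ + n, (A.supp_add _ _).trans (Set.union_subset hc1V (fun x hx => (hn hx).1.1))⟩,
      he.trans Set.inter_subset_left,
      (A.supp_add _ _).trans (Set.union_subset hc1W (fun x hx => (hn hx).1.2)), ?_⟩
    show c = A.d e + (c₁ + n)
    rw [hde, hcc]; abel

/-! ### 5. The dual -/

/-- THE KEY PROPERTY of the support of a functional: `φ` vanishes on every `m` whose support misses `supp φ`
(`supp m` is compact and covered by opens `U` with `φ = 0` on `M(U)`: `fcg_splitN`). -/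
theorem fcg_dual_vanish [T2Space X] (A : FcObj X) (φ : Module.Dual ℝ A.carrier) (m : A.carrier)
    (h : Disjoint (A.supp m) (A.dualSupp φ)) : φ m = 0 := by
  exact A.dual_apply_eq_zero φ m h

theorem fcg_dualSupp_subset_iff [T2Space X] (A : FcObj X) (φ : Module.Dual ℝ A.carrier) (K : Set X)
    (hK : IsClosed K) : A.dualSupp φ ⊆ K ↔ ∀ m, Disjoint (A.supp m) K → φ m = 0 := by
  exact ⟨fun hs m hm => A.dual_apply_eq_zero φ m (Set.disjoint_of_subset_right hs hm),
    fun h => A.dualSupp_subset_of_closed φ hK h⟩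

/-- a functional vanishing off a compact set, as an element of the dual -/
def fcgMkDual [T2Space X] (A : FcD X) (φ : A.C →ₗ[ℝ] ℝ) (K : Set X) (hK : IsCompact K)
    (h : ∀ m, Disjoint (A.supp m) K → φ m = 0) : A.dual.C :=
  ⟨φ, K, hK, h⟩

theorem fcgMkDual_supp [T2Space X] (A : FcD X) (φ : A.C →ₗ[ℝ] ℝ) (K : Set X) (hK : IsCompact K)
    (h : ∀ m, Disjoint (A.supp m) K → φ m = 0) : A.dual.supp (fcgMkDual A φ K hK h) ⊆ K := by
  exact A.toFcObj.dualSupp_subset_of_closed φ hK.isClosed h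

/-- `H(M^∨(U)) = colim_K H(Γ(K))^*`, vanishing part: `φ ∈ M^∨(U)` closed, `K' ⊇ supp φ`; `fcg_dv_dual` with
`W' = M(X ∖ K')`. -/
theorem fcg_dual_acycAt [T2Space X] (A : FcD X) (U : Set X)
    (h : ∀ K, IsCompact K → K ⊆ U → ∃ K', IsCompact K' ∧ K ⊆ K' ∧ K' ⊆ U ∧ A.AcycG K') :
    A.dual.AcycAt U := by
  intro φ hφ hd
  have hφd : ∀ m, φ.1 (A.d m) = 0 := fun m => congrArg (fun ψ : A.dual.C => ψ.1 m) hd
  obtain ⟨K', hK', hKK', hK'U, hG⟩ := h (A.dualSupp φ.1) (A.toFcObj.dual.supp_compact φ) hφ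
  obtain ⟨ψ, hψ0, hψ1⟩ := fcg_dv_dual A.d (A.sec K'ᶜ) (by
      intro v _ hdv
      obtain ⟨w, hw⟩ := hG v (Set.disjoint_left.2 fun x hx hxK => hdv hx hxK)
      exact ⟨w, Submodule.mem_top, fun x hx hxK => Set.disjoint_left.1 hw hx hxK⟩) φ.1
    (fun v hv => A.toFcObj.dual_apply_eq_zero φ.1 v
      (Set.disjoint_left.2 fun x hx hxK => hv hx (hKK' hxK))) hφd
  have hψ0' : ∀ m, Disjoint (A.supp m) K' → ψ m = 0 := fun m hm =>
    hψ0 m (fun x hx hxK => Set.disjoint_left.1 hm hx hxK)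
  refine ⟨⟨ψ, K', hK', hψ0'⟩, ?_, ?_⟩
  · exact (A.toFcObj.dualSupp_subset_of_closed ψ hK'.isClosed hψ0').trans hK'U
  · apply Subtype.ext
    apply LinearMap.ext
    intro m
    exact hψ1 m

theorem fcg_dual_acycOn [T2Space X] (A : FcD X) {O : Set X} (hO : IsOpen O) (h : A.AcycOn O) :
    A.dual.AcycOn O := by
  exact FcD.AcycOn.dual h

/-- realises the equation lemmas here (unique names) -/
theorem fcg_defs_eqns_cite : True := by
  have := @FcgRelAcyc.eq_1
  have := @FcD.AcycG.eq_1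
  have := @FcHom.QiAt.eq_1
  have := @fcgMkDual.eq_1
  trivial

end Claimed.Agent.R304
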