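/-
Row 304 (S0559, Hilbert-Smith).  Owner/designer: helper154.  LAYER S, package `FcFin`:
the FINITENESS PROPERTY `FT` of differential objects of `FC(X)`, `X` locally compact Hausdorff.  Prefix `fcf` / `Fcf`.

  `A.FinAt O O'` : the map `H(A(O)) → H(A(O'))` has finite rank;
  `A.FT`         : `A.FinAt O O'` for all opens `O ⋐ O'` (closure of `O` compact and contained in `O'`).

RESULTS (all proofs are elementary linear algebra + cut-off operators; proofs in the docstrings)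
 0. finite rank for differential vector spaces: the three TWO-STEP lemmas (`fcf_rk_total/quot/sub`).
 1. `FT` is a thick property (iso, resc, sums, summands, acyclic objects, two-out-of-three for cones).
 2. `FT ⇒` the restriction `H(Γ(K')) → H(Γ(K))` has finite rank for `K ⊆ interior K'`  (`fcf_finG`)
 3. `FT ⇒ A^∨` has `FT`                                                        (`fcf_dual`)
 4. `FT ⇒ cone (A → A^∨∨)` is locally acyclic  (REFLEXIVITY)                    (`fcf_refl`)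
 5. `FT` + acyclic off a compact set `⇒ g_! A` has `FT`, for EVERY continuous `g`  (`fcf_push`)
 6. `FT` may be checked on a basis closed under finite intersections            (`fcf_basis`)
 7. the intrinsic thick class `fcfCls X` (`FT` + acyclic off a compact set); it is reflexive; over a point it is the
    class of objects with finite dimensional homology.
 8. every class `FcThick G` generated by objects with `FT` consists of objects with `FT` (`fcf_thick`).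

CONVENTION for finite rank: NO quotient spaces.  "`Z → H` has finite rank" is written
  `∃ E finite dimensional, ∀ z ∈ Z, ∃ e ∈ E, z - e is zero in H`.
This form is pointwise, so it can be pre- and post-composed with arbitrary (non linear) constructions.
The only place where linear algebra enters is `fcf_lin_compl`.
Estimated total: 1500 lines.
-/
import Claimed.Agent.R304.FcLG

set_option autoImplicit false

namespace Claimed.Agent.R304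

open Topology

/-! ### 0. Finite rank for differential vector spaces -/

section Dv

variable {V : Type} [AddCommGroup V] [Module ℝ V]

/-- `H(W₁/W₁') → H(W₂/W₂')` has finite rank -/
def FcfFinRk (d : V →ₗ[ℝ] V) (W₁ W₁' W₂ W₂' : Submodule ℝ V) : Prop :=
  ∃ E : Submodule ℝ V, Module.Finite ℝ E ∧
    ∀ v ∈ W₁, d v ∈ W₁' → ∃ e ∈ E, ∃ w ∈ W₂, v - e - d w ∈ W₂'

/-- `fcf_lin_compl_map`, stated first because `fcf_lin_compl` is deduced from it -/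
theorem fcf_lin_compl_map_aux {V' : Type} [AddCommGroup V'] [Module ℝ V'] (f : V →ₗ[ℝ] V')
    (Z : Submodule ℝ V) (B E : Submodule ℝ V') (hE : Module.Finite ℝ E) (h : Z.map f ≤ E ⊔ B) :
    ∃ E₃ : Submodule ℝ V, Module.Finite ℝ E₃ ∧ E₃ ≤ Z ∧ Z ≤ E₃ ⊔ (Z ⊓ B.comap f) := by
  -- complement of `Z ⊓ f⁻¹ B` inside `Z`
  obtain ⟨Q, hQ⟩ := Submodule.exists_isCompl ((Z ⊓ B.comap f).comap Z.subtype)
  -- the map `Q → (E.map mkQ)`
  have hmem : ∀ q : Q, B.mkQ (f (q : Z)) ∈ E.map B.mkQ := by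
    intro q
    have h1 : f (q : Z) ∈ E ⊔ B := h (Submodule.mem_map_of_mem (q : Z).2)
    obtain ⟨e, he, b, hb, heb⟩ := Submodule.mem_sup.1 h1
    refine ⟨e, he, ?_⟩
    rw [← heb, map_add, (Submodule.Quotient.mk_eq_zero B).2 hb |> fun t => (by simpa using t : B.mkQ b = 0),
      add_zero]
  let φ : Q →ₗ[ℝ] E.map B.mkQ :=
    LinearMap.codRestrict (E.map B.mkQ) (B.mkQ ∘ₗ f ∘ₗ Z.subtype ∘ₗ Q.subtype) hmem
  have hφ : Function.Injective φ := by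
    rw [← LinearMap.ker_eq_bot, LinearMap.ker_eq_bot']
    intro q hq
    have h1 : B.mkQ (f (q : Z)) = 0 := congrArg Subtype.val hq
    have h2 : f (q : Z) ∈ B := by simpa using h1
    have h3 : (q : Z) ∈ (Z ⊓ B.comap f).comap Z.subtype := ⟨(q : Z).2, h2⟩
    have h4 : (q : Z) ∈ (Z ⊓ B.comap f).comap Z.subtype ⊓ Q := ⟨h3, q.2⟩
    rw [hQ.inf_eq_bot, Submodule.mem_bot] at h4
    exact Subtype.ext h4
  have : Module.Finite ℝ (E.map B.mkQ) := inferInstance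
  have : Module.Finite ℝ Q := Module.Finite.of_injective φ hφ
  refine ⟨Q.map Z.subtype, inferInstance, ?_, ?_⟩
  · rintro _ ⟨q, _, rfl⟩
    exact q.2
  · intro z hz
    have h1 : (⟨z, hz⟩ : Z) ∈ (Z ⊓ B.comap f).comap Z.subtype ⊔ Q := by rw [hQ.sup_eq_top]; trivial
    obtain ⟨p, hp, q, hq, hpq⟩ := Submodule.mem_sup.1 h1
    have h2 : z = (q : V) + (p : V) := by
      have := congrArg Subtype.val hpq
      simp only [Submodule.coe_add] at this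
      rw [← this, add_comm]
    rw [h2]
    exact Submodule.add_mem_sup (Submodule.mem_map_of_mem hq) hp

/-- THE linear algebra lemma.  `Z/(Z ⊓ Z')` embeds into `(E ⊔ Z')/Z'`, a quotient of `E`; take a complement of
`Z ⊓ Z'` in `Z` (`Submodule.exists_isCompl`). -/
theorem fcf_lin_compl (Z Z' E : Submodule ℝ V) (hE : Module.Finite ℝ E) (h : Z ≤ E ⊔ Z') :
    ∃ E₃ : Submodule ℝ V, Module.Finite ℝ E₃ ∧ E₃ ≤ Z ∧ Z ≤ E₃ ⊔ (Z ⊓ Z') := by
  have := fcf_lin_compl_map_aux (LinearMap.id : V →ₗ[ℝ] V) Z Z' E hE (by rwa [Submodule.map_id])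
  rwa [Submodule.comap_id] at this

/-- the same for the preimage under a linear map: if `f Z ≤ E ⊔ B` then `Z ⊓ f⁻¹ B` has a finite dimensional
complement in `Z`.  (`fcf_lin_compl` for `f Z`, lift a basis.) -/
theorem fcf_lin_compl_map {V' : Type} [AddCommGroup V'] [Module ℝ V'] (f : V →ₗ[ℝ] V')
    (Z : Submodule ℝ V) (B E : Submodule ℝ V') (hE : Module.Finite ℝ E) (h : Z.map f ≤ E ⊔ B) :
    ∃ E₃ : Submodule ℝ V, Module.Finite ℝ E₃ ∧ E₃ ≤ Z ∧ Z ≤ E₃ ⊔ (Z ⊓ B.comap f) :=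
  fcf_lin_compl_map_aux f Z B E hE h

theorem fcf_rk_mono (d : V →ₗ[ℝ] V) {W₁ W₁' W₂ W₂' U₁ U₁' U₂ U₂' : Submodule ℝ V}
    (h1 : U₁ ≤ W₁) (h1' : U₁' ≤ W₁') (h2 : W₂ ≤ U₂) (h2' : W₂' ≤ U₂')
    (h : FcfFinRk d W₁ W₁' W₂ W₂') : FcfFinRk d U₁ U₁' U₂ U₂' := by
  obtain ⟨E, hE, hh⟩ := h
  refine ⟨E, hE, fun v hv hdv => ?_⟩
  obtain ⟨e, he, w, hw, hvw⟩ := hh v (h1 hv) (h1' hdv)
  exact ⟨e, he, w, h2 hw, h2' hvw⟩

/-- relative cycles -/
def fcfZ (d : V →ₗ[ℝ] V) (W W' : Submodule ℝ V) : Submodule ℝ V := W ⊓ W'.comap d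

/-- relative boundaries -/
def fcfB (d : V →ₗ[ℝ] V) (W W' : Submodule ℝ V) : Submodule ℝ V := W.map d ⊔ W'

theorem fcf_mem_B (d : V →ₗ[ℝ] V) (W W' : Submodule ℝ V) (v : V) :
    v ∈ fcfB d W W' ↔ ∃ w ∈ W, v - d w ∈ W' := by
  unfold fcfB
  rw [Submodule.mem_sup]
  constructor
  · rintro ⟨_, ⟨w, hw, rfl⟩, r, hr, rfl⟩
    exact ⟨w, hw, by simpa using hr⟩
  · rintro ⟨w, hw, hr⟩
    exact ⟨d w, Submodule.mem_map_of_mem hw, v - d w, hr, by abel⟩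

theorem fcf_rk_iff (d : V →ₗ[ℝ] V) (W₁ W₁' W₂ W₂' : Submodule ℝ V) :
    FcfFinRk d W₁ W₁' W₂ W₂' ↔
      ∃ E : Submodule ℝ V, Module.Finite ℝ E ∧ fcfZ d W₁ W₁' ≤ E ⊔ fcfB d W₂ W₂' := by
  constructor
  · rintro ⟨E, hE, h⟩
    refine ⟨E, hE, fun v hv => ?_⟩
    obtain ⟨e, he, w, hw, hr⟩ := h v hv.1 hv.2
    have : v = e + (v - e) := by abel
    rw [this]
    exact Submodule.add_mem_sup he ((fcf_mem_B d W₂ W₂' _).2 ⟨w, hw, hr⟩)
  · rintro ⟨E, hE, h⟩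
    refine ⟨E, hE, fun v hv hdv => ?_⟩
    obtain ⟨e, he, b, hb, rfl⟩ := Submodule.mem_sup.1 (h ⟨hv, hdv⟩)
    obtain ⟨w, hw, hr⟩ := (fcf_mem_B d W₂ W₂' b).1 hb
    exact ⟨e, he, w, hw, by simpa using hr⟩

/-- TOTAL from QUOTIENT + SUB.  `v ∈ W₁`, `d v ∈ W₁''`.  Modulo `E₁`: `v' = v - d w ∈ W₂'`, `d v' = d v ∈ W₂''`;
modulo `E₂`: `v' - d w' ∈ W₃''`.  Rigorously: `Z = {v ∈ W₁ | d v ∈ W₁''}`, `Z₁' = {v | ∃ w ∈ W₂, v - d w ∈ W₂'}`,
`Z₀' = {v | ∃ w ∈ W₃, v - d w ∈ W₃''}` are subspaces, `Z ≤ E₁ ⊔ Z₁'`, `Z ⊓ Z₁' ≤ E₂ ⊔ Z₀'`; `fcf_lin_compl`. -/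
theorem fcf_rk_total (d : V →ₗ[ℝ] V) (hd : ∀ v, d (d v) = 0)
    {W₁ W₁' W₁'' W₂ W₂' W₂'' W₃ W₃' W₃'' : Submodule ℝ V}
    (h1 : W₁'' ≤ W₁') (h12'' : W₁'' ≤ W₂'') (h23 : W₂ ≤ W₃) (h3 : W₃' ≤ W₃)
    (hq : FcfFinRk d W₁ W₁' W₂ W₂') (hs : FcfFinRk d W₂' W₂'' W₃' W₃'') :
    FcfFinRk d W₁ W₁'' W₃ W₃'' := by
  obtain ⟨E₁, hE₁, hq⟩ := (fcf_rk_iff d _ _ _ _).1 hq
  obtain ⟨E₂, hE₂, hs⟩ := hs
  have hZ : fcfZ d W₁ W₁'' ≤ E₁ ⊔ fcfB d W₂ W₂' := fun v hv => hq ⟨hv.1, h1 hv.2⟩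
  obtain ⟨E₃, hE₃, _, hZ3⟩ := fcf_lin_compl _ _ _ hE₁ hZ
  refine ⟨E₃ ⊔ E₂, inferInstance, fun v hv hdv => ?_⟩
  obtain ⟨e₃, he₃, z, hz, rfl⟩ := Submodule.mem_sup.1 (hZ3 ⟨hv, hdv⟩)
  obtain ⟨w, hw, hr⟩ := (fcf_mem_B d W₂ W₂' z).1 hz.2
  have hdz : d (z - d w) ∈ W₂'' := by
    rw [map_sub, hd, sub_zero]
    exact h12'' hz.1.2
  obtain ⟨e₂, he₂, w', hw', hr'⟩ := hs _ hr hdz
  refine ⟨e₃ + e₂, Submodule.add_mem_sup he₃ he₂, w + w', W₃.add_mem (h23 hw) (h3 hw'), ?_⟩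
  have : e₃ + z - (e₃ + e₂) - d (w + w') = z - d w - e₂ - d w' := by
    rw [map_add]; abel
  rw [this]
  exact hr'

/-- QUOTIENT from SUB (connecting map) + TOTAL.  `v ∈ W₁`, `u = d v ∈ W₁'`, `d u = 0`.  Modulo `E₁`:
`u - d w' ∈ W₂''` with `w' ∈ W₂'`; then `v - w' ∈ W₂`, `d (v - w') ∈ W₂''`; modulo `E₂`: `v - w' - d w ∈ W₃''`;
so `v - d w ∈ W₃'`.  Rigorously with `fcf_lin_compl_map` for `f = d`. -/
theorem fcf_rk_quot (d : V →ₗ[ℝ] V) (hd : ∀ v, d (d v) = 0)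
    {W₁ W₁' W₁'' W₂ W₂' W₂'' W₃ W₃' W₃'' : Submodule ℝ V}
    (h12 : W₁ ≤ W₂) (h2 : W₂' ≤ W₂) (h23' : W₂' ≤ W₃') (h3 : W₃'' ≤ W₃')
    (hs : FcfFinRk d W₁' W₁'' W₂' W₂'') (ht : FcfFinRk d W₂ W₂'' W₃ W₃'') :
    FcfFinRk d W₁ W₁' W₃ W₃' := by
  obtain ⟨E₁, hE₁, hs⟩ := (fcf_rk_iff d _ _ _ _).1 hs
  obtain ⟨E₂, hE₂, ht⟩ := ht
  have hZ : (fcfZ d W₁ W₁').map d ≤ E₁ ⊔ fcfB d W₂' W₂'' := by
    rintro _ ⟨v, hv, rfl⟩
    refine hs ⟨hv.2, ?_⟩
    show d (d v) ∈ W₁''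
    rw [hd]; exact W₁''.zero_mem
  obtain ⟨E₃, hE₃, _, hZ3⟩ := fcf_lin_compl_map d _ _ _ hE₁ hZ
  refine ⟨E₃ ⊔ E₂, inferInstance, fun v hv hdv => ?_⟩
  obtain ⟨e₃, he₃, z, hz, rfl⟩ := Submodule.mem_sup.1 (hZ3 ⟨hv, hdv⟩)
  obtain ⟨w', hw', hr⟩ := (fcf_mem_B d W₂' W₂'' (d z)).1 hz.2
  have hzw : z - w' ∈ W₂ := W₂.sub_mem (h12 hz.1.1) (h2 hw')
  have hdz : d (z - w') ∈ W₂'' := by rw [map_sub]; exact hr
  obtain ⟨e₂, he₂, w, hw, hr'⟩ := ht _ hzw hdz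
  refine ⟨e₃ + e₂, Submodule.add_mem_sup he₃ he₂, w, hw, ?_⟩
  have : e₃ + z - (e₃ + e₂) - d w = (z - w' - e₂ - d w) + w' := by abel
  rw [this]
  exact W₃'.add_mem (h3 hr') (h23' hw')

/-- SUB from TOTAL + QUOTIENT (connecting map).  `v ∈ W₁'`, `d v ∈ W₁''`.  Modulo `E₁`: `v - d w ∈ W₂''`, `w ∈ W₂`;
then `d w ∈ W₂'`; modulo `E₂`: `w - d u ∈ W₃'`, `=: w'`, `d w' = d w`, `v - d w' ∈ W₃''`.  Rigorously: work in the space
`S = {(v, w) | v ∈ W₁', d v ∈ W₁'', w ∈ W₂, v - d w ∈ W₂''}` and use `fcf_lin_compl_map` for the second projection. -/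
theorem fcf_rk_sub (d : V →ₗ[ℝ] V) (hd : ∀ v, d (d v) = 0)
    {W₁ W₁' W₁'' W₂ W₂' W₂'' W₃ W₃' W₃'' : Submodule ℝ V}
    (h1 : W₁' ≤ W₁) (h12' : W₁' ≤ W₂') (h2 : W₂'' ≤ W₂') (h23'' : W₂'' ≤ W₃'')
    (ht : FcfFinRk d W₁ W₁'' W₂ W₂'') (hq : FcfFinRk d W₂ W₂' W₃ W₃') :
    FcfFinRk d W₁' W₁'' W₃' W₃'' := by
  obtain ⟨E₁, hE₁, ht⟩ := (fcf_rk_iff d _ _ _ _).1 ht
  obtain ⟨E₂, hE₂, hq⟩ := hq
  have hZ : fcfZ d W₁' W₁'' ≤ E₁ ⊔ fcfB d W₂ W₂'' := fun v hv => ht ⟨h1 hv.1, hv.2⟩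
  obtain ⟨E₃, hE₃, _, hZ3⟩ := fcf_lin_compl _ _ _ hE₁ hZ
  refine ⟨E₃ ⊔ E₂.map d, inferInstance, fun v hv hdv => ?_⟩
  obtain ⟨e₃, he₃, z, hz, rfl⟩ := Submodule.mem_sup.1 (hZ3 ⟨hv, hdv⟩)
  obtain ⟨w, hw, hr⟩ := (fcf_mem_B d W₂ W₂'' z).1 hz.2
  have hdw : d w ∈ W₂' := by
    have : d w = z - (z - d w) := by abel
    rw [this]
    exact W₂'.sub_mem (h12' hz.1.1) (h2 hr)
  obtain ⟨e₂, he₂, u, _, hr'⟩ := hq w hw hdw
  refine ⟨e₃ + d e₂, Submodule.add_mem_sup he₃ (Submodule.mem_map_of_mem he₂), w - e₂ - d u, hr', ?_⟩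
  have : e₃ + z - (e₃ + d e₂) - d (w - e₂ - d u) = z - d w := by
    rw [map_sub, map_sub, hd]; abel
  rw [this]
  exact h23'' hr

/-- A functional on a subspace `R` of the dual of a finite dimensional space `E` is the evaluation at a vector of `E`.
Form used for reflexivity: `Φ` a vector space, `ρ : Φ → E^*` linear, `Ψ : Φ → ℝ` linear with `ker ρ ≤ ker Ψ`. -/
theorem fcf_eval_of_fin {Φ : Type} [AddCommGroup Φ] [Module ℝ Φ] (E : Submodule ℝ V)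
    (hE : Module.Finite ℝ E) (ρ : Φ →ₗ[ℝ] V →ₗ[ℝ] ℝ) (Ψ : Φ →ₗ[ℝ] ℝ)
    (h : ∀ φ, (∀ e ∈ E, ρ φ e = 0) → Ψ φ = 0) : ∃ a ∈ E, ∀ φ, Ψ φ = ρ φ a := by
  -- `r : Φ → E^*`
  let r : Φ →ₗ[ℝ] Module.Dual ℝ E := (LinearMap.lcomp ℝ ℝ E.subtype) ∘ₗ ρ
  have hr : ∀ φ (e : E), r φ e = ρ φ e := fun _ _ => rfl
  have hker : LinearMap.ker r ≤ LinearMap.ker Ψ := by
    intro φ hφ
    rw [LinearMap.mem_ker] at hφ ⊢
    refine h φ fun e he => ?_
    have := congrArg (fun t : Module.Dual ℝ E => t ⟨e, he⟩) hφ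
    simpa [hr] using this
  obtain ⟨g, hg⟩ : ∃ g : Module.Dual ℝ E →ₗ[ℝ] ℝ, g ∘ₗ r = Ψ := by
    obtain ⟨g, hg⟩ := LinearMap.exists_extend (p := LinearMap.range r)
      ((LinearMap.ker r).liftQ Ψ hker ∘ₗ (r.quotKerEquivRange.symm : _ →ₗ[ℝ] _))
    refine ⟨g, ?_⟩
    ext φ
    have h1 := congrArg (fun t => t ⟨r φ, LinearMap.mem_range_self r φ⟩) hg
    simp only [LinearMap.comp_apply, Submodule.subtype_apply] at h1
    rw [LinearMap.comp_apply, h1]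
    have h2 : r.quotKerEquivRange.symm ⟨r φ, LinearMap.mem_range_self r φ⟩
        = (LinearMap.ker r).mkQ φ := by
      rw [LinearEquiv.symm_apply_eq]
      rfl
    simp [h2]
  refine ⟨((Module.evalEquiv ℝ E).symm g : E), ((Module.evalEquiv ℝ E).symm g).2, fun φ => ?_⟩
  rw [← hr, ← hg, LinearMap.comp_apply]
  have := Module.apply_evalEquiv_symm_apply (R := ℝ) (M := E) (r φ) g
  exact this.symm

end Dv

variable {X Y : Type} [TopologicalSpace X] [TopologicalSpace Y]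

/-! ### 1. The property `FT`; thickness -/

/-- `H(A(O)) → H(A(O'))` has finite rank -/
def FcD.FinAt (A : FcD X) (O O' : Set X) : Prop :=
  ∃ E : Submodule ℝ A.C, Module.Finite ℝ E ∧
    ∀ m, A.supp m ⊆ O → A.d m = 0 → ∃ e ∈ E, ∃ w, A.supp w ⊆ O' ∧ m - e = A.d w

/-- the finiteness property -/
def FcD.FT (A : FcD X) : Prop :=
  ∀ O O', IsOpen O → IsOpen O' → IsCompact (closure O) → closure O ⊆ O' → A.FinAt O O'

theorem fcf_finAt_iff (A : FcD X) (O O' : Set X) :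
    A.FinAt O O' ↔ FcfFinRk A.d (A.sec O) ⊥ (A.sec O') ⊥ := by
  constructor
  · rintro ⟨E, hE, h⟩
    refine ⟨E, hE, fun v hv hdv => ?_⟩
    obtain ⟨e, he, w, hw, hr⟩ := h v hv ((Submodule.mem_bot ℝ).1 hdv)
    exact ⟨e, he, w, hw, (Submodule.mem_bot ℝ).2 (sub_eq_zero.2 hr)⟩
  · rintro ⟨E, hE, h⟩
    refine ⟨E, hE, fun v hv hdv => ?_⟩
    obtain ⟨e, he, w, hw, hr⟩ := h v hv ((Submodule.mem_bot ℝ).2 hdv)
    exact ⟨e, he, w, hw, sub_eq_zero.1 ((Submodule.mem_bot ℝ).1 hr)⟩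

theorem fcf_finAt_mono (A : FcD X) {O₁ O₁' O₂ O₂' : Set X} (h : O₂ ⊆ O₁) (h' : O₁' ⊆ O₂')
    (hA : A.FinAt O₁ O₁') : A.FinAt O₂ O₂' := by
  obtain ⟨E, hE, hh⟩ := hA
  refine ⟨E, hE, fun m hm hdm => ?_⟩
  obtain ⟨e, he, w, hw, hr⟩ := hh m (hm.trans h) hdm
  exact ⟨e, he, w, hw.trans h', hr⟩

theorem fcf_finAt_of_acycAt (A : FcD X) {O O' : Set X} (hOO' : O ⊆ O') (h : A.AcycAt O) :
    A.FinAt O O' := by
  refine ⟨⊥, inferInstance, fun m hm hdm => ?_⟩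
  obtain ⟨w, hw, hr⟩ := h m hm hdm
  exact ⟨0, Submodule.zero_mem _, w, hw.trans hOO', by rw [sub_zero, hr]⟩

theorem fcf_finAt_of_acycAt' (A : FcD X) {O O' : Set X} (hOO' : O ⊆ O') (h : A.AcycAt O') :
    A.FinAt O O' := by
  refine ⟨⊥, inferInstance, fun m hm hdm => ?_⟩
  obtain ⟨w, hw, hr⟩ := h m (hm.trans hOO') hdm
  exact ⟨0, Submodule.zero_mem _, w, hw, by rw [sub_zero, hr]⟩

/-- interpolation `O ⋐ O'' ⋐ O'` (`exists_compact_between`, interior) -/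
theorem fcf_interp [T2Space X] [LocallyCompactSpace X] {O O' : Set X} (hO' : IsOpen O')
    (hc : IsCompact (closure O)) (h : closure O ⊆ O') :
    ∃ O'', IsOpen O'' ∧ IsCompact (closure O'') ∧ closure O ⊆ O'' ∧ closure O'' ⊆ O' := by
  obtain ⟨K, hK, h1, h2⟩ := exists_compact_between hc hO' h
  have hcl : closure (interior K) ⊆ K := hK.isClosed.closure_subset_iff.2 interior_subset
  exact ⟨interior K, isOpen_interior, hK.of_isClosed_subset isClosed_closure hcl, h1, hcl.trans h2⟩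

theorem fcf_acyc (A : FcD X) (h : A.Acyc) : A.FT :=
  fun O _ hO _ _ hOO' => fcf_finAt_of_acycAt A (subset_closure.trans hOO') (h O hO (Set.subset_univ _))

theorem fcf_iso {A B : FcD X} (e : FcIso A B) (h : A.FT) : B.FT := by
  intro O O' hO hO' hc hOO'
  obtain ⟨E, hE, hh⟩ := h O O' hO hO' hc hOO'
  refine ⟨E.map (e.e : A.C →ₗ[ℝ] B.C), inferInstance, fun m hm hdm => ?_⟩
  have h1 : A.supp (e.e.symm m) ⊆ O := by
    rw [← e.supp_eq, LinearEquiv.apply_symm_apply]; exact hm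
  have h2 : A.d (e.e.symm m) = 0 := by
    apply e.e.injective
    rw [e.comm, LinearEquiv.apply_symm_apply, hdm, map_zero]
  obtain ⟨a, ha, w, hw, hr⟩ := hh _ h1 h2
  refine ⟨e.e a, Submodule.mem_map_of_mem ha, e.e w, by rw [e.supp_eq]; exact hw, ?_⟩
  rw [← e.comm, ← hr, map_sub, LinearEquiv.apply_symm_apply]

theorem fcf_resc (A : FcD X) (c : ℝ) (hc : c ≠ 0) (h : A.FT) : (A.resc c).FT := by
  intro O O' hO hO' hcO hOO'
  obtain ⟨E, hE, hh⟩ := h O O' hO hO' hcO hOO'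
  refine ⟨E, hE, fun (m : A.C) hm hdm => ?_⟩
  have h2 : A.d m = 0 := by
    have : c • A.d m = 0 := hdm
    exact (smul_eq_zero.1 this).resolve_left hc
  obtain ⟨a, ha, w, hw, hr⟩ := hh m hm h2
  refine ⟨a, ha, c⁻¹ • w, (A.supp_smul _ _).trans hw, ?_⟩
  show m - a = c • A.d (c⁻¹ • w)
  rw [map_smul, smul_smul, mul_inv_cancel₀ hc, one_smul]
  exact hr

theorem fcf_prod {A B : FcD X} (hA : A.FT) (hB : B.FT) : (A.prod B).FT := by
  intro O O' hO hO' hc hOO'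
  obtain ⟨E, hE, hh⟩ := hA O O' hO hO' hc hOO'
  obtain ⟨F, hF, hh'⟩ := hB O O' hO hO' hc hOO'
  refine ⟨(E.map (LinearMap.inl ℝ A.C B.C) ⊔ F.map (LinearMap.inr ℝ A.C B.C) :
      Submodule ℝ (A.C × B.C)),
    (inferInstance : Module.Finite ℝ (E.map (LinearMap.inl ℝ A.C B.C) ⊔
      F.map (LinearMap.inr ℝ A.C B.C) : Submodule ℝ (A.C × B.C))), fun m hm hdm => ?_⟩
  have hm1 : A.supp m.1 ⊆ O := Set.subset_union_left.trans hm
  have hm2 : B.supp m.2 ⊆ O := Set.subset_union_right.trans hm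
  have hd1 : A.d m.1 = 0 := congrArg Prod.fst hdm
  have hd2 : B.d m.2 = 0 := congrArg Prod.snd hdm
  obtain ⟨a, ha, w, hw, hr⟩ := hh _ hm1 hd1
  obtain ⟨b, hb, w', hw', hr'⟩ := hh' _ hm2 hd2
  have hmem : ((a, b) : A.C × B.C) ∈ (E.map (LinearMap.inl ℝ A.C B.C) ⊔
      F.map (LinearMap.inr ℝ A.C B.C) : Submodule ℝ (A.C × B.C)) := by
    have : ((a, b) : A.C × B.C) = LinearMap.inl ℝ A.C B.C a + LinearMap.inr ℝ A.C B.C b := by simp
    rw [this]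
    exact Submodule.add_mem_sup (Submodule.mem_map_of_mem ha) (Submodule.mem_map_of_mem hb)
  exact ⟨(a, b), hmem, (w, w'), Set.union_subset hw hw', Prod.ext hr hr'⟩

theorem fcf_summand {A B : FcD X} (h : (A.prod B).FT) : A.FT := by
  intro O O' hO hO' hc hOO'
  obtain ⟨E, hE, hh⟩ := h O O' hO hO' hc hOO'
  change Submodule ℝ (A.C × B.C) at E
  change Module.Finite ℝ E at hE
  refine ⟨E.map (LinearMap.fst ℝ A.C B.C), inferInstance, fun m hm hdm => ?_⟩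
  have h1 : (A.prod B).supp ((m, 0) : A.C × B.C) ⊆ O := by
    show A.supp m ∪ B.supp 0 ⊆ O
    rw [B.supp_zero, Set.union_empty]; exact hm
  have h2 : (A.prod B).d ((m, 0) : A.C × B.C) = 0 := by
    show (A.d m, B.d 0) = 0
    rw [hdm, map_zero]; rfl
  obtain ⟨e, he, w, hw, hr⟩ := hh _ h1 h2
  exact ⟨e.1, ⟨e, he, rfl⟩, w.1, Set.subset_union_left.trans hw, congrArg Prod.fst hr⟩

/-- the subobject `0 × B(O)` of the cone -/
def fcfConeSub {A B : FcD X} (f : FcHom A B) (O : Set X) : Submodule ℝ (fcCone f).C :=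
  ((B.sec O).map (LinearMap.inr ℝ A.C B.C) : Submodule ℝ (A.C × B.C))

theorem fcf_mem_coneSub {A B : FcD X} (f : FcHom A B) (O : Set X) (v : A.C × B.C) :
    v ∈ fcfConeSub f O ↔ v.1 = 0 ∧ B.supp v.2 ⊆ O := by
  constructor
  · rintro ⟨b, hb, rfl⟩
    exact ⟨rfl, hb⟩
  · rintro ⟨h1, h2⟩
    exact ⟨v.2, h2, Prod.ext h1.symm rfl⟩

theorem fcf_mem_coneSec {A B : FcD X} (f : FcHom A B) (O : Set X) (v : A.C × B.C) :
    v ∈ (fcCone f).sec O ↔ A.supp v.1 ⊆ O ∧ B.supp v.2 ⊆ O :=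
  Set.union_subset_iff

theorem fcf_coneSub_le {A B : FcD X} (f : FcHom A B) (O : Set X) :
    fcfConeSub f O ≤ (fcCone f).sec O := by
  intro v hv
  obtain ⟨h1, h2⟩ := (fcf_mem_coneSub f O v).1 hv
  refine (fcf_mem_coneSec f O v).2 ⟨?_, h2⟩
  rw [h1, A.supp_zero]; exact Set.empty_subset _

theorem fcf_coneSub_mono {A B : FcD X} (f : FcHom A B) {O O' : Set X} (h : O ⊆ O') :
    fcfConeSub f O ≤ fcfConeSub f O' := by
  intro v hv
  obtain ⟨h1, h2⟩ := (fcf_mem_coneSub f O v).1 hv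
  exact (fcf_mem_coneSub f O' v).2 ⟨h1, h2.trans h⟩

theorem fcf_sec_mono (A : FcD X) {O O' : Set X} (h : O ⊆ O') : A.sec O ≤ A.sec O' :=
  fun _ hv => Set.Subset.trans hv h

theorem fcf_cone_d {A B : FcD X} (f : FcHom A B) (v : A.C × B.C) :
    (fcCone f).d v = (-(A.d v.1), f.f v.1 + B.d v.2) := rfl

/-- the subobject `B` of the cone -/
theorem fcf_cone_rk_sub {A B : FcD X} (f : FcHom A B) (O O' : Set X) :
    B.FinAt O O' ↔ FcfFinRk (fcCone f).d (fcfConeSub f O) ⊥ (fcfConeSub f O') ⊥ := by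
  constructor
  · rintro ⟨E, hE, h⟩
    refine ⟨(E.map (LinearMap.inr ℝ A.C B.C) : Submodule ℝ (A.C × B.C)),
      (inferInstance : Module.Finite ℝ (E.map (LinearMap.inr ℝ A.C B.C))),
      fun (v : A.C × B.C) hv hdv => ?_⟩
    obtain ⟨h1, h2⟩ := (fcf_mem_coneSub f O v).1 hv
    have h3 : (-(A.d v.1), f.f v.1 + B.d v.2) = (0 : A.C × B.C) := (Submodule.mem_bot ℝ).1 hdv
    have h4 : B.d v.2 = 0 := by
      have := congrArg Prod.snd h3
      simpa [h1] using this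
    obtain ⟨e, he, w, hw, hr⟩ := h v.2 h2 h4
    refine ⟨((0, e) : A.C × B.C), ⟨e, he, rfl⟩, ((0, w) : A.C × B.C),
      (fcf_mem_coneSub f O' _).2 ⟨rfl, hw⟩, (Submodule.mem_bot ℝ).2 ?_⟩
    show v - ((0, e) : A.C × B.C) - (-(A.d 0), f.f 0 + B.d w) = 0
    refine Prod.ext ?_ ?_
    · simp [h1]
    · simp [← hr]
  · rintro ⟨E, hE, h⟩
    change Submodule ℝ (A.C × B.C) at E
    change Module.Finite ℝ E at hE
    refine ⟨E.map (LinearMap.snd ℝ A.C B.C), inferInstance, fun m hm hdm => ?_⟩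
    have h1 : ((0, m) : A.C × B.C) ∈ fcfConeSub f O := (fcf_mem_coneSub f O _).2 ⟨rfl, hm⟩
    have h2 : (fcCone f).d ((0, m) : A.C × B.C) ∈ (⊥ : Submodule ℝ (fcCone f).C) := by
      refine (Submodule.mem_bot ℝ).2 ?_
      show (-(A.d 0), f.f 0 + B.d m) = (0 : A.C × B.C)
      simp [hdm]
    obtain ⟨e, he, w, hw, hr⟩ := h _ h1 h2
    change A.C × B.C at e w
    obtain ⟨hw1, hw2⟩ := (fcf_mem_coneSub f O' w).1 hw
    have h3 : ((0, m) : A.C × B.C) - e - (-(A.d w.1), f.f w.1 + B.d w.2) = 0 :=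
      (Submodule.mem_bot ℝ).1 hr
    refine ⟨e.2, ⟨e, he, rfl⟩, w.2, hw2, ?_⟩
    have h4 := congrArg Prod.snd h3
    simp only [Prod.snd_sub, Prod.snd_zero, hw1, map_zero, zero_add] at h4
    exact sub_eq_zero.1 h4

/-- the quotient `A` of the cone -/
theorem fcf_cone_rk_quot {A B : FcD X} (f : FcHom A B) {O O' : Set X} (hOO' : O ⊆ O') :
    A.FinAt O O' ↔
      FcfFinRk (fcCone f).d ((fcCone f).sec O) (fcfConeSub f O) ((fcCone f).sec O')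
        (fcfConeSub f O') := by
  constructor
  · rintro ⟨E, hE, h⟩
    refine ⟨(E.map (LinearMap.inl ℝ A.C B.C) : Submodule ℝ (A.C × B.C)),
      (inferInstance : Module.Finite ℝ (E.map (LinearMap.inl ℝ A.C B.C))),
      fun (v : A.C × B.C) hv hdv => ?_⟩
    obtain ⟨h1, h2⟩ := (fcf_mem_coneSec f O v).1 hv
    have h3 : -(A.d v.1) = 0 := ((fcf_mem_coneSub f O ((fcCone f).d v)).1 hdv).1
    obtain ⟨e, he, w, hw, hr⟩ := h v.1 h1 (neg_eq_zero.1 h3)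
    refine ⟨((e, 0) : A.C × B.C), ⟨e, he, rfl⟩, ((-w, 0) : A.C × B.C),
      (fcf_mem_coneSec f O' _).2 ⟨(A.supp_neg w).trans hw, ?_⟩, ?_⟩
    · show B.supp 0 ⊆ O'
      rw [B.supp_zero]; exact Set.empty_subset _
    · refine (fcf_mem_coneSub f O'
        (v - ((e, 0) : A.C × B.C) - (-(A.d (-w)), f.f (-w) + B.d 0))).2 ⟨?_, ?_⟩
      · simp [hr]
      · have : (v - ((e, 0) : A.C × B.C) - (-(A.d (-w)), f.f (-w) + B.d 0)).2 = v.2 + f.f w := by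
          simp
        rw [this]
        exact (B.supp_add _ _).trans (Set.union_subset (h2.trans hOO') ((f.loc w).trans hw))
  · rintro ⟨E, hE, h⟩
    change Submodule ℝ (A.C × B.C) at E
    change Module.Finite ℝ E at hE
    refine ⟨E.map (LinearMap.fst ℝ A.C B.C), inferInstance, fun m hm hdm => ?_⟩
    have h1 : ((m, 0) : A.C × B.C) ∈ (fcCone f).sec O := by
      refine (fcf_mem_coneSec f O _).2 ⟨hm, ?_⟩
      show B.supp 0 ⊆ O
      rw [B.supp_zero]; exact Set.empty_subset _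
    have h2 : (fcCone f).d ((m, 0) : A.C × B.C) ∈ fcfConeSub f O := by
      refine (fcf_mem_coneSub f O (-(A.d m), f.f m + B.d 0)).2 ⟨?_, ?_⟩
      · simp [hdm]
      · show B.supp (f.f m + B.d 0) ⊆ O
        rw [map_zero, add_zero]
        exact (f.loc m).trans hm
    obtain ⟨e, he, w, hw, hr⟩ := h _ h1 h2
    change A.C × B.C at e w
    obtain ⟨hw1, _⟩ := (fcf_mem_coneSec f O' w).1 hw
    have h3 := ((fcf_mem_coneSub f O'
      (((m, 0) : A.C × B.C) - e - (-(A.d w.1), f.f w.1 + B.d w.2))).1 hr).1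
    refine ⟨e.1, ⟨e, he, rfl⟩, -w.1, (A.supp_neg _).trans hw1, ?_⟩
    simp only [Prod.fst_sub, sub_neg_eq_add] at h3
    rw [map_neg]
    exact eq_neg_of_add_eq_zero_left h3

/-- `fcf_rk_total` in `V = A × B` with `W_i = cone(O_i)`, `W_i' = 0 × B(O_i)`, `W_i'' = 0`, `O ⋐ O'' ⋐ O'`. -/
theorem fcf_cone [T2Space X] [LocallyCompactSpace X] {A B : FcD X} (f : FcHom A B) (hA : A.FT)
    (hB : B.FT) : (fcCone f).FT := by
  intro O O' hO hO' hc hOO'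
  obtain ⟨O'', hO'', hc'', h1, h2⟩ := fcf_interp hO' hc hOO'
  have s1 : O ⊆ O'' := subset_closure.trans h1
  have s2 : O'' ⊆ O' := subset_closure.trans h2
  rw [fcf_finAt_iff]
  exact fcf_rk_total (fcCone f).d (fcCone f).d_sq bot_le le_rfl (fcf_sec_mono _ s2)
    (fcf_coneSub_le f O')
    ((fcf_cone_rk_quot f s1).1 (hA O O'' hO hO'' hc h1))
    ((fcf_cone_rk_sub f O'' O').1 (hB O'' O' hO'' hO' hc'' h2))

/-- `fcf_rk_quot` -/
theorem fcf_cone_src [T2Space X] [LocallyCompactSpace X] {A B : FcD X} (f : FcHom A B) (hB : B.FT)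
    (hC : (fcCone f).FT) : A.FT := by
  intro O O' hO hO' hc hOO'
  obtain ⟨O'', hO'', hc'', h1, h2⟩ := fcf_interp hO' hc hOO'
  have s1 : O ⊆ O'' := subset_closure.trans h1
  have s2 : O'' ⊆ O' := subset_closure.trans h2
  rw [fcf_cone_rk_quot f (s1.trans s2)]
  exact fcf_rk_quot (fcCone f).d (fcCone f).d_sq (fcf_sec_mono _ s1) (fcf_coneSub_le f O'')
    (fcf_coneSub_mono f s2) bot_le
    ((fcf_cone_rk_sub f O O'').1 (hB O O'' hO hO'' hc h1))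
    ((fcf_finAt_iff _ _ _).1 (hC O'' O' hO'' hO' hc'' h2))

/-- `fcf_rk_sub` -/
theorem fcf_cone_tgt [T2Space X] [LocallyCompactSpace X] {A B : FcD X} (f : FcHom A B) (hA : A.FT)
    (hC : (fcCone f).FT) : B.FT := by
  intro O O' hO hO' hc hOO'
  obtain ⟨O'', hO'', hc'', h1, h2⟩ := fcf_interp hO' hc hOO'
  have s1 : O ⊆ O'' := subset_closure.trans h1
  have s2 : O'' ⊆ O' := subset_closure.trans h2
  rw [fcf_cone_rk_sub f]
  exact fcf_rk_sub (fcCone f).d (fcCone f).d_sq (fcf_coneSub_le f O) (fcf_coneSub_mono f s1)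
    bot_le le_rfl
    ((fcf_finAt_iff _ _ _).1 (hC O O'' hO hO'' hc h1))
    ((fcf_cone_rk_quot f s2).1 (hA O'' O' hO'' hO' hc'' h2))

/-- invariance under local quasi-isomorphisms -/
theorem fcf_of_qi [T2Space X] [LocallyCompactSpace X] {A B : FcD X} (f : FcHom A B)
    (hf : (fcCone f).Acyc) : A.FT ↔ B.FT :=
  ⟨fun h => fcf_cone_tgt f h (fcf_acyc _ hf), fun h => fcf_cone_src f h (fcf_acyc _ hf)⟩

/-- induction over `FcThick` -/
theorem fcf_thick [T2Space X] [LocallyCompactSpace X] (G : FcD X → Prop) (hG : ∀ A, G A → A.FT)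
    (A : FcD X) (h : FcThick G A) : A.FT := by
  induction h with
  | gen h => exact hG _ h
  | iso e _ ih => exact fcf_iso e ih
  | acyc h => exact fcf_acyc _ h
  | resc c hc _ ih => exact fcf_resc _ c hc ih
  | cone f _ _ ih1 ih2 => exact fcf_cone f ih1 ih2
  | cone_src f _ _ ih1 ih2 => exact fcf_cone_src f ih1 ih2
  | cone_tgt f _ _ ih1 ih2 => exact fcf_cone_tgt f ih1 ih2
  | summand _ ih => exact fcf_summand ih

/-! ### 2. Closed sets -/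

/-- the restriction `H(Γ(K')) → H(Γ(K))` has finite rank -/
def FcD.FinG (A : FcD X) (K' K : Set X) : Prop :=
  ∃ E : Submodule ℝ A.C, Module.Finite ℝ E ∧
    ∀ m, Disjoint (A.supp (A.d m)) K' → ∃ e ∈ E, ∃ w, Disjoint (A.supp (m - e - A.d w)) K

/-- a relatively compact open neighbourhood of a compact set inside an open set -/
theorem fcfb_nhd [T2Space X] [LocallyCompactSpace X] {K U : Set X} (hK : IsCompact K)
    (hU : IsOpen U) (h : K ⊆ U) :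
    ∃ O, IsOpen O ∧ K ⊆ O ∧ IsCompact (closure O) ∧ closure O ⊆ U := by
  obtain ⟨L, hL, hKL, hLU⟩ := exists_compact_between hK hU h
  have hcl : closure (interior L) ⊆ L := closure_minimal interior_subset hL.isClosed
  exact ⟨interior L, isOpen_interior, hKL, hL.of_isClosed_subset isClosed_closure hcl,
    hcl.trans hLU⟩

theorem fcfb_mem_sec (A : FcD X) (U : Set X) (m : A.C) : m ∈ A.sec U ↔ A.supp m ⊆ U := Iff.rfl

theorem fcfb_sec_mono (A : FcD X) {U V : Set X} (h : U ⊆ V) : A.sec U ≤ A.sec V :=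
  fun _ hm => Set.Subset.trans hm h

/-- Choose `K ⊆ int K'' ⊆ K'' ⊆ int K'` compact and opens `K' ⊆ W' ⋐ W''`.  Let `π` be a cut-off (`fcg_cut_near`) with
`π m ∈ A(int K')`, `m - π m` off `K''`.  If `d m` is off `K'` then `d (π m) ∈ A(int K' ∖ K'')`.
`fcf_rk_quot` with `W₁ = A(int K')`, `W₁' = A(int K' ∖ K'')`, `W₂ = A(W')`, `W₂' = A(W' ∖ K)`, `W₃ = A(W'')`,
`W₃' = A(W'' ∖ K)`, `W_i'' = 0` (`int K' ∖ K'' ⋐ W' ∖ K` and `W' ⋐ W''`) gives `π m = e + d w + u`, `u` off `K`. -/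
theorem fcf_finG [T2Space X] [LocallyCompactSpace X] (A : FcD X) (hA : A.FT) {K K' : Set X}
    (hK : IsCompact K) (hK' : IsCompact K') (h : K ⊆ interior K') : A.FinG K' K := by
  obtain ⟨O₁, hO₁, hKO₁, hcO₁, hO₁K'⟩ := fcfb_nhd hK isOpen_interior h
  obtain ⟨E, hE, hK''E, hcE, hEK'⟩ := fcfb_nhd hcO₁ isOpen_interior hO₁K'
  obtain ⟨W', hW', hK'W', hcW', -⟩ := fcfb_nhd hK' isOpen_univ (Set.subset_univ _)
  obtain ⟨W'', hW'', hW'W'', hcW'', -⟩ := fcfb_nhd hcW' isOpen_univ (Set.subset_univ _)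
  obtain ⟨π, hπ1, hπ2, -⟩ := fcg_cut_near A.toFcObj (closure O₁) E (interior K') hE hK''E hEK'
  have hcl : closure (interior K' \ closure O₁) ⊆ K' ∩ O₁ᶜ := by
    refine closure_minimal ?_ (hK'.isClosed.inter hO₁.isClosed_compl)
    rintro x ⟨hx1, hx2⟩
    exact ⟨interior_subset hx1, fun hx => hx2 (subset_closure hx)⟩
  have hs : FcfFinRk A.d (A.sec (interior K' \ closure O₁)) ⊥ (A.sec (W' \ K)) ⊥ := by
    rw [← fcf_finAt_iff]
    refine hA _ _ (isOpen_interior.sdiff isClosed_closure) (hW'.sdiff hK.isClosed) ?_ ?_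
    · exact hK'.of_isClosed_subset isClosed_closure (hcl.trans Set.inter_subset_left)
    · intro x hx
      exact ⟨hK'W' (hcl hx).1, fun hxK => (hcl hx).2 (hKO₁ hxK)⟩
  have ht : FcfFinRk A.d (A.sec W') ⊥ (A.sec W'') ⊥ := by
    rw [← fcf_finAt_iff]
    exact hA _ _ hW' hW'' hcW' hW'W''
  have hW'sub : W' ⊆ W'' := subset_closure.trans hW'W''
  obtain ⟨E₀, hE₀, hq⟩ := fcf_rk_quot A.d A.d_sq (W₁ := A.sec (interior K'))
    (W₃' := A.sec (W'' \ K))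
    (fcfb_sec_mono A (interior_subset.trans hK'W')) (fcfb_sec_mono A Set.sdiff_subset)
    (fcfb_sec_mono A (Set.sdiff_subset_sdiff_left hW'sub)) bot_le hs ht
  refine ⟨E₀, hE₀, fun m hm => ?_⟩
  have h1 : π m ∈ A.sec (interior K') := (hπ1 m).trans Set.inter_subset_right
  have h2 : A.d (π m) ∈ A.sec (interior K' \ closure O₁) := by
    intro x hx
    have hx1 : x ∈ interior K' := h1 (A.d_loc _ hx)
    refine ⟨hx1, fun hx2 => ?_⟩
    have e : A.d (π m) = A.d m - A.d (m - π m) := by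
      rw [map_sub]; abel
    rw [e] at hx
    rcases A.supp_sub _ _ hx with hx | hx
    · exact Set.disjoint_left.1 hm hx (interior_subset hx1)
    · exact (hπ2 m (A.d_loc _ hx)).2 hx2
  obtain ⟨e, he, w, -, hv⟩ := hq (π m) h1 h2
  refine ⟨e, he, w, ?_⟩
  rw [Set.disjoint_left]
  intro x hx hxK
  have e' : m - e - A.d w = (m - π m) + (π m - e - A.d w) := by abel
  rw [e'] at hx
  rcases A.supp_add _ _ hx with hx | hx
  · exact (hπ2 m hx).2 (subset_closure (hKO₁ hxK))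
  · exact (hv hx).2 hxK

/-! ### 3. The dual -/

theorem fcfb_dual_d_apply [T2Space X] (A : FcD X) (φ : A.dual.C) (m : A.C) :
    (A.dual.d φ).1 m = φ.1 (A.d m) := rfl

theorem fcfb_dual_closed [T2Space X] (A : FcD X) (φ : A.dual.C) (h : A.dual.d φ = 0) (m : A.C) :
    φ.1 (A.d m) = 0 := by
  rw [← fcfb_dual_d_apply, h]
  rfl

/-- `O ⋐ O'`; `K = closure O`, `K ⊆ int K'`, `K' ⊆ O'` compact.  `Z' = {m | d m off K'}`, `Z₀ = {m | ∃ w, m - d w off K}`.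
By `fcf_finG` and `fcf_lin_compl`: `Z' ≤ E ⊔ (Z' ⊓ Z₀)`, `E ≤ Z'` finite dimensional.  A closed `φ ∈ A^∨(O)` vanishes on `Z₀`.
If moreover `φ = 0` on `E` then `φ = 0` on `Z'` and `φ = ψ ∘ d` with `ψ = 0` on `A(X ∖ K')` (`fcg_dv_cobound`), `ψ ∈ A^∨(O')`.
So the closed elements of `A^∨(O)`, modulo coboundaries from `A^∨(O')`, embed into `E^*`: choose for a basis of the image
preimages; they span the required finite dimensional space. -/
theorem fcf_dual [T2Space X] [LocallyCompactSpace X] (A : FcD X) (hA : A.FT) : A.dual.FT := by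
  intro O O' hO hO' hc hOO'
  obtain ⟨L, hL, hKL, hLO'⟩ := exists_compact_between hc hO' hOO'
  obtain ⟨E, hE, hfin⟩ := fcf_finG A hA hc hL hKL
  obtain ⟨Z', hZ'⟩ : ∃ Z' : Submodule ℝ A.C, Z' = (A.sec Lᶜ).comap A.d := ⟨_, rfl⟩
  obtain ⟨Z₀, hZ₀⟩ : ∃ Z₀ : Submodule ℝ A.C, Z₀ = LinearMap.range A.d ⊔ A.sec (closure O)ᶜ :=
    ⟨_, rfl⟩
  have hZ : Z' ≤ E ⊔ Z₀ := by
    intro m hm
    rw [hZ'] at hm
    have hm' : A.supp (A.d m) ⊆ Lᶜ := hm
    obtain ⟨e, he, w, hw⟩ := hfin m (Set.disjoint_left.2 fun x hx hxL => hm' hx hxL)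
    have e1 : m = e + (A.d w + (m - e - A.d w)) := by abel
    rw [e1, hZ₀]
    refine Submodule.add_mem_sup he (Submodule.add_mem_sup ⟨w, rfl⟩ ?_)
    exact fun x hx hxK => Set.disjoint_left.1 hw hx hxK
  obtain ⟨E₃, hE₃, hE₃Z, hZE₃⟩ := fcf_lin_compl Z' Z₀ E hE hZ
  obtain ⟨ρ, hρ⟩ : ∃ ρ : A.dual.C →ₗ[ℝ] Module.Dual ℝ E₃, ∀ φ (e : E₃), ρ φ e = φ.1 e.1 :=
    ⟨{ toFun := fun φ => φ.1 ∘ₗ E₃.subtype, map_add' := fun _ _ => rfl,
       map_smul' := fun _ _ => rfl }, fun _ _ => rfl⟩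
  have hfinD : Module.Finite ℝ (⊤ : Submodule ℝ (Module.Dual ℝ E₃)) := inferInstance
  obtain ⟨E₄, hE₄, hE₄Z, hZE₄⟩ := fcf_lin_compl_map ρ (A.dual.sec O ⊓ LinearMap.ker A.dual.d) ⊥ ⊤
    hfinD (by simp)
  refine ⟨E₄, hE₄, fun φ hφ hdφ => ?_⟩
  have hφZ : φ ∈ A.dual.sec O ⊓ LinearMap.ker A.dual.d := ⟨hφ, hdφ⟩
  obtain ⟨e, he, φ', hφ', rfl⟩ := Submodule.mem_sup.1 (hZE₄ hφZ)
  refine ⟨e, he, ?_⟩
  obtain ⟨⟨hs', hd'⟩, hρ'⟩ := hφ'
  have hs'' : A.dualSupp φ'.1 ⊆ O := hs'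
  have hd'' : A.dual.d φ' = 0 := hd'
  have hρ'' : ρ φ' = 0 := hρ'
  have hv0 : ∀ m ∈ Z₀, φ'.1 m = 0 := by
    intro m hm
    rw [hZ₀] at hm
    obtain ⟨b, ⟨w, rfl⟩, u, hu, rfl⟩ := Submodule.mem_sup.1 hm
    have hu' : A.supp u ⊆ (closure O)ᶜ := hu
    rw [map_add, fcfb_dual_closed A φ' hd'' w, zero_add]
    exact A.toFcObj.dual_apply_eq_zero φ'.1 u
      (Set.disjoint_left.2 fun x hx hxs => hu' hx (subset_closure (hs'' hxs)))
  have hvZ : ∀ m ∈ Z', φ'.1 m = 0 := by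
    intro m hm
    obtain ⟨a, ha, b, hb, rfl⟩ := Submodule.mem_sup.1 (hZE₃ hm)
    have h1 : φ'.1 a = 0 := by
      have := hρ φ' ⟨a, ha⟩
      rw [hρ''] at this
      exact this.symm
    rw [map_add, h1, hv0 b hb.2, add_zero]
  obtain ⟨ψ, hψ0, hψd⟩ := fcg_dv_cobound A.d (A.sec Lᶜ) φ'.1 (fun v hv => hvZ v (by rw [hZ']; exact hv))
  have hψ : ∀ m, Disjoint (A.supp m) L → ψ m = 0 := fun m hm =>
    hψ0 m (fun x hx hxL => Set.disjoint_left.1 hm hx hxL)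
  refine ⟨fcgMkDual A ψ L hL hψ, (fcgMkDual_supp A ψ L hL hψ).trans hLO', ?_⟩
  rw [add_sub_cancel_left]
  apply Subtype.ext
  apply LinearMap.ext
  intro m
  exact (hψd m).symm

/-! ### 4. Reflexivity -/

theorem fcfb_cut_zero (A : FcD X) (π : A.C →ₗ[ℝ] A.C) (W : Set X)
    (hπ : ∀ m, A.supp (π m) ⊆ A.supp m ∩ W) (m : A.C) (hm : Disjoint (A.supp m) (closure W)) :
    π m = 0 := by
  rw [← A.supp_empty_iff, ← Set.subset_empty_iff]
  intro x hx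
  exact Set.disjoint_left.1 hm (hπ m hx).1 (subset_closure (hπ m hx).2)

/-- INJECTIVITY (no finiteness needed).  `a ∈ A(U)` a cycle, `ev a = Θ ∘ d^∨`, `Θ ∈ A^∨∨(U)`.  `K = supp Θ ∪ supp a`,
`K ⊆ E ⋐ W ⋐ U`, `π` a cut-off into `W` which is the identity on `A(E)`.  If `a` is not a boundary in `A(W)` there is a
functional `λ` on `A(W)`, `λ ∘ d = 0`, `λ a = 1`.  `φ = λ ∘ π ∈ A^∨`; `φ ∘ d = 0` on `A(E)`, so `supp (d^∨ φ)` misses `K`,
`Θ (d^∨ φ) = 0`; but `ev a φ = λ a = 1`. -/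
theorem fcf_ev_inj [T2Space X] [LocallyCompactSpace X] (A : FcD X) (U : Set X) (hU : IsOpen U)
    (a : A.C) (ha : A.supp a ⊆ U) (hda : A.d a = 0) (Θ : A.dual.dual.C)
    (hΘ : A.dual.dual.supp Θ ⊆ U) (h : (fcEv A).f a = A.dual.dual.d Θ) :
    ∃ a', A.supp a' ⊆ U ∧ a = A.d a' := by
  have hK : IsCompact (A.dual.dual.supp Θ ∪ A.supp a) :=
    (A.dual.dual.supp_compact Θ).union (A.supp_compact a)
  obtain ⟨W, hW, hKW, hcW, hWU⟩ := fcfb_nhd hK hU (Set.union_subset hΘ ha)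
  obtain ⟨E, hE, hKE, hcE, hEW⟩ := fcfb_nhd hK hW hKW
  obtain ⟨π, hπ1, hπ2, hπ3⟩ := fcg_cut_near A.toFcObj _ E W hE hKE hEW
  by_contra hcon
  have hna : a ∉ (A.sec W).map A.d := by
    rintro ⟨a', ha', rfl⟩
    exact hcon ⟨a', Set.Subset.trans ha' (subset_closure.trans hWU), rfl⟩
  obtain ⟨lam, hlam1, hlam2⟩ := Submodule.exists_le_ker_of_notMem hna
  have hφ0 : ∀ m, Disjoint (A.supp m) (closure W) → (lam ∘ₗ π) m = 0 := fun m hm => by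
    show lam (π m) = 0
    rw [fcfb_cut_zero A π W hπ1 m hm, map_zero]
  obtain ⟨φ, hφ⟩ : ∃ φ : A.dual.C, φ = fcgMkDual A (lam ∘ₗ π) (closure W) hcW hφ0 := ⟨_, rfl⟩
  have hφap : ∀ m, φ.1 m = lam (π m) := fun m => by rw [hφ]; rfl
  have h1 : A.dual.supp (A.dual.d φ) ⊆ Eᶜ := by
    refine A.toFcObj.dualSupp_subset _ hE (fun m hm => ?_)
    show φ.1 (A.d m) = 0
    rw [hφap, hπ3 _ ((A.d_loc m).trans hm)]
    exact hlam2 ⟨m, Set.Subset.trans hm (subset_closure.trans hEW), rfl⟩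
  have h2 : Θ.1 (A.dual.d φ) = 0 := by
    refine A.dual.toFcObj.dual_apply_eq_zero Θ.1 _ ?_
    rw [Set.disjoint_left]
    intro x hx hxΘ
    exact h1 hx (hKE (Or.inl hxΘ))
  have h3 : ((fcEv A).f a).1 φ = (A.dual.dual.d Θ).1 φ := by rw [h]
  have h4 : φ.1 a = Θ.1 (A.dual.d φ) := h3
  rw [h2, hφap, hπ3 a (Set.subset_union_right.trans hKE)] at h4
  exact hlam1 h4

/-- SURJECTIVITY.  `Ψ ∈ A^∨∨(U)` closed, `K = supp Ψ ⊆ E ⋐ W₀ ⋐ W' ⊆ K'' ⊆ U`.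
`Φ = {φ ∈ A^∨ | supp (d^∨ φ) misses K''}`.  (a) if `φ ∈ Φ` vanishes on the cycles of `A(W₀)` then `φ = λ ∘ d` on `A(W₀)`,
`φ' = λ ∘ π`, `φ - d^∨ φ'` vanishes on `A(E)`, so `Ψ φ = 0`.  (b) every `φ ∈ Φ` vanishes on the cycles of `A(W₀)` which bound
in `A(W')`.  (c) by `FinAt W₀ W'`: the cycles of `A(W₀)` are `E₀ +` those, `E₀` finite dimensional.  So `Ψ φ` depends only on
`φ|E₀`; `fcf_eval_of_fin` gives a cycle `a ∈ E₀ ⊆ A(W₀)` (take `E₀` inside the cycles by `fcf_lin_compl`) with `Ψ φ = φ a` on `Φ`.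
`Ψ - ev a` vanishes on the relative cycles `Φ`: `fcg_dv_cobound` for `(A^∨, d^∨, A^∨(X ∖ K''))`. -/
theorem fcf_ev_surj [T2Space X] [LocallyCompactSpace X] (A : FcD X) (hA : A.FT) (U : Set X)
    (hU : IsOpen U) (Ψ : A.dual.dual.C) (hΨ : A.dual.dual.supp Ψ ⊆ U) (hd : A.dual.dual.d Ψ = 0) :
    ∃ a Θ, A.supp a ⊆ U ∧ A.d a = 0 ∧ A.dual.dual.supp Θ ⊆ U ∧
      Ψ = (fcEv A).f a + A.dual.dual.d Θ := by
  have hK : IsCompact (A.dual.dual.supp Ψ) := A.dual.dual.supp_compact Ψ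
  obtain ⟨W', hW', hKW', hcW', hW'U⟩ := fcfb_nhd hK hU hΨ
  obtain ⟨W₀, hW₀, hKW₀, hcW₀, hW₀W'⟩ := fcfb_nhd hK hW' hKW'
  obtain ⟨E, hE, hKE, hcE, hEW₀⟩ := fcfb_nhd hK hW₀ hKW₀
  obtain ⟨π, hπ1, hπ2, hπ3⟩ := fcg_cut_near A.toFcObj _ E W₀ hE hKE hEW₀
  have hΨd : ∀ φ : A.dual.C, Ψ.1 (A.dual.d φ) = 0 := fcfb_dual_closed A.dual Ψ hd
  -- (a)
  have hstepa : ∀ φ : A.dual.C, (∀ z, A.supp z ⊆ W₀ → A.d z = 0 → φ.1 z = 0) → Ψ.1 φ = 0 := by
    intro φ hφ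
    obtain ⟨lam, hlam⟩ := fc_factor (A.d ∘ₗ (A.sec W₀).subtype) (φ.1 ∘ₗ (A.sec W₀).subtype)
      (fun v hv => hφ v.1 v.2 hv)
    have hφ0 : ∀ m, Disjoint (A.supp m) (closure W₀) → (lam ∘ₗ π) m = 0 := fun m hm => by
      show lam (π m) = 0
      rw [fcfb_cut_zero A π W₀ hπ1 m hm, map_zero]
    obtain ⟨φ', hφ'⟩ : ∃ φ' : A.dual.C, φ' = fcgMkDual A (lam ∘ₗ π) (closure W₀) hcW₀ hφ0 :=
      ⟨_, rfl⟩
    have hφap : ∀ m, φ'.1 m = lam (π m) := fun m => by rw [hφ']; rfl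
    have h1 : A.dual.supp (φ - A.dual.d φ') ⊆ Eᶜ := by
      refine A.toFcObj.dualSupp_subset _ hE (fun m hm => ?_)
      show φ.1 m - φ'.1 (A.d m) = 0
      rw [hφap, hπ3 _ ((A.d_loc m).trans hm)]
      have := hlam ⟨m, Set.Subset.trans hm (subset_closure.trans hEW₀)⟩
      have h' : lam (A.d m) = φ.1 m := this
      rw [h', sub_self]
    have h2 : Ψ.1 (φ - A.dual.d φ') = 0 := by
      refine A.dual.toFcObj.dual_apply_eq_zero Ψ.1 _ ?_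
      rw [Set.disjoint_left]
      intro x hx hxΨ
      exact h1 hx (hKE hxΨ)
    rw [map_sub, hΨd, sub_zero] at h2
    exact h2
  -- (c)
  obtain ⟨E₀', hE₀', hfin⟩ := hA W₀ W' hW₀ hW' hcW₀ hW₀W'
  have hZ : (A.sec W₀ ⊓ LinearMap.ker A.d) ≤ E₀' ⊔ (A.sec W').map A.d := by
    rintro m ⟨hm1, hm2⟩
    obtain ⟨e, he, w, hw, hmw⟩ := hfin m hm1 hm2
    have e1 : m = e + A.d w := by rw [← hmw]; abel
    rw [e1]
    exact Submodule.add_mem_sup he ⟨w, hw, rfl⟩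
  obtain ⟨E₀, hE₀, hE₀Z, hZE₀⟩ := fcf_lin_compl _ _ E₀' hE₀' hZ
  obtain ⟨Φ, hΦ⟩ : ∃ Φ : Submodule ℝ A.dual.C,
      Φ = (A.dual.sec (closure W')ᶜ).comap A.dual.d := ⟨_, rfl⟩
  have hΦmem : ∀ φ : A.dual.C, φ ∈ Φ ↔ A.dual.supp (A.dual.d φ) ⊆ (closure W')ᶜ := by
    intro φ
    rw [hΦ]
    rfl
  obtain ⟨ρ, hρ⟩ : ∃ ρ : Φ →ₗ[ℝ] A.C →ₗ[ℝ] ℝ, ∀ (φ : Φ) (m : A.C), ρ φ m = φ.1.1 m :=
    ⟨{ toFun := fun φ => φ.1.1, map_add' := fun _ _ => rfl, map_smul' := fun _ _ => rfl },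
      fun _ _ => rfl⟩
  obtain ⟨a, haE, hav⟩ := fcf_eval_of_fin E₀ hE₀ ρ (Ψ.1 ∘ₗ Φ.subtype) (by
    intro φ hφ
    show Ψ.1 φ.1 = 0
    refine hstepa φ.1 (fun z hz hdz => ?_)
    obtain ⟨e, he, b, hb, rfl⟩ := Submodule.mem_sup.1 (hZE₀ ⟨hz, hdz⟩)
    have h1 : φ.1.1 e = 0 := by rw [← hρ]; exact hφ e he
    obtain ⟨w, hw, rfl⟩ := hb.2
    have hφΦ : A.dual.supp (A.dual.d φ.1) ⊆ (closure W')ᶜ := (hΦmem φ.1).1 φ.2
    have h2 : (A.dual.d φ.1).1 w = 0 := by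
      refine A.toFcObj.dual_apply_eq_zero _ w ?_
      rw [Set.disjoint_left]
      intro x hx hxs
      exact hφΦ hxs (subset_closure (hw hx))
    have h3 : φ.1.1 (A.d w) = 0 := h2
    rw [map_add, h1, h3, add_zero])
  have haZ := hE₀Z haE
  obtain ⟨Θ₀, hΘ0, hΘd⟩ := fcg_dv_cobound A.dual.d (A.dual.sec (closure W')ᶜ)
    (Ψ.1 - ((fcEv A).f a).1) (by
      intro v hv
      have h1 := hav ⟨v, (hΦmem v).2 hv⟩
      rw [hρ] at h1
      have h2 : Ψ.1 v = v.1 a := h1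
      show Ψ.1 v - v.1 a = 0
      rw [h2, sub_self])
  have hΘ : ∀ φ : A.dual.C, Disjoint (A.dual.supp φ) (closure W') → Θ₀ φ = 0 := fun φ hφ =>
    hΘ0 φ (fun x hx hxL => Set.disjoint_left.1 hφ hx hxL)
  refine ⟨a, fcgMkDual A.dual Θ₀ (closure W') hcW' hΘ, ?_, haZ.2,
    (fcgMkDual_supp A.dual Θ₀ (closure W') hcW' hΘ).trans hW'U, ?_⟩
  · exact Set.Subset.trans haZ.1 (subset_closure.trans (hW₀W'.trans (subset_closure.trans hW'U)))
  · apply Subtype.ext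
    apply LinearMap.ext
    intro φ
    show Ψ.1 φ = φ.1 a + Θ₀ (A.dual.d φ)
    rw [hΘd]
    show Ψ.1 φ = φ.1 a + (Ψ.1 φ - φ.1 a)
    ring

/-- **REFLEXIVITY.** -/
theorem fcf_refl [T2Space X] [LocallyCompactSpace X] (A : FcD X) (hA : A.FT) :
    (fcCone (fcEv A)).Acyc := by
  intro U hU _
  rw [fcg_cone_acycAt_iff]
  refine ⟨fun b hb hdb => ?_, fun a b' ha hda hb' h => fcf_ev_inj A U hU a ha hda b' hb' h⟩
  obtain ⟨a, Θ, h1, h2, h3, h4⟩ := fcf_ev_surj A hA U hU b hb hdb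
  exact ⟨a, Θ, h1, h2, h3, h4⟩

/-! ### 5. Push forward -/

/-- `(g_! A)(O) = A(g⁻¹ O)`.  `K ⊆ W ⋐ W'` opens.  Every cycle of `A(g⁻¹ O)` is homologous in `A(g⁻¹ O)` to a cycle of
`A(g⁻¹ O ∩ W)` (`A` is acyclic off `K`: `fcg_res_qi`), and `g⁻¹ O ∩ W ⋐ g⁻¹ O' ∩ W'`. -/
theorem fcf_push [T2Space X] [LocallyCompactSpace X] [T2Space Y] (g : C(X, Y)) (A : FcD X)
    (hA : A.FT) (K : Set X) (hK : IsCompact K) (hAK : A.AcycOn Kᶜ) : (A.push g).FT := by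
  intro O O' hO hO' _ hOO'
  obtain ⟨W, hW, hKW, hcW, -⟩ := fcfb_nhd hK isOpen_univ (Set.subset_univ _)
  obtain ⟨W', hW', hWW', -, -⟩ := fcfb_nhd hcW isOpen_univ (Set.subset_univ _)
  have hgO : IsOpen (g ⁻¹' O) := hO.preimage g.continuous
  have hgO' : IsOpen (g ⁻¹' O') := hO'.preimage g.continuous
  have hcl : closure (g ⁻¹' O ∩ W) ⊆ g ⁻¹' (closure O) ∩ closure W := by
    refine closure_minimal ?_ ((isClosed_closure.preimage g.continuous).inter isClosed_closure)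
    exact Set.inter_subset_inter (Set.preimage_mono subset_closure) subset_closure
  obtain ⟨E, hE, hfin⟩ := hA (g ⁻¹' O ∩ W) (g ⁻¹' O' ∩ W') (hgO.inter hW) (hgO'.inter hW')
    (hcW.of_isClosed_subset isClosed_closure (hcl.trans Set.inter_subset_right))
    (hcl.trans (Set.inter_subset_inter (Set.preimage_mono hOO') hWW'))
  have hqi := (fcg_cone_acycAt_iff (fcResIncl A W) (g ⁻¹' O)).1
    (fcg_res_qi A hK.isClosed hW hKW hAK (g ⁻¹' O) hgO (Set.subset_univ _))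
  refine ⟨E, hE, fun (m : A.C) hm hdm => ?_⟩
  have hm' : A.supp m ⊆ g ⁻¹' O := Set.image_subset_iff.1 hm
  have hdm' : A.d m = 0 := hdm
  obtain ⟨a, b', ha, hda, hb', hab⟩ := hqi.1 m hm' hdm'
  have ha1 : A.supp a.1 ⊆ g ⁻¹' O := ha
  have ha2 : A.supp a.1 ⊆ W := a.2
  have hda' : A.d a.1 = 0 := congrArg Subtype.val hda
  have hab' : m = a.1 + A.d b' := hab
  obtain ⟨e, he, w, hw, hew⟩ := hfin a.1 (Set.subset_inter ha1 ha2) hda'
  refine ⟨e, he, w + b', ?_, ?_⟩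
  · refine Set.image_subset_iff.2 ((A.supp_add _ _).trans (Set.union_subset ?_ ?_))
    · exact hw.trans Set.inter_subset_left
    · exact hb'.trans (Set.preimage_mono (subset_closure.trans hOO'))
  · show m - e = A.d (w + b')
    rw [map_add, ← hew, hab']
    abel

theorem fcf_push_acycAt [T2Space Y] (g : C(X, Y)) (A : FcD X) (U : Set Y) :
    (A.push g).AcycAt U ↔ A.AcycAt (g ⁻¹' U) := by
  constructor
  · intro h m hm hd
    obtain ⟨m', hm', hd'⟩ := h m (Set.image_subset_iff.2 hm) hd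
    exact ⟨m', Set.image_subset_iff.1 hm', hd'⟩
  · intro h m hm hd
    obtain ⟨m', hm', hd'⟩ := h m (Set.image_subset_iff.1 hm) hd
    exact ⟨m', Set.image_subset_iff.2 hm', hd'⟩

theorem fcf_push_acycOn [T2Space Y] (g : C(X, Y)) (A : FcD X) (K : Set X) (hAK : A.AcycOn Kᶜ) :
    (A.push g).AcycOn (g '' K)ᶜ := by
  intro U hU hUK
  rw [fcf_push_acycAt]
  refine hAK _ (hU.preimage g.continuous) ?_
  intro x hx hxK
  exact hUK hx ⟨x, hxK, rfl⟩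

/-! ### 6. The basis criterion -/

/-- MAYER-VIETORIS for finite rank, three levels.  `m = m₁ + m₂` a cycle of `A(U₁ ∪ V₁)`; `d m₁ ∈ A(U₁ ∩ V₁)` is a cycle;
modulo a finite dimensional space `d m₁ = d n`, `n ∈ A(U₂ ∩ V₂)`; `m₁ - n`, `m₂ + n` are cycles of `A(U₂)`, `A(V₂)`.
Rigorously: `fcf_rk_quot`-type argument in `V = A × A`, or directly with `fcf_lin_compl_map`
(choose the decomposition LINEARLY: `m₁ = π m` with `π` from `fcg_cut` is not available for all `m` at once, so use the space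
`S = {(m₁, m₂)}` of decompositions). -/
theorem fcf_mv [T2Space X] (A : FcD X) {U₁ U₂ U₃ V₁ V₂ V₃ : Set X} (hU₁ : IsOpen U₁)
    (hV₁ : IsOpen V₁) (hU12 : U₁ ⊆ U₂) (hV12 : V₁ ⊆ V₂)
    (h1 : A.FinAt (U₁ ∩ V₁) (U₂ ∩ V₂)) (h2 : A.FinAt U₂ U₃) (h3 : A.FinAt V₂ V₃) :
    A.FinAt (U₁ ∪ V₁) (U₃ ∪ V₃) := by
  obtain ⟨E₁, hE₁, hf1⟩ := h1
  obtain ⟨E₂, hE₂, hf2⟩ := h2
  obtain ⟨E₃, hE₃, hf3⟩ := h3
  obtain ⟨S, hS⟩ : ∃ S : Submodule ℝ (A.C × A.C), S = ((A.sec U₁).prod (A.sec V₁)) ⊓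
      LinearMap.ker (A.d ∘ₗ (LinearMap.fst ℝ A.C A.C + LinearMap.snd ℝ A.C A.C)) := ⟨_, rfl⟩
  have hSmem : ∀ p : A.C × A.C, p ∈ S ↔
      (A.supp p.1 ⊆ U₁ ∧ A.supp p.2 ⊆ V₁) ∧ A.d (p.1 + p.2) = 0 := by
    intro p
    rw [hS]
    rfl
  have hmap : S.map (A.d ∘ₗ LinearMap.fst ℝ A.C A.C) ≤ E₁ ⊔ (A.sec (U₂ ∩ V₂)).map A.d := by
    rintro _ ⟨p, hp, rfl⟩
    obtain ⟨⟨hp1, hp2⟩, hp3⟩ := (hSmem p).1 hp
    show A.d p.1 ∈ _
    have e1 : A.d p.1 = -A.d p.2 := by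
      rw [map_add] at hp3
      exact eq_neg_of_add_eq_zero_left hp3
    obtain ⟨e, he, w, hw, hew⟩ := hf1 (A.d p.1) (Set.subset_inter ((A.d_loc _).trans hp1)
      (by rw [e1]; exact ((A.supp_neg _).trans (A.d_loc _)).trans hp2)) (A.d_sq _)
    have e2 : A.d p.1 = e + A.d w := by rw [← hew]; abel
    rw [e2]
    exact Submodule.add_mem_sup he ⟨w, hw, rfl⟩
  obtain ⟨F, hF, hFS, hSF⟩ := fcf_lin_compl_map (A.d ∘ₗ LinearMap.fst ℝ A.C A.C) S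
    ((A.sec (U₂ ∩ V₂)).map A.d) E₁ hE₁ hmap
  refine ⟨F.map (LinearMap.fst ℝ A.C A.C + LinearMap.snd ℝ A.C A.C) ⊔ (E₂ ⊔ E₃), inferInstance,
    fun m hm hdm => ?_⟩
  obtain ⟨m₁, m₂, rfl, hm₁, hm₂⟩ := A.toFcObj.decomp hU₁ hV₁ m hm
  have hpS : ((m₁, m₂) : A.C × A.C) ∈ S :=
    (hSmem _).2 ⟨⟨hm₁.trans Set.inter_subset_right, hm₂.trans Set.inter_subset_right⟩, hdm⟩
  obtain ⟨s, hs, t, ht, hst⟩ := Submodule.mem_sup.1 (hSF hpS)
  obtain ⟨⟨ht1, ht2⟩, ht3⟩ := (hSmem t).1 ht.1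
  obtain ⟨n, hn, hdn⟩ : ∃ n ∈ A.sec (U₂ ∩ V₂), A.d n = A.d t.1 := ht.2
  have hn' : A.supp n ⊆ U₂ ∩ V₂ := hn
  obtain ⟨e₂, he₂, w₂, hw₂, hew₂⟩ := hf2 (t.1 - n)
    ((A.supp_sub _ _).trans (Set.union_subset (ht1.trans hU12) (hn'.trans Set.inter_subset_left)))
    (by rw [map_sub, hdn, sub_self])
  obtain ⟨e₃, he₃, w₃, hw₃, hew₃⟩ := hf3 (t.2 + n)
    ((A.supp_add _ _).trans (Set.union_subset (ht2.trans hV12) (hn'.trans Set.inter_subset_right)))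
    (by rw [map_add, hdn, add_comm, ← map_add, ht3])
  refine ⟨(s.1 + s.2) + (e₂ + e₃), Submodule.add_mem_sup ⟨s, hs, rfl⟩
    (Submodule.add_mem_sup he₂ he₃), w₂ + w₃, ?_, ?_⟩
  · exact (A.supp_add _ _).trans (Set.union_subset_union hw₂ hw₃)
  · have h1 : m₁ = s.1 + t.1 := (congrArg Prod.fst hst).symm
    have h2 : m₂ = s.2 + t.2 := (congrArg Prod.snd hst).symm
    rw [map_add, ← hew₂, ← hew₃, h1, h2]
    abel

theorem fcfc_finAt_empty (A : FcD X) (O' : Set X) : A.FinAt ∅ O' := by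
  refine ⟨⊥, inferInstance, fun m hm _ => ⟨0, Submodule.zero_mem _, 0, ?_, ?_⟩⟩
  · rw [A.supp_zero]
    exact Set.empty_subset _
  · have h0 : m = 0 := (A.supp_empty_iff m).1 (Set.subset_empty_iff.1 hm)
    rw [h0]
    simp

/-- finite unions of members of the basis (`C(n)` of the plan of `fcf_basis`) -/
theorem fcfc_basis_fin [T2Space X] (A : FcD X) (𝔅 : Set (Set X)) (hopen : ∀ B ∈ 𝔅, IsOpen B)
    (hinter : ∀ B ∈ 𝔅, ∀ B' ∈ 𝔅, B ∩ B' ∈ 𝔅)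
    (hinterp : ∀ B ∈ 𝔅, ∀ B' ∈ 𝔅, IsCompact (closure B) → closure B ⊆ B' →
      ∃ B'' ∈ 𝔅, IsCompact (closure B'') ∧ closure B ⊆ B'' ∧ closure B'' ⊆ B')
    (hfin : ∀ B ∈ 𝔅, ∀ B' ∈ 𝔅, IsCompact (closure B) → closure B ⊆ B' → A.FinAt B B')
    {ι : Type} (s : Finset ι) : ∀ (B B' : ι → Set X),
      (∀ i ∈ s, B i ∈ 𝔅 ∧ B' i ∈ 𝔅 ∧ IsCompact (closure (B i)) ∧ closure (B i) ⊆ B' i) →
      A.FinAt (⋃ i ∈ s, B i) (⋃ i ∈ s, B' i) := by
  classical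
  induction s using Finset.induction_on with
  | empty =>
    intro B B' _
    simp only [Finset.notMem_empty, Set.iUnion_of_empty, Set.iUnion_empty]
    exact fcfc_finAt_empty A ∅
  | insert a s ha ih =>
    intro B B' h
    have hI : ∀ i, ∃ C, i ∈ insert a s →
        (C ∈ 𝔅 ∧ IsCompact (closure C) ∧ closure (B i) ⊆ C ∧ closure C ⊆ B' i) := by
      intro i
      by_cases hi : i ∈ insert a s
      · obtain ⟨h1, h2, h3, h4⟩ := h i hi
        obtain ⟨C, hC⟩ := hinterp _ h1 _ h2 h3 h4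
        exact ⟨C, fun _ => hC⟩
      · exact ⟨∅, fun h => absurd h hi⟩
    choose C hC using hI
    rw [Finset.set_biUnion_insert, Finset.set_biUnion_insert, Set.union_comm (B a),
      Set.union_comm (B' a)]
    have ha' := Finset.mem_insert_self a s
    have hs' : ∀ i ∈ s, i ∈ insert a s := fun i hi => Finset.mem_insert_of_mem hi
    refine fcf_mv A (U₂ := ⋃ i ∈ s, C i) (V₂ := C a)
      (isOpen_biUnion fun i hi => hopen _ (h i (hs' i hi)).1) (hopen _ (h a ha').1) ?_ ?_ ?_ ?_ ?_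
    · exact Set.iUnion₂_mono fun i hi => subset_closure.trans (hC i (hs' i hi)).2.2.1
    · exact subset_closure.trans (hC a ha').2.2.1
    · rw [Set.iUnion₂_inter, Set.iUnion₂_inter]
      refine ih (fun i => B i ∩ B a) (fun i => C i ∩ C a) (fun i hi =>
        ⟨hinter _ (h i (hs' i hi)).1 _ (h a ha').1, hinter _ (hC i (hs' i hi)).1 _ (hC a ha').1,
          ?_, ?_⟩)
      · exact (h i (hs' i hi)).2.2.1.of_isClosed_subset isClosed_closure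
          (closure_mono Set.inter_subset_left)
      · exact (closure_inter_subset_inter_closure _ _).trans
          (Set.inter_subset_inter (hC i (hs' i hi)).2.2.1 (hC a ha').2.2.1)
    · exact ih C B' (fun i hi => ⟨(hC i (hs' i hi)).1, (h i (hs' i hi)).2.1,
        (hC i (hs' i hi)).2.1, (hC i (hs' i hi)).2.2.2⟩)
    · exact hfin _ (hC a ha').1 _ (h a ha').2.1 (hC a ha').2.1 (hC a ha').2.2.2

/-- **BASIS CRITERION.**  `C(n)`: for `B_i ⋐ B_i'` in `𝔅` (`i < n`): `FinAt (⋃ B_i) (⋃ B_i')`.  Induction on `n` for all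
families: interpolate `B_i ⋐ B_i'' ⋐ B_i'`; `fcf_mv` with `U₁ = ⋃_{i<n} B_i`, `V₁ = B_n`, `U₂, V₂` the same with `''`, `U₃, V₃` with `'`;
`U₁ ∩ V₁ = ⋃ (B_i ∩ B_n)` and `B_i ∩ B_n ⋐ B_i'' ∩ B_n''`.  Finally cover `closure O` by finitely many `B_i ⋐ B_i' ⊆ O'`. -/
theorem fcf_basis [T2Space X] (A : FcD X) (𝔅 : Set (Set X)) (hopen : ∀ B ∈ 𝔅, IsOpen B)
    (hinter : ∀ B ∈ 𝔅, ∀ B' ∈ 𝔅, B ∩ B' ∈ 𝔅)
    (hinterp : ∀ B ∈ 𝔅, ∀ B' ∈ 𝔅, IsCompact (closure B) → closure B ⊆ B' →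
      ∃ B'' ∈ 𝔅, IsCompact (closure B'') ∧ closure B ⊆ B'' ∧ closure B'' ⊆ B')
    (hbasis : ∀ U, IsOpen U → ∀ x ∈ U, ∃ B ∈ 𝔅, ∃ B' ∈ 𝔅,
      x ∈ B ∧ IsCompact (closure B) ∧ closure B ⊆ B' ∧ B' ⊆ U)
    (hfin : ∀ B ∈ 𝔅, ∀ B' ∈ 𝔅, IsCompact (closure B) → closure B ⊆ B' → A.FinAt B B') : A.FT := by
  intro O O' hO hO' hc hOO'
  have hx : ∀ x : closure O, ∃ B ∈ 𝔅, ∃ B' ∈ 𝔅,
      x.1 ∈ B ∧ IsCompact (closure B) ∧ closure B ⊆ B' ∧ B' ⊆ O' :=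
    fun x => hbasis O' hO' x.1 (hOO' x.2)
  choose B hB B' hB' hxB hcB hBB' hB'O' using hx
  obtain ⟨t, ht⟩ := hc.elim_nhds_subcover' (fun x hx => B ⟨x, hx⟩)
    (fun x hx => (hopen _ (hB _)).mem_nhds (hxB _))
  have hfinU := fcfc_basis_fin A 𝔅 hopen hinter hinterp hfin t B B'
    (fun i _ => ⟨hB i, hB' i, hcB i, hBB' i⟩)
  refine fcf_finAt_mono A ?_ ?_ hfinU
  · exact subset_closure.trans ht
  · exact Set.iUnion₂_subset fun i _ => hB'O' i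

/-! ### 7. The intrinsic class -/

/-- acyclic off a compact set -/
def FcD.CS (A : FcD X) : Prop := ∃ K, IsCompact K ∧ A.AcycOn Kᶜ

/-- the intrinsic thick class: `FT` + acyclic off a compact set -/
def fcfCls (X : Type) [TopologicalSpace X] [T2Space X] [LocallyCompactSpace X] : FcCls X where
  mem := fun A => A.FT ∧ A.CS
  iso := fun e h => ⟨fcf_iso e h.1, by
    obtain ⟨K, hK, hA⟩ := h.2
    exact ⟨K, hK, fun U hU hUK => (hA U hU hUK).of_iso e⟩⟩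
  acyc := fun h => ⟨fcf_acyc _ h, ∅, isCompact_empty, fun U hU _ => h U hU (Set.subset_univ _)⟩
  resc := fun c hc h => ⟨fcf_resc _ c hc h.1, by
    obtain ⟨K, hK, hA⟩ := h.2
    exact ⟨K, hK, fun U hU hUK => (hA U hU hUK).resc hc⟩⟩
  cone := fun f hA hB => ⟨fcf_cone f hA.1 hB.1, by
    obtain ⟨K, hK, hA⟩ := hA.2
    obtain ⟨L, hL, hB⟩ := hB.2
    refine ⟨K ∪ L, hK.union hL, fun U hU hUK => ?_⟩
    rw [Set.compl_union] at hUK
    exact fcCone_acycAt f (hA U hU (hUK.trans Set.inter_subset_left))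
      (hB U hU (hUK.trans Set.inter_subset_right))⟩
  cone_src := fun f hA hB => ⟨fcf_cone_src f hA.1 hB.1, by
    obtain ⟨K, hK, hA⟩ := hA.2
    obtain ⟨L, hL, hB⟩ := hB.2
    refine ⟨K ∪ L, hK.union hL, fun U hU hUK => ?_⟩
    rw [Set.compl_union] at hUK
    exact fcCone_acycAt_src f (hA U hU (hUK.trans Set.inter_subset_left))
      (hB U hU (hUK.trans Set.inter_subset_right))⟩
  cone_tgt := fun f hA hB => ⟨fcf_cone_tgt f hA.1 hB.1, by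
    obtain ⟨K, hK, hA⟩ := hA.2
    obtain ⟨L, hL, hB⟩ := hB.2
    refine ⟨K ∪ L, hK.union hL, fun U hU hUK => ?_⟩
    rw [Set.compl_union] at hUK
    exact fcCone_acycAt_tgt f (hA U hU (hUK.trans Set.inter_subset_left))
      (hB U hU (hUK.trans Set.inter_subset_right))⟩
  dual := fun h => ⟨fcf_dual _ h.1, by
    obtain ⟨K, hK, hA⟩ := h.2
    exact ⟨K, hK, hA.dual⟩⟩

theorem fcfCls_summ [T2Space X] [LocallyCompactSpace X] : (fcfCls X).Summ :=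
  fun _ _ h => ⟨fcf_summand h.1, by
    obtain ⟨K, hK, hA⟩ := h.2
    exact ⟨K, hK, fun U hU hUK => (hA U hU hUK).of_prod⟩⟩

/-- every member of a thick class generated by members of the intrinsic class is in the intrinsic class:
it has `FT` and is acyclic off a compact set -/
theorem fcfCls_thick [T2Space X] [LocallyCompactSpace X] (G : FcD X → Prop)
    (hG : ∀ A, G A → (fcfCls X).mem A) (A : FcD X) (h : FcThick G A) : (fcfCls X).mem A := by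
  induction h with
  | gen h => exact hG _ h
  | iso e _ ih => exact (fcfCls X).iso e ih
  | acyc h => exact (fcfCls X).acyc h
  | resc c hc _ ih => exact (fcfCls X).resc c hc ih
  | cone f _ _ ih1 ih2 => exact (fcfCls X).cone f ih1 ih2
  | cone_src f _ _ ih1 ih2 => exact (fcfCls X).cone_src f ih1 ih2
  | cone_tgt f _ _ ih1 ih2 => exact (fcfCls X).cone_tgt f ih1 ih2
  | summand _ ih => exact fcfCls_summ _ _ ih

theorem fcfCls_refl [T2Space X] [LocallyCompactSpace X] : (fcfCls X).Refl :=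
  fun A h => fcf_refl A h.1

theorem fcfCls_push [T2Space X] [LocallyCompactSpace X] [T2Space Y] [LocallyCompactSpace Y]
    (g : C(X, Y)) (A : FcD X) (h : (fcfCls X).mem A) : (fcfCls Y).mem (A.push g) := by
  obtain ⟨h1, K, hK, hA⟩ := h
  exact ⟨fcf_push g A h1 K hK hA, g '' K, hK.image g.continuous, fcf_push_acycOn g A K hA⟩

/-- CUT-OFF: an object of the class which is acyclic off a closed subset `C` of the open set `V` may be replaced by `A(V)` -/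
theorem fcfCls_res [T2Space X] [LocallyCompactSpace X] (A : FcD X) (h : (fcfCls X).mem A)
    {C V : Set X} (hC : IsClosed C) (hV : IsOpen V) (hCV : C ⊆ V) (hA : A.AcycOn Cᶜ) :
    (fcfCls X).mem (A.res V) :=
  (fcfCls X).cone_src (fcResIncl A V) h ((fcfCls X).acyc (fcg_res_qi A hC hV hCV hA))

/-- over a point: finite dimensional homology -/
theorem fcf_pt (A : FcD PUnit) : A.FT ↔ A.FinAt Set.univ Set.univ := by
  constructor
  · intro h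
    exact h _ _ isOpen_univ isOpen_univ (by rw [closure_univ]; exact isCompact_univ)
      (Set.subset_univ _)
  · intro h O O' _ _ _ hOO'
    rcases Set.eq_empty_or_nonempty O with rfl | hne
    · exact fcfc_finAt_empty A O'
    · have hO' : O' = Set.univ :=
        Subsingleton.eq_univ_of_nonempty (hne.mono (subset_closure.trans hOO'))
      rw [hO']
      exact fcf_finAt_mono A (Set.subset_univ _) subset_rfl h

/-- realises the equation lemmas here (unique names) -/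
theorem fcf_fin_eqns_cite : True := by
  have := @FcfFinRk.eq_1
  have := @FcD.FinAt.eq_1
  have := @FcD.FT.eq_1
  have := @FcD.FinG.eq_1
  have := @FcD.CS.eq_1
  have := @fcfCls.eq_1
  trivial

end Claimed.Agent.R304
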