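/-
Row 304 (S0559, Hilbert-Smith).  Owner: helper27.  PACKAGE FcCalc: COMPLEMENTS TO `FcBasic` FOR THE COBORDISM CALCULUS (layer E).
Prefix `fck`.   Everything holds for every class `P : FcCls X`.  Built on helper231's `FcExt` (split short exact sequences).

* locality combinators `fck_loc_*` (stated for `FcObj`, usable for `FcLoc` by unfolding), `fckIsoOfLoc`
* `fcAp` calculus: `fck_dual_ext`, `fcAp_add/sub/neg/smul/zero`, `fcAp_map_*`, `fcAp_d`, `fcAp_tr`, `fcAp_trLin`, `fcAp_curry`, `fcAp_ev`,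
  `fcAp_eq_zero`, `fck_curry_loc`, `fckPair`
* `FcHom.ext'`
* `fckTw A B τ` twisted products with their extension `fckExtTw`
* FILTERED MAPS: `FcExt.subMap`, `FcExt.quotMap` (automatically chain maps), `FcExt.filtHom`, `fck_mem_cone_filt`
* THE CONGRUENCE LEMMA FOR CONES `fck_cone_congr` (`A' ≅ A<c>`, `B' ≅ B<c>`, `f' = c' f`)
* `fck_eqv_tr` (transpose of a `P`-equivalence), `FcIso.dual'`, `fckDualProd`, `fck_ev_congr` (reflexivity as it is used)
-/
import Claimed.Agent.R304.FcBasic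

set_option autoImplicit false

namespace Claimed.Agent.R304

open Topology

variable {X : Type} [TopologicalSpace X]

/-! ### locality -/

section loc

variable {A B C E : FcObj X}

theorem fck_loc_id (A : FcObj X) : ∀ m, A.supp ((LinearMap.id : A.carrier →ₗ[ℝ] A.carrier) m) ⊆ A.supp m :=
  fun _ => subset_rfl

theorem fck_loc_zero (A B : FcObj X) : ∀ m, B.supp ((0 : A.carrier →ₗ[ℝ] B.carrier) m) ⊆ A.supp m :=
  fun m => by simp [B.supp_zero]

theorem fck_loc_comp {f : A.carrier →ₗ[ℝ] B.carrier} {g : B.carrier →ₗ[ℝ] C.carrier}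
    (hg : ∀ m, C.supp (g m) ⊆ B.supp m) (hf : ∀ m, B.supp (f m) ⊆ A.supp m) :
    ∀ m, C.supp ((g ∘ₗ f) m) ⊆ A.supp m := fun m => (hg _).trans (hf m)

theorem fck_loc_add {f g : A.carrier →ₗ[ℝ] B.carrier} (hf : ∀ m, B.supp (f m) ⊆ A.supp m)
    (hg : ∀ m, B.supp (g m) ⊆ A.supp m) : ∀ m, B.supp ((f + g) m) ⊆ A.supp m :=
  fun m => (B.supp_add _ _).trans (Set.union_subset (hf m) (hg m))

theorem fck_loc_sub {f g : A.carrier →ₗ[ℝ] B.carrier} (hf : ∀ m, B.supp (f m) ⊆ A.supp m)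
    (hg : ∀ m, B.supp (g m) ⊆ A.supp m) : ∀ m, B.supp ((f - g) m) ⊆ A.supp m :=
  fun m => (B.supp_sub _ _).trans (Set.union_subset (hf m) (hg m))

theorem fck_loc_neg {f : A.carrier →ₗ[ℝ] B.carrier} (hf : ∀ m, B.supp (f m) ⊆ A.supp m) :
    ∀ m, B.supp ((-f) m) ⊆ A.supp m := fun m => (B.supp_neg _).trans (hf m)

theorem fck_loc_smul (c : ℝ) {f : A.carrier →ₗ[ℝ] B.carrier} (hf : ∀ m, B.supp (f m) ⊆ A.supp m) :
    ∀ m, B.supp ((c • f) m) ⊆ A.supp m := fun m => (B.supp_smul c _).trans (hf m)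

theorem fck_loc_fst (A B : FcObj X) :
    ∀ m, A.supp ((LinearMap.fst ℝ A.carrier B.carrier) m) ⊆ (A.prod B).supp m :=
  fun _ => Set.subset_union_left

theorem fck_loc_snd (A B : FcObj X) :
    ∀ m, B.supp ((LinearMap.snd ℝ A.carrier B.carrier) m) ⊆ (A.prod B).supp m :=
  fun _ => Set.subset_union_right

theorem fck_loc_inl (A B : FcObj X) :
    ∀ m, (A.prod B).supp ((LinearMap.inl ℝ A.carrier B.carrier) m) ⊆ A.supp m := fun m => by
  show A.supp m ∪ B.supp 0 ⊆ A.supp m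
  rw [B.supp_zero, Set.union_empty]

theorem fck_loc_inr (A B : FcObj X) :
    ∀ m, (A.prod B).supp ((LinearMap.inr ℝ A.carrier B.carrier) m) ⊆ B.supp m := fun m => by
  show A.supp 0 ∪ B.supp m ⊆ B.supp m
  rw [A.supp_zero, Set.empty_union]

theorem fck_loc_prod {f : A.carrier →ₗ[ℝ] B.carrier} {g : A.carrier →ₗ[ℝ] C.carrier}
    (hf : ∀ m, B.supp (f m) ⊆ A.supp m) (hg : ∀ m, C.supp (g m) ⊆ A.supp m) :
    ∀ m, (B.prod C).supp ((f.prod g) m) ⊆ A.supp m := fun m => Set.union_subset (hf m) (hg m)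

/-- pointwise form: a pair is supported where both components are -/
theorem fck_supp_pair_subset {S : Set X} {b : B.carrier} {c : C.carrier} (hb : B.supp b ⊆ S)
    (hc : C.supp c ⊆ S) : (B.prod C).supp (b, c) ⊆ S := Set.union_subset hb hc

end loc

/-! ### isomorphisms -/

section iso

variable {A B C : FcD X}

/-- an isomorphism from a linear equivalence which is local in both directions -/
def fckIsoOfLoc (e : A.C ≃ₗ[ℝ] B.C) (h1 : ∀ m, B.supp (e m) ⊆ A.supp m)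
    (h2 : ∀ m, A.supp (e.symm m) ⊆ B.supp m) (hc : ∀ m, e (A.d m) = B.d (e m)) : FcIso A B where
  e := e
  supp_eq := fun m => by
    apply subset_antisymm (h1 m)
    have := h2 (e m)
    rwa [LinearEquiv.symm_apply_apply] at this
  comm := hc

theorem FcCls.iso_iff [T2Space X] (P : FcCls X) (e : FcIso A B) : P.mem A ↔ P.mem B :=
  ⟨P.iso e, P.iso e.symm⟩

end iso

/-! ### evaluation of functionals -/

section ap

variable [T2Space X] {A B : FcD X}

theorem fck_dual_ext {φ ψ : A.dual.C} (h : ∀ m, fcAp φ m = fcAp ψ m) : φ = ψ :=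
  Subtype.ext (LinearMap.ext h)

theorem fcAp_add (φ ψ : A.dual.C) (m : A.C) : fcAp (φ + ψ) m = fcAp φ m + fcAp ψ m := rfl

theorem fcAp_sub (φ ψ : A.dual.C) (m : A.C) : fcAp (φ - ψ) m = fcAp φ m - fcAp ψ m := rfl

theorem fcAp_neg (φ : A.dual.C) (m : A.C) : fcAp (-φ) m = - fcAp φ m := rfl

theorem fcAp_smul (c : ℝ) (φ : A.dual.C) (m : A.C) : fcAp (c • φ) m = c * fcAp φ m := rfl

theorem fcAp_zero (m : A.C) : fcAp (0 : A.dual.C) m = 0 := rfl

theorem fcAp_map_add (φ : A.dual.C) (m m' : A.C) : fcAp φ (m + m') = fcAp φ m + fcAp φ m' :=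
  map_add φ.1 m m'

theorem fcAp_map_sub (φ : A.dual.C) (m m' : A.C) : fcAp φ (m - m') = fcAp φ m - fcAp φ m' :=
  map_sub φ.1 m m'

theorem fcAp_map_neg (φ : A.dual.C) (m : A.C) : fcAp φ (-m) = - fcAp φ m := map_neg φ.1 m

theorem fcAp_map_smul (φ : A.dual.C) (c : ℝ) (m : A.C) : fcAp φ (c • m) = c * fcAp φ m :=
  map_smul φ.1 c m

theorem fcAp_map_zero (φ : A.dual.C) : fcAp φ (0 : A.C) = 0 := map_zero φ.1

theorem fcAp_d (φ : A.dual.C) (m : A.C) : fcAp (A.dual.d φ) m = fcAp φ (A.d m) := rfl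

theorem fcAp_tr (f : FcHom A B) (φ : B.dual.C) (m : A.C) : fcAp ((fcTr f).f φ) m = fcAp φ (f.f m) := rfl

theorem fcAp_trLin (f : A.C →ₗ[ℝ] B.C) (hf : ∀ m, B.supp (f m) ⊆ A.supp m) (φ : B.dual.C) (m : A.C) :
    fcAp (A := A) (fcTrLin f hf φ) m = fcAp φ (f m) := rfl

theorem fcAp_curry (b : A.C →ₗ[ℝ] B.C →ₗ[ℝ] ℝ) (hb : FcLoc2 A B b) (m : A.C) (n : B.C) :
    fcAp (fcCurry b hb m) n = b m n := rfl

theorem fcAp_ev (m : A.C) (φ : A.dual.C) : fcAp ((fcEv A).f m) φ = fcAp φ m := rfl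

/-- a functional vanishes on the elements whose support avoids its support -/
theorem fcAp_eq_zero (φ : A.dual.C) (m : A.C) (h : Disjoint (A.dual.supp φ) (A.supp m)) :
    fcAp φ m = 0 := A.toFcObj.dual_apply_eq_zero φ.1 m h.symm

/-- the curried form of a local bilinear form is local -/
theorem fck_curry_loc (b : A.C →ₗ[ℝ] B.C →ₗ[ℝ] ℝ) (hb : FcLoc2 A B b) : FcLoc A B.dual (fcCurry b hb) :=
  fun m => B.toFcObj.dualSupp_subset_of_closed _ (A.supp_closed m) (fun n hn => hb m n hn.symm)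

/-- the evaluation pairing as a bilinear map -/
def fckPair (A : FcD X) : A.dual.C →ₗ[ℝ] A.C →ₗ[ℝ] ℝ :=
  LinearMap.mk₂ ℝ (fun φ m => fcAp φ m) (fun _ _ _ => rfl) (fun _ _ _ => rfl)
    (fun φ m m' => fcAp_map_add φ m m') (fun c φ m => fcAp_map_smul φ c m)

theorem fckPair_apply (φ : A.dual.C) (m : A.C) : fckPair A φ m = fcAp φ m := rfl

theorem fckPair_loc (A : FcD X) : FcLoc2 A.dual A (fckPair A) := fun φ m h => fcAp_eq_zero φ m h

end ap

/-! ### chain maps -/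

section hom

variable {A B : FcD X}

theorem FcHom.ext' {f g : FcHom A B} (h : ∀ m, f.f m = g.f m) : f = g := by
  obtain ⟨f1, f2, f3⟩ := f
  obtain ⟨g1, g2, g3⟩ := g
  have : f1 = g1 := LinearMap.ext h
  subst this
  rfl

theorem fck_cone_d (f : FcHom A B) (a : A.C) (b : B.C) :
    (fcCone f).d ((a, b) : A.C × B.C) = ((-(A.d a), f.f a + B.d b) : A.C × B.C) := rfl

theorem fck_cone_supp (f : FcHom A B) (a : A.C) (b : B.C) :
    (fcCone f).supp ((a, b) : A.C × B.C) = A.supp a ∪ B.supp b := rfl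

/-- the cone of a chain map with a local inverse is locally acyclic -/
theorem fck_cone_acyc_of_inv (f : FcHom A B) (g : B.C →ₗ[ℝ] A.C) (hg : FcLoc B A g)
    (h1 : ∀ a, g (f.f a) = a) (h2 : ∀ b, f.f (g b) = b) : (fcCone f).Acyc := by
  intro U _ _
  rintro ⟨a, b⟩ hm hd
  have hd' : ((-(A.d a), f.f a + B.d b) : A.C × B.C) = 0 := hd
  have hd2 : f.f a + B.d b = 0 := congrArg Prod.snd hd'
  refine ⟨((g b, 0) : A.C × B.C), ?_, ?_⟩
  · show A.supp (g b) ∪ B.supp 0 ⊆ U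
    rw [B.supp_zero, Set.union_empty]
    exact (hg b).trans (Set.subset_union_right.trans hm)
  · show ((-(A.d (g b)), f.f (g b) + B.d 0) : A.C × B.C) = (a, b)
    have h3 : A.d (g b) = -a := by
      rw [← h1 (A.d (g b)), f.comm, h2, eq_neg_of_add_eq_zero_right hd2, map_neg, h1]
    rw [h3, h2]
    simp

end hom

/-! ### twisted products -/

section tw

variable {A B : FcD X}

/-- `Tw(A, B, τ) = A × B`, `D (a, b) = (d a, τ a + d b)` where `τ d + d τ = 0` -/
def fckTw (A B : FcD X) (τ : A.C →ₗ[ℝ] B.C) (hτ : FcLoc A B τ)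
    (h : ∀ a, τ (A.d a) + B.d (τ a) = 0) : FcD X :=
  { A.toFcObj.prod B.toFcObj with
    d := (A.d ∘ₗ LinearMap.fst ℝ A.C B.C).prod
          (τ ∘ₗ LinearMap.fst ℝ A.C B.C + B.d ∘ₗ LinearMap.snd ℝ A.C B.C)
    d_loc := fun m => by
      show A.supp (A.d m.1) ∪ B.supp (τ m.1 + B.d m.2) ⊆ A.supp m.1 ∪ B.supp m.2
      refine Set.union_subset ((A.d_loc _).trans Set.subset_union_left) ?_
      exact (B.supp_add _ _).trans (Set.union_subset_union (hτ _) (B.d_loc _))
    d_sq := fun m => by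
      show ((A.d (A.d m.1), τ (A.d m.1) + B.d (τ m.1 + B.d m.2)) : A.C × B.C) = 0
      rw [A.d_sq, map_add, B.d_sq, add_zero, h]
      rfl }

theorem fckTw_d (τ : A.C →ₗ[ℝ] B.C) (hτ : FcLoc A B τ) (h : ∀ a, τ (A.d a) + B.d (τ a) = 0)
    (a : A.C) (b : B.C) :
    (fckTw A B τ hτ h).d ((a, b) : A.C × B.C) = ((A.d a, τ a + B.d b) : A.C × B.C) := rfl

theorem fckTw_supp (τ : A.C →ₗ[ℝ] B.C) (hτ : FcLoc A B τ) (h : ∀ a, τ (A.d a) + B.d (τ a) = 0)
    (a : A.C) (b : B.C) :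
    (fckTw A B τ hτ h).supp ((a, b) : A.C × B.C) = A.supp a ∪ B.supp b := rfl

/-- the extension `0 → B → Tw(A,B,τ) → A → 0` -/
def fckExtTw (τ : A.C →ₗ[ℝ] B.C) (hτ : FcLoc A B τ) (h : ∀ a, τ (A.d a) + B.d (τ a) = 0) :
    FcExt B (fckTw A B τ hτ h) A where
  i := ⟨LinearMap.inr ℝ A.C B.C, fck_loc_inr _ _, fun b => by
    show ((0, B.d b) : A.C × B.C) = (A.d 0, τ 0 + B.d b)
    simp⟩
  p := ⟨LinearMap.fst ℝ A.C B.C, fck_loc_fst _ _, fun _ => rfl⟩
  r := LinearMap.snd ℝ A.C B.C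
  s := LinearMap.inl ℝ A.C B.C
  r_loc := fck_loc_snd _ _
  s_loc := fck_loc_inl _ _
  ri := fun _ => rfl
  ps := fun _ => rfl
  sum := fun (m : A.C × B.C) => by
    show ((0 + m.1, m.2 + 0) : A.C × B.C) = m
    rw [zero_add, add_zero]

end tw

/-! ### filtered maps: the induced maps on the sub and on the quotient are automatically chain maps -/

namespace FcExt

variable {B E A B' E' A' : FcD X}

theorem i_inj (σ : FcExt B E A) {b b' : B.C} (h : σ.i.f b = σ.i.f b') : b = b' := by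
  rw [← σ.ri b, h, σ.ri]

theorem eq_i_of_p (σ : FcExt B E A) {x : E.C} (h : σ.p.f x = 0) : σ.i.f (σ.r x) = x := by
  have h1 := σ.sum x
  rwa [h, map_zero, add_zero] at h1

/-- the map induced on the subobjects by a filtered chain map -/
def subMap (σ : FcExt B E A) (σ' : FcExt B' E' A') (f : FcHom E E')
    (h : ∀ b, σ'.p.f (f.f (σ.i.f b)) = 0) : FcHom B B' where
  f := σ'.r ∘ₗ f.f ∘ₗ σ.i.f
  loc := fun b => (σ'.r_loc _).trans ((f.loc _).trans (σ.i.loc b))
  comm := fun b => by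
    show σ'.r (f.f (σ.i.f (B.d b))) = B'.d (σ'.r (f.f (σ.i.f b)))
    apply σ'.i_inj
    rw [σ'.eq_i_of_p (h _), σ'.i.comm, σ'.eq_i_of_p (h _), σ.i.comm, f.comm]

/-- the map induced on the quotients by a filtered chain map -/
def quotMap (σ : FcExt B E A) (σ' : FcExt B' E' A') (f : FcHom E E')
    (h : ∀ b, σ'.p.f (f.f (σ.i.f b)) = 0) : FcHom A A' where
  f := σ'.p.f ∘ₗ f.f ∘ₗ σ.s
  loc := fun a => (σ'.p.loc _).trans ((f.loc _).trans (σ.s_loc a))
  comm := fun a => by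
    show σ'.p.f (f.f (σ.s (A.d a))) = A'.d (σ'.p.f (f.f (σ.s a)))
    rw [← σ'.p.comm, ← f.comm, σ.d_s a, map_add, map_add, h, zero_add]

theorem subMap_apply (σ : FcExt B E A) (σ' : FcExt B' E' A') (f : FcHom E E')
    (h : ∀ b, σ'.p.f (f.f (σ.i.f b)) = 0) (b : B.C) :
    (subMap σ σ' f h).f b = σ'.r (f.f (σ.i.f b)) := rfl

theorem quotMap_apply (σ : FcExt B E A) (σ' : FcExt B' E' A') (f : FcHom E E')
    (h : ∀ b, σ'.p.f (f.f (σ.i.f b)) = 0) (a : A.C) :
    (quotMap σ σ' f h).f a = σ'.p.f (f.f (σ.s a)) := rfl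

/-- a filtered chain map as a map of extensions -/
def filtHom (σ : FcExt B E A) (σ' : FcExt B' E' A') (f : FcHom E E')
    (h : ∀ b, σ'.p.f (f.f (σ.i.f b)) = 0) : FcExtHom σ σ' where
  fB := subMap σ σ' f h
  fE := f
  fA := quotMap σ σ' f h
  comm_i := fun b => (σ'.eq_i_of_p (h b)).symm
  comm_p := fun x => by
    show σ'.p.f (f.f x) = σ'.p.f (f.f (σ.s (σ.p.f x)))
    conv_lhs => rw [← σ.sum x]
    rw [map_add, map_add, h, zero_add]

/-- a filtered chain map with prescribed graded pieces as a map of extensions -/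
def filtHom' (σ : FcExt B E A) (σ' : FcExt B' E' A') (f : FcHom E E')
    (fB : FcHom B B') (fA : FcHom A A') (hB : ∀ b, f.f (σ.i.f b) = σ'.i.f (fB.f b))
    (hA : ∀ a, σ'.p.f (f.f (σ.s a)) = fA.f a) : FcExtHom σ σ' where
  fB := fB
  fE := f
  fA := fA
  comm_i := hB
  comm_p := fun x => by
    conv_lhs => rw [← σ.sum x]
    rw [map_add, map_add, hB, σ'.pi, zero_add, hA]

end FcExt

/-- FILTERED MAPS: if the graded pieces are `P`-equivalences, so is the map -/
theorem fck_mem_cone_filt [T2Space X] (P : FcCls X) {B E A B' E' A' : FcD X} (σ : FcExt B E A)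
    (σ' : FcExt B' E' A') (f : FcHom E E')
    (fB : FcHom B B') (fA : FcHom A A') (hB : ∀ b, f.f (σ.i.f b) = σ'.i.f (fB.f b))
    (hA : ∀ a, σ'.p.f (f.f (σ.s a)) = fA.f a) (h1 : P.mem (fcCone fB)) (h2 : P.mem (fcCone fA)) :
    P.mem (fcCone f) :=
  fcb_extHom_mem P (σ.filtHom' σ' f fB fA hB hA) h1 h2

/-! ### `P`-equivalences -/

section eqv

variable {A B C A' B' : FcD X}

/-- the isomorphism `(cone f)<c> ≅ cone f'` when `A' ≅ A<c>`, `B' ≅ B<c>` and `f' = c' f` -/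
noncomputable def fckConeCongrIso (f : FcHom A B) (f' : FcHom A' B') (u : A.C ≃ₗ[ℝ] A'.C) (v : B.C ≃ₗ[ℝ] B'.C)
    (hu : ∀ a, A'.supp (u a) = A.supp a) (hv : ∀ b, B'.supp (v b) = B.supp b) (c c' : ℝ)
    (hc : c ≠ 0) (hc' : c' ≠ 0) (hud : ∀ a, A'.d (u a) = c • u (A.d a))
    (hvd : ∀ b, B'.d (v b) = c • v (B.d b)) (h : ∀ a, f'.f (u a) = c' • v (f.f a)) :
    FcIso ((fcCone f).resc c) (fcCone f') :=
  fckIsoOfLoc (A := (fcCone f).resc c) (B := fcCone f')
    (LinearEquiv.ofLinearMap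
      (((c • (u : A.C →ₗ[ℝ] A'.C)).prodMap (c' • (v : B.C →ₗ[ℝ] B'.C))) : A.C × B.C →ₗ[ℝ] A'.C × B'.C)
      (((c⁻¹ • (u.symm : A'.C →ₗ[ℝ] A.C)).prodMap (c'⁻¹ • (v.symm : B'.C →ₗ[ℝ] B.C))) :
        A'.C × B'.C →ₗ[ℝ] A.C × B.C)
      (by
        apply LinearMap.ext
        rintro ⟨a, b⟩
        show ((c • u (c⁻¹ • u.symm a), c' • v (c'⁻¹ • v.symm b)) : A'.C × B'.C) = (a, b)
        rw [map_smul, map_smul, smul_smul, smul_smul, mul_inv_cancel₀ hc, mul_inv_cancel₀ hc']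
        simp)
      (by
        apply LinearMap.ext
        rintro ⟨a, b⟩
        show ((c⁻¹ • u.symm (c • u a), c'⁻¹ • v.symm (c' • v b)) : A.C × B.C) = (a, b)
        rw [map_smul, map_smul, smul_smul, smul_smul, inv_mul_cancel₀ hc, inv_mul_cancel₀ hc']
        simp))
    (fun (m : A.C × B.C) => by
      show A'.supp (c • u m.1) ∪ B'.supp (c' • v m.2) ⊆ A.supp m.1 ∪ B.supp m.2
      exact Set.union_subset_union ((A'.supp_smul _ _).trans (hu _).subset)
        ((B'.supp_smul _ _).trans (hv _).subset))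
    (fun (m : A'.C × B'.C) => by
      show A.supp (c⁻¹ • u.symm m.1) ∪ B.supp (c'⁻¹ • v.symm m.2) ⊆ A'.supp m.1 ∪ B'.supp m.2
      refine Set.union_subset_union ((A.supp_smul _ _).trans ?_) ((B.supp_smul _ _).trans ?_)
      · rw [← hu, LinearEquiv.apply_symm_apply]
      · rw [← hv, LinearEquiv.apply_symm_apply])
    (fun (m : A.C × B.C) => by
      show ((c • u (c • (-(A.d m.1))), c' • v (c • (f.f m.1 + B.d m.2))) : A'.C × B'.C) =
        (-(A'.d (c • u m.1)), f'.f (c • u m.1) + B'.d (c' • v m.2))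
      refine Prod.ext ?_ ?_
      · show c • u (c • (-(A.d m.1))) = -(A'.d (c • u m.1))
        rw [map_smul, map_smul, hud, map_neg, smul_neg, smul_neg]
      · show c' • v (c • (f.f m.1 + B.d m.2)) = f'.f (c • u m.1) + B'.d (c' • v m.2)
        rw [map_smul, map_smul, map_smul, hvd, h, map_add, smul_add, smul_add, smul_comm c' c,
          smul_comm c' c])

variable [T2Space X] (P : FcCls X)

/-- THE CONGRUENCE LEMMA FOR CONES: `A' ≅ A<c>`, `B' ≅ B<c>`, `f' = c' f` -/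
theorem fck_cone_congr (f : FcHom A B) (f' : FcHom A' B') (u : A.C ≃ₗ[ℝ] A'.C) (v : B.C ≃ₗ[ℝ] B'.C)
    (hu : ∀ a, A'.supp (u a) = A.supp a) (hv : ∀ b, B'.supp (v b) = B.supp b) (c c' : ℝ)
    (hc : c ≠ 0) (hc' : c' ≠ 0) (hud : ∀ a, A'.d (u a) = c • u (A.d a))
    (hvd : ∀ b, B'.d (v b) = c • v (B.d b)) (h : ∀ a, f'.f (u a) = c' • v (f.f a)) :
    P.mem (fcCone f') ↔ P.mem (fcCone f) := by
  rw [← P.iso_iff (fckConeCongrIso f f' u v hu hv c c' hc hc' hud hvd h), fcb_resc_iff P _ hc]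

/-- the transpose of a `P`-equivalence is a `P`-equivalence -/
theorem fck_eqv_tr (f : FcHom A B) (hf : P.mem (fcCone f)) : P.mem (fcCone (fcTr f)) := by
  have h1 : P.mem (fcCone (fcbExtCone f).dual.tauHom) := P.iso (fcbExtCone f).dual.isoCone (P.dual hf)
  refine (fck_cone_congr P (fcTr f) (fcbExtCone f).dual.tauHom (LinearEquiv.refl ℝ B.dual.C)
    (LinearEquiv.refl ℝ A.dual.C) (fun _ => rfl) (fun _ => rfl) (-1) 1 (by norm_num) (by norm_num)
    (fun _ => rfl) (fun (α : A.dual.C) => ?_) (fun (β : B.dual.C) => ?_)).1 h1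
  · apply fck_dual_ext (A := A)
    intro a
    show α.1 ((-1 : ℝ) • A.d a) = (-1 : ℝ) * α.1 (A.d a)
    rw [map_smul]; rfl
  · apply fck_dual_ext (A := A)
    intro a
    show β.1 (f.f a + B.d 0) = (1 : ℝ) * β.1 (f.f a)
    rw [map_zero, add_zero, one_mul]

theorem fck_mem_tw (τ : A.C →ₗ[ℝ] B.C) (hτ : FcLoc A B τ) (h : ∀ a, τ (A.d a) + B.d (τ a) = 0)
    (hA : P.mem A) (hB : P.mem B) : P.mem (fckTw A B τ hτ h) :=
  fcb_ext_mem P (fckExtTw τ hτ h) hA hB

end eqv

/-! ### more tools -/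

section more

variable {A B E : FcD X}

theorem fck_acyc_of_subsingleton (A : FcD X) (h : ∀ m : A.C, m = 0) : A.Acyc := by
  intro U _ _ m _ _
  refine ⟨0, ?_, ?_⟩
  · rw [A.supp_zero]; exact Set.empty_subset _
  · rw [map_zero, h m]

variable [T2Space X] (P : FcCls X)

/-- the dual of an isomorphism -/
def FcIso.dual' (e : FcIso A B) : FcIso A.dual B.dual :=
  fckIsoOfLoc (A := A.dual) (B := B.dual)
    (LinearEquiv.ofLinearMap (fcTr e.symm.toHom).f (fcTr e.toHom).f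
      (by
        apply LinearMap.ext
        intro φ
        apply fck_dual_ext
        intro m
        show φ.1 (e.e (e.e.symm m)) = φ.1 m
        rw [LinearEquiv.apply_symm_apply])
      (by
        apply LinearMap.ext
        intro φ
        apply fck_dual_ext
        intro m
        show φ.1 (e.e.symm (e.e m)) = φ.1 m
        rw [LinearEquiv.symm_apply_apply]))
    (fcTr e.symm.toHom).loc (fcTr e.toHom).loc (fcTr e.symm.toHom).comm

theorem FcIso.dual'_apply (e : FcIso A B) (φ : A.dual.C) (m : B.C) :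
    fcAp (e.dual'.e φ) m = fcAp φ (e.e.symm m) := rfl

/-- `(A × B)^∨ = A^∨ × B^∨` on the level of `FC`-objects -/
def fckDualProd (A B : FcObj X) : (A.prod B).dual.carrier ≃ₗ[ℝ] (A.dual.carrier × B.dual.carrier) :=
  LinearEquiv.ofLinearMap
    ((fcTrLin (LinearMap.inl ℝ A.carrier B.carrier) (fck_loc_inl A B)).prod
      (fcTrLin (LinearMap.inr ℝ A.carrier B.carrier) (fck_loc_inr A B)))
    ((fcTrLin (LinearMap.fst ℝ A.carrier B.carrier) (fck_loc_fst A B)).coprod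
      (fcTrLin (LinearMap.snd ℝ A.carrier B.carrier) (fck_loc_snd A B)))
    (by
      apply LinearMap.ext
      rintro ⟨α, β⟩
      refine Prod.ext ?_ ?_
      · apply Subtype.ext
        apply LinearMap.ext
        intro a
        show α.1 a + β.1 0 = α.1 a
        rw [map_zero, add_zero]
      · apply Subtype.ext
        apply LinearMap.ext
        intro b
        show α.1 0 + β.1 b = β.1 b
        rw [map_zero, zero_add])
    (by
      apply LinearMap.ext
      intro ξ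
      apply Subtype.ext
      apply LinearMap.ext
      rintro ⟨a, b⟩
      have h := map_add ξ.1 ((a, 0) : A.carrier × B.carrier) ((0, b) : A.carrier × B.carrier)
      rw [Prod.mk_add_mk, add_zero, zero_add] at h
      exact h.symm)

theorem fckDualProd_supp (A B : FcObj X) (ξ : (A.prod B).dual.carrier) :
    (A.dual.prod B.dual).supp (fckDualProd A B ξ) = (A.prod B).dual.supp ξ := by
  apply subset_antisymm
  · exact Set.union_subset (FcObj.dualSupp_comp _ (fck_loc_inl A B) ξ.1)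
      (FcObj.dualSupp_comp _ (fck_loc_inr A B) ξ.1)
  · have h := (A.prod B).dual.supp_add
      (fcTrLin (LinearMap.fst ℝ A.carrier B.carrier) (fck_loc_fst A B) (fckDualProd A B ξ).1)
      (fcTrLin (LinearMap.snd ℝ A.carrier B.carrier) (fck_loc_snd A B) (fckDualProd A B ξ).2)
    have e : fcTrLin (LinearMap.fst ℝ A.carrier B.carrier) (fck_loc_fst A B) (fckDualProd A B ξ).1 +
      fcTrLin (LinearMap.snd ℝ A.carrier B.carrier) (fck_loc_snd A B) (fckDualProd A B ξ).2 = ξ :=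
      (fckDualProd A B).symm_apply_apply ξ
    rw [e] at h
    exact h.trans (Set.union_subset_union (FcObj.dualSupp_comp _ (fck_loc_fst A B) _)
      (FcObj.dualSupp_comp _ (fck_loc_snd A B) _))

/-- reflexivity, in the form in which it is used: any map which is a nonzero multiple of `ev` between rescalings
of `A` and `A^∨∨` is a `P`-equivalence -/
theorem fck_ev_congr {A' B' : FcD X} (hA : (fcCone (fcEv A)).Acyc) (g : FcHom A' B')
    (u : A.C ≃ₗ[ℝ] A'.C) (v : A.dual.dual.C ≃ₗ[ℝ] B'.C)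
    (hu : ∀ a, A'.supp (u a) = A.supp a) (hv : ∀ b, B'.supp (v b) = A.dual.dual.supp b) (c c' : ℝ)
    (hc : c ≠ 0) (hc' : c' ≠ 0) (hud : ∀ a, A'.d (u a) = c • u (A.d a))
    (hvd : ∀ b, B'.d (v b) = c • v (A.dual.dual.d b)) (h : ∀ a, g.f (u a) = c' • v ((fcEv A).f a)) :
    P.mem (fcCone g) :=
  (fck_cone_congr P (fcEv A) g u v hu hv c c' hc hc' hud hvd h).2 (P.acyc hA)

end more

/-- realises the equation lemmas here (unique names) -/
theorem fck_calc_eqns_cite : True := by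
  have := @fckIsoOfLoc.eq_1
  have := @fckPair.eq_1
  have := @fckTw.eq_1
  have := @fckExtTw.eq_1
  have := @FcExt.subMap.eq_1
  have := @FcExt.quotMap.eq_1
  have := @FcExt.filtHom.eq_1
  have := @FcExt.filtHom'.eq_1
  have := @fckConeCongrIso.eq_1
  have := @FcIso.dual'.eq_1
  have := @fckDualProd.eq_1
  trivial

end Claimed.Agent.R304
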