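/-
Row 304 (S0559, Hilbert-Smith).  Owner: helper248.  LAYER E, DEFINITIONS: chain level cobordism groups.

This replaces Balmer's triangular Witt groups, Verdier quotients and the 12-term localisation sequence of the
paper (Sec. 3) by groups of FORMS ON DIFFERENTIAL OBJECTS modulo ALGEBRAIC COBORDISM.  Everything is an explicit
block matrix over `FC(X)` (file `FcDefs`).

TYPES.  `t : ZMod 4`, signs `wtE t, wtK t ∈ {1,-1}`:   t = 0 : (+,+),  1 : (+,-),  2 : (-,+),  3 : (-,-).
A form of type `t` on `(M,d)` is a local bilinear `b` with `b y x = wtE t * b x y`, `b (d x) y = wtK t * b x (d y)`.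
(An oriented `n`-dimensional object gives a form of type `n mod 4`.)

* `WtForm X t`                    forms;  `WtForm.adj x : M → (M^∨, wtK t • d^∨)` the adjoint chain map
* `WtForm.sum`, `WtForm.neg`, `wtFormZero`
* `WtDat x`                       surgery datum `(N, lam : N → M, h)` on `x = (M, b)`:
                                  `h` is `(wtK t * wtE t)`-symmetric, `b (lam n) (lam n') = h n (d n') + wtK t * h (d n) n'`
* `WtDat.S D : WtForm X t`        the result of the surgery, on `N × M × N^∨`,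
                                  `D (n, p, ν) = (- d n, lam n + d p, h n + wtK t • b p (lam ·) - wtK t • ν ∘ d)`
* `WtForm.bd x : WtForm X t'`     (`t' + 1 = t`) the boundary, on `M × M^∨`, `D (m, μ) = (- d m, b m + wtK t • μ ∘ d)`;
                                  its underlying object is `fcCone x.adj`
* `WtForm.In T P x`               `M ∈ T` and `cone (adj) ∈ P`    ("`x` is a form in `T`, nonsingular modulo `P`")
* `WtNC T P x`                    null-cobordant: there is a datum with `N ∈ T` and `S ∈ P`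
* `WtRel T P x y`                 `x ⊥ -y` null-cobordant
* `WtForm.push g x`               push forward

All proof obligations inside the definitions are PROVED (helper27, 06:40): this file is free of gaps.
-/
import Claimed.Agent.R304.FcCalc

set_option autoImplicit false

namespace Claimed.Agent.R304

open Topology

/-- the symmetry sign of the type `t` -/
def wtE (t : ZMod 4) : ℝ := if t = 0 ∨ t = 1 then 1 else -1

/-- the adjointness sign of the type `t` -/
def wtK (t : ZMod 4) : ℝ := if t = 0 ∨ t = 2 then 1 else -1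

theorem wtE_sq (t : ZMod 4) : wtE t * wtE t = 1 := by
  unfold wtE; split_ifs <;> norm_num

theorem wtK_sq (t : ZMod 4) : wtK t * wtK t = 1 := by
  unfold wtK; split_ifs <;> norm_num

theorem wtE_zero : wtE 0 = 1 := if_pos (by decide)
theorem wtE_one : wtE 1 = 1 := if_pos (by decide)
theorem wtE_two : wtE 2 = -1 := if_neg (by decide)
theorem wtE_three : wtE 3 = -1 := if_neg (by decide)
theorem wtK_zero : wtK 0 = 1 := if_pos (by decide)
theorem wtK_one : wtK 1 = -1 := if_neg (by decide)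
theorem wtK_two : wtK 2 = 1 := if_pos (by decide)
theorem wtK_three : wtK 3 = -1 := if_neg (by decide)

theorem wt_cases (t : ZMod 4) : t = 0 ∨ t = 1 ∨ t = 2 ∨ t = 3 := by
  revert t; decide

theorem wtK_pred {t' t : ZMod 4} (h : t' + 1 = t) : wtK t' = - wtK t := by
  subst h
  rcases wt_cases t' with rfl | rfl | rfl | rfl
  · rw [show (0 : ZMod 4) + 1 = 1 by decide, wtK_zero, wtK_one]; norm_num
  · rw [show (1 : ZMod 4) + 1 = 2 by decide, wtK_one, wtK_two]
  · rw [show (2 : ZMod 4) + 1 = 3 by decide, wtK_two, wtK_three]; norm_num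
  · rw [show (3 : ZMod 4) + 1 = 0 by decide, wtK_three, wtK_zero]

theorem wtE_pred {t' t : ZMod 4} (h : t' + 1 = t) : wtE t' = - (wtK t * wtE t) := by
  subst h
  rcases wt_cases t' with rfl | rfl | rfl | rfl
  · rw [show (0 : ZMod 4) + 1 = 1 by decide, wtE_zero, wtK_one, wtE_one]; norm_num
  · rw [show (1 : ZMod 4) + 1 = 2 by decide, wtE_one, wtK_two, wtE_two]; norm_num
  · rw [show (2 : ZMod 4) + 1 = 3 by decide, wtE_two, wtK_three, wtE_three]; norm_num
  · rw [show (3 : ZMod 4) + 1 = 0 by decide, wtE_three, wtK_zero, wtE_zero]; norm_num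

variable {X Y : Type} [TopologicalSpace X] [TopologicalSpace Y]

/-- a form of type `t` on a differential object -/
structure WtForm (X : Type) [TopologicalSpace X] (t : ZMod 4) where
  /-- the underlying differential object -/
  M : FcD X
  /-- the bilinear form -/
  b : M.C →ₗ[ℝ] M.C →ₗ[ℝ] ℝ
  loc : FcLoc2 M M b
  symm : ∀ x y, b y x = wtE t * b x y
  adj : ∀ x y, b (M.d x) y = wtK t * b x (M.d y)

/-- the adjoint chain map `M → (M^∨, wtK t • d^∨)` -/
def WtForm.ad [T2Space X] {t : ZMod 4} (x : WtForm X t) : FcHom x.M (x.M.dual.resc (wtK t)) where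
  f := fcCurry x.b x.loc
  loc := fck_curry_loc x.b x.loc
  comm := fun m => by
    apply Subtype.ext
    apply LinearMap.ext
    intro n
    exact x.adj m n

/-- orthogonal sum -/
def WtForm.sum {t : ZMod 4} (x y : WtForm X t) : WtForm X t where
  M := x.M.prod y.M
  b := x.b.compl₁₂ (LinearMap.fst ℝ x.M.C y.M.C) (LinearMap.fst ℝ x.M.C y.M.C) +
        y.b.compl₁₂ (LinearMap.snd ℝ x.M.C y.M.C) (LinearMap.snd ℝ x.M.C y.M.C)
  loc := fun a c h => by
    have h' : Disjoint (x.M.supp a.1 ∪ y.M.supp a.2) (x.M.supp c.1 ∪ y.M.supp c.2) := h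
    show x.b a.1 c.1 + y.b a.2 c.2 = 0
    rw [x.loc a.1 c.1 (Set.disjoint_of_subset Set.subset_union_left Set.subset_union_left h'),
      y.loc a.2 c.2 (Set.disjoint_of_subset Set.subset_union_right Set.subset_union_right h'), add_zero]
  symm := fun a c => by
    show x.b c.1 a.1 + y.b c.2 a.2 = wtE t * (x.b a.1 c.1 + y.b a.2 c.2)
    rw [x.symm, y.symm]; ring
  adj := fun a c => by
    show x.b (x.M.d a.1) c.1 + y.b (y.M.d a.2) c.2 =
      wtK t * (x.b a.1 (x.M.d c.1) + y.b a.2 (y.M.d c.2))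
    rw [x.adj, y.adj]; ring

/-- the opposite form -/
def WtForm.neg {t : ZMod 4} (x : WtForm X t) : WtForm X t where
  M := x.M
  b := - x.b
  loc := fun m n h => by simp [x.loc m n h]
  symm := fun a c => by simp [x.symm a c]
  adj := fun a c => by simp [x.adj a c]

/-- the zero form -/
def wtFormZero (X : Type) [TopologicalSpace X] (t : ZMod 4) : WtForm X t where
  M := fcZero X
  b := 0
  loc := fun _ _ _ => rfl
  symm := fun _ _ => by simp
  adj := fun _ _ => by simp

/-- a surgery datum on the form `x` -/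
structure WtDat {t : ZMod 4} (x : WtForm X t) where
  /-- the object along which we do surgery -/
  N : FcD X
  /-- the chain map to the underlying object of `x` -/
  lam : FcHom N x.M
  /-- the null-homotopy of the pulled back form -/
  h : N.C →ₗ[ℝ] N.C →ₗ[ℝ] ℝ
  h_loc : FcLoc2 N N h
  h_symm : ∀ n n', h n' n = wtK t * wtE t * h n n'
  h_eq : ∀ n n', x.b (lam.f n) (lam.f n') = h n (N.d n') + wtK t * h (N.d n) n'

/-- the underlying object of `FC(X)` of the surgery: `N × (M × N^∨)` -/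
def WtDat.SObj [T2Space X] {t : ZMod 4} {x : WtForm X t} (D : WtDat x) : FcObj X :=
  D.N.toFcObj.prod (x.M.toFcObj.prod D.N.dual.toFcObj)

/-- the differential of the surgery -/
def WtDat.Sd [T2Space X] {t : ZMod 4} {x : WtForm X t} (D : WtDat x) :
    (D.N.C × (x.M.C × D.N.dual.C)) →ₗ[ℝ] (D.N.C × (x.M.C × D.N.dual.C)) :=
  ((-D.N.d) ∘ₗ LinearMap.fst ℝ _ _).prod
    ((D.lam.f ∘ₗ LinearMap.fst ℝ _ _ + x.M.d ∘ₗ LinearMap.fst ℝ _ _ ∘ₗ LinearMap.snd ℝ _ _).prod
      (fcCurry D.h D.h_loc ∘ₗ LinearMap.fst ℝ _ _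
        + wtK t • ((fcTr D.lam).f ∘ₗ fcCurry x.b x.loc ∘ₗ LinearMap.fst ℝ _ _ ∘ₗ LinearMap.snd ℝ _ _)
        - wtK t • (D.N.dual.d ∘ₗ LinearMap.snd ℝ _ _ ∘ₗ LinearMap.snd ℝ _ _)))

/-- the differential object of the surgery -/
def WtDat.SM [T2Space X] {t : ZMod 4} {x : WtForm X t} (D : WtDat x) : FcD X :=
  { D.SObj with
    d := D.Sd
    d_loc := fun u => by
      show D.N.supp (-(D.N.d u.1)) ∪ (x.M.supp (D.lam.f u.1 + x.M.d u.2.1) ∪
        D.N.dual.supp (fcCurry D.h D.h_loc u.1 + wtK t • (fcTr D.lam).f (fcCurry x.b x.loc u.2.1)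
          - wtK t • D.N.dual.d u.2.2)) ⊆ D.N.supp u.1 ∪ (x.M.supp u.2.1 ∪ D.N.dual.supp u.2.2)
      have h1 : D.N.supp (-(D.N.d u.1)) ⊆ D.N.supp u.1 := (D.N.supp_neg _).trans (D.N.d_loc _)
      have h2 : x.M.supp (D.lam.f u.1 + x.M.d u.2.1) ⊆ D.N.supp u.1 ∪ x.M.supp u.2.1 :=
        (x.M.supp_add _ _).trans (Set.union_subset_union (D.lam.loc _) (x.M.d_loc _))
      have h3 : D.N.dual.supp (fcCurry D.h D.h_loc u.1 + wtK t • (fcTr D.lam).f (fcCurry x.b x.loc u.2.1)
          - wtK t • D.N.dual.d u.2.2) ⊆ (D.N.supp u.1 ∪ x.M.supp u.2.1) ∪ D.N.dual.supp u.2.2 := by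
        refine (D.N.dual.supp_sub _ _).trans (Set.union_subset_union ?_ ?_)
        · refine (D.N.dual.supp_add _ _).trans (Set.union_subset_union (fck_curry_loc D.h D.h_loc _) ?_)
          exact (D.N.dual.supp_smul _ _).trans (((fcTr D.lam).loc _).trans (fck_curry_loc x.b x.loc _))
        · exact (D.N.dual.supp_smul _ _).trans (D.N.dual.d_loc _)
      intro z hz
      rcases hz with hz | hz | hz
      · exact Or.inl (h1 hz)
      · rcases h2 hz with h | h
        · exact Or.inl h
        · exact Or.inr (Or.inl h)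
      · rcases h3 hz with (h | h) | h
        · exact Or.inl h
        · exact Or.inr (Or.inl h)
        · exact Or.inr (Or.inr h)
    d_sq := fun u => by
      obtain ⟨n, p, ν⟩ := u
      show ((-(D.N.d (-(D.N.d n))), D.lam.f (-(D.N.d n)) + x.M.d (D.lam.f n + x.M.d p),
        fcCurry D.h D.h_loc (-(D.N.d n))
          + wtK t • (fcTr D.lam).f (fcCurry x.b x.loc (D.lam.f n + x.M.d p))
          - wtK t • D.N.dual.d (fcCurry D.h D.h_loc n + wtK t • (fcTr D.lam).f (fcCurry x.b x.loc p)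
            - wtK t • D.N.dual.d ν)) : D.N.C × (x.M.C × D.N.dual.C)) = 0
      refine Prod.ext ?_ (Prod.ext ?_ ?_)
      · show -(D.N.d (-(D.N.d n))) = 0
        rw [map_neg, D.N.d_sq]; simp
      · show D.lam.f (-(D.N.d n)) + x.M.d (D.lam.f n + x.M.d p) = 0
        rw [map_neg, map_add, x.M.d_sq, D.lam.comm]; simp
      · apply fck_dual_ext
        intro n'
        show D.h (-(D.N.d n)) n' + wtK t * x.b (D.lam.f n + x.M.d p) (D.lam.f n')
          - wtK t * (D.h n (D.N.d n') + wtK t * x.b p (D.lam.f (D.N.d n'))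
            - wtK t * fcAp ν (D.N.d (D.N.d n'))) = 0
        rw [D.N.d_sq, fcAp_map_zero, map_neg, map_add, D.lam.comm]
        simp only [LinearMap.neg_apply, LinearMap.add_apply]
        rw [D.h_eq, x.adj]
        linear_combination (D.h (D.N.d n) n' ) * (wtK_sq t) }

/-- the form of the surgery: `Φ ((n,p,ν),(n',p',ν')) = ν n' + b p p' + wtE t * ν' n` -/
def WtDat.Sb [T2Space X] {t : ZMod 4} {x : WtForm X t} (D : WtDat x) :
    (D.N.C × (x.M.C × D.N.dual.C)) →ₗ[ℝ] (D.N.C × (x.M.C × D.N.dual.C)) →ₗ[ℝ] ℝ :=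
  LinearMap.mk₂ ℝ (fun u v => fcAp u.2.2 v.1 + x.b u.2.1 v.2.1 + wtE t * fcAp v.2.2 u.1)
    (fun u u' v => by
      show fcAp (u.2.2 + u'.2.2) v.1 + x.b (u.2.1 + u'.2.1) v.2.1 + wtE t * fcAp v.2.2 (u.1 + u'.1) = _
      rw [fcAp_add, map_add, fcAp_map_add, LinearMap.add_apply]; ring)
    (fun c u v => by
      show fcAp (c • u.2.2) v.1 + x.b (c • u.2.1) v.2.1 + wtE t * fcAp v.2.2 (c • u.1) = _
      rw [fcAp_smul, map_smul, fcAp_map_smul, LinearMap.smul_apply, smul_eq_mul, smul_eq_mul]; ring)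
    (fun u v v' => by
      show fcAp u.2.2 (v.1 + v'.1) + x.b u.2.1 (v.2.1 + v'.2.1) + wtE t * fcAp (v.2.2 + v'.2.2) u.1 = _
      rw [fcAp_add, map_add, fcAp_map_add]; ring)
    (fun c u v => by
      show fcAp u.2.2 (c • v.1) + x.b u.2.1 (c • v.2.1) + wtE t * fcAp (c • v.2.2) u.1 = _
      rw [fcAp_smul, map_smul, fcAp_map_smul, smul_eq_mul, smul_eq_mul]; ring)

/-- the result of the surgery -/
def WtDat.S [T2Space X] {t : ZMod 4} {x : WtForm X t} (D : WtDat x) : WtForm X t where
  M := D.SM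
  b := D.Sb
  loc := fun u v h => by
    have h' : Disjoint (D.N.supp u.1 ∪ (x.M.supp u.2.1 ∪ D.N.dual.supp u.2.2))
      (D.N.supp v.1 ∪ (x.M.supp v.2.1 ∪ D.N.dual.supp v.2.2)) := h
    show fcAp u.2.2 v.1 + x.b u.2.1 v.2.1 + wtE t * fcAp v.2.2 u.1 = 0
    rw [fcAp_eq_zero u.2.2 v.1 (Set.disjoint_of_subset
        (Set.subset_union_right.trans Set.subset_union_right) Set.subset_union_left h'),
      x.loc u.2.1 v.2.1 (Set.disjoint_of_subset
        (Set.subset_union_left.trans Set.subset_union_right)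
        (Set.subset_union_left.trans Set.subset_union_right) h'),
      fcAp_eq_zero v.2.2 u.1 (Set.disjoint_of_subset Set.subset_union_left
        (Set.subset_union_right.trans Set.subset_union_right) h').symm]
    simp
  symm := fun u v => by
    show fcAp v.2.2 u.1 + x.b v.2.1 u.2.1 + wtE t * fcAp u.2.2 v.1 =
      wtE t * (fcAp u.2.2 v.1 + x.b u.2.1 v.2.1 + wtE t * fcAp v.2.2 u.1)
    rw [x.symm u.2.1 v.2.1]
    linear_combination (-(fcAp v.2.2 u.1)) * wtE_sq t
  adj := fun u v => by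
    obtain ⟨n, p, ν⟩ := u
    obtain ⟨n', p', ν'⟩ := v
    show (D.h n n' + wtK t * x.b p (D.lam.f n') - wtK t * fcAp ν (D.N.d n'))
        + x.b (D.lam.f n + x.M.d p) p' + wtE t * fcAp ν' (-(D.N.d n)) =
      wtK t * (fcAp ν (-(D.N.d n')) + x.b p (D.lam.f n' + x.M.d p')
        + wtE t * (D.h n' n + wtK t * x.b p' (D.lam.f n) - wtK t * fcAp ν' (D.N.d n)))
    rw [fcAp_map_neg, fcAp_map_neg, map_add, map_add, LinearMap.add_apply, x.adj p p',
      D.h_symm n n', x.symm p' (D.lam.f n)]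
    linear_combination (-(wtE t * wtE t * D.h n n') - wtE t * x.b p' (D.lam.f n)
      + wtE t * fcAp ν' (D.N.d n)) * wtK_sq t - (D.h n n') * wtE_sq t

/-- the form of the boundary: `Φ ((m,μ),(m',μ')) = μ m' + wtE t' * μ' m` -/
def WtForm.bdb [T2Space X] {t : ZMod 4} (x : WtForm X t) (t' : ZMod 4) :
    (x.M.C × x.M.dual.C) →ₗ[ℝ] (x.M.C × x.M.dual.C) →ₗ[ℝ] ℝ :=
  LinearMap.mk₂ ℝ (fun u v => fcAp u.2 v.1 + wtE t' * fcAp v.2 u.1)
    (fun u u' v => by
      show fcAp (u.2 + u'.2) v.1 + wtE t' * fcAp v.2 (u.1 + u'.1) = _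
      rw [fcAp_add, fcAp_map_add]; ring)
    (fun c u v => by
      show fcAp (c • u.2) v.1 + wtE t' * fcAp v.2 (c • u.1) = _
      rw [fcAp_smul, fcAp_map_smul, smul_eq_mul]; ring)
    (fun u v v' => by
      show fcAp u.2 (v.1 + v'.1) + wtE t' * fcAp (v.2 + v'.2) u.1 = _
      rw [fcAp_add, fcAp_map_add]; ring)
    (fun c u v => by
      show fcAp u.2 (c • v.1) + wtE t' * fcAp (c • v.2) u.1 = _
      rw [fcAp_smul, fcAp_map_smul, smul_eq_mul]; ring)

/-- the boundary of a form of type `t`: a form of type `t - 1` on the cone of the adjoint -/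
def WtForm.bd [T2Space X] {t : ZMod 4} (x : WtForm X t) (t' : ZMod 4) (ht : t' + 1 = t) :
    WtForm X t' where
  M := fcCone x.ad
  b := x.bdb t'
  loc := fun u v h => by
    have h' : Disjoint (x.M.supp u.1 ∪ x.M.dual.supp u.2) (x.M.supp v.1 ∪ x.M.dual.supp v.2) := h
    show fcAp u.2 v.1 + wtE t' * fcAp v.2 u.1 = 0
    rw [fcAp_eq_zero u.2 v.1 (Set.disjoint_of_subset Set.subset_union_right Set.subset_union_left h'),
      fcAp_eq_zero v.2 u.1 (Set.disjoint_of_subset Set.subset_union_left Set.subset_union_right h').symm]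
    simp
  symm := fun u v => by
    show fcAp v.2 u.1 + wtE t' * fcAp u.2 v.1 = wtE t' * (fcAp u.2 v.1 + wtE t' * fcAp v.2 u.1)
    linear_combination (-(fcAp v.2 u.1)) * wtE_sq t'
  adj := fun (u v : x.M.C × x.M.dual.C) => by
    obtain ⟨m, μ⟩ := u
    obtain ⟨m', μ'⟩ := v
    show (x.b m m' + wtK t * fcAp μ (x.M.d m')) + wtE t' * fcAp μ' (-(x.M.d m)) =
      wtK t' * (fcAp μ (-(x.M.d m')) + wtE t' * (x.b m' m + wtK t * fcAp μ' (x.M.d m)))
    rw [fcAp_map_neg, fcAp_map_neg, wtK_pred ht, wtE_pred ht, x.symm m m']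
    linear_combination (-(wtE t * wtE t * x.b m m') - wtE t * wtK t * fcAp μ' (x.M.d m)) * wtK_sq t
      - (x.b m m') * wtE_sq t

/-- `x` is a form on an object of `T` which is nonsingular modulo `P` -/
def WtForm.In [T2Space X] {t : ZMod 4} (T P : FcCls X) (x : WtForm X t) : Prop :=
  T.mem x.M ∧ P.mem (fcCone x.ad)

/-- null-cobordant in `(T; P)` -/
def WtNC [T2Space X] {t : ZMod 4} (T P : FcCls X) (x : WtForm X t) : Prop :=
  ∃ D : WtDat x, T.mem D.N ∧ P.mem D.S.M

/-- cobordant in `(T; P)` -/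
def WtRel [T2Space X] {t : ZMod 4} (T P : FcCls X) (x y : WtForm X t) : Prop :=
  WtNC T P (x.sum y.neg)

/-- push forward of a form -/
def WtForm.push [T2Space Y] {t : ZMod 4} (g : C(X, Y)) (x : WtForm X t) : WtForm Y t where
  M := x.M.push g
  b := x.b
  loc := fun m n h => x.loc m n (by
    rw [Set.disjoint_left] at h ⊢
    exact fun a ha hb => h (Set.mem_image_of_mem g ha) (Set.mem_image_of_mem g hb))
  symm := x.symm
  adj := x.adj

/-- an isometric local chain map -/
structure WtIsom {t : ZMod 4} (x y : WtForm X t) where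
  /-- the chain map -/
  f : FcHom x.M y.M
  isom : ∀ a c, y.b (f.f a) (f.f c) = x.b a c

/-- realises the equation lemmas here (unique names) -/
theorem wt_defs_eqns_cite : True := by
  have := @wtE.eq_1
  have := @wtK.eq_1
  have := @WtForm.ad.eq_1
  have := @WtForm.sum.eq_1
  have := @WtForm.neg.eq_1
  have := @wtFormZero.eq_1
  have := @WtDat.SObj.eq_1
  have := @WtDat.Sd.eq_1
  have := @WtDat.SM.eq_1
  have := @WtDat.Sb.eq_1
  have := @WtDat.S.eq_1
  have := @WtForm.bdb.eq_1
  have := @WtForm.bd.eq_1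
  have := @WtForm.In.eq_1
  have := @WtNC.eq_1
  have := @WtRel.eq_1
  have := @WtForm.push.eq_1
  trivial

end Claimed.Agent.R304
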