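/-
Row 304 (S0559, Hilbert-Smith).  Owner/designer: helper154.  LAYER S, package `FcCylDefs`:
THE CYLINDER WITH COEFFICIENTS  `fcyCyl M = AS(I; M)`  over `I × X`  (`I = unitInterval`), DEFINITIONS.  Prefix `fcy` / `Fcy`.

For a differential object `M` over `X`:
* a FAMILY is `F n : (Fin (n+1) → I) → M` (`n ≥ 0`): an Alexander-Spanier `n`-cochain of `I` with values in `M`;
* `F` is ADMISSIBLE if all `supp (F n s)` lie in one compact set and `F n = 0` for large `n`;
* `F` VANISHES AT `(t, x)` if there are neighbourhoods `J` of `t`, `W` of `x` with `supp (F n s) ∩ W = ∅` whenever all `s i ∈ J`;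
  `fcyFSupp F` = the set of the points where `F` does not vanish; `F` is NULL if `fcyFSupp F = ∅`;
* `fcyCyl M` = admissible families modulo null families, `D F n = δ F n + (-1)^n d ∘ F n`,
  `(δ F) (n+1) s = ∑ i, (-1)^i F n (s ∘ succAbove i)`;
* Urysohn operator for `E ⊆ I × X`:  `(π F) n s = π_{E_{s 0}} (F n s)`, `E_t = {x | (t, x) ∈ E}`.

MAPS
* `fcyEv M t : fcyCyl M → (i_t)_! M`, `[F] ↦ F 0 (t)`           (chain map, local, onto)
* `fcyC M : M → pr_! (fcyCyl M)`, `m ↦` the constant family in degree `0`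
* `fcyTen M f m` = `f ⊗ m` (degree `0`, `s ↦ f (s 0) • m`, `f : I → ℝ` ANY function)
* `fcyTau M c m` = `τ_c ⊗ m := D (1_{[c,1]} ⊗ m) - 1_{[c,1]} ⊗ d m`  (degree `1`, supported in `{c} × supp m`)
* `fcyInt` : a functional on `(Fin 2 → I) → ℝ` vanishing on the functions which are zero near the diagonal, `∫ δ f = f 1 - f 0`
* `fcyHP κ b` : for a local pairing `b : M × M' → ℝ` the pairing of the cylinders
     `h₀ (F, G) = ∫ [ b (F 0 (s 0)) (G 1 s) + κ b (F 1 s) (G 0 (s 1)) ]`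
* `fcyH x` : for a form `x = (M, b)` of type `t`, `κ = wtK t`, `ε = wtE t`:   `h = (h₀ + κ ε h₀ᵀ) / 2`
* `fcyDat x : WtDat ((i_1)_! x ⊥ - (i_0)_! x)` with `N = fcyCyl M`, `lam = (ev_1, ev_0)`, `h = fcyH x`.

CHECK of `h_eq` (by hand): `(D G) 0 = d G 0`, `(D G) 1 s = G 0 (s 1) - G 0 (s 0) - d (G 1 s)`, so the integrand of
`h₀ (F, D G) + κ h₀ (D F, G)` is `b (F 0 (s 1)) (G 0 (s 1)) - b (F 0 (s 0)) (G 0 (s 0)) = δ f`, `f t = b (F 0 t) (G 0 t)`.

All proof obligations of this file are PROVED (helper154, 08:10): this file is free of gaps.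
-/
import Claimed.Agent.R304.FcFin
import Claimed.Agent.R304.WtDefs

set_option autoImplicit false
set_option linter.unusedSectionVars false

namespace Claimed.Agent.R304

open Topology

variable {X : Type} [TopologicalSpace X] [T2Space X]

/-- families of elements of `M` parametrised by the tuples of points of `I` -/
abbrev FcyFam (M : FcD X) : Type := (n : ℕ) → (Fin (n + 1) → unitInterval) → M.C

/-- `F` vanishes on the rectangle `J × W` -/
def FcyVanS (M : FcD X) (F : FcyFam M) (J : Set unitInterval) (W : Set X) : Prop :=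
  ∀ (n : ℕ) (s : Fin (n + 1) → unitInterval), (∀ i, s i ∈ J) → Disjoint (M.supp (F n s)) W

/-- the support of a family -/
def fcyFSupp (M : FcD X) (F : FcyFam M) : Set (unitInterval × X) :=
  {p | ¬ ∃ J ∈ 𝓝 p.1, ∃ W ∈ 𝓝 p.2, FcyVanS M F J W}

/-- the admissible families -/
def fcyAdm (M : FcD X) : Submodule ℝ (FcyFam M) where
  carrier := {F | (∃ K, IsCompact K ∧ ∀ n s, M.supp (F n s) ⊆ K) ∧ ∃ N : ℕ, ∀ n, N < n → F n = 0}
  add_mem' := by
    rintro F G ⟨⟨K, hK, hF⟩, N, hN⟩ ⟨⟨L, hL, hG⟩, N', hN'⟩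
    refine ⟨⟨K ∪ L, hK.union hL, fun n s => (M.supp_add _ _).trans
      (Set.union_subset_union (hF n s) (hG n s))⟩, max N N', fun n hn => ?_⟩
    show F n + G n = 0
    rw [hN n (lt_of_le_of_lt (le_max_left _ _) hn), hN' n (lt_of_le_of_lt (le_max_right _ _) hn),
      add_zero]
  zero_mem' := ⟨⟨∅, isCompact_empty, fun n s => by
    show M.supp 0 ⊆ ∅
    rw [M.supp_zero]⟩, 0, fun _ _ => rfl⟩
  smul_mem' := by
    rintro c F ⟨⟨K, hK, hF⟩, N, hN⟩
    refine ⟨⟨K, hK, fun n s => (M.supp_smul c _).trans (hF n s)⟩, N, fun n hn => ?_⟩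
    show c • F n = 0
    rw [hN n hn, smul_zero]

/-- `supp (F + G) ⊆ supp F ∪ supp G` (intersect the neighbourhoods) -/
theorem fcyFSupp_add (M : FcD X) (F G : FcyFam M) :
    fcyFSupp M (F + G) ⊆ fcyFSupp M F ∪ fcyFSupp M G := by
  intro p hp
  by_contra hcon
  rw [Set.mem_union, not_or] at hcon
  obtain ⟨h1, h2⟩ := hcon
  obtain ⟨J, hJ, W, hW, hv⟩ := not_not.1 h1
  obtain ⟨J', hJ', W', hW', hv'⟩ := not_not.1 h2
  refine hp ⟨J ∩ J', Filter.inter_mem hJ hJ', W ∩ W', Filter.inter_mem hW hW', fun n s hs => ?_⟩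
  have a1 := hv n s (fun i => (hs i).1)
  have a2 := hv' n s (fun i => (hs i).2)
  rw [Set.disjoint_left] at a1 a2 ⊢
  intro x hx hxW
  rcases M.supp_add _ _ hx with h | h
  · exact a1 h hxW.1
  · exact a2 h hxW.2

theorem fcyFSupp_smul (M : FcD X) (c : ℝ) (F : FcyFam M) : fcyFSupp M (c • F) ⊆ fcyFSupp M F := by
  intro p hp h1
  obtain ⟨J, hJ, W, hW, hv⟩ := h1
  exact hp ⟨J, hJ, W, hW, fun n s hs => Set.disjoint_of_subset_left (M.supp_smul c _) (hv n s hs)⟩

theorem fcyFSupp_zero (M : FcD X) : fcyFSupp M (0 : FcyFam M) = ∅ := by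
  rw [Set.eq_empty_iff_forall_notMem]
  intro p hp
  refine hp ⟨Set.univ, Filter.univ_mem, Set.univ, Filter.univ_mem, fun n s _ => ?_⟩
  show Disjoint (M.supp 0) Set.univ
  rw [M.supp_zero]
  exact Set.empty_disjoint _

/-- the null families -/
def fcyNull (M : FcD X) : Submodule ℝ (fcyAdm M) where
  carrier := {F | fcyFSupp M F.1 = ∅}
  add_mem' := by
    intro F G hF hG
    have h := fcyFSupp_add M F.1 G.1
    rw [Set.mem_ofPred_eq] at hF hG
    rw [hF, hG, Set.union_empty] at h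
    exact Set.subset_empty_iff.1 h
  zero_mem' := fcyFSupp_zero M
  smul_mem' := by
    intro c F hF
    have h := fcyFSupp_smul M c F.1
    rw [Set.mem_ofPred_eq] at hF
    rw [hF] at h
    exact Set.subset_empty_iff.1 h

/-- the Alexander-Spanier coboundary of families -/
def fcyDelta (M : FcD X) (F : FcyFam M) : FcyFam M
  | 0 => fun _ => 0
  | (k + 1) => fun s => ∑ i : Fin (k + 2), ((-1 : ℝ) ^ (i : ℕ)) • F k (fun j => s (i.succAbove j))

/-- the total differential of families, as a function -/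
def fcyDfun (M : FcD X) (F : FcyFam M) : FcyFam M :=
  fun n s => fcyDelta M F n s + ((-1 : ℝ) ^ n) • M.d (F n s)

/-- the total differential of families -/
def fcyDfam (M : FcD X) : FcyFam M →ₗ[ℝ] FcyFam M where
  toFun := fcyDfun M
  map_add' := by
    intro F G
    funext n s
    cases n with
    | zero =>
      show (0 : M.C) + ((-1 : ℝ) ^ 0) • M.d (F 0 s + G 0 s) =
        ((0 : M.C) + ((-1 : ℝ) ^ 0) • M.d (F 0 s)) + ((0 : M.C) + ((-1 : ℝ) ^ 0) • M.d (G 0 s))
      rw [map_add, smul_add]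
      abel
    | succ k =>
      show (∑ i : Fin (k + 2), ((-1 : ℝ) ^ (i : ℕ)) • (F k (fun j => s (i.succAbove j)) +
          G k (fun j => s (i.succAbove j)))) + ((-1 : ℝ) ^ (k + 1)) • M.d (F (k + 1) s + G (k + 1) s) =
        ((∑ i : Fin (k + 2), ((-1 : ℝ) ^ (i : ℕ)) • F k (fun j => s (i.succAbove j))) +
          ((-1 : ℝ) ^ (k + 1)) • M.d (F (k + 1) s)) +
        ((∑ i : Fin (k + 2), ((-1 : ℝ) ^ (i : ℕ)) • G k (fun j => s (i.succAbove j))) +
          ((-1 : ℝ) ^ (k + 1)) • M.d (G (k + 1) s))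
      simp only [smul_add, Finset.sum_add_distrib, map_add]
      abel
  map_smul' := by
    intro c F
    funext n s
    cases n with
    | zero =>
      show (0 : M.C) + ((-1 : ℝ) ^ 0) • M.d (c • F 0 s) =
        c • ((0 : M.C) + ((-1 : ℝ) ^ 0) • M.d (F 0 s))
      rw [map_smul, smul_add, smul_zero, smul_comm]
    | succ k =>
      show (∑ i : Fin (k + 2), ((-1 : ℝ) ^ (i : ℕ)) • (c • F k (fun j => s (i.succAbove j)))) +
          ((-1 : ℝ) ^ (k + 1)) • M.d (c • F (k + 1) s) =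
        c • ((∑ i : Fin (k + 2), ((-1 : ℝ) ^ (i : ℕ)) • F k (fun j => s (i.succAbove j))) +
          ((-1 : ℝ) ^ (k + 1)) • M.d (F (k + 1) s))
      rw [map_smul, smul_add, Finset.smul_sum, smul_comm c]
      congr 1
      exact Finset.sum_congr rfl fun i _ => smul_comm _ _ _

/-- if all values of `F` on tuples in `J` lie in the submodule `S` (stable under `d`), so do the values of `D F` -/
theorem fcyDfam_mem (M : FcD X) (F : FcyFam M) (S : Submodule ℝ M.C) (hS : ∀ m ∈ S, M.d m ∈ S)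
    (J : Set unitInterval)
    (h : ∀ (n : ℕ) (s : Fin (n + 1) → unitInterval), (∀ i, s i ∈ J) → F n s ∈ S)
    (n : ℕ) (s : Fin (n + 1) → unitInterval) (hs : ∀ i, s i ∈ J) : fcyDfam M F n s ∈ S := by
  cases n with
  | zero =>
    show (0 : M.C) + ((-1 : ℝ) ^ 0) • M.d (F 0 s) ∈ S
    exact S.add_mem S.zero_mem (S.smul_mem _ (hS _ (h 0 s hs)))
  | succ k =>
    show (∑ i : Fin (k + 2), ((-1 : ℝ) ^ (i : ℕ)) • F k (fun j => s (i.succAbove j))) +
          ((-1 : ℝ) ^ (k + 1)) • M.d (F (k + 1) s) ∈ S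
    refine S.add_mem (S.sum_mem fun i _ => S.smul_mem _ (h k _ fun j => hs _)) ?_
    exact S.smul_mem _ (hS _ (h (k + 1) s hs))

/-- `D` preserves admissible families (same compact set, `N + 1`) -/
theorem fcyDfam_adm (M : FcD X) (F : FcyFam M) (hF : F ∈ fcyAdm M) : fcyDfam M F ∈ fcyAdm M := by
  obtain ⟨⟨K, hK, hFK⟩, N, hN⟩ := hF
  refine ⟨⟨K, hK, fun n s => ?_⟩, N + 1, fun n hn => ?_⟩
  · exact fcyDfam_mem M F (M.sec K) (fun m hm => (M.d_loc m).trans hm) Set.univ
      (fun n s _ => hFK n s) n s (fun _ => Set.mem_univ _)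
  · obtain ⟨k, rfl⟩ : ∃ k, n = k + 1 := ⟨n - 1, by omega⟩
    funext s
    show (∑ i : Fin (k + 2), ((-1 : ℝ) ^ (i : ℕ)) • F k (fun j => s (i.succAbove j))) +
          ((-1 : ℝ) ^ (k + 1)) • M.d (F (k + 1) s) = 0
    rw [hN k (by omega), hN (k + 1) (by omega)]
    simp

/-- the total differential of admissible families -/
def fcyDadm (M : FcD X) : fcyAdm M →ₗ[ℝ] fcyAdm M := (fcyDfam M).restrict (fcyDfam_adm M)

/-- `D` is local: the faces of a tuple in `J` are tuples in `J` -/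
theorem fcyDfam_supp (M : FcD X) (F : FcyFam M) : fcyFSupp M (fcyDfam M F) ⊆ fcyFSupp M F := by
  intro p hp h1
  obtain ⟨J, hJ, W, hW, hv⟩ := h1
  refine hp ⟨J, hJ, W, hW, fun n s hs => ?_⟩
  have := fcyDfam_mem M F (M.sec Wᶜ) (fun m hm => (M.d_loc m).trans hm) J
    (fun n s hs => Set.subset_compl_iff_disjoint_right.2 (hv n s hs)) n s hs
  exact Set.subset_compl_iff_disjoint_right.1 this

/-! #### augmented families (any set `T`, any real vector space `V`): `δ δ = 0` -/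

section Aug

variable {T V : Type} [AddCommGroup V] [Module ℝ V]

/-- augmented families -/
abbrev FcyqFam (T V : Type) := (n : ℕ) → (Fin n → T) → V

def fcyqDl (F : FcyqFam T V) : FcyqFam T V
  | 0 => fun _ => 0
  | (n + 1) => fun s => ∑ i : Fin (n + 1), ((-1 : ℝ) ^ (i : ℕ)) • F n (fun j => s (i.succAbove j))

def fcyqIo (a : T) (F : FcyqFam T V) : FcyqFam T V := fun n s => F (n + 1) (Fin.cons a s)

theorem fcyq_dl_cons (F : FcyqFam T V) (a : T) (n : ℕ) (s : Fin n → T) :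
    fcyqDl F (n + 1) (Fin.cons a s) = F n s - fcyqDl (fcyqIo a F) n s := by
  cases n with
  | zero =>
    have h : (fun j : Fin 0 => (Fin.cons a s : Fin 1 → T) ((0 : Fin 1).succAbove j)) = s := by
      funext j
      exact j.elim0
    show (∑ i : Fin (0 + 1), ((-1 : ℝ) ^ (i : ℕ)) •
      F 0 (fun j => (Fin.cons a s : Fin 1 → T) (i.succAbove j))) = F 0 s - 0
    rw [Fin.sum_univ_succ]
    simp only [Fin.val_zero, pow_zero, one_smul, sub_zero, h, Finset.univ_eq_empty,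
      Finset.sum_empty, add_zero]
  | succ n =>
    simp only [fcyqDl]
    rw [Fin.sum_univ_succ]
    simp only [Fin.val_zero, pow_zero, one_smul, Fin.zero_succAbove, Fin.cons_succ, Fin.val_succ]
    rw [sub_eq_add_neg, ← Finset.sum_neg_distrib]
    congr 1
    refine Finset.sum_congr rfl fun i _ => ?_
    rw [pow_succ, mul_neg_one, neg_smul]
    congr 2
    simp only [fcyqIo]
    congr 1
    funext j
    refine Fin.cases ?_ (fun k => ?_) j
    · simp
    · simp

theorem fcyq_dl_sub (F G : FcyqFam T V) : fcyqDl (F - G) = fcyqDl F - fcyqDl G := by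
  funext n s
  cases n with
  | zero => simp [fcyqDl]
  | succ n => simp [fcyqDl, smul_sub, Finset.sum_sub_distrib]

theorem fcyq_dl_dl (n : ℕ) : ∀ (F : FcyqFam T V) (s : Fin n → T), fcyqDl (fcyqDl F) n s = 0 := by
  induction n with
  | zero => intro F s; rfl
  | succ n ih =>
    intro F s
    obtain ⟨a, s', rfl⟩ : ∃ a s', s = Fin.cons a s' := ⟨s 0, Fin.tail s, (Fin.cons_self_tail s).symm⟩
    have h2 : fcyqIo a (fcyqDl F) = F - fcyqDl (fcyqIo a F) := by
      funext m u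
      exact fcyq_dl_cons F a m u
    rw [fcyq_dl_cons, h2, fcyq_dl_sub]
    simp only [Pi.sub_apply]
    rw [ih (fcyqIo a F) s']
    simp

end Aug

/-- the augmented family of a family: `0` in degree `-1` -/
def fcyqAug (M : FcD X) (F : FcyFam M) : FcyqFam unitInterval M.C
  | 0 => fun _ => 0
  | (n + 1) => F n

theorem fcyq_aug_delta (M : FcD X) (F : FcyFam M) :
    fcyqAug M (fcyDelta M F) = fcyqDl (fcyqAug M F) := by
  funext n s
  cases n with
  | zero => rfl
  | succ n =>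
    cases n with
    | zero =>
      show (0 : M.C) = ∑ i : Fin (0 + 1), ((-1 : ℝ) ^ (i : ℕ)) • (0 : M.C)
      simp
    | succ n => rfl

/-- `δ δ = 0` (the usual cancellation `Fin.succAbove` identity) and `δ` commutes with `d` applied pointwise -/
theorem fcyDfam_sq (M : FcD X) (F : FcyFam M) : fcyDfam M (fcyDfam M F) = 0 := by
  funext n s
  cases n with
  | zero =>
    show (0 : M.C) + ((-1 : ℝ) ^ 0) • M.d ((0 : M.C) + ((-1 : ℝ) ^ 0) • M.d (F 0 s)) = 0
    simp [M.d_sq]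
  | succ k =>
    have h0 : fcyDelta M (fcyDelta M F) (k + 1) s = 0 := by
      have h := fcyq_dl_dl (k + 2) (fcyqAug M F) s
      rw [← fcyq_aug_delta, ← fcyq_aug_delta] at h
      exact h
    have h1 : fcyDelta M (fcyDelta M F) (k + 1) s =
        ∑ i : Fin (k + 2), ((-1 : ℝ) ^ (i : ℕ)) • fcyDelta M F k (fun j => s (i.succAbove j)) := rfl
    show (∑ i : Fin (k + 2), ((-1 : ℝ) ^ (i : ℕ)) • (fcyDelta M F k (fun j => s (i.succAbove j)) +
          ((-1 : ℝ) ^ k) • M.d (F k (fun j => s (i.succAbove j))))) +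
        ((-1 : ℝ) ^ (k + 1)) • M.d ((∑ i : Fin (k + 2), ((-1 : ℝ) ^ (i : ℕ)) •
          F k (fun j => s (i.succAbove j))) + ((-1 : ℝ) ^ (k + 1)) • M.d (F (k + 1) s)) = 0
    simp only [smul_add, Finset.sum_add_distrib, map_add, map_sum, map_smul, M.d_sq, smul_zero,
      add_zero]
    rw [← h1, h0, zero_add, Finset.smul_sum, ← Finset.sum_add_distrib]
    refine Finset.sum_eq_zero fun i _ => ?_
    rw [smul_comm, pow_succ, mul_neg_one, neg_smul, add_neg_cancel]

theorem fcyDadm_null (M : FcD X) : fcyNull M ≤ (fcyNull M).comap (fcyDadm M) := by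
  intro F hF
  have h1 : fcyFSupp M F.1 = ∅ := hF
  have h2 := fcyDfam_supp M F.1
  rw [h1] at h2
  exact Set.subset_empty_iff.1 h2

/-- the Urysohn operator of the cylinder on families -/
noncomputable def fcyUry (M : FcD X) (E : Set (unitInterval × X)) : FcyFam M →ₗ[ℝ] FcyFam M where
  toFun := fun F n s => (M.ury {x | (s 0, x) ∈ E}).choose (F n s)
  map_add' := fun F G => by
    funext n s
    exact map_add _ _ _
  map_smul' := fun c F => by
    funext n s
    exact map_smul _ _ _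

/-- a chosen representative -/
noncomputable def fcyRep (M : FcD X) (q : (fcyAdm M) ⧸ (fcyNull M)) : fcyAdm M :=
  Function.surjInv (Submodule.mkQ_surjective (fcyNull M)) q

theorem fcyFSupp_closed (M : FcD X) (F : FcyFam M) : IsClosed (fcyFSupp M F) := by
  rw [← isOpen_compl_iff, isOpen_iff_mem_nhds]
  intro p hp
  obtain ⟨J, hJ, W, hW, hv⟩ := not_not.1 hp
  have h0 : interior J ×ˢ interior W ∈ 𝓝 p :=
    (isOpen_interior.prod isOpen_interior).mem_nhds
      ⟨mem_interior_iff_mem_nhds.2 hJ, mem_interior_iff_mem_nhds.2 hW⟩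
  refine Filter.mem_of_superset h0 ?_
  rintro p' ⟨h1, h2⟩
  exact not_not.2 ⟨J, mem_interior_iff_mem_nhds.1 h1, W, mem_interior_iff_mem_nhds.1 h2, hv⟩

theorem fcyFSupp_subset (M : FcD X) (F : FcyFam M) (K : Set X) (hK : IsClosed K)
    (h : ∀ n s, M.supp (F n s) ⊆ K) : fcyFSupp M F ⊆ Set.univ ×ˢ K := by
  intro p hp
  refine ⟨Set.mem_univ _, ?_⟩
  by_contra hx
  exact hp ⟨Set.univ, Filter.univ_mem, Kᶜ, hK.isOpen_compl.mem_nhds hx,
    fun n s _ => Set.disjoint_compl_right_iff_subset.2 (h n s)⟩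

theorem fcyFSupp_compact (M : FcD X) (F : fcyAdm M) : IsCompact (fcyFSupp M F.1) := by
  obtain ⟨⟨K, hK, hFK⟩, -⟩ := F.2
  exact (isCompact_univ.prod hK).of_isClosed_subset (fcyFSupp_closed M F.1)
    (fcyFSupp_subset M F.1 K hK.isClosed hFK)

theorem fcyFSupp_congr (M : FcD X) (F G : FcyFam M) (h : fcyFSupp M (F - G) = ∅) :
    fcyFSupp M F = fcyFSupp M G := by
  apply Set.Subset.antisymm
  · have h1 := fcyFSupp_add M (F - G) G
    rw [sub_add_cancel, h, Set.empty_union] at h1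
    exact h1
  · have h2 : fcyFSupp M (G - F) = ∅ := by
      have := fcyFSupp_smul M (-1) (F - G)
      rw [h, neg_one_smul, neg_sub] at this
      exact Set.subset_empty_iff.1 this
    have h1 := fcyFSupp_add M (G - F) F
    rw [sub_add_cancel, h2, Set.empty_union] at h1
    exact h1

theorem fcyRep_supp (M : FcD X) (F : fcyAdm M) :
    fcyFSupp M (fcyRep M ((fcyNull M).mkQ F)).1 = fcyFSupp M F.1 := by
  apply fcyFSupp_congr
  have h : (fcyNull M).mkQ (fcyRep M ((fcyNull M).mkQ F)) = (fcyNull M).mkQ F :=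
    Function.surjInv_eq (Submodule.mkQ_surjective (fcyNull M)) _
  exact (Submodule.Quotient.eq (fcyNull M)).1 h

theorem fcyUry_spec (M : FcD X) (E : Set (unitInterval × X)) (F : FcyFam M) (n : ℕ)
    (s : Fin (n + 1) → unitInterval) :
    M.supp (fcyUry M E F n s) ⊆ M.supp (F n s) ∩ closure {x | (s 0, x) ∈ E} ∧
      M.supp (F n s - fcyUry M E F n s) ⊆ M.supp (F n s) ∩ closure {x | (s 0, x) ∈ E}ᶜ :=
  (M.ury {x | (s 0, x) ∈ E}).choose_spec (F n s)

theorem fcyUry_adm (M : FcD X) (E : Set (unitInterval × X)) (F : FcyFam M) (hF : F ∈ fcyAdm M) :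
    fcyUry M E F ∈ fcyAdm M := by
  obtain ⟨⟨K, hK, hFK⟩, N, hN⟩ := hF
  refine ⟨⟨K, hK, fun n s => ((fcyUry_spec M E F n s).1.trans Set.inter_subset_left).trans (hFK n s)⟩,
    N, fun n hn => ?_⟩
  funext s
  show (M.ury {x | (s 0, x) ∈ E}).choose (F n s) = 0
  rw [hN n hn]
  exact map_zero _

/-- a point off `closure E` has a rectangular neighbourhood `J × W` such that the closures of the slices `E_t`, `t ∈ J`, miss `W` -/
theorem fcy_slice_van (E : Set (unitInterval × X)) (p : unitInterval × X) (hp : p ∉ closure E) :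
    ∃ J ∈ 𝓝 p.1, ∃ W ∈ 𝓝 p.2, ∀ t ∈ J, Disjoint (closure {x | (t, x) ∈ E}) W := by
  have h0 : (closure E)ᶜ ∈ 𝓝 p := isClosed_closure.isOpen_compl.mem_nhds hp
  obtain ⟨J, hJ, W, hW, hJW⟩ := mem_nhds_prod_iff.1 h0
  refine ⟨J, hJ, interior W, interior_mem_nhds.2 hW, fun t ht => ?_⟩
  refine Disjoint.closure_left ?_ isOpen_interior
  rw [Set.disjoint_left]
  intro x hx hxW
  exact hJW (Set.mk_mem_prod ht (interior_subset hxW)) (subset_closure hx)

theorem fcyUry_supp (M : FcD X) (E : Set (unitInterval × X)) (F : FcyFam M) :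
    fcyFSupp M (fcyUry M E F) ⊆ fcyFSupp M F ∩ closure E := by
  intro p hp
  constructor
  · rintro ⟨J, hJ, W, hW, hv⟩
    exact hp ⟨J, hJ, W, hW, fun n s hs => Set.disjoint_of_subset_left
      ((fcyUry_spec M E F n s).1.trans Set.inter_subset_left) (hv n s hs)⟩
  · by_contra hcl
    obtain ⟨J, hJ, W, hW, hv⟩ := fcy_slice_van E p hcl
    exact hp ⟨J, hJ, W, hW, fun n s hs => Set.disjoint_of_subset_left
      ((fcyUry_spec M E F n s).1.trans Set.inter_subset_right) (hv (s 0) (hs 0))⟩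

theorem fcyUry_supp' (M : FcD X) (E : Set (unitInterval × X)) (F : FcyFam M) :
    fcyFSupp M (F - fcyUry M E F) ⊆ fcyFSupp M F ∩ closure Eᶜ := by
  intro p hp
  constructor
  · rintro ⟨J, hJ, W, hW, hv⟩
    exact hp ⟨J, hJ, W, hW, fun n s hs => Set.disjoint_of_subset_left
      ((fcyUry_spec M E F n s).2.trans Set.inter_subset_left) (hv n s hs)⟩
  · by_contra hcl
    obtain ⟨J, hJ, W, hW, hv⟩ := fcy_slice_van Eᶜ p hcl
    exact hp ⟨J, hJ, W, hW, fun n s hs => Set.disjoint_of_subset_left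
      ((fcyUry_spec M E F n s).2.trans Set.inter_subset_right) (hv (s 0) (hs 0))⟩

theorem fcyUry_null (M : FcD X) (E : Set (unitInterval × X)) :
    fcyNull M ≤ (fcyNull M).comap ((fcyUry M E).restrict (fcyUry_adm M E)) := by
  intro F hF
  have h1 : fcyFSupp M F.1 = ∅ := hF
  have h2 := (fcyUry_supp M E F.1).trans Set.inter_subset_left
  rw [h1] at h2
  exact Set.subset_empty_iff.1 h2

/-- **THE CYLINDER.**
`supp_compact`: closed subset of `univ ×ˢ K`.  `supp_closed`: vanishing is an open condition (take interiors).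
`supp_empty_iff`: definition of the quotient.  `ury`: `Submodule.mapQ` of (the restriction of) `fcyUry M E`; if `(t, x) ∉ closure E`
there is a rectangle `J × W` disjoint from `E`; for `s 0 ∈ J` the slice `E_{s 0}` misses `W`, so `closure E_{s 0}` misses `interior W`. -/
noncomputable def fcyCyl (M : FcD X) : FcD (unitInterval × X) where
  carrier := (fcyAdm M) ⧸ (fcyNull M)
  acg := inferInstance
  mod := inferInstance
  supp := fun q => fcyFSupp M (fcyRep M q).1
  supp_compact := fun q => fcyFSupp_compact M _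
  supp_closed := fun q => fcyFSupp_closed M _
  supp_empty_iff := by
    intro q
    obtain ⟨F, rfl⟩ := Submodule.mkQ_surjective (fcyNull M) q
    rw [fcyRep_supp]
    exact (Submodule.Quotient.mk_eq_zero (fcyNull M)).symm
  supp_add := by
    intro q q'
    obtain ⟨F, rfl⟩ := Submodule.mkQ_surjective (fcyNull M) q
    obtain ⟨G, rfl⟩ := Submodule.mkQ_surjective (fcyNull M) q'
    rw [← map_add, fcyRep_supp, fcyRep_supp, fcyRep_supp]
    exact fcyFSupp_add M F.1 G.1
  supp_smul := by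
    intro c q
    obtain ⟨F, rfl⟩ := Submodule.mkQ_surjective (fcyNull M) q
    rw [← map_smul, fcyRep_supp, fcyRep_supp]
    exact fcyFSupp_smul M c F.1
  ury := by
    intro E
    refine ⟨Submodule.mapQ (fcyNull M) (fcyNull M) ((fcyUry M E).restrict (fcyUry_adm M E))
      (fcyUry_null M E), fun q => ?_⟩
    obtain ⟨F, rfl⟩ := Submodule.mkQ_surjective (fcyNull M) q
    have e1 : Submodule.mapQ (fcyNull M) (fcyNull M) ((fcyUry M E).restrict (fcyUry_adm M E))
        (fcyUry_null M E) ((fcyNull M).mkQ F) =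
        (fcyNull M).mkQ ((fcyUry M E).restrict (fcyUry_adm M E) F) := rfl
    rw [e1, ← map_sub, fcyRep_supp, fcyRep_supp, fcyRep_supp]
    exact ⟨fcyUry_supp M E F.1, fcyUry_supp' M E F.1⟩
  d := Submodule.mapQ (fcyNull M) (fcyNull M) (fcyDadm M) (fcyDadm_null M)
  d_loc := by
    intro q
    obtain ⟨F, rfl⟩ := Submodule.mkQ_surjective (fcyNull M) q
    have e1 : Submodule.mapQ (fcyNull M) (fcyNull M) (fcyDadm M) (fcyDadm_null M)
        ((fcyNull M).mkQ F) = (fcyNull M).mkQ (fcyDadm M F) := rfl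
    rw [e1, fcyRep_supp, fcyRep_supp]
    exact fcyDfam_supp M F.1
  d_sq := by
    intro q
    obtain ⟨F, rfl⟩ := Submodule.mkQ_surjective (fcyNull M) q
    have e1 : Submodule.mapQ (fcyNull M) (fcyNull M) (fcyDadm M) (fcyDadm_null M)
        (Submodule.mapQ (fcyNull M) (fcyNull M) (fcyDadm M) (fcyDadm_null M)
        ((fcyNull M).mkQ F)) = (fcyNull M).mkQ (fcyDadm M (fcyDadm M F)) := rfl
    rw [e1]
    have e2 : fcyDadm M (fcyDadm M F) = 0 := Subtype.ext (fcyDfam_sq M F.1)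
    rw [e2, map_zero]

/-- the class of an admissible family -/
noncomputable def fcyMk (M : FcD X) : fcyAdm M →ₗ[ℝ] (fcyCyl M).C := (fcyNull M).mkQ

theorem fcyMk_surj (M : FcD X) : Function.Surjective (fcyMk M) := Submodule.mkQ_surjective _

/-- two representatives differ by a null family; `fcyFSupp_add` twice -/
theorem fcyMk_supp (M : FcD X) (F : fcyAdm M) : (fcyCyl M).supp (fcyMk M F) = fcyFSupp M F.1 :=
  fcyRep_supp M F

theorem fcyMk_d (M : FcD X) (F : fcyAdm M) : (fcyCyl M).d (fcyMk M F) = fcyMk M (fcyDadm M F) := rfl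

theorem fcyMk_eq_zero_iff (M : FcD X) (F : fcyAdm M) : fcyMk M F = 0 ↔ fcyFSupp M F.1 = ∅ :=
  Submodule.Quotient.mk_eq_zero (fcyNull M)

/-! ### The structure maps -/

/-- `i_t : X → I × X` -/
def fcyInc (X : Type) [TopologicalSpace X] (t : unitInterval) : C(X, unitInterval × X) :=
  ⟨fun x => (t, x), by fun_prop⟩

/-- the projection `I × X → X` -/
def fcyPr (X : Type) [TopologicalSpace X] : C(unitInterval × X, X) := ⟨Prod.snd, continuous_snd⟩

/-- evaluation of families at `t` -/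
def fcyEvFam (M : FcD X) (t : unitInterval) : fcyAdm M →ₗ[ℝ] M.C where
  toFun := fun F => F.1 0 (fun _ => t)
  map_add' := fun _ _ => rfl
  map_smul' := fun _ _ => rfl

/-- if `F` vanishes at `(t, x)` then `x ∉ supp (F 0 (t))` -/
theorem fcyEvFam_supp (M : FcD X) (t : unitInterval) (F : fcyAdm M) :
    (fun x => (t, x)) '' M.supp (fcyEvFam M t F) ⊆ fcyFSupp M F.1 := by
  rintro _ ⟨x, hx, rfl⟩ ⟨J, hJ, W, hW, hv⟩
  exact Set.disjoint_left.1 (hv 0 (fun _ => t) (fun _ => mem_of_mem_nhds hJ)) hx (mem_of_mem_nhds hW)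

theorem fcyEvFam_null (M : FcD X) (t : unitInterval) : fcyNull M ≤ LinearMap.ker (fcyEvFam M t) := by
  intro F hF
  have h1 : fcyFSupp M F.1 = ∅ := hF
  have h2 := fcyEvFam_supp M t F
  rw [h1, Set.subset_empty_iff, Set.image_eq_empty, M.supp_empty_iff] at h2
  exact h2

/-- `ev_t` as a linear map `fcyCyl M → M` -/
noncomputable def fcyEvL (M : FcD X) (t : unitInterval) : (fcyCyl M).C →ₗ[ℝ] M.C :=
  (fcyNull M).liftQ (fcyEvFam M t) (fcyEvFam_null M t)

theorem fcyEvL_mk (M : FcD X) (t : unitInterval) (F : fcyAdm M) :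
    fcyEvL M t (fcyMk M F) = F.1 0 (fun _ => t) := rfl

/-- `ev_t : fcyCyl M → (i_t)_! M` -/
noncomputable def fcyEv (M : FcD X) (t : unitInterval) :
    FcHom (fcyCyl M) (M.push (fcyInc X t)) where
  f := fcyEvL M t
  loc := by
    intro q
    obtain ⟨F, rfl⟩ := fcyMk_surj M q
    rw [fcyMk_supp]
    exact fcyEvFam_supp M t F
  comm := by
    intro q
    obtain ⟨F, rfl⟩ := fcyMk_surj M q
    show (0 : M.C) + ((-1 : ℝ) ^ 0) • M.d (F.1 0 (fun _ => t)) = M.d (F.1 0 (fun _ => t))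
    simp

/-- the family `f ⊗ m` -/
def fcyTenFam (M : FcD X) (f : unitInterval → ℝ) (m : M.C) : FcyFam M
  | 0 => fun s => f (s 0) • m
  | (_ + 1) => fun _ => 0

theorem fcyTenFam_adm (M : FcD X) (f : unitInterval → ℝ) (m : M.C) : fcyTenFam M f m ∈ fcyAdm M := by
  refine ⟨⟨M.supp m, M.supp_compact m, fun n s => ?_⟩, 0, fun n hn => ?_⟩
  · cases n with
    | zero => exact M.supp_smul _ m
    | succ k =>
      show M.supp 0 ⊆ _
      rw [M.supp_zero]
      exact Set.empty_subset _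
  · obtain ⟨k, rfl⟩ : ∃ k, n = k + 1 := ⟨n - 1, by omega⟩
    rfl

/-- `f ⊗ m` in the cylinder -/
noncomputable def fcyTen (M : FcD X) (f : unitInterval → ℝ) : M.C →ₗ[ℝ] (fcyCyl M).C where
  toFun := fun m => fcyMk M ⟨fcyTenFam M f m, fcyTenFam_adm M f m⟩
  map_add' := by
    intro m m'
    rw [← map_add]
    congr 1
    apply Subtype.ext
    funext n s
    cases n with
    | zero => exact smul_add _ _ _
    | succ k => exact (add_zero (0 : M.C)).symm
  map_smul' := by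
    intro c m
    rw [RingHom.id_apply, ← map_smul]
    congr 1
    apply Subtype.ext
    funext n s
    cases n with
    | zero => exact smul_comm _ _ _
    | succ k => exact (smul_zero c).symm

/-- `c : M → pr_! (fcyCyl M)` -/
noncomputable def fcyC (M : FcD X) : FcHom M ((fcyCyl M).push (fcyPr X)) where
  f := fcyTen M (fun _ => 1)
  loc := by
    intro m
    rintro _ ⟨p, hp, rfl⟩
    have h1 : p ∈ fcyFSupp M (fcyTenFam M (fun _ => 1) m) := by
      have h2 := fcyMk_supp M ⟨fcyTenFam M (fun _ => 1) m, fcyTenFam_adm M (fun _ => 1) m⟩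
      rw [← h2]
      exact hp
    refine (fcyFSupp_subset M _ (M.supp m) (M.supp_closed m) (fun n s => ?_) h1).2
    cases n with
    | zero => exact M.supp_smul _ m
    | succ k =>
      show M.supp 0 ⊆ _
      rw [M.supp_zero]
      exact Set.empty_subset _
  comm := by
    intro m
    show fcyMk M ⟨fcyTenFam M (fun _ => 1) (M.d m), fcyTenFam_adm M (fun _ => 1) (M.d m)⟩ =
      fcyMk M (fcyDadm M ⟨fcyTenFam M (fun _ => 1) m, fcyTenFam_adm M (fun _ => 1) m⟩)
    congr 1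
    apply Subtype.ext
    funext n s
    cases n with
    | zero =>
      show (1 : ℝ) • M.d m = (0 : M.C) + ((-1 : ℝ) ^ 0) • M.d ((1 : ℝ) • m)
      simp
    | succ k =>
      cases k with
      | zero =>
        show (0 : M.C) = (∑ i : Fin 2, ((-1 : ℝ) ^ (i : ℕ)) • ((1 : ℝ) • m)) +
          ((-1 : ℝ) ^ (0 + 1)) • M.d (0 : M.C)
        simp [Fin.sum_univ_two]
      | succ k =>
        show (0 : M.C) = (∑ i : Fin (k + 1 + 2), ((-1 : ℝ) ^ (i : ℕ)) • (0 : M.C)) +
          ((-1 : ℝ) ^ (k + 1 + 1)) • M.d (0 : M.C)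
        simp

/-- the indicator function of `[c, 1]` -/
noncomputable def fcyInd (c : unitInterval) : unitInterval → ℝ := fun t => if c ≤ t then 1 else 0

/-- `τ_c ⊗ m` -/
noncomputable def fcyTau (M : FcD X) (c : unitInterval) : M.C →ₗ[ℝ] (fcyCyl M).C :=
  (fcyCyl M).d ∘ₗ fcyTen M (fcyInd c) - fcyTen M (fcyInd c) ∘ₗ M.d

/-! ### The integral -/

/-- functions of two variables which vanish near the diagonal -/
def FcyLocZero (g : (Fin 2 → unitInterval) → ℝ) : Prop :=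
  ∀ t : unitInterval, ∃ J ∈ 𝓝 t, ∀ s : Fin 2 → unitInterval, (∀ i, s i ∈ J) → g s = 0

/-- the locally zero functions form a subspace -/
def fcyLZ : Submodule ℝ ((Fin 2 → unitInterval) → ℝ) where
  carrier := {g | FcyLocZero g}
  add_mem' := by
    intro g g' hg hg' t
    obtain ⟨J, hJ, h⟩ := hg t
    obtain ⟨J', hJ', h'⟩ := hg' t
    refine ⟨J ∩ J', Filter.inter_mem hJ hJ', fun s hs => ?_⟩
    show g s + g' s = 0
    rw [h s (fun i => (hs i).1), h' s (fun i => (hs i).2), add_zero]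
  zero_mem' := fun t => ⟨Set.univ, Filter.univ_mem, fun _ _ => rfl⟩
  smul_mem' := by
    intro c g hg t
    obtain ⟨J, hJ, h⟩ := hg t
    refine ⟨J, hJ, fun s hs => ?_⟩
    show c * g s = 0
    rw [h s hs, mul_zero]

/-- On the subspace `{δ f + g | g locally zero}` put `δ f + g ↦ f 1 - f 0`.  Well defined: if `δ f` is locally zero then `f` is locally
constant, hence constant (`I` is connected: `IsLocallyConstant.apply_eq_of_isPreconnected`).  `LinearMap.exists_extend`. -/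
theorem fcy_int_exists : ∃ int : ((Fin 2 → unitInterval) → ℝ) →ₗ[ℝ] ℝ,
    (∀ g, FcyLocZero g → int g = 0) ∧
      ∀ f : unitInterval → ℝ, int (fun s => f (s 1) - f (s 0)) = f 1 - f 0 := by
  let dl : (unitInterval → ℝ) →ₗ[ℝ] ((Fin 2 → unitInterval) → ℝ) :=
    { toFun := fun f s => f (s 1) - f (s 0)
      map_add' := fun f g => by
        funext s
        show (f (s 1) + g (s 1)) - (f (s 0) + g (s 0)) = (f (s 1) - f (s 0)) + (g (s 1) - g (s 0))
        ring
      map_smul' := fun c f => by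
        funext s
        show c * f (s 1) - c * f (s 0) = c * (f (s 1) - f (s 0))
        ring }
  let e : Module.Dual ℝ (unitInterval → ℝ) :=
    { toFun := fun f => f 1 - f 0
      map_add' := fun f g => by
        show (f 1 + g 1) - (f 0 + g 0) = (f 1 - f 0) + (g 1 - g 0)
        ring
      map_smul' := fun c f => by
        show c * f 1 - c * f 0 = c * (f 1 - f 0)
        ring }
  have hker : ∀ f, (fcyLZ.mkQ ∘ₗ dl) f = 0 → e f = 0 := by
    intro f hf
    have h1 : FcyLocZero (dl f) := (Submodule.Quotient.mk_eq_zero fcyLZ).1 hf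
    have h2 : IsLocallyConstant f := by
      rw [IsLocallyConstant.iff_eventually_eq]
      intro t
      obtain ⟨J, hJ, h⟩ := h1 t
      refine Filter.mem_of_superset hJ fun t' ht' => ?_
      have h3 := h ![t, t'] (by
        intro i
        fin_cases i
        · exact mem_of_mem_nhds hJ
        · exact ht')
      have h4 : f t' - f t = 0 := h3
      exact sub_eq_zero.1 h4
    show f 1 - f 0 = 0
    rw [h2.apply_eq_of_preconnectedSpace 1 0, sub_self]
  obtain ⟨ψ, hψ⟩ := fc_factor (fcyLZ.mkQ ∘ₗ dl) e hker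
  refine ⟨ψ ∘ₗ fcyLZ.mkQ, fun g hg => ?_, fun f => hψ f⟩
  show ψ (fcyLZ.mkQ g) = 0
  have : fcyLZ.mkQ g = 0 := (Submodule.Quotient.mk_eq_zero fcyLZ).2 hg
  rw [this, map_zero]

/-- the integral of germs of `1`-cochains on `I` -/
noncomputable def fcyInt : ((Fin 2 → unitInterval) → ℝ) →ₗ[ℝ] ℝ := fcy_int_exists.choose

theorem fcyInt_locZero (g : (Fin 2 → unitInterval) → ℝ) (hg : FcyLocZero g) : fcyInt g = 0 :=
  fcy_int_exists.choose_spec.1 g hg

theorem fcyInt_delta (f : unitInterval → ℝ) : fcyInt (fun s => f (s 1) - f (s 0)) = f 1 - f 0 :=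
  fcy_int_exists.choose_spec.2 f

/-! ### The form and the datum -/

/-- the integrand of `h₀`, for a pairing `b : M × M' → ℝ` and a sign `κ` -/
def fcyH0fun {M M' : FcD X} (κ : ℝ) (b : M.C →ₗ[ℝ] M'.C →ₗ[ℝ] ℝ) (F : FcyFam M) (G : FcyFam M') :
    (Fin 2 → unitInterval) → ℝ :=
  fun s => b (F 0 (fun _ => s 0)) (G 1 s) + κ * b (F 1 s) (G 0 (fun _ => s 1))

/-- `h₀` on families -/
noncomputable def fcyH0 {M M' : FcD X} (κ : ℝ) (b : M.C →ₗ[ℝ] M'.C →ₗ[ℝ] ℝ) (F : FcyFam M)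
    (G : FcyFam M') : ℝ :=
  fcyInt (fcyH0fun κ b F G)

/-- SEPARATION: if the supports of `F` (admissible) and `G` are disjoint, then near every `τ` all values of `F` and `G` have disjoint supports -/
theorem fcy_sep {M M' : FcD X} (F : fcyAdm M) (G : FcyFam M')
    (h : Disjoint (fcyFSupp M F.1) (fcyFSupp M' G)) (τ : unitInterval) :
    ∃ J ∈ 𝓝 τ, ∀ (n n' : ℕ) (s : Fin (n + 1) → unitInterval) (s' : Fin (n' + 1) → unitInterval),
      (∀ i, s i ∈ J) → (∀ i, s' i ∈ J) → Disjoint (M.supp (F.1 n s)) (M'.supp (G n' s')) := by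
  obtain ⟨⟨K, hK, hFK⟩, -⟩ := F.2
  have h1 : ∀ y : X, ∃ J ∈ 𝓝 τ, ∃ W ∈ 𝓝 y, FcyVanS M F.1 J W ∨ FcyVanS M' G J W := by
    intro y
    by_cases hy : (τ, y) ∈ fcyFSupp M F.1
    · have hy' : (τ, y) ∉ fcyFSupp M' G := Set.disjoint_left.1 h hy
      obtain ⟨J, hJ, W, hW, hv⟩ := not_not.1 hy'
      exact ⟨J, hJ, W, hW, Or.inr hv⟩
    · obtain ⟨J, hJ, W, hW, hv⟩ := not_not.1 hy
      exact ⟨J, hJ, W, hW, Or.inl hv⟩
  choose J hJ W hW hv using h1
  obtain ⟨T, -, hT⟩ := hK.elim_nhds_subcover W (fun y _ => hW y)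
  refine ⟨⋂ y ∈ T, J y, (Filter.biInter_finset_mem T).2 (fun y _ => hJ y), ?_⟩
  intro n n' s s' hs hs'
  rw [Set.disjoint_left]
  intro x hx hx'
  obtain ⟨y, hyT, hxy⟩ := Set.mem_iUnion₂.1 (hT (hFK n s hx))
  rcases hv y with hv1 | hv1
  · exact Set.disjoint_left.1 (hv1 n s (fun i => Set.mem_iInter₂.1 (hs i) y hyT)) hx hxy
  · exact Set.disjoint_left.1 (hv1 n' s' (fun i => Set.mem_iInter₂.1 (hs' i) y hyT)) hx' hxy

/-- LOCALITY of `h₀` on admissible families.  For every `τ ∈ I` and every `y` in the common compact set `K` one of `F`, `G` vanishes at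
`(τ, y)`; finitely many `W_y` cover `K`; on the intersection `J` of the `J_y` the supports of `F n s` and `G n' s'` are disjoint; so
the integrand is locally zero. -/
theorem fcyH0_loc {M M' : FcD X} (κ : ℝ) (b : M.C →ₗ[ℝ] M'.C →ₗ[ℝ] ℝ) (hb : FcLoc2 M M' b)
    (F : fcyAdm M) (G : fcyAdm M') (h : Disjoint (fcyFSupp M F.1) (fcyFSupp M' G.1)) :
    fcyH0 κ b F.1 G.1 = 0 := by
  apply fcyInt_locZero
  intro τ
  obtain ⟨J, hJ, hd⟩ := fcy_sep F G.1 h τ
  refine ⟨J, hJ, fun s hs => ?_⟩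
  show b (F.1 0 (fun _ => s 0)) (G.1 1 s) + κ * b (F.1 1 s) (G.1 0 (fun _ => s 1)) = 0
  rw [hb _ _ (hd 0 1 _ s (fun _ => hs 0) hs), hb _ _ (hd 1 0 s _ hs (fun _ => hs 1))]
  simp

/-- `h₀` is bilinear and vanishes if one of the arguments is null (`fcyH0_loc`), so it descends (`Submodule.liftQ` twice). -/
theorem fcy_h0_exists {M M' : FcD X} (κ : ℝ) (b : M.C →ₗ[ℝ] M'.C →ₗ[ℝ] ℝ) (hb : FcLoc2 M M' b) :
    ∃ h : (fcyCyl M).C →ₗ[ℝ] (fcyCyl M').C →ₗ[ℝ] ℝ, ∀ (F : fcyAdm M) (G : fcyAdm M'),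
      h (fcyMk M F) (fcyMk M' G) = fcyH0 κ b F.1 G.1 := by
  let B : fcyAdm M →ₗ[ℝ] fcyAdm M' →ₗ[ℝ] ℝ :=
    LinearMap.mk₂ ℝ (fun F G => fcyH0 κ b F.1 G.1)
      (fun F F' G => by
        show fcyInt _ = fcyInt _ + fcyInt _
        rw [← map_add]
        congr 1
        funext s
        show b (F.1 0 (fun _ => s 0) + F'.1 0 (fun _ => s 0)) (G.1 1 s) +
            κ * b (F.1 1 s + F'.1 1 s) (G.1 0 (fun _ => s 1)) =
          (b (F.1 0 (fun _ => s 0)) (G.1 1 s) + κ * b (F.1 1 s) (G.1 0 (fun _ => s 1))) +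
          (b (F'.1 0 (fun _ => s 0)) (G.1 1 s) + κ * b (F'.1 1 s) (G.1 0 (fun _ => s 1)))
        simp only [map_add, LinearMap.add_apply]
        ring)
      (fun c F G => by
        show fcyInt _ = c • fcyInt _
        rw [← map_smul]
        congr 1
        funext s
        show b (c • F.1 0 (fun _ => s 0)) (G.1 1 s) +
            κ * b (c • F.1 1 s) (G.1 0 (fun _ => s 1)) =
          c * (b (F.1 0 (fun _ => s 0)) (G.1 1 s) + κ * b (F.1 1 s) (G.1 0 (fun _ => s 1)))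
        simp only [map_smul, LinearMap.smul_apply, smul_eq_mul]
        ring)
      (fun F G G' => by
        show fcyInt _ = fcyInt _ + fcyInt _
        rw [← map_add]
        congr 1
        funext s
        show b (F.1 0 (fun _ => s 0)) (G.1 1 s + G'.1 1 s) +
            κ * b (F.1 1 s) (G.1 0 (fun _ => s 1) + G'.1 0 (fun _ => s 1)) =
          (b (F.1 0 (fun _ => s 0)) (G.1 1 s) + κ * b (F.1 1 s) (G.1 0 (fun _ => s 1))) +
          (b (F.1 0 (fun _ => s 0)) (G'.1 1 s) + κ * b (F.1 1 s) (G'.1 0 (fun _ => s 1)))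
        simp only [map_add]
        ring)
      (fun c F G => by
        show fcyInt _ = c • fcyInt _
        rw [← map_smul]
        congr 1
        funext s
        show b (F.1 0 (fun _ => s 0)) (c • G.1 1 s) +
            κ * b (F.1 1 s) (c • G.1 0 (fun _ => s 1)) =
          c * (b (F.1 0 (fun _ => s 0)) (G.1 1 s) + κ * b (F.1 1 s) (G.1 0 (fun _ => s 1)))
        simp only [map_smul, smul_eq_mul]
        ring)
  have hB : ∀ F G, B F G = fcyH0 κ b F.1 G.1 := fun _ _ => rfl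
  have h1 : fcyNull M' ≤ LinearMap.ker B.flip := by
    intro G hG
    have hG' : fcyFSupp M' G.1 = ∅ := hG
    rw [LinearMap.mem_ker]
    ext F
    rw [LinearMap.flip_apply, hB]
    exact fcyH0_loc κ b hb F G (by rw [hG']; exact Set.disjoint_empty _)
  let B1 : ((fcyAdm M') ⧸ (fcyNull M')) →ₗ[ℝ] fcyAdm M →ₗ[ℝ] ℝ := (fcyNull M').liftQ B.flip h1
  have hB1 : ∀ F G, B1 ((fcyNull M').mkQ G) F = fcyH0 κ b F.1 G.1 := fun _ _ => rfl
  have h2 : fcyNull M ≤ LinearMap.ker B1.flip := by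
    intro F hF
    have hF' : fcyFSupp M F.1 = ∅ := hF
    rw [LinearMap.mem_ker]
    refine LinearMap.ext fun q => ?_
    obtain ⟨G, rfl⟩ := Submodule.mkQ_surjective (fcyNull M') q
    rw [LinearMap.flip_apply, hB1]
    exact fcyH0_loc κ b hb F G (by rw [hF']; exact Set.empty_disjoint _)
  exact ⟨(fcyNull M).liftQ B1.flip h2, fun F G => rfl⟩

/-- the pairing `h₀` of the cylinders -/
noncomputable def fcyHP {M M' : FcD X} (κ : ℝ) (b : M.C →ₗ[ℝ] M'.C →ₗ[ℝ] ℝ) (hb : FcLoc2 M M' b) :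
    (fcyCyl M).C →ₗ[ℝ] (fcyCyl M').C →ₗ[ℝ] ℝ := (fcy_h0_exists κ b hb).choose

theorem fcyHP_mk {M M' : FcD X} (κ : ℝ) (b : M.C →ₗ[ℝ] M'.C →ₗ[ℝ] ℝ) (hb : FcLoc2 M M' b)
    (F : fcyAdm M) (G : fcyAdm M') :
    fcyHP κ b hb (fcyMk M F) (fcyMk M' G) = fcyH0 κ b F.1 G.1 :=
  (fcy_h0_exists κ b hb).choose_spec F G

theorem fcyHP_loc {M M' : FcD X} (κ : ℝ) (b : M.C →ₗ[ℝ] M'.C →ₗ[ℝ] ℝ) (hb : FcLoc2 M M' b) :
    FcLoc2 (fcyCyl M) (fcyCyl M') (fcyHP κ b hb) := by
  intro q q' h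
  obtain ⟨F, rfl⟩ := fcyMk_surj M q
  obtain ⟨G, rfl⟩ := fcyMk_surj M' q'
  rw [fcyMk_supp, fcyMk_supp] at h
  rw [fcyHP_mk]
  exact fcyH0_loc κ b hb F G h

theorem fcyDfam_zero (M : FcD X) (F : FcyFam M) (s : Fin 1 → unitInterval) :
    fcyDfam M F 0 s = M.d (F 0 s) := by
  show (0 : M.C) + ((-1 : ℝ) ^ 0) • M.d (F 0 s) = M.d (F 0 s)
  simp

theorem fcyDfam_one (M : FcD X) (F : FcyFam M) (s : Fin 2 → unitInterval) :
    fcyDfam M F 1 s = F 0 (fun _ => s 1) - F 0 (fun _ => s 0) - M.d (F 1 s) := by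
  show (∑ i : Fin 2, ((-1 : ℝ) ^ (i : ℕ)) • F 0 (fun j => s (i.succAbove j))) +
    ((-1 : ℝ) ^ (0 + 1)) • M.d (F 1 s) = _
  have e0 : (fun j : Fin 1 => s ((0 : Fin 2).succAbove j)) = fun _ => s 1 := by
    funext j
    fin_cases j
    rfl
  have e1 : (fun j : Fin 1 => s ((1 : Fin 2).succAbove j)) = fun _ => s 0 := by
    funext j
    fin_cases j
    rfl
  rw [Fin.sum_univ_two, e0, e1]
  simp only [Fin.val_zero, pow_zero, one_smul, Fin.val_one, pow_one, neg_smul, zero_add]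
  abel

/-- THE STOKES FORMULA (the computation in the header + `fcyInt_delta`) -/
theorem fcyHP_eq {M M' : FcD X} (κ : ℝ) (hκ : κ * κ = 1) (b : M.C →ₗ[ℝ] M'.C →ₗ[ℝ] ℝ)
    (hb : FcLoc2 M M' b) (hadj : ∀ x y, b (M.d x) y = κ * b x (M'.d y))
    (n : (fcyCyl M).C) (n' : (fcyCyl M').C) :
    fcyHP κ b hb n ((fcyCyl M').d n') + κ * fcyHP κ b hb ((fcyCyl M).d n) n' =
      b (fcyEvL M 1 n) (fcyEvL M' 1 n') - b (fcyEvL M 0 n) (fcyEvL M' 0 n') := by
  obtain ⟨F, rfl⟩ := fcyMk_surj M n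
  obtain ⟨G, rfl⟩ := fcyMk_surj M' n'
  rw [fcyMk_d, fcyMk_d, fcyHP_mk, fcyHP_mk]
  simp only [fcyEvL_mk]
  rw [← fcyInt_delta (fun t => b (F.1 0 (fun _ => t)) (G.1 0 (fun _ => t)))]
  show fcyInt _ + κ * fcyInt _ = _
  rw [← smul_eq_mul, ← map_smul, ← map_add]
  congr 1
  funext s
  show (b (F.1 0 (fun _ => s 0)) (fcyDfam M' G.1 1 s) +
      κ * b (F.1 1 s) (fcyDfam M' G.1 0 (fun _ => s 1))) +
    κ * (b (fcyDfam M F.1 0 (fun _ => s 0)) (G.1 1 s) +
      κ * b (fcyDfam M F.1 1 s) (G.1 0 (fun _ => s 1))) = _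
  rw [fcyDfam_zero, fcyDfam_zero, fcyDfam_one, fcyDfam_one]
  simp only [map_sub, LinearMap.sub_apply, hadj]
  linear_combination (b (F.1 0 (fun _ => s 0)) (M'.d (G.1 1 s)) +
    b (F.1 0 (fun _ => s 1)) (G.1 0 (fun _ => s 1)) - b (F.1 0 (fun _ => s 0)) (G.1 0 (fun _ => s 1))
    - κ * b (F.1 1 s) (M'.d (G.1 0 (fun _ => s 1)))) * hκ

/-- the form `h = (h₀ + κ ε h₀ᵀ) / 2` on the cylinder of a form -/
noncomputable def fcyH {t : ZMod 4} (x : WtForm X t) :
    (fcyCyl x.M).C →ₗ[ℝ] (fcyCyl x.M).C →ₗ[ℝ] ℝ :=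
  (1 / 2 : ℝ) • (fcyHP (wtK t) x.b x.loc + (wtK t * wtE t) • (fcyHP (wtK t) x.b x.loc).flip)

theorem fcyH_apply {t : ZMod 4} (x : WtForm X t) (n n' : (fcyCyl x.M).C) :
    fcyH x n n' = (fcyHP (wtK t) x.b x.loc n n' +
      wtK t * wtE t * fcyHP (wtK t) x.b x.loc n' n) / 2 := by
  simp only [fcyH, LinearMap.smul_apply, LinearMap.add_apply, LinearMap.flip_apply, smul_eq_mul]
  ring

/-- the form whose null-cobordism is the cylinder -/
def fcyEnds {t : ZMod 4} (x : WtForm X t) : WtForm (unitInterval × X) t :=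
  (x.push (fcyInc X 1)).sum (x.push (fcyInc X 0)).neg

/-- `(ev_1, ev_0)` -/
noncomputable def fcyLam {t : ZMod 4} (x : WtForm X t) :
    FcHom (fcyCyl x.M) (fcyEnds x).M where
  f := (fcyEv x.M 1).f.prod (fcyEv x.M 0).f
  loc := fun n => Set.union_subset ((fcyEv x.M 1).loc n) ((fcyEv x.M 0).loc n)
  comm := fun n => Prod.ext ((fcyEv x.M 1).comm n) ((fcyEv x.M 0).comm n)

/-- **THE DATUM.**  `h_loc`: `fcyHP_loc`.  `h_symm`: `(κ ε)² = 1`.  `h_eq`: `fcyHP_eq` for `(n, n')` and for `(n', n)`, `x.symm`. -/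
noncomputable def fcyDat {t : ZMod 4} (x : WtForm X t) : WtDat (fcyEnds x) where
  N := fcyCyl x.M
  lam := fcyLam x
  h := fcyH x
  h_loc := by
    intro n n' h
    rw [fcyH_apply, fcyHP_loc (wtK t) x.b x.loc n n' h, fcyHP_loc (wtK t) x.b x.loc n' n h.symm]
    simp
  h_symm := by
    intro n n'
    rw [fcyH_apply, fcyH_apply]
    linear_combination (-(fcyHP (wtK t) x.b x.loc n' n) / 2 * (wtE t * wtE t)) * wtK_sq t -
      (fcyHP (wtK t) x.b x.loc n' n) / 2 * wtE_sq t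
  h_eq := by
    intro n n'
    have h1 := fcyHP_eq (wtK t) (wtK_sq t) x.b x.loc x.adj n n'
    have h2 := fcyHP_eq (wtK t) (wtK_sq t) x.b x.loc x.adj n' n
    rw [x.symm (fcyEvL x.M 1 n) (fcyEvL x.M 1 n'), x.symm (fcyEvL x.M 0 n) (fcyEvL x.M 0 n')] at h2
    rw [fcyH_apply, fcyH_apply]
    show x.b (fcyEvL x.M 1 n) (fcyEvL x.M 1 n') + -(x.b (fcyEvL x.M 0 n) (fcyEvL x.M 0 n')) = _
    linear_combination (-(1 / 2 : ℝ)) * h1 - (wtE t / 2) * h2 -
      ((x.b (fcyEvL x.M 1 n) (fcyEvL x.M 1 n') - x.b (fcyEvL x.M 0 n) (fcyEvL x.M 0 n')) / 2) *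
        wtE_sq t -
      (wtE t * fcyHP (wtK t) x.b x.loc n' ((fcyCyl x.M).d n) / 2) * wtK_sq t

/-- realises the equation lemmas here (unique names) -/
theorem fcy_defs_eqns_cite : True := by
  have := @FcyFam.eq_1
  have := @FcyVanS.eq_1
  have := @fcyFSupp.eq_1
  have := @fcyAdm.eq_1
  have := @fcyNull.eq_1
  have := @fcyDelta.eq_1
  have := @fcyDelta.eq_2
  have := @fcyDfun.eq_1
  have := @FcyqFam.eq_1
  have := @fcyqDl.eq_1
  have := @fcyqDl.eq_2
  have := @fcyqIo.eq_1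
  have := @fcyqAug.eq_1
  have := @fcyqAug.eq_2
  have := @fcyDfam.eq_1
  have := @fcyDadm.eq_1
  have := @fcyUry.eq_1
  have := @fcyRep.eq_1
  have := @fcyCyl.eq_1
  have := @fcyMk.eq_1
  have := @fcyInc.eq_1
  have := @fcyPr.eq_1
  have := @fcyEvFam.eq_1
  have := @fcyEvL.eq_1
  have := @fcyEv.eq_1
  have := @fcyTenFam.eq_1
  have := @fcyTenFam.eq_2
  have := @fcyTen.eq_1
  have := @fcyC.eq_1
  have := @fcyInd.eq_1
  have := @fcyTau.eq_1
  have := @FcyLocZero.eq_1
  have := @fcyLZ.eq_1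
  have := @fcyInt.eq_1
  have := @fcyH0fun.eq_1
  have := @fcyH0.eq_1
  have := @fcyHP.eq_1
  have := @fcyH.eq_1
  have := @fcyEnds.eq_1
  have := @fcyLam.eq_1
  have := @fcyDat.eq_1
  trivial

end Claimed.Agent.R304
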