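/-
Row 304 (S0559, Hilbert-Smith).  Owner/designer: helper154.  LAYER S, package `FcCylHtp`:
THE HOMOTOPY FORMULA for the cylinder `N = fcyCyl M` and its consequences.  Prefix `fcy`.

 1. API: supports / differentials / evaluations of `f ⊗ m`, `τ_c ⊗ m`.
 2. function level operators: `fcyPull r` (`r : I → I` ANY function), the prism `fcyPrism r`, `fcySig r N = ∑_{k<N} P_r ∘ (r^k)^*`;
    `D Σ + Σ D = (r^N)^* - 1` EXACTLY, on families (`fcy_sig_id`).  `Σ` is NOT defined on germs; never compose functionals with it.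
 3. THE CORE LEMMA `fcy_CL`: for `t₀ ∈ I` and `n ∈ N`:  `n - c (ev_{t₀} n) = D n' + n''` with `supp n'` (`supp n''`) in any given
    neighbourhood of the SHADOW of `supp n` (`supp (D n)`); shadow of `S` = `{(t, x) | ∃ t' between t₀ and t, (t', x) ∈ S}`.
 4. consequences:
    `fcy_c_qi`     : `c : M → pr_! N` is a local quasi-isomorphism;
    `fcy_acyc_half`: `N (J × U)` is acyclic if `J` is "star shaped away from `t₀ ∉ J`" (`[0,b)`, `(a,1]`);
    `fcy_I1`       : `c : Γ(L; M) → Γ([a,b] × L; N)` is onto in homology (it is injective by `ev_a`);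
    `fcy_mid`      : every cycle of `N (J × U)`, `J ⊆ (0,1)` an interval, is `τ_c ⊗ m₀ + D n'`;
    `fcy_acycOn`   : `M` acyclic on `O` `⇒` `N` acyclic on `I × O`;
    `fcy_FT`, `fcy_CS` : `N` inherits `FT` and "acyclic off a compact set".
Estimated: Sec.1 250, Sec.2 450 (the prism identity), Sec.3 500, Sec.4 700 lines.
-/
import Claimed.Agent.R304.FcCylDefs

set_option autoImplicit false

namespace Claimed.Agent.R304

open Topology

variable {X : Type} [TopologicalSpace X] [T2Space X]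

/-! ### 1. API -/

theorem fcyEvL_d (M : FcD X) (t : unitInterval) (n : (fcyCyl M).C) :
    fcyEvL M t ((fcyCyl M).d n) = M.d (fcyEvL M t n) := by
  obtain ⟨F, rfl⟩ := fcyMk_surj M n
  rw [fcyMk_d, fcyEvL_mk, fcyEvL_mk]
  show fcyDelta M F.1 0 (fun _ => t) + ((-1 : ℝ) ^ 0) • M.d (F.1 0 fun _ => t) = _
  simp [fcyDelta]

/-- `{t} × supp (ev_t n) ⊆ supp n` -/
theorem fcyEvL_supp (M : FcD X) (t : unitInterval) (n : (fcyCyl M).C) (x : X)
    (hx : x ∈ M.supp (fcyEvL M t n)) : (t, x) ∈ (fcyCyl M).supp n := by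
  obtain ⟨F, rfl⟩ := fcyMk_surj M n
  rw [fcyMk_supp]
  exact fcyEvFam_supp M t F ⟨x, hx, rfl⟩

theorem fcyEvL_ten (M : FcD X) (t : unitInterval) (f : unitInterval → ℝ) (m : M.C) :
    fcyEvL M t (fcyTen M f m) = f t • m := rfl

theorem fcyTen_mk (M : FcD X) (f : unitInterval → ℝ) (m : M.C) :
    fcyTen M f m = fcyMk M ⟨fcyTenFam M f m, fcyTenFam_adm M f m⟩ := rfl

theorem fcyTen_add_fun (M : FcD X) (f g : unitInterval → ℝ) (m : M.C) :
    fcyTen M (f + g) m = fcyTen M f m + fcyTen M g m := by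
  rw [fcyTen_mk, fcyTen_mk, fcyTen_mk, ← map_add]
  congr 1
  apply Subtype.ext
  funext n s
  cases n with
  | zero => exact add_smul _ _ _
  | succ n => exact (add_zero _).symm

theorem fcyTen_sub_fun (M : FcD X) (f g : unitInterval → ℝ) (m : M.C) :
    fcyTen M (f - g) m = fcyTen M f m - fcyTen M g m := by
  rw [fcyTen_mk, fcyTen_mk, fcyTen_mk, ← map_sub]
  congr 1
  apply Subtype.ext
  funext n s
  cases n with
  | zero => exact sub_smul _ _ _
  | succ n => exact (sub_zero _).symm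

theorem fcyTen_supp (M : FcD X) (f : unitInterval → ℝ) (m : M.C) :
    (fcyCyl M).supp (fcyTen M f m) ⊆ closure (Function.support f) ×ˢ M.supp m := by
  rw [fcyTen_mk, fcyMk_supp]
  intro p hp
  by_contra hcon
  apply hp
  rw [Set.mem_prod, not_and_or] at hcon
  rcases hcon with h | h
  · refine ⟨(closure (Function.support f))ᶜ, isClosed_closure.isOpen_compl.mem_nhds h, Set.univ,
      Filter.univ_mem, ?_⟩
    intro n s hs
    cases n with
    | zero =>
      have h0 : f (s 0) = 0 := by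
        by_contra h0
        exact hs 0 (subset_closure h0)
      show Disjoint (M.supp (f (s 0) • m)) _
      rw [h0, zero_smul, M.supp_zero]
      exact Set.empty_disjoint _
    | succ n =>
      show Disjoint (M.supp 0) _
      rw [M.supp_zero]
      exact Set.empty_disjoint _
  · refine ⟨Set.univ, Filter.univ_mem, (M.supp m)ᶜ, (M.supp_closed m).isOpen_compl.mem_nhds h, ?_⟩
    intro n s _
    cases n with
    | zero =>
      show Disjoint (M.supp (f (s 0) • m)) _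
      exact Set.disjoint_of_subset_left (M.supp_smul _ _) disjoint_compl_right
    | succ n =>
      show Disjoint (M.supp 0) _
      rw [M.supp_zero]
      exact Set.empty_disjoint _

/-- the values of the family `D (f ⊗ m) - f ⊗ d m` -/
theorem fcyTen_d_fam (M : FcD X) (f : unitInterval → ℝ) (m : M.C) (n : ℕ)
    (s : Fin (n + 1) → unitInterval) :
    ∃ c : ℝ, fcyDfam M (fcyTenFam M f m) n s - fcyTenFam M f (M.d m) n s = c • m ∧
      ((∀ i j, f (s i) = f (s j)) → c = 0) := by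
  cases n with
  | zero =>
    refine ⟨0, ?_, fun _ => rfl⟩
    show (0 + ((-1 : ℝ) ^ 0) • M.d (f (s 0) • m)) - f (s 0) • M.d m = _
    simp
  | succ n =>
    cases n with
    | zero =>
      refine ⟨f (s 1) - f (s 0), ?_, fun h => by rw [h 1 0, sub_self]⟩
      show ((∑ i : Fin 2, ((-1 : ℝ) ^ (i : ℕ)) • (f (s (i.succAbove 0)) • m)) +
        ((-1 : ℝ) ^ 1) • M.d 0) - 0 = _
      rw [Fin.sum_univ_two]
      simp [sub_eq_add_neg, add_smul]
    | succ n =>
      refine ⟨0, ?_, fun _ => rfl⟩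
      show ((∑ i : Fin (n + 3), ((-1 : ℝ) ^ (i : ℕ)) • (0 : M.C)) +
        ((-1 : ℝ) ^ (n + 2)) • M.d 0) - 0 = _
      simp

/-- `D (f ⊗ m) - f ⊗ d m` is the family `s ↦ (f (s 1) - f (s 0)) • m` in degree `1`: it vanishes at `(t, x)` if `f` is constant near `t` -/
theorem fcyTen_d_supp (M : FcD X) (f : unitInterval → ℝ) (m : M.C) (p : unitInterval × X)
    (hp : p ∈ (fcyCyl M).supp ((fcyCyl M).d (fcyTen M f m) - fcyTen M f (M.d m))) :
    (¬ ∃ J ∈ 𝓝 p.1, ∀ t ∈ J, ∀ t' ∈ J, f t = f t') ∧ p.2 ∈ M.supp m := by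
  rw [fcyTen_mk, fcyTen_mk, fcyMk_d, ← map_sub, fcyMk_supp] at hp
  constructor
  · rintro ⟨J, hJ, hf⟩
    apply hp
    refine ⟨J, hJ, Set.univ, Filter.univ_mem, fun n s hs => ?_⟩
    obtain ⟨c, hc, h0⟩ := fcyTen_d_fam M f m n s
    show Disjoint (M.supp (fcyDfam M (fcyTenFam M f m) n s - fcyTenFam M f (M.d m) n s)) _
    rw [hc, h0 (fun i j => hf _ (hs i) _ (hs j)), zero_smul, M.supp_zero]
    exact Set.empty_disjoint _
  · by_contra h
    apply hp
    refine ⟨Set.univ, Filter.univ_mem, (M.supp m)ᶜ, (M.supp_closed m).isOpen_compl.mem_nhds h,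
      fun n s _ => ?_⟩
    obtain ⟨c, hc, -⟩ := fcyTen_d_fam M f m n s
    show Disjoint (M.supp (fcyDfam M (fcyTenFam M f m) n s - fcyTenFam M f (M.d m) n s)) _
    rw [hc]
    exact Set.disjoint_of_subset_left (M.supp_smul _ _) disjoint_compl_right

theorem fcyTen_one_d (M : FcD X) (m : M.C) :
    (fcyCyl M).d (fcyTen M (fun _ => 1) m) = fcyTen M (fun _ => 1) (M.d m) := by
  rw [fcyTen_mk, fcyTen_mk, fcyMk_d]
  congr 1
  apply Subtype.ext
  funext n s
  obtain ⟨c, hc, h0⟩ := fcyTen_d_fam M (fun _ => 1) m n s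
  rw [h0 (fun _ _ => rfl), zero_smul] at hc
  exact sub_eq_zero.1 hc

theorem fcyTau_supp (M : FcD X) (c : unitInterval) (m : M.C) :
    (fcyCyl M).supp (fcyTau M c m) ⊆ {c} ×ˢ M.supp m := by
  intro p hp
  obtain ⟨h1, h2⟩ := fcyTen_d_supp M (fcyInd c) m p hp
  refine ⟨?_, h2⟩
  by_contra hne
  apply h1
  rcases lt_or_gt_of_ne (show p.1 ≠ c from hne) with h | h
  · refine ⟨Set.Iio c, Iio_mem_nhds h, fun t ht t' ht' => ?_⟩
    simp only [fcyInd, if_neg (not_le.2 (show t < c from ht)), if_neg (not_le.2 (show t' < c from ht'))]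
  · refine ⟨Set.Ioi c, Ioi_mem_nhds h, fun t ht t' ht' => ?_⟩
    simp only [fcyInd, if_pos (le_of_lt (show c < t from ht)), if_pos (le_of_lt (show c < t' from ht'))]

theorem fcyTau_d (M : FcD X) (c : unitInterval) (m : M.C) :
    (fcyCyl M).d (fcyTau M c m) = - fcyTau M c (M.d m) := by
  show (fcyCyl M).d ((fcyCyl M).d (fcyTen M (fcyInd c) m) - fcyTen M (fcyInd c) (M.d m)) =
    - ((fcyCyl M).d (fcyTen M (fcyInd c) (M.d m)) - fcyTen M (fcyInd c) (M.d (M.d m)))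
  rw [map_sub, (fcyCyl M).d_sq, M.d_sq, map_zero]
  abel

theorem fcyEvL_tau (M : FcD X) (t c : unitInterval) (m : M.C) : fcyEvL M t (fcyTau M c m) = 0 := by
  show fcyEvL M t ((fcyCyl M).d (fcyTen M (fcyInd c) m) - fcyTen M (fcyInd c) (M.d m)) = 0
  rw [map_sub, fcyEvL_d, fcyEvL_ten, fcyEvL_ten, map_smul, sub_self]

/-- moving `c`: `τ_c ⊗ m - τ_{c'} ⊗ m = D ((1_c - 1_{c'}) ⊗ m) - (1_c - 1_{c'}) ⊗ d m` -/
theorem fcyTau_move (M : FcD X) (c c' : unitInterval) (m : M.C) :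
    fcyTau M c m - fcyTau M c' m =
      (fcyCyl M).d (fcyTen M (fcyInd c - fcyInd c') m) - fcyTen M (fcyInd c - fcyInd c') (M.d m) := by
  show ((fcyCyl M).d (fcyTen M (fcyInd c) m) - fcyTen M (fcyInd c) (M.d m)) -
    ((fcyCyl M).d (fcyTen M (fcyInd c') m) - fcyTen M (fcyInd c') (M.d m)) = _
  rw [fcyTen_sub_fun, fcyTen_sub_fun, map_sub]
  abel

theorem fcyInd_sub_support (c c' : unitInterval) :
    closure (Function.support (fcyInd c - fcyInd c')) ⊆ Set.uIcc c c' := by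
  refine closure_minimal ?_ isClosed_Icc
  intro t ht
  have ht' : fcyInd c t - fcyInd c' t ≠ 0 := ht
  by_cases h1 : c ≤ t <;> by_cases h2 : c' ≤ t
  · simp [fcyInd, h1, h2] at ht'
  · exact Set.mem_uIcc.2 (Or.inl ⟨h1, le_of_lt (not_le.1 h2)⟩)
  · exact Set.mem_uIcc.2 (Or.inr ⟨h2, le_of_lt (not_le.1 h1)⟩)
  · simp [fcyInd, h1, h2] at ht'

/-! ### 2. The operators on families -/

/-- pull back along a self map of `I` -/
def fcyPull (M : FcD X) (r : unitInterval → unitInterval) : FcyFam M →ₗ[ℝ] FcyFam M where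
  toFun := fun F n s => F n (fun i => r (s i))
  map_add' := fun _ _ => rfl
  map_smul' := fun _ _ => rfl

/-- the tuple `(s 0, .., s j, r (s j), .., r (s n))` -/
def fcyPrismPt (r : unitInterval → unitInterval) {n : ℕ} (s : Fin (n + 1) → unitInterval)
    (j : Fin (n + 1)) : Fin (n + 2) → unitInterval :=
  fun i => if h : (i : ℕ) ≤ (j : ℕ) then s ⟨i, lt_of_le_of_lt h j.2⟩
    else r (s ⟨(i : ℕ) - 1, by have := i.2; omega⟩)

/-- the prism operator -/
def fcyPrism (M : FcD X) (r : unitInterval → unitInterval) : FcyFam M →ₗ[ℝ] FcyFam M where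
  toFun := fun F n s => ∑ j : Fin (n + 1), ((-1 : ℝ) ^ (j : ℕ)) • F (n + 1) (fcyPrismPt r s j)
  map_add' := fun F G => by
    funext n s
    simp only [Pi.add_apply, smul_add, Finset.sum_add_distrib]
  map_smul' := fun c F => by
    funext n s
    simp only [Pi.smul_apply, RingHom.id_apply, Finset.smul_sum, smul_comm c]

/-- `Σ = ∑_{k<N} P_r ∘ (r^k)^*` -/
def fcySig (M : FcD X) (r : unitInterval → unitInterval) (N : ℕ) : FcyFam M →ₗ[ℝ] FcyFam M :=
  ∑ k ∈ Finset.range N, fcyPrism M r ∘ₗ fcyPull M (r^[k])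

/-! #### the prism identity for augmented families (any set `T`, any real vector space `V`) -/

section Prism

variable {T V : Type} [AddCommGroup V] [Module ℝ V]

def fcyqPt (r : T → T) {n : ℕ} (s : Fin n → T) (j : Fin n) : Fin (n + 1) → T :=
  fun i => if h : (i : ℕ) ≤ (j : ℕ) then s ⟨i, lt_of_le_of_lt h j.2⟩
    else r (s ⟨(i : ℕ) - 1, by have := i.2; omega⟩)

def fcyqPr (r : T → T) (F : FcyqFam T V) : FcyqFam T V :=
  fun n s => ∑ j : Fin n, ((-1 : ℝ) ^ (j : ℕ)) • F (n + 1) (fcyqPt r s j)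

def fcyqPl (r : T → T) (F : FcyqFam T V) : FcyqFam T V := fun n s => F n (fun i => r (s i))

theorem fcyq_pt_zero (r : T → T) {n : ℕ} (a : T) (s : Fin n → T) :
    fcyqPt r (Fin.cons a s : Fin (n + 1) → T) 0 = Fin.cons a (Fin.cons (r a) (fun i => r (s i))) := by
  funext i
  refine Fin.cases ?_ (fun k => ?_) i
  · simp [fcyqPt]
  · have h : ¬ ((k.succ : Fin (n + 2)) : ℕ) ≤ ((0 : Fin (n + 1)) : ℕ) := by simp
    unfold fcyqPt
    rw [dif_neg h, Fin.cons_succ]
    have h2 : (⟨((k.succ : Fin (n + 2)) : ℕ) - 1, by have := k.2; simp only [Fin.val_succ]; omega⟩ : Fin (n + 1)) = k := by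
      apply Fin.ext
      simp
    rw [h2]
    refine Fin.cases ?_ (fun l => ?_) k
    · simp
    · simp

theorem fcyq_pt_succ (r : T → T) {n : ℕ} (a : T) (s : Fin n → T) (j : Fin n) :
    fcyqPt r (Fin.cons a s : Fin (n + 1) → T) j.succ = Fin.cons a (fcyqPt r s j) := by
  funext i
  refine Fin.cases ?_ (fun k => ?_) i
  · simp [fcyqPt]
  · rw [Fin.cons_succ]
    unfold fcyqPt
    by_cases h : (k : ℕ) ≤ j
    · have h' : ((k.succ : Fin (n + 2)) : ℕ) ≤ ((j.succ : Fin (n + 1)) : ℕ) := by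
        simp only [Fin.val_succ]; omega
      rw [dif_pos h', dif_pos h]
      have h2 : (⟨((k.succ : Fin (n + 2)) : ℕ), lt_of_le_of_lt h' j.succ.2⟩ : Fin (n + 1)) =
          Fin.succ ⟨k, lt_of_le_of_lt h j.2⟩ := by
        apply Fin.ext
        simp
      rw [h2, Fin.cons_succ]
    · have h' : ¬ ((k.succ : Fin (n + 2)) : ℕ) ≤ ((j.succ : Fin (n + 1)) : ℕ) := by
        simp only [Fin.val_succ]; omega
      rw [dif_neg h', dif_neg h]
      have h2 : (⟨((k.succ : Fin (n + 2)) : ℕ) - 1, by have := k.2; simp only [Fin.val_succ]; omega⟩ : Fin (n + 1)) =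
          Fin.succ ⟨(k : ℕ) - 1, by have := k.2; omega⟩ := by
        apply Fin.ext
        simp only [Fin.val_succ]
        omega
      rw [h2, Fin.cons_succ]

theorem fcyq_pr_cons (r : T → T) (F : FcyqFam T V) (a : T) (n : ℕ) (s : Fin n → T) :
    fcyqPr r F (n + 1) (Fin.cons a s) = fcyqPl r (fcyqIo (r a) (fcyqIo a F)) n s - fcyqPr r (fcyqIo a F) n s := by
  simp only [fcyqPr]
  rw [Fin.sum_univ_succ]
  simp only [Fin.val_zero, pow_zero, one_smul, Fin.val_succ]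
  rw [fcyq_pt_zero, sub_eq_add_neg, ← Finset.sum_neg_distrib]
  congr 1
  refine Finset.sum_congr rfl fun j _ => ?_
  rw [pow_succ, mul_neg_one, neg_smul, fcyq_pt_succ]
  rfl

theorem fcyq_dl_pl (r : T → T) (F : FcyqFam T V) : fcyqDl (fcyqPl r F) = fcyqPl r (fcyqDl F) := by
  funext n s
  cases n with
  | zero => rfl
  | succ n => rfl

theorem fcyq_pr_sub (r : T → T) (F G : FcyqFam T V) : fcyqPr r (F - G) = fcyqPr r F - fcyqPr r G := by
  funext n s
  simp [fcyqPr, smul_sub, Finset.sum_sub_distrib]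

theorem fcyq_prism (r : T → T) (n : ℕ) : ∀ (F : FcyqFam T V) (s : Fin n → T),
    fcyqDl (fcyqPr r F) n s + fcyqPr r (fcyqDl F) n s = F n (fun i => r (s i)) - F n s := by
  induction n with
  | zero =>
    intro F s
    have : (fun i => r (s i)) = s := by funext i; exact i.elim0
    simp [fcyqDl, fcyqPr, this]
  | succ n ih =>
    intro F s
    obtain ⟨a, s', rfl⟩ : ∃ a s', s = Fin.cons a s' := ⟨s 0, Fin.tail s, (Fin.cons_self_tail s).symm⟩
    have h1 : fcyqIo a (fcyqPr r F) = fcyqPl r (fcyqIo (r a) (fcyqIo a F)) - fcyqPr r (fcyqIo a F) := by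
      funext m u
      exact fcyq_pr_cons r F a m u
    have h2 : fcyqIo a (fcyqDl F) = F - fcyqDl (fcyqIo a F) := by
      funext m u
      exact fcyq_dl_cons F a m u
    rw [fcyq_dl_cons, fcyq_pr_cons, h1, h2, fcyq_dl_sub, fcyq_pr_sub, fcyq_dl_pl]
    have h3 : fcyqPl r (fcyqIo (r a) (F - fcyqDl (fcyqIo a F))) n s' =
        F (n + 1) (Fin.cons (r a) (fun i => r (s' i))) - (fcyqIo a F n (fun i => r (s' i))
          - fcyqDl (fcyqIo (r a) (fcyqIo a F)) n (fun i => r (s' i))) := by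
      show F (n + 1) (Fin.cons (r a) (fun i => r (s' i))) -
        fcyqDl (fcyqIo a F) (n + 1) (Fin.cons (r a) (fun i => r (s' i))) = _
      rw [fcyq_dl_cons]
    rw [h3]
    have h4 := ih (fcyqIo a F) s'
    have h5 : (fun i => r ((Fin.cons a s' : Fin (n + 1) → T) i)) =
        Fin.cons (r a) (fun i => r (s' i)) := by
      funext i
      refine Fin.cases ?_ (fun k => ?_) i <;> simp
    rw [h5]
    simp only [Pi.sub_apply, fcyqPl]
    have h6 : fcyqDl (fcyqPr r (fcyqIo a F)) n s' = fcyqIo a F n (fun i => r (s' i)) -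
        fcyqIo a F n s' - fcyqPr r (fcyqDl (fcyqIo a F)) n s' := by
      rw [← h4]; abel
    rw [h6]
    show _ = F (n + 1) (Fin.cons (r a) fun i => r (s' i)) - fcyqIo a F n s'
    abel

end Prism

theorem fcy_pull_D (M : FcD X) (r : unitInterval → unitInterval) (F : FcyFam M) :
    fcyDfam M (fcyPull M r F) = fcyPull M r (fcyDfam M F) := by
  funext n s
  cases n with
  | zero => rfl
  | succ n => rfl

theorem fcyq_aug_prism (M : FcD X) (r : unitInterval → unitInterval) (F : FcyFam M) :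
    fcyqAug M (fcyPrism M r F) = fcyqPr r (fcyqAug M F) := by
  funext n s
  cases n with
  | zero =>
    show (0 : M.C) = ∑ j : Fin 0, _
    simp
  | succ n => rfl

theorem fcy_delta_prism (M : FcD X) (r : unitInterval → unitInterval) (F : FcyFam M) (n : ℕ)
    (s : Fin (n + 1) → unitInterval) :
    fcyDelta M (fcyPrism M r F) n s + fcyPrism M r (fcyDelta M F) n s =
      F n (fun i => r (s i)) - F n s := by
  have h := fcyq_prism r (n + 1) (fcyqAug M F) s
  rw [← fcyq_aug_prism, ← fcyq_aug_delta, ← fcyq_aug_delta, ← fcyq_aug_prism] at h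
  exact h

/-- **THE PRISM IDENTITY** `D P + P D = r^* - 1`.  The `d`-parts cancel (`P` lowers the degree by one and commutes with `d` pointwise).
`δ P + P δ = r^* - 1` is the classical computation: in `(P δ F) n s = ∑_j ∑_i (-1)^{i+j} F n (prismPt s j ∘ succAbove i)` the terms
`i = j` / `i = j + 1` telescope to `F (r ∘ s) - F s`; the terms `i < j` and `i > j + 1` cancel against `(δ P F) n s`:
`prismPt s j ∘ succAbove i = prismPt (s ∘ succAbove i) (j - 1)` for `i < j`, `= prismPt (s ∘ succAbove (i - 1)) j` for `i > j + 1`. -/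
theorem fcy_prism_id (M : FcD X) (r : unitInterval → unitInterval) (F : FcyFam M) :
    fcyDfam M (fcyPrism M r F) + fcyPrism M r (fcyDfam M F) = fcyPull M r F - F := by
  funext n s
  have h := fcy_delta_prism M r F n s
  show (fcyDelta M (fcyPrism M r F) n s + ((-1 : ℝ) ^ n) • M.d (fcyPrism M r F n s)) +
      ∑ j : Fin (n + 1), ((-1 : ℝ) ^ (j : ℕ)) • (fcyDelta M F (n + 1) (fcyPrismPt r s j) +
        ((-1 : ℝ) ^ (n + 1)) • M.d (F (n + 1) (fcyPrismPt r s j))) =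
    F n (fun i => r (s i)) - F n s
  have h1 : M.d (fcyPrism M r F n s) =
      ∑ j : Fin (n + 1), ((-1 : ℝ) ^ (j : ℕ)) • M.d (F (n + 1) (fcyPrismPt r s j)) := by
    show M.d (∑ j : Fin (n + 1), ((-1 : ℝ) ^ (j : ℕ)) • F (n + 1) (fcyPrismPt r s j)) = _
    rw [map_sum]
    exact Finset.sum_congr rfl fun j _ => map_smul _ _ _
  have h2 : fcyPrism M r (fcyDelta M F) n s =
      ∑ j : Fin (n + 1), ((-1 : ℝ) ^ (j : ℕ)) • fcyDelta M F (n + 1) (fcyPrismPt r s j) := rfl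
  rw [← h, h1, h2]
  simp only [smul_add, Finset.sum_add_distrib, Finset.smul_sum]
  have h3 : ∀ j : Fin (n + 1), ((-1 : ℝ) ^ (j : ℕ)) • ((-1 : ℝ) ^ (n + 1)) •
      M.d (F (n + 1) (fcyPrismPt r s j)) =
      - (((-1 : ℝ) ^ n) • ((-1 : ℝ) ^ (j : ℕ)) • M.d (F (n + 1) (fcyPrismPt r s j))) := by
    intro j
    rw [smul_smul, smul_smul, pow_succ, ← neg_smul]
    congr 1
    ring
  simp only [h3, Finset.sum_neg_distrib]
  abel

/-- telescoping sum of `fcy_prism_id` for `(r^k)^* F`, with `fcy_pull_D` -/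
theorem fcy_sig_id (M : FcD X) (r : unitInterval → unitInterval) (N : ℕ) (F : FcyFam M) :
    fcyDfam M (fcySig M r N F) + fcySig M r N (fcyDfam M F) = fcyPull M (r^[N]) F - F := by
  induction N with
  | zero =>
    have h0 : fcyPull M (r^[0]) F = F := rfl
    rw [h0, sub_self]
    simp [fcySig]
  | succ N ih =>
    have hs : ∀ G, fcySig M r (N + 1) G = fcySig M r N G + fcyPrism M r (fcyPull M (r^[N]) G) := by
      intro G
      simp only [fcySig, Finset.sum_range_succ, LinearMap.add_apply, LinearMap.comp_apply]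
    have hp : fcyPull M r (fcyPull M (r^[N]) F) = fcyPull M (r^[N + 1]) F := by
      funext n s
      show F n (fun i => r^[N] (r (s i))) = F n (fun i => r^[N + 1] (s i))
      rfl
    have h := fcy_prism_id M r (fcyPull M (r^[N]) F)
    rw [fcy_pull_D, hp] at h
    rw [hs, hs, map_add]
    have e : fcyDfam M (fcySig M r N F) + fcyDfam M (fcyPrism M r (fcyPull M (r^[N]) F)) +
        (fcySig M r N (fcyDfam M F) + fcyPrism M r (fcyPull M (r^[N]) (fcyDfam M F))) =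
        (fcyDfam M (fcySig M r N F) + fcySig M r N (fcyDfam M F)) +
        (fcyDfam M (fcyPrism M r (fcyPull M (r^[N]) F)) +
          fcyPrism M r (fcyPull M (r^[N]) (fcyDfam M F))) := by abel
    rw [e, ih, h]
    abel

theorem fcy_sig_adm (M : FcD X) (r : unitInterval → unitInterval) (N : ℕ) (F : FcyFam M)
    (hF : F ∈ fcyAdm M) : fcySig M r N F ∈ fcyAdm M := by
  have hpull : ∀ (ρ : unitInterval → unitInterval) (G : FcyFam M), G ∈ fcyAdm M →
      fcyPull M ρ G ∈ fcyAdm M := by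
    rintro ρ G ⟨⟨K, hK, hG⟩, N', hN'⟩
    refine ⟨⟨K, hK, fun n s => hG n _⟩, N', fun n hn => ?_⟩
    funext s
    show G n (fun i => ρ (s i)) = 0
    rw [hN' n hn]
    rfl
  have hprism : ∀ G : FcyFam M, G ∈ fcyAdm M → fcyPrism M r G ∈ fcyAdm M := by
    rintro G ⟨⟨K, hK, hG⟩, N', hN'⟩
    refine ⟨⟨K, hK, fun n s => ?_⟩, N', fun n hn => ?_⟩
    · refine (fcg_supp_sum M.toFcObj (Finset.univ : Finset (Fin (n + 1))) _).trans ?_
      refine Set.iUnion₂_subset fun j _ => ?_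
      exact (M.supp_smul _ _).trans (hG _ _)
    · funext s
      show ∑ j : Fin (n + 1), ((-1 : ℝ) ^ (j : ℕ)) • G (n + 1) (fcyPrismPt r s j) = 0
      rw [hN' (n + 1) (by omega)]
      simp
  unfold fcySig
  rw [LinearMap.sum_apply]
  exact Submodule.sum_mem _ fun k _ => hprism _ (hpull _ _ hF)

/-- the constant family with values `g n` -/
def fcyConst (M : FcD X) (g : ℕ → M.C) : FcyFam M := fun n _ => g n

/-- `δ` of a constant family -/
def fcyqSh (M : FcD X) (γ : ℕ → M.C) : ℕ → M.C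
  | 0 => 0
  | (k + 1) => if Even k then 0 else γ k

/-- CONSTANT FAMILIES.  `δ (const g) (n+1) = g n` if `n + 1` is even, `0` otherwise (`∑_{i ≤ n+1} (-1)^i`).
With `(K g) n = g (n+1)` for odd `n`, `0` for even `n`: `const g - 1 ⊗ g 0 = D (const (K g)) + const (K g')`, where `const g' = D (const g)`. -/
theorem fcy_const_id (M : FcD X) (g : ℕ → M.C) :
    ∃ g' : ℕ → M.C, fcyDfam M (fcyConst M g) = fcyConst M g' ∧
      fcyConst M g - fcyTenFam M (fun _ => 1) (g 0) =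
        fcyDfam M (fcyConst M (fun n => if Odd n then g (n + 1) else 0)) +
          fcyConst M (fun n => if Odd n then g' (n + 1) else 0) := by
  -- the differential of a constant family
  have hD : ∀ (γ : ℕ → M.C) (n : ℕ) (s : Fin (n + 1) → unitInterval),
      fcyDfam M (fcyConst M γ) n s =
        fcyqSh M γ n + ((-1 : ℝ) ^ n) • M.d (γ n) := by
    intro γ n s
    cases n with
    | zero => rfl
    | succ k =>
      show (∑ i : Fin (k + 2), ((-1 : ℝ) ^ (i : ℕ)) • γ k) + ((-1 : ℝ) ^ (k + 1)) • M.d (γ (k + 1)) = _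
      rw [← Finset.sum_smul, Fin.sum_neg_one_pow]
      congr 1
      show _ = if Even k then 0 else γ k
      by_cases hk : Even k
      · have : Even (k + 2) := hk.add even_two
        simp [hk, this]
      · have : ¬ Even (k + 2) := fun h => hk (by
          have := (Nat.even_add.1 h)
          exact this.2 even_two)
        simp [hk, this]
  refine ⟨fun n => fcyqSh M g n + ((-1 : ℝ) ^ n) • M.d (g n), ?_, ?_⟩
  · funext n s
    exact hD g n s
  · funext n s
    show fcyConst M g n s - fcyTenFam M (fun _ => 1) (g 0) n s =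
      fcyDfam M (fcyConst M (fun n => if Odd n then g (n + 1) else 0)) n s + _
    rw [hD]
    cases n with
    | zero =>
      show g 0 - (1 : ℝ) • g 0 = _
      simp [fcyConst, fcyqSh]
    | succ k =>
      show g (k + 1) - 0 = _
      by_cases hk : Even k
      · have h1 : ¬ Odd k := Nat.not_odd_iff_even.2 hk
        have h2 : Odd (k + 1) := hk.add_one
        have h3 : ¬ Even (k + 1) := Nat.not_even_iff_odd.2 h2
        have h4 : (-1 : ℝ) ^ (k + 1) = -1 := h2.neg_one_pow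
        have h5 : (-1 : ℝ) ^ (k + 1 + 1) = 1 := (h2.add_one).neg_one_pow
        simp only [fcyConst, fcyqSh, hk, h2, h3, h4, h5, if_true, if_false]
        simp
      · have h1 : Odd k := Nat.not_even_iff_odd.1 hk
        have h2 : ¬ Odd (k + 1) := Nat.not_odd_iff_even.2 h1.add_one
        simp only [fcyConst, fcyqSh, hk, h1, h2, if_true, if_false]
        simp

/-! ### 3. The core lemma -/

/-- the shadow of `S` seen from `t₀` -/
def fcyShadow (t₀ : unitInterval) (S : Set (unitInterval × X)) : Set (unitInterval × X) :=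
  {p | ∃ t' ∈ Set.uIcc t₀ p.1, (t', p.2) ∈ S}

theorem fcyVanS_iff (M : FcD X) (F : FcyFam M) (J : Set unitInterval) (W : Set X) :
    FcyVanS M F J W ↔
      ∀ (n : ℕ) (s : Fin (n + 1) → unitInterval), (∀ i, s i ∈ J) → F n s ∈ M.sec Wᶜ := by
  unfold FcyVanS
  refine forall_congr' fun n => forall_congr' fun s => forall_congr' fun _ => ?_
  exact Set.subset_compl_iff_disjoint_right.symm

theorem FcyVanS.mono {M : FcD X} {F : FcyFam M} {J J' : Set unitInterval} {W W' : Set X}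
    (h : FcyVanS M F J W) (hJ : J' ⊆ J) (hW : W' ⊆ W) : FcyVanS M F J' W' :=
  fun n s hs => Set.disjoint_of_subset_right hW (h n s fun i => hJ (hs i))

/-- a uniform radius of vanishing on a compact set which misses the support -/
theorem fcy_unif (M : FcD X) (F : FcyFam M) (C : Set (unitInterval × X)) (hC : IsCompact C)
    (hd : Disjoint C (fcyFSupp M F)) :
    ∃ lam : ℝ, 0 < lam ∧ ∀ q ∈ C, ∃ W ∈ 𝓝 q.2, FcyVanS M F (Metric.ball q.1 lam) W := by
  refine hC.induction_on (p := fun S => ∃ lam : ℝ, 0 < lam ∧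
    ∀ q ∈ S, ∃ W ∈ 𝓝 q.2, FcyVanS M F (Metric.ball q.1 lam) W) ?_ ?_ ?_ ?_
  · exact ⟨1, one_pos, fun q hq => hq.elim⟩
  · rintro S T hST ⟨lam, h0, h⟩
    exact ⟨lam, h0, fun q hq => h q (hST hq)⟩
  · rintro S T ⟨l1, h1, hS⟩ ⟨l2, h2, hT⟩
    refine ⟨min l1 l2, lt_min h1 h2, ?_⟩
    rintro q (hq | hq)
    · obtain ⟨W, hW, hv⟩ := hS q hq
      exact ⟨W, hW, hv.mono (Metric.ball_subset_ball (min_le_left _ _)) subset_rfl⟩
    · obtain ⟨W, hW, hv⟩ := hT q hq
      exact ⟨W, hW, hv.mono (Metric.ball_subset_ball (min_le_right _ _)) subset_rfl⟩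
  · intro q hq
    have hq' : q ∉ fcyFSupp M F := Set.disjoint_left.1 hd hq
    simp only [fcyFSupp, Set.mem_ofPred_eq, not_not] at hq'
    obtain ⟨J, hJ, W, hW, hv⟩ := hq'
    obtain ⟨ε, hε, hball⟩ := Metric.mem_nhds_iff.1 hJ
    refine ⟨Metric.ball q.1 (ε / 2) ×ˢ interior W, mem_nhdsWithin_of_mem_nhds
      (prod_mem_nhds (Metric.ball_mem_nhds _ (half_pos hε)) (interior_mem_nhds.2 hW)),
      ε / 2, half_pos hε, ?_⟩
    rintro q' ⟨h1, h2⟩
    refine ⟨W, mem_interior_iff_mem_nhds.1 h2, hv.mono ?_ subset_rfl⟩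
    intro t ht
    apply hball
    have h3 := dist_triangle t q'.1 q.1
    rw [Metric.mem_ball] at *
    linarith

/-- the point of `[t - c, t + c]` closest to `t₀` -/
def fcyClamp (t₀ : unitInterval) (c : ℝ) (hc : 0 ≤ c) (t : unitInterval) : unitInterval :=
  ⟨max ((t : ℝ) - c) (min ((t : ℝ) + c) t₀), by
    have h1 := t.2.1
    have h2 := t.2.2
    have h3 := t₀.2.1
    have h4 := t₀.2.2
    constructor
    · exact le_max_of_le_right (le_min (by linarith) h3)
    · exact max_le (by linarith) (min_le_of_right_le h4)⟩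

theorem fcyClamp_iter (t₀ : unitInterval) (η : ℝ) (hη : 0 ≤ η) (k : ℕ) (t : unitInterval) :
    (((fcyClamp t₀ η hη)^[k] t : unitInterval) : ℝ) =
      max ((t : ℝ) - k * η) (min ((t : ℝ) + k * η) t₀) := by
  induction k with
  | zero => simp
  | succ k ih =>
    rw [Function.iterate_succ_apply']
    show max ((((fcyClamp t₀ η hη)^[k] t : unitInterval) : ℝ) - η)
      (min ((((fcyClamp t₀ η hη)^[k] t : unitInterval) : ℝ) + η) t₀) = _
    rw [ih]
    push_cast
    rw [add_mul, one_mul]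
    have hk : (0 : ℝ) ≤ k * η := by positivity
    generalize (k : ℝ) * η = a at *
    simp only [max_def, min_def]
    split_ifs <;> linarith

theorem fcyClamp_iter_mem (t₀ : unitInterval) (η : ℝ) (hη : 0 ≤ η) (k : ℕ) (t : unitInterval) :
    (fcyClamp t₀ η hη)^[k] t ∈ Set.uIcc t₀ t := by
  have h := fcyClamp_iter t₀ η hη k t
  have hk : (0 : ℝ) ≤ k * η := by positivity
  generalize (k : ℝ) * η = a at *
  rw [Set.mem_uIcc]
  simp only [← Subtype.coe_le_coe, h]
  rcases le_total (t₀ : ℝ) t with h1 | h1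
  · left
    constructor
    · rcases le_total ((t : ℝ) + a) t₀ with h2 | h2
      · rw [min_eq_left h2]
        exact le_max_of_le_right (by linarith)
      · rw [min_eq_right h2]
        exact le_max_right _ _
    · exact max_le (by linarith) (min_le_of_right_le h1)
  · right
    constructor
    · exact le_max_of_le_right (le_min (by linarith) h1)
    · exact max_le (by linarith) (min_le_right _ _)

theorem fcyClamp_iter_dist (t₀ : unitInterval) (η : ℝ) (hη : 0 ≤ η) (k : ℕ) (t u : unitInterval) :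
    dist ((fcyClamp t₀ η hη)^[k] u) ((fcyClamp t₀ η hη)^[k] t) ≤ dist u t := by
  rw [Subtype.dist_eq, Subtype.dist_eq, Real.dist_eq, Real.dist_eq, fcyClamp_iter, fcyClamp_iter]
  generalize (k : ℝ) * η = a
  have h1 := le_abs_self ((u : ℝ) - t)
  have h2 := neg_abs_le ((u : ℝ) - t)
  rw [abs_le]
  constructor <;> simp only [max_def, min_def] <;> split_ifs <;> linarith

theorem fcyClamp_dist (t₀ : unitInterval) (η : ℝ) (hη : 0 ≤ η) (u : unitInterval) :
    dist (fcyClamp t₀ η hη u) u ≤ η := by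
  rw [Subtype.dist_eq, Real.dist_eq]
  show |max ((u : ℝ) - η) (min ((u : ℝ) + η) t₀) - u| ≤ η
  rw [abs_le]
  constructor <;> simp only [max_def, min_def] <;> split_ifs <;> linarith

theorem fcyClamp_iter_eq (t₀ : unitInterval) (η : ℝ) (hη : 0 ≤ η) (N : ℕ) (hN : 1 ≤ N * η)
    (t : unitInterval) : (fcyClamp t₀ η hη)^[N] t = t₀ := by
  apply Subtype.ext
  rw [fcyClamp_iter]
  have h1 := t.2.1
  have h2 := t.2.2
  have h3 := t₀.2.1
  have h4 := t₀.2.2
  rw [min_eq_right (by linarith), max_eq_right (by linarith)]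

theorem fcyPrismPt_mem (r : unitInterval → unitInterval) {n : ℕ} (s : Fin (n + 1) → unitInterval)
    (j : Fin (n + 1)) (i : Fin (n + 2)) :
    ∃ a, fcyPrismPt r s j i = s a ∨ fcyPrismPt r s j i = r (s a) := by
  unfold fcyPrismPt
  split_ifs with h
  · exact ⟨_, Or.inl rfl⟩
  · exact ⟨_, Or.inr rfl⟩

/-- vanishing of `Σ F` on a rectangle -/
theorem fcy_sig_van (M : FcD X) (F : FcyFam M) (r : unitInterval → unitInterval) (N : ℕ)
    (J : Set unitInterval) (W : Set X)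
    (h : ∀ k < N, ∃ J', FcyVanS M F J' W ∧ ∀ u ∈ J, r^[k] u ∈ J' ∧ r (r^[k] u) ∈ J') :
    FcyVanS M (fcySig M r N F) J W := by
  rw [fcyVanS_iff]
  intro n s hs
  simp only [fcySig, LinearMap.sum_apply, Finset.sum_apply, LinearMap.comp_apply]
  refine Submodule.sum_mem _ fun k hk => ?_
  obtain ⟨J', hv, hJ'⟩ := h k (Finset.mem_range.1 hk)
  show (∑ j : Fin (n + 1), ((-1 : ℝ) ^ (j : ℕ)) •
    F (n + 1) (fun i => r^[k] (fcyPrismPt r s j i))) ∈ M.sec Wᶜ
  refine Submodule.sum_mem _ fun j _ => Submodule.smul_mem _ _ ?_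
  refine (fcyVanS_iff M F J' W).1 hv _ _ fun i => ?_
  obtain ⟨a, ha | ha⟩ := fcyPrismPt_mem r s j i
  · rw [ha]
    exact (hJ' _ (hs a)).1
  · rw [ha, ← Function.iterate_succ_apply, Function.iterate_succ_apply']
    exact (hJ' _ (hs a)).2

/-- the support of `Σ F` for one family -/
theorem fcy_sig_supp (M : FcD X) (t₀ : unitInterval) (F : fcyAdm M)
    (O : Set (unitInterval × X)) (hO : IsOpen O) (h : fcyShadow t₀ (fcyFSupp M F.1) ⊆ O) :
    ∃ lam : ℝ, 0 < lam ∧ ∀ (η : ℝ) (hη : 0 ≤ η), η ≤ lam / 2 → ∀ N : ℕ,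
      fcyFSupp M (fcySig M (fcyClamp t₀ η hη) N F.1) ⊆ O := by
  obtain ⟨⟨K, hK, hF⟩, -⟩ := F.2
  have hC₁ : IsCompact ((Set.univ ×ˢ K) \ O) := (isCompact_univ.prod hK).diff hO
  have hcl : IsClosed {q : unitInterval × (unitInterval × X) | q.1 ∈ Set.uIcc t₀ q.2.1} := by
    have e : {q : unitInterval × (unitInterval × X) | q.1 ∈ Set.uIcc t₀ q.2.1} =
        {q | min t₀ q.2.1 ≤ q.1} ∩ {q | q.1 ≤ max t₀ q.2.1} := rfl
    rw [e]
    exact (isClosed_le (continuous_const.min (continuous_fst.comp continuous_snd)) continuous_fst).inter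
      (isClosed_le continuous_fst (continuous_const.max (continuous_fst.comp continuous_snd)))
  have hC₂ : IsCompact ((Set.univ ×ˢ ((Set.univ ×ˢ K) \ O)) ∩
      {q : unitInterval × (unitInterval × X) | q.1 ∈ Set.uIcc t₀ q.2.1}) :=
    (isCompact_univ.prod hC₁).inter_right hcl
  have hC₃ := hC₂.image (f := fun q : unitInterval × (unitInterval × X) => (q.1, q.2.2))
    (continuous_fst.prodMk (continuous_snd.comp continuous_snd))
  obtain ⟨lam, hlam, hu⟩ := fcy_unif M F.1 _ hC₃ (by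
    rw [Set.disjoint_left]
    rintro _ ⟨q, ⟨⟨-, -, hqO⟩, hq⟩, rfl⟩ hs
    exact hqO (h ⟨q.1, hq, hs⟩))
  refine ⟨lam, hlam, fun η hη hηl N p hp => ?_⟩
  by_contra hpO
  apply hp
  by_cases hx : p.2 ∈ K
  · have hk : ∀ k : ℕ, ∃ W ∈ 𝓝 p.2,
        FcyVanS M F.1 (Metric.ball ((fcyClamp t₀ η hη)^[k] p.1) lam) W := fun k =>
      hu ((fcyClamp t₀ η hη)^[k] p.1, p.2)
        ⟨((fcyClamp t₀ η hη)^[k] p.1, p), ⟨⟨trivial, ⟨trivial, hx⟩, hpO⟩,
          fcyClamp_iter_mem t₀ η hη k p.1⟩, rfl⟩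
    choose W hW hv using hk
    refine ⟨Metric.ball p.1 (lam / 2), Metric.ball_mem_nhds _ (half_pos hlam),
      ⋂ k ∈ Finset.range N, W k, (Filter.biInter_finset_mem (Finset.range N)).2 fun k _ => hW k, ?_⟩
    refine fcy_sig_van M F.1 _ N _ _ fun k hkN => ⟨_, (hv k).mono subset_rfl
      (Set.biInter_subset_of_mem (Finset.mem_range.2 hkN)), fun u hu' => ?_⟩
    have h1 := fcyClamp_iter_dist t₀ η hη k p.1 u
    have h2 := fcyClamp_dist t₀ η hη ((fcyClamp t₀ η hη)^[k] u)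
    have h3 := dist_triangle (fcyClamp t₀ η hη ((fcyClamp t₀ η hη)^[k] u))
      ((fcyClamp t₀ η hη)^[k] u) ((fcyClamp t₀ η hη)^[k] p.1)
    rw [Metric.mem_ball] at hu'
    constructor
    · rw [Metric.mem_ball]
      linarith
    · rw [Metric.mem_ball]
      linarith
  · refine ⟨Set.univ, Filter.univ_mem, Kᶜ, hK.isClosed.isOpen_compl.mem_nhds hx, ?_⟩
    refine fcy_sig_van M F.1 _ N _ _ fun k _ => ⟨Set.univ, fun n s _ => ?_, fun _ _ => ⟨trivial, trivial⟩⟩
    exact Set.disjoint_of_subset_left (hF n s) disjoint_compl_right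

/-- SUPPORT OF `Σ`.  `r = r_η` moves every point by `η` towards `t₀` (`r t = max (t - η) t₀` for `t ≥ t₀`, `min (t + η) t₀` for `t ≤ t₀`):
monotone, `1`-Lipschitz, `r^k t` lies between `t₀` and `t`, `r^N = t₀` for `N η ≥ 1`.
Let `(t, x) ∉ O₁`, `x ∈ K` (`K` compact containing all supports; off `K` everything vanishes, `K` is closed).  `F` vanishes at `(t', x)` for all `t'`
between `t₀` and `t`; by compactness of this segment there are `λ > 0`, `W ∈ 𝓝 x` such that `supp (F n s) ∩ W = ∅` for all tuples `s` of diameter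
`< λ` in the `λ`-neighbourhood of the segment; the same `λ/2`, `W` work for the points `t̃` with `|t̃ - t| < λ/2`.  Cover the compact set
`(I × K) ∖ O₁` by finitely many `B(t, λ/2) × interior W`: a uniform `η₁`.  The tuples `prismPt r (r^k ∘ s) j`, `s` in `B(t̃, δ)`, have diameter
`≤ 2 δ + η` and lie within `δ` of the segment.  So `η + 2 δ < η₁` suffices.  Same for `G`, `O₂`. -/
theorem fcy_sig_exists (M : FcD X) (t₀ : unitInterval) (F G : fcyAdm M)
    (O₁ O₂ : Set (unitInterval × X)) (hO₁ : IsOpen O₁) (hO₂ : IsOpen O₂)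
    (h₁ : fcyShadow t₀ (fcyFSupp M F.1) ⊆ O₁) (h₂ : fcyShadow t₀ (fcyFSupp M G.1) ⊆ O₂) :
    ∃ (r : unitInterval → unitInterval) (N : ℕ), (∀ t, r^[N] t = t₀) ∧
      fcyFSupp M (fcySig M r N F.1) ⊆ O₁ ∧ fcyFSupp M (fcySig M r N G.1) ⊆ O₂ := by
  obtain ⟨l1, hl1, H1⟩ := fcy_sig_supp M t₀ F O₁ hO₁ h₁
  obtain ⟨l2, hl2, H2⟩ := fcy_sig_supp M t₀ G O₂ hO₂ h₂
  have hη : 0 < min l1 l2 / 2 := half_pos (lt_min hl1 hl2)
  obtain ⟨N, hN⟩ := exists_nat_ge (1 / (min l1 l2 / 2))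
  refine ⟨fcyClamp t₀ (min l1 l2 / 2) hη.le, N, fun t => fcyClamp_iter_eq t₀ _ hη.le N ?_ t,
    H1 _ hη.le (by have := min_le_left l1 l2; linarith) N,
    H2 _ hη.le (by have := min_le_right l1 l2; linarith) N⟩
  rwa [div_le_iff₀ hη] at hN

/-- support of a constant family -/
theorem fcy_const_supp (M : FcD X) (g : ℕ → M.C) (N : ℕ) (hN : ∀ n, N < n → g n = 0) :
    fcyFSupp M (fcyConst M g) ⊆ Set.univ ×ˢ (⋃ n, M.supp (g n)) := by
  intro p hp
  refine ⟨trivial, ?_⟩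
  by_contra hx
  apply hp
  have hcl : IsClosed (⋃ n ∈ Finset.range (N + 1), M.supp (g n)) :=
    isClosed_biUnion_finset fun n _ => M.supp_closed _
  have he : (⋃ n, M.supp (g n)) = ⋃ n ∈ Finset.range (N + 1), M.supp (g n) := by
    apply Set.Subset.antisymm
    · refine Set.iUnion_subset fun n => ?_
      by_cases hn : N < n
      · rw [hN n hn, M.supp_zero]
        exact Set.empty_subset _
      · exact Set.subset_biUnion_of_mem (u := fun n => M.supp (g n))
          (Finset.mem_coe.2 (Finset.mem_range.2 (by omega)))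
    · exact Set.iUnion₂_subset fun n _ => Set.subset_iUnion (fun n => M.supp (g n)) n
  rw [he] at hx
  refine ⟨Set.univ, Filter.univ_mem, _, hcl.isOpen_compl.mem_nhds hx, fun n s _ => ?_⟩
  rw [← he]
  exact Set.disjoint_of_subset_left (Set.subset_iUnion (fun n => M.supp (g n)) n)
    disjoint_compl_right

/-- the values on the constant tuples are supported in the slice of the support -/
theorem fcy_diag_supp (M : FcD X) (F : FcyFam M) (t₀ : unitInterval) (n : ℕ) (x : X)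
    (hx : x ∈ M.supp (F n (fun _ => t₀))) : (t₀, x) ∈ fcyFSupp M F := by
  rintro ⟨J, hJ, W, hW, hv⟩
  exact Set.disjoint_left.1 (hv n (fun _ => t₀) fun _ => mem_of_mem_nhds hJ) hx (mem_of_mem_nhds hW)

/-- the constant family `const (K g)`, `g k = G k (t₀, .., t₀)`, is admissible -/
theorem fcyConst_adm (M : FcD X) (G : fcyAdm M) (t₀ : unitInterval) :
    fcyConst M (fun n => if Odd n then G.1 (n + 1) (fun _ => t₀) else 0) ∈ fcyAdm M := by
  obtain ⟨⟨K, hK, hG⟩, N, hN⟩ := G.2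
  refine ⟨⟨K, hK, fun n s => ?_⟩, N, fun n hn => ?_⟩
  · show M.supp (if Odd n then G.1 (n + 1) (fun _ => t₀) else 0) ⊆ K
    split_ifs
    · exact hG _ _
    · rw [M.supp_zero]
      exact Set.empty_subset _
  · funext s
    show (if Odd n then G.1 (n + 1) (fun _ => t₀) else 0) = 0
    rw [hN (n + 1) (by omega)]
    simp

/-- its support lies in the shadow of the support of `G` -/
theorem fcyConst_shadow (M : FcD X) (G : fcyAdm M) (t₀ : unitInterval) :
    fcyFSupp M (fcyConst M (fun n => if Odd n then G.1 (n + 1) (fun _ => t₀) else 0)) ⊆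
      fcyShadow t₀ (fcyFSupp M G.1) := by
  obtain ⟨-, N, hN⟩ := G.2
  intro p hp
  obtain ⟨-, hx⟩ := fcy_const_supp M _ N (fun n hn => by
    show (if Odd n then G.1 (n + 1) (fun _ => t₀) else 0) = 0
    rw [hN (n + 1) (by omega)]
    simp) hp
  obtain ⟨n, hn⟩ := Set.mem_iUnion.1 hx
  by_cases ho : Odd n
  · rw [if_pos ho] at hn
    exact ⟨t₀, Set.left_mem_uIcc, fcy_diag_supp M G.1 t₀ (n + 1) p.2 hn⟩
  · rw [if_neg ho, M.supp_zero] at hn
    exact hn.elim

/-- **THE CORE LEMMA.**  `n = [F]`; `r, N` from `fcy_sig_exists` for `F` and `G = D F`.  `(r^N)^* F = const g`, `g k = F k (t₀, .., t₀)`.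
`fcy_sig_id` + `fcy_const_id`:  `F - 1 ⊗ g 0 = D (- Σ F + const (K g)) + (- Σ D F + const (K g'))`, `const g' = D const g = (r^N)^* D F`.
Supports: `fcy_sig_exists`, `fcy_const_supp`, `fcy_diag_supp` (`I × S_{t₀}` is contained in the shadow of `S`). -/
theorem fcy_CL (M : FcD X) (t₀ : unitInterval) (n : (fcyCyl M).C)
    (O₁ O₂ : Set (unitInterval × X)) (hO₁ : IsOpen O₁) (hO₂ : IsOpen O₂)
    (h₁ : fcyShadow t₀ ((fcyCyl M).supp n) ⊆ O₁)
    (h₂ : fcyShadow t₀ ((fcyCyl M).supp ((fcyCyl M).d n)) ⊆ O₂) :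
    ∃ n' n'', (fcyCyl M).supp n' ⊆ O₁ ∧ (fcyCyl M).supp n'' ⊆ O₂ ∧
      n - fcyTen M (fun _ => 1) (fcyEvL M t₀ n) = (fcyCyl M).d n' + n'' := by
  obtain ⟨F, rfl⟩ := fcyMk_surj M n
  rw [fcyMk_supp] at h₁
  rw [fcyMk_d, fcyMk_supp] at h₂
  obtain ⟨r, N, hr, hs1, hs2⟩ := fcy_sig_exists M t₀ F (fcyDadm M F) O₁ O₂ hO₁ hO₂ h₁ h₂
  have hpull : ∀ G : FcyFam M, fcyPull M (r^[N]) G = fcyConst M (fun k => G k (fun _ => t₀)) := by
    intro G
    funext n s
    show G n (fun i => r^[N] (s i)) = G n (fun _ => t₀)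
    congr 1
    funext i
    exact hr _
  obtain ⟨g', hg', hid⟩ := fcy_const_id M (fun k => F.1 k (fun _ => t₀))
  have hsig := fcy_sig_id M r N F.1
  have hg'2 : g' = fun k => (fcyDadm M F).1 k (fun _ => t₀) := by
    have e : fcyConst M g' = fcyConst M (fun k => fcyDfam M F.1 k (fun _ => t₀)) := by
      rw [← hg', ← hpull F.1, fcy_pull_D, hpull]
    funext k
    exact congrFun (congrFun e k) (fun _ => t₀)
  subst hg'2
  rw [hpull] at hsig
  refine ⟨fcyMk M (⟨_, fcyConst_adm M F t₀⟩ - ⟨_, fcy_sig_adm M r N F.1 F.2⟩),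
    fcyMk M (⟨_, fcyConst_adm M (fcyDadm M F) t₀⟩ - ⟨_, fcy_sig_adm M r N _ (fcyDadm M F).2⟩),
    ?_, ?_, ?_⟩
  · rw [map_sub]
    refine ((fcyCyl M).supp_sub _ _).trans (Set.union_subset ?_ ?_)
    · rw [fcyMk_supp]
      exact (fcyConst_shadow M F t₀).trans h₁
    · rw [fcyMk_supp]
      exact hs1
  · rw [map_sub]
    refine ((fcyCyl M).supp_sub _ _).trans (Set.union_subset ?_ ?_)
    · rw [fcyMk_supp]
      exact (fcyConst_shadow M (fcyDadm M F) t₀).trans h₂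
    · rw [fcyMk_supp]
      exact hs2
  · rw [fcyEvL_mk, fcyTen_mk, fcyMk_d, ← map_sub, ← map_add]
    congr 1
    apply Subtype.ext
    show F.1 - fcyTenFam M (fun _ => 1) (F.1 0 fun _ => t₀) =
      fcyDfam M (fcyConst M (fun n => if Odd n then F.1 (n + 1) (fun _ => t₀) else 0) -
        fcySig M r N F.1) +
      (fcyConst M (fun n => if Odd n then (fcyDadm M F).1 (n + 1) (fun _ => t₀) else 0) -
        fcySig M r N (fcyDfam M F.1))
    rw [map_sub]
    have e2 : F.1 - fcyTenFam M (fun _ => 1) (F.1 0 fun _ => t₀) =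
        (fcyConst M (fun k => F.1 k fun _ => t₀) - fcyTenFam M (fun _ => 1) (F.1 0 fun _ => t₀)) -
        (fcyConst M (fun k => F.1 k fun _ => t₀) - F.1) := by
      abel
    rw [e2, hid, ← hsig]
    abel

/-! ### 4. Consequences -/

/-- the core lemma for cycles -/
theorem fcyc_CL_cycle (M : FcD X) (t₀ : unitInterval) (n : (fcyCyl M).C)
    (O₁ : Set (unitInterval × X)) (hO₁ : IsOpen O₁)
    (h₁ : fcyShadow t₀ ((fcyCyl M).supp n) ⊆ O₁) (hd : (fcyCyl M).d n = 0) :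
    ∃ n', (fcyCyl M).supp n' ⊆ O₁ ∧
      n - fcyTen M (fun _ => 1) (fcyEvL M t₀ n) = (fcyCyl M).d n' := by
  obtain ⟨n', n'', h1, h2, h3⟩ := fcy_CL M t₀ n O₁ ∅ hO₁ isOpen_empty h₁ (by
    rw [hd, (fcyCyl M).supp_zero]
    rintro p ⟨t', -, h⟩
    exact h)
  have h4 : n'' = 0 := ((fcyCyl M).supp_empty_iff n'').1 (Set.subset_empty_iff.1 h2)
  rw [h4, add_zero] at h3
  exact ⟨n', h1, h3⟩

theorem fcyc_c_qi_aux (M : FcD X) (U : Set X) (hU : IsOpen U) (m : M.C) (n : (fcyCyl M).C)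
    (hn : (fcyCyl M).supp n ⊆ Set.univ ×ˢ U)
    (hd2 : fcyTen M (fun _ => 1) m + (fcyCyl M).d n = 0) :
    ∃ (m' : M.C) (n' : (fcyCyl M).C), M.supp m' ⊆ U ∧ (fcyCyl M).supp n' ⊆ Set.univ ×ˢ U ∧
      -(M.d m') = m ∧ fcyTen M (fun _ => 1) m' + (fcyCyl M).d n' = n := by
  -- `m = - d (ev_0 n)`
  have h1 : m + M.d (fcyEvL M 0 n) = 0 := by
    have := congrArg (fcyEvL M 0) hd2
    rw [map_add, fcyEvL_d, fcyEvL_ten, map_zero, one_smul] at this
    exact this
  have hm' : M.supp (fcyEvL M 0 n) ⊆ U := fun x hx => (hn (fcyEvL_supp M 0 n x hx)).2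
  set n₁ := n - fcyTen M (fun _ => 1) (fcyEvL M 0 n) with hn₁
  have hc : (fcyCyl M).supp (fcyTen M (fun _ => 1) (fcyEvL M 0 n)) ⊆ Set.univ ×ˢ U :=
    (fcyTen_supp M _ _).trans (Set.prod_mono (Set.subset_univ _) hm')
  have hn₁s : (fcyCyl M).supp n₁ ⊆ Set.univ ×ˢ U :=
    ((fcyCyl M).supp_sub _ _).trans (Set.union_subset hn hc)
  have hn₁d : (fcyCyl M).d n₁ = 0 := by
    rw [hn₁, map_sub, fcyTen_one_d]
    have e1 : M.d (fcyEvL M 0 n) = -m := by rw [← add_eq_zero_iff_eq_neg']; exact h1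
    rw [e1, map_neg, sub_neg_eq_add, add_comm]
    exact hd2
  have hev : fcyEvL M 0 n₁ = 0 := by
    rw [hn₁, map_sub, fcyEvL_ten, one_smul, sub_self]
  obtain ⟨n', h2, h3⟩ := fcyc_CL_cycle M 0 n₁ (Set.univ ×ˢ U) (isOpen_univ.prod hU) (by
    rintro p ⟨t', -, h⟩
    exact ⟨trivial, (hn₁s h).2⟩) hn₁d
  rw [hev, map_zero, sub_zero] at h3
  refine ⟨fcyEvL M 0 n, n', hm', h2, ?_, ?_⟩
  · rw [neg_eq_iff_add_eq_zero, add_comm]
    exact h1
  · rw [← h3, hn₁]
    abel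

/-- `c` is a local quasi-isomorphism.  Onto: `fcy_CL` with `t₀ = 0`, `O₁ = I × U`, `O₂ = ∅`.  Injective: `ev_0 ∘ c = 1`. -/
theorem fcy_c_qi (M : FcD X) : (fcCone (fcyC M)).Acyc := by
  intro U hU _ v hs hd
  have hs' : M.supp v.1 ∪ (fcyPr X) '' (fcyCyl M).supp v.2 ⊆ U := hs
  have hd2 : fcyTen M (fun _ => 1) v.1 + (fcyCyl M).d v.2 = 0 := congrArg Prod.snd hd
  obtain ⟨m', n', h1, h2, h3, h4⟩ := fcyc_c_qi_aux M U hU v.1 v.2
    (fun p hp => ⟨trivial, hs' (Or.inr ⟨p, hp, rfl⟩)⟩) hd2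
  refine ⟨(m', n'), ?_, Prod.ext h3 h4⟩
  show M.supp m' ∪ (fcyPr X) '' (fcyCyl M).supp n' ⊆ U
  refine Set.union_subset h1 ?_
  rintro _ ⟨p, hp, rfl⟩
  exact (h2 hp).2

/-- `fcy_CL` with `O₁ = J × U`, `O₂ = ∅`; `ev_{t₀} n = 0` because `t₀ ∉ J`. -/
theorem fcy_acyc_half (M : FcD X) (t₀ : unitInterval) (J : Set unitInterval)
    (hJ : IsOpen J) (ht₀ : t₀ ∉ J) (hstar : ∀ t' ∈ J, ∀ t, t' ∈ Set.uIcc t₀ t → t ∈ J)
    (U : Set X) (hU : IsOpen U) : (fcyCyl M).AcycAt (J ×ˢ U) := by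
  intro n hn hd
  obtain ⟨n', h2, h3⟩ := fcyc_CL_cycle M t₀ n (J ×ˢ U) (hJ.prod hU) (by
    rintro p ⟨t', ht', h⟩
    exact ⟨hstar t' (hn h).1 p.1 ht', (hn h).2⟩) hd
  have hev : fcyEvL M t₀ n = 0 := by
    rw [← M.supp_empty_iff, Set.eq_empty_iff_forall_notMem]
    intro x hx
    exact ht₀ (hn (fcyEvL_supp M t₀ n x hx)).1
  rw [hev, map_zero, sub_zero] at h3
  exact ⟨n', h2, h3.symm⟩

/-- `fcy_CL` with `t₀ = a`, `O₁ = I × U`, `O₂ = ([a,b] × L)ᶜ`; `m = ev_a n`. -/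
theorem fcy_I1 (M : FcD X) (a b : unitInterval) (hab : a ≤ b) (L : Set X)
    (hL : IsClosed L) (U : Set X) (hU : IsOpen U) (n : (fcyCyl M).C)
    (hn : (fcyCyl M).supp n ⊆ Set.univ ×ˢ U)
    (hdn : Disjoint ((fcyCyl M).supp ((fcyCyl M).d n)) (Set.Icc a b ×ˢ L)) :
    ∃ m n', M.supp m ⊆ U ∧ Disjoint (M.supp (M.d m)) L ∧ (fcyCyl M).supp n' ⊆ Set.univ ×ˢ U ∧
      Disjoint ((fcyCyl M).supp (n - fcyTen M (fun _ => 1) m - (fcyCyl M).d n'))
        (Set.Icc a b ×ˢ L) := by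
  obtain ⟨n', n'', h1, h2, h3⟩ := fcy_CL M a n (Set.univ ×ˢ U) (Set.Icc a b ×ˢ L)ᶜ
    (isOpen_univ.prod hU) (isClosed_Icc.prod hL).isOpen_compl (by
      rintro p ⟨t', -, h⟩
      exact ⟨trivial, (hn h).2⟩) (by
      rintro p ⟨t', ht', h⟩ ⟨hp1, hp2⟩
      rw [Set.uIcc_of_le hp1.1] at ht'
      exact Set.disjoint_left.1 hdn h ⟨⟨ht'.1, ht'.2.trans hp1.2⟩, hp2⟩)
  refine ⟨fcyEvL M a n, n', fun x hx => (hn (fcyEvL_supp M a n x hx)).2, ?_, h1, ?_⟩
  · rw [← fcyEvL_d, Set.disjoint_left]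
    intro x hx hxL
    exact Set.disjoint_left.1 hdn (fcyEvL_supp M a _ x hx) ⟨⟨le_refl a, hab⟩, hxL⟩
  · rw [h3, add_sub_cancel_left]
    exact Set.disjoint_left.2 fun p hp hp' => h2 hp hp'

theorem fcyc_ind_support (c : unitInterval) : closure (Function.support (fcyInd c)) ⊆ Set.Ici c := by
  refine closure_minimal ?_ isClosed_Ici
  intro t ht
  by_contra h
  exact ht (if_neg h)

theorem fcyc_one_sub_ind_support (c : unitInterval) :
    closure (Function.support ((fun _ => 1) - fcyInd c)) ⊆ Set.Iic c := by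
  refine closure_minimal ?_ isClosed_Iic
  intro t ht
  by_contra h
  have h' : c ≤ t := le_of_lt (not_le.1 h)
  apply ht
  show (1 : ℝ) - fcyInd c t = 0
  rw [fcyInd, if_pos h', sub_self]

/-- a compact subset of an interval `J` (open in `I`, `1 ∉ J`) lies strictly below two points of `J` -/
theorem fcyc_above (J : Set unitInterval) (hJ : IsOpen J) (h1 : (1 : unitInterval) ∉ J)
    (c : unitInterval) (hc : c ∈ J) (P : Set unitInterval) (hP : IsCompact P) (hPJ : P ⊆ J) :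
    ∃ b₃ ∈ J, ∃ b₂ ∈ J, b₃ < b₂ ∧ ∀ t ∈ P, t < b₂ := by
  have hS : IsCompact (insert c P) := hP.insert c
  obtain ⟨b₁, hb₁, hmax⟩ := hS.exists_isGreatest (Set.insert_nonempty c P)
  have hb₁J : b₁ ∈ J := by
    rcases hb₁ with rfl | h
    · exact hc
    · exact hPJ h
  have hlt : b₁ < 1 := lt_of_le_of_ne unitInterval.le_one' (fun h => h1 (h ▸ hb₁J))
  obtain ⟨u, hu, hsub⟩ := exists_Ico_subset_of_mem_nhds (hJ.mem_nhds hb₁J) ⟨1, hlt⟩
  obtain ⟨b₂, h2, h3⟩ := exists_between hu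
  exact ⟨b₁, hb₁J, b₂, hsub ⟨h2.le, h3⟩, h2, fun t ht => lt_of_le_of_lt (hmax (Or.inr ht)) h2⟩

/-- CYCLES OVER AN INTERIOR INTERVAL.  `J⁺ = {t | ∃ t' ∈ J, t' ≤ t}`.  `fcy_CL` (`t₀ = 0`): `n = D G`, `supp G ⊆ J⁺ × U`.
Let `b₁ < b₃ < b₂` in `J` with `supp n ⊆ [0, b₁] × X`.  `D G = n` vanishes near `[b₂, 1] × X`; `fcy_I1` (`[b₂, 1]`, `L = univ`):
`G = c m + D n₁ + u`, `d m = 0`, `u` off `[b₂, 1] × X`.  `n₂ = π_E n₁`, `E = (b₃, 1] × X`.  `G' = G - 1_{[b₃,1]} ⊗ m - D n₂` is supported in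
`(J⁺ ∖ [b₂, 1]) × U ⊆ J × U` and `n = D G' + τ_{b₃} ⊗ m`.  Finally `fcyTau_move`. -/
theorem fcy_mid (M : FcD X) (J : Set unitInterval) (hJ : IsOpen J)
    (hJc : J.OrdConnected) (h0 : (0 : unitInterval) ∉ J) (h1 : (1 : unitInterval) ∉ J)
    (c : unitInterval) (hc : c ∈ J) (U : Set X) (hU : IsOpen U) (n : (fcyCyl M).C)
    (hn : (fcyCyl M).supp n ⊆ J ×ˢ U) (hdn : (fcyCyl M).d n = 0) :
    ∃ m₀ n', M.supp m₀ ⊆ U ∧ M.d m₀ = 0 ∧ (fcyCyl M).supp n' ⊆ J ×ˢ U ∧
      n = fcyTau M c m₀ + (fcyCyl M).d n' := by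
  -- the upper set generated by `J`
  set Jp : Set unitInterval := {t | ∃ t' ∈ J, t' ≤ t} with hJp
  have hJpo : IsOpen Jp := by
    have : Jp = ⋃ t' ∈ J, (J ∪ Set.Ioi t') := by
      ext t
      simp only [hJp, Set.mem_ofPred_eq, Set.mem_iUnion, Set.mem_union, Set.mem_Ioi, exists_prop]
      constructor
      · rintro ⟨t', ht', h⟩
        rcases h.eq_or_lt with rfl | h
        · exact ⟨t', ht', Or.inl ht'⟩
        · exact ⟨t', ht', Or.inr h⟩
      · rintro ⟨t', ht', h | h⟩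
        · exact ⟨t, h, le_refl t⟩
        · exact ⟨t', ht', h.le⟩
    rw [this]
    exact isOpen_biUnion fun t' _ => hJ.union isOpen_Ioi
  have hJJp : J ⊆ Jp := fun t ht => ⟨t, ht, le_refl t⟩
  have h0p : (0 : unitInterval) ∉ Jp := by
    rintro ⟨t', ht', h⟩
    have : t' = 0 := le_antisymm h unitInterval.nonneg'
    exact h0 (this ▸ ht')
  -- `n = D G`
  obtain ⟨G, hG, hDG⟩ := fcy_acyc_half M 0 Jp hJpo h0p (by
    rintro t' ⟨t'', ht'', h⟩ t ht
    rw [Set.uIcc_of_le unitInterval.nonneg'] at ht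
    exact ⟨t'', ht'', h.trans ht.2⟩) U hU n (hn.trans (Set.prod_mono hJJp subset_rfl)) hdn
  -- the points `b₃ < b₂`
  obtain ⟨b₃, hb₃, b₂, hb₂, h32, hP⟩ := fcyc_above J hJ h1 c hc (Prod.fst '' (fcyCyl M).supp n)
    (((fcyCyl M).supp_compact n).image continuous_fst) (by
      rintro _ ⟨p, hp, rfl⟩
      exact (hn hp).1)
  obtain ⟨m, n₁, hm, hdm, hn₁, hu⟩ := fcy_I1 M b₂ 1 unitInterval.le_one' Set.univ isClosed_univ U hU G
    (hG.trans (Set.prod_mono (Set.subset_univ _) subset_rfl)) (by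
      rw [hDG, Set.disjoint_left]
      rintro p hp ⟨hp1, -⟩
      exact absurd (hP p.1 ⟨p, hp, rfl⟩) (not_lt.2 hp1.1))
  have hdm0 : M.d m = 0 := by
    rw [← M.supp_empty_iff]
    exact Set.subset_empty_iff.1 (fun x hx => Set.disjoint_left.1 hdm hx trivial)
  obtain ⟨π, hπ⟩ := (fcyCyl M).ury (Set.Ioi b₃ ×ˢ (Set.univ : Set X))
  have hcl1 : closure (Set.Ioi b₃ ×ˢ (Set.univ : Set X)) ⊆ Set.Ici b₃ ×ˢ Set.univ := by
    refine closure_minimal ?_ (isClosed_Ici.prod isClosed_univ)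
    exact Set.prod_mono Set.Ioi_subset_Ici_self subset_rfl
  have hcl2 : closure (Set.Ioi b₃ ×ˢ (Set.univ : Set X))ᶜ ⊆ Set.Iic b₃ ×ˢ Set.univ := by
    refine closure_minimal ?_ (isClosed_Iic.prod isClosed_univ)
    intro p hp
    refine ⟨?_, trivial⟩
    by_contra h
    have h' : b₃ < p.1 := not_le.1 h
    exact hp ⟨h', trivial⟩
  set n₂ := π n₁ with hn₂
  have hIciJp : Set.Ici b₃ ⊆ Jp := fun t ht => ⟨b₃, hb₃, ht⟩
  have hn₂s : (fcyCyl M).supp n₂ ⊆ Set.Ici b₃ ×ˢ U := fun p hp =>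
    ⟨(hcl1 ((hπ n₁).1 hp).2).1, (hn₁ ((hπ n₁).1 hp).1).2⟩
  have hn₁₂s : (fcyCyl M).supp (n₁ - n₂) ⊆ Set.Iic b₃ ×ˢ U := fun p hp =>
    ⟨(hcl2 ((hπ n₁).2 hp).2).1, (hn₁ ((hπ n₁).2 hp).1).2⟩
  set G' := G - fcyTen M (fcyInd b₃) m - (fcyCyl M).d n₂ with hG'
  have hten : (fcyCyl M).supp (fcyTen M (fcyInd b₃) m) ⊆ Set.Ici b₃ ×ˢ U :=
    (fcyTen_supp M _ _).trans (Set.prod_mono (fcyc_ind_support b₃) hm)
  have hG'1 : (fcyCyl M).supp G' ⊆ Jp ×ˢ U := by
    refine ((fcyCyl M).supp_sub _ _).trans (Set.union_subset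
      (((fcyCyl M).supp_sub _ _).trans (Set.union_subset hG ?_)) ?_)
    · exact hten.trans (Set.prod_mono hIciJp subset_rfl)
    · exact ((fcyCyl M).d_loc _).trans (hn₂s.trans (Set.prod_mono hIciJp subset_rfl))
  have hG'2 : ∀ p ∈ (fcyCyl M).supp G', p.1 < b₂ := by
    have e : G' = (G - fcyTen M (fun _ => 1) m - (fcyCyl M).d n₁) +
        (fcyTen M ((fun _ => 1) - fcyInd b₃) m + (fcyCyl M).d (n₁ - n₂)) := by
      rw [hG', fcyTen_sub_fun, map_sub]
      abel
    intro p hp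
    rw [e] at hp
    rcases (fcyCyl M).supp_add _ _ hp with h | h
    · by_contra hlt
      exact Set.disjoint_left.1 hu h ⟨⟨not_lt.1 hlt, unitInterval.le_one'⟩, trivial⟩
    · rcases (fcyCyl M).supp_add _ _ h with h | h
      · exact lt_of_le_of_lt (fcyc_one_sub_ind_support b₃ (fcyTen_supp M _ _ h).1) h32
      · exact lt_of_le_of_lt (hn₁₂s ((fcyCyl M).d_loc _ h)).1 h32
  have hG'3 : (fcyCyl M).supp G' ⊆ J ×ˢ U := by
    intro p hp
    obtain ⟨t', ht', hle⟩ := (hG'1 hp).1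
    exact ⟨hJc.out ht' hb₂ ⟨hle, (hG'2 p hp).le⟩, (hG'1 hp).2⟩
  have hmove := fcyTau_move M b₃ c m
  rw [hdm0, map_zero, sub_zero] at hmove
  refine ⟨m, G' + fcyTen M (fcyInd b₃ - fcyInd c) m, hm, hdm0, ?_, ?_⟩
  · refine ((fcyCyl M).supp_add _ _).trans (Set.union_subset hG'3 ?_)
    refine (fcyTen_supp M _ _).trans (Set.prod_mono ?_ hm)
    exact (fcyInd_sub_support b₃ c).trans (hJc.uIcc_subset hb₃ hc)
  · rw [map_add, ← hmove, ← hDG, hG']
    simp only [map_sub, (fcyCyl M).d_sq, sub_zero]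
    have : fcyTau M b₃ m = (fcyCyl M).d (fcyTen M (fcyInd b₃) m) := by
      show (fcyCyl M).d (fcyTen M (fcyInd b₃) m) - fcyTen M (fcyInd b₃) (M.d m) = _
      rw [hdm0, map_zero, sub_zero]
    rw [this]
    abel

/-- the rectangles used for all local-to-global arguments on `I × X`: `J` an interval which is open in `I` and does not contain both end points -/
def fcyRect (X : Type) [TopologicalSpace X] (O : Set X) : Set (Set (unitInterval × X)) :=
  {R | ∃ (J : Set unitInterval) (U : Set X), IsOpen J ∧ J.OrdConnected ∧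
    ¬ ((0 : unitInterval) ∈ J ∧ (1 : unitInterval) ∈ J) ∧ IsOpen U ∧ U ⊆ O ∧ R = J ×ˢ U}

theorem fcyRect_open (O : Set X) : ∀ R ∈ fcyRect X O, IsOpen R := by
  rintro R ⟨J, U, hJ, -, -, hU, -, rfl⟩
  exact hJ.prod hU

theorem fcyRect_inter (O : Set X) : ∀ R ∈ fcyRect X O, ∀ R' ∈ fcyRect X O, R ∩ R' ∈ fcyRect X O := by
  rintro R ⟨J, U, hJ, hJc, h01, hU, hUO, rfl⟩ R' ⟨J', U', hJ', hJc', -, hU', -, rfl⟩
  exact ⟨J ∩ J', U ∩ U', hJ.inter hJ', hJc.inter hJc', fun h => h01 ⟨h.1.1, h.2.1⟩, hU.inter hU',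
    Set.inter_subset_left.trans hUO, Set.prod_inter_prod⟩

/-- thickenings of intervals of `I` are intervals -/
theorem fcyc_thick_ordConnected (S : Set unitInterval) (hS : S.OrdConnected) (δ : ℝ) :
    (Metric.thickening δ S).OrdConnected := by
  refine ⟨fun t₁ h₁ t₂ h₂ z hz => ?_⟩
  rw [Metric.mem_thickening_iff] at h₁ h₂ ⊢
  obtain ⟨s₁, hs₁, d₁⟩ := h₁
  obtain ⟨s₂, hs₂, d₂⟩ := h₂
  rw [Subtype.dist_eq, Real.dist_eq, abs_lt] at d₁ d₂
  have hz1 : (t₁ : ℝ) ≤ z := hz.1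
  have hz2 : (z : ℝ) ≤ t₂ := hz.2
  by_cases c1 : z < s₁
  · by_cases c2 : z < s₂
    · refine ⟨s₁, hs₁, ?_⟩
      have c1' : (z : ℝ) < s₁ := c1
      rw [Subtype.dist_eq, Real.dist_eq, abs_lt]
      constructor <;> linarith [d₁.1, d₁.2]
    · exact ⟨z, hS.out hs₂ hs₁ ⟨not_lt.1 c2, c1.le⟩, by rw [dist_self]; linarith [d₁.1, d₁.2]⟩
  · by_cases c2 : s₂ < z
    · by_cases c3 : s₁ < z
      · refine ⟨s₂, hs₂, ?_⟩
        have c2' : (s₂ : ℝ) < z := c2
        rw [Subtype.dist_eq, Real.dist_eq, abs_lt]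
        constructor <;> linarith [d₂.1, d₂.2]
      · have : z = s₁ := le_antisymm (not_lt.1 c3) (not_lt.1 c1)
        exact ⟨z, this ▸ hs₁, by rw [dist_self]; linarith [d₁.1, d₁.2]⟩
    · exact ⟨z, hS.out hs₁ hs₂ ⟨not_lt.1 c1, not_lt.1 c2⟩, by rw [dist_self]; linarith [d₁.1, d₁.2]⟩

/-- interpolation of intervals -/
theorem fcyc_interp (S J' : Set unitInterval) (hS : S.OrdConnected) (hJ' : IsOpen J')
    (h : closure S ⊆ J') :
    ∃ J'' : Set unitInterval, IsOpen J'' ∧ J''.OrdConnected ∧ closure S ⊆ J'' ∧ closure J'' ⊆ J' := by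
  obtain ⟨δ, hδ, hsub⟩ := (isClosed_closure (s := S)).isCompact.exists_cthickening_subset_open hJ' h
  rw [Metric.cthickening_closure] at hsub
  exact ⟨Metric.thickening δ S, Metric.isOpen_thickening, fcyc_thick_ordConnected S hS δ,
    Metric.closure_subset_thickening hδ S,
    (Metric.closure_thickening_subset_cthickening δ S).trans hsub⟩

/-- small balls of `I` are intervals -/
theorem fcyRect_basis (O : Set X) (W : Set (unitInterval × X)) (hW : IsOpen W)
    (hWO : W ⊆ Set.univ ×ˢ O) (p : unitInterval × X) (hp : p ∈ W) :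
    ∃ R ∈ fcyRect X O, p ∈ R ∧ R ⊆ W := by
  obtain ⟨J₀, U₀, hJ₀, hU₀, hp1, hp2, hsub⟩ := isOpen_prod_iff.1 hW p.1 p.2 hp
  obtain ⟨ε, hε, hball⟩ := Metric.isOpen_iff.1 hJ₀ p.1 hp1
  have e : Metric.ball p.1 (min ε (1 / 2)) = Metric.thickening (min ε (1 / 2)) {p.1} := by
    rw [Metric.thickening_singleton]
  have hpos : 0 < min ε (1 / 2 : ℝ) := lt_min hε (by norm_num)
  refine ⟨Metric.ball p.1 (min ε (1 / 2)) ×ˢ U₀, ⟨Metric.ball p.1 (min ε (1 / 2)), U₀,
    Metric.isOpen_ball, ?_, ?_, hU₀, ?_, rfl⟩, ⟨Metric.mem_ball_self hpos, hp2⟩, ?_⟩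
  · rw [e]
    exact fcyc_thick_ordConnected _ Set.ordConnected_singleton _
  · rintro ⟨h0, h1⟩
    rw [Metric.mem_ball, Subtype.dist_eq, Real.dist_eq, abs_lt] at h0 h1
    have h2 : min ε (1 / 2 : ℝ) ≤ 1 / 2 := min_le_right _ _
    have e0 : ((0 : unitInterval) : ℝ) = 0 := rfl
    have e1 : ((1 : unitInterval) : ℝ) = 1 := rfl
    rw [e0] at h0
    rw [e1] at h1
    linarith [h0.1, h1.2]
  · intro x hx
    exact (hWO (hsub (Set.mk_mem_prod hp1 hx))).2
  · exact (Set.prod_mono ((Metric.ball_subset_ball (min_le_left _ _)).trans hball) subset_rfl).trans hsub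

/-- LG2 on rectangles -/
theorem fcy_acycOn_of_rect (A : FcD (unitInterval × X)) (O : Set X)
    (h : ∀ R ∈ fcyRect X O, A.AcycAt R) : A.AcycOn (Set.univ ×ˢ O) :=
  fcg_acycOn_of_basis A _ (fcyRect X O) (fcyRect_open O) (fcyRect_inter O)
    (fun W hW hWO p hp => fcyRect_basis O W hW hWO p hp) h

/-- rectangles over an interval which contains exactly one end point are acyclic -/
theorem fcyc_rect_half (M : FcD X) (J : Set unitInterval) (hJ : IsOpen J) (hJc : J.OrdConnected)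
    (h01 : ¬ ((0 : unitInterval) ∈ J ∧ (1 : unitInterval) ∈ J))
    (h : (0 : unitInterval) ∈ J ∨ (1 : unitInterval) ∈ J) (U : Set X) (hU : IsOpen U) :
    (fcyCyl M).AcycAt (J ×ˢ U) := by
  rcases h with h0 | h1
  · refine fcy_acyc_half M 1 J hJ (fun h1 => h01 ⟨h0, h1⟩) ?_ U hU
    intro t' ht' t ht
    rw [Set.uIcc_of_ge unitInterval.le_one'] at ht
    exact hJc.out h0 ht' ⟨unitInterval.nonneg', ht.1⟩
  · refine fcy_acyc_half M 0 J hJ (fun h0 => h01 ⟨h0, h1⟩) ?_ U hU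
    intro t' ht' t ht
    rw [Set.uIcc_of_le unitInterval.nonneg'] at ht
    exact hJc.out ht' h1 ⟨ht.2, unitInterval.le_one'⟩

/-- **`M` acyclic on `O` `⇒` `fcyCyl M` acyclic on `I × O`.**  Rectangles `J × U`: `J = ∅`; `0 ∈ J` or `1 ∈ J`: `fcy_acyc_half` (`t₀ = 1`, `0`);
otherwise `fcy_mid`: `n = τ_c ⊗ m₀ + D n'`, `m₀ = d w`, `τ_c ⊗ d w = - D (τ_c ⊗ w)`. -/
theorem fcy_acycOn (M : FcD X) (O : Set X) (h : M.AcycOn O) :
    (fcyCyl M).AcycOn (Set.univ ×ˢ O) := by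
  refine fcy_acycOn_of_rect (fcyCyl M) O ?_
  rintro R ⟨J, U, hJ, hJc, h01, hU, hUO, rfl⟩
  by_cases hend : (0 : unitInterval) ∈ J ∨ (1 : unitInterval) ∈ J
  · exact fcyc_rect_half M J hJ hJc h01 hend U hU
  · rw [not_or] at hend
    intro n hn hdn
    rcases J.eq_empty_or_nonempty with rfl | ⟨c, hc⟩
    · rw [Set.empty_prod, Set.subset_empty_iff, (fcyCyl M).supp_empty_iff] at hn
      refine ⟨0, ?_, by rw [hn, map_zero]⟩
      rw [(fcyCyl M).supp_zero]
      exact Set.empty_subset _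
    · obtain ⟨m₀, n', hm₀, hdm₀, hn', e⟩ := fcy_mid M J hJ hJc hend.1 hend.2 c hc U hU n hn hdn
      obtain ⟨w, hw, hdw⟩ := h U hU hUO m₀ hm₀ hdm₀
      refine ⟨n' - fcyTau M c w, ?_, ?_⟩
      · refine ((fcyCyl M).supp_sub _ _).trans (Set.union_subset hn' ?_)
        exact (fcyTau_supp M c w).trans (Set.prod_mono (Set.singleton_subset_iff.2 hc) hw)
      · rw [map_sub, fcyTau_d, hdw, e]
        abel

theorem fcy_acyc (M : FcD X) (h : M.Acyc) : (fcyCyl M).Acyc := by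
  have := fcy_acycOn M Set.univ h
  rwa [Set.univ_prod_univ] at this

theorem fcy_CS (M : FcD X) (h : M.CS) : (fcyCyl M).CS := by
  obtain ⟨K, hK, hM⟩ := h
  refine ⟨Set.univ ×ˢ K, isCompact_univ.prod hK, ?_⟩
  refine (fcy_acycOn M Kᶜ hM).mono ?_
  rintro ⟨t, x⟩ hx
  exact ⟨trivial, fun hxK => hx ⟨trivial, hxK⟩⟩

/-- a relatively compact rectangle inside a rectangle: either empty, or the factors are nested -/
theorem fcyc_rect_cases (J J' : Set unitInterval) (U U' : Set X)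
    (hc : IsCompact (closure (J ×ˢ U))) (hsub : closure (J ×ˢ U) ⊆ J' ×ˢ U') :
    J ×ˢ U = ∅ ∨ (J.Nonempty ∧ U.Nonempty ∧ closure J ⊆ J' ∧ closure U ⊆ U' ∧
      IsCompact (closure U)) := by
  rcases (J ×ˢ U).eq_empty_or_nonempty with h | h
  · exact Or.inl h
  · right
    obtain ⟨hJ, hU⟩ := Set.prod_nonempty_iff.1 h
    rw [closure_prod_eq] at hc hsub
    have hJ' : (closure J).Nonempty := hJ.closure
    have hU' : (closure U).Nonempty := hU.closure
    rcases Set.prod_subset_prod_iff.1 hsub with h1 | h1 | h1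
    · refine ⟨hJ, hU, h1.1, h1.2, ?_⟩
      have := hc.image continuous_snd
      rwa [Set.snd_image_prod hJ'] at this
    · exact absurd h1 hJ'.ne_empty
    · exact absurd h1 hU'.ne_empty

theorem fcyc_rect_empty (O : Set X) : (∅ : Set (unitInterval × X)) ∈ fcyRect X O :=
  ⟨∅, ∅, isOpen_empty, Set.ordConnected_empty, fun h => h.1, isOpen_empty, Set.empty_subset _,
    Set.empty_prod.symm⟩

/-- **`FT` is inherited.**  `fcf_basis` with the rectangles `fcyRect X univ`.  `J × U ⋐ J' × U'` nonempty `⇒` `U ⋐ U'`, `J ⊆ J'`.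
`0 ∈ J` or `1 ∈ J`: acyclic.  Otherwise `n = τ_c ⊗ m₀ + D n'`, `m₀ = e + d w` with `e ∈ E`, `w ∈ M(U')`:
`n = τ_c ⊗ e + D (n' - τ_c ⊗ w)`; the space `τ_c ⊗ E` is finite dimensional.
Interpolation of rectangles: intervals with end points in between, `fcf_interp` in `X`. -/
theorem fcy_FT [LocallyCompactSpace X] (M : FcD X) (h : M.FT) : (fcyCyl M).FT := by
  refine fcf_basis (fcyCyl M) (fcyRect X Set.univ) (fcyRect_open Set.univ) (fcyRect_inter Set.univ)
    ?_ ?_ ?_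
  · -- interpolation
    rintro B ⟨J, U, hJ, hJc, h01, hU, -, rfl⟩ B' ⟨J', U', hJ', hJc', h01', hU', -, rfl⟩ hc hsub
    rcases fcyc_rect_cases J J' U U' hc hsub with he | ⟨-, -, h1, h2, h3⟩
    · refine ⟨∅, fcyc_rect_empty _, ?_, ?_, ?_⟩
      · rw [closure_empty]; exact isCompact_empty
      · rw [he, closure_empty]
      · rw [closure_empty]; exact Set.empty_subset _
    · obtain ⟨J'', a1, a2, a3, a4⟩ := fcyc_interp J J' hJc hJ' h1
      obtain ⟨U'', b1, b2, b3, b4⟩ := fcf_interp hU' h3 h2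
      refine ⟨J'' ×ˢ U'', ⟨J'', U'', a1, a2, fun h => h01' ⟨a4 (subset_closure h.1),
        a4 (subset_closure h.2)⟩, b1, Set.subset_univ _, rfl⟩, ?_, ?_, ?_⟩
      · rw [closure_prod_eq]
        exact isClosed_closure.isCompact.prod b2
      · rw [closure_prod_eq]
        exact Set.prod_mono a3 b3
      · rw [closure_prod_eq]
        exact Set.prod_mono a4 b4
  · -- basis
    intro W hW p hp
    obtain ⟨R, ⟨J', U', hJ', hJc', h01', hU', -, rfl⟩, hpR, hRW⟩ :=
      fcyRect_basis Set.univ W hW (fun q _ => ⟨trivial, trivial⟩) p hp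
    obtain ⟨J, a1, a2, a3, a4⟩ := fcyc_interp {p.1} J' Set.ordConnected_singleton hJ' (by
      rw [closure_singleton]
      exact Set.singleton_subset_iff.2 hpR.1)
    obtain ⟨U, b1, b2, b3, b4⟩ := fcfb_nhd (K := {p.2}) isCompact_singleton hU'
      (Set.singleton_subset_iff.2 hpR.2)
    refine ⟨J ×ˢ U, ⟨J, U, a1, a2, fun h => h01' ⟨a4 (subset_closure h.1),
      a4 (subset_closure h.2)⟩, b1, Set.subset_univ _, rfl⟩, J' ×ˢ U',
      ⟨J', U', hJ', hJc', h01', hU', Set.subset_univ _, rfl⟩, ?_, ?_, ?_, hRW⟩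
    · exact ⟨a3 (subset_closure rfl), b2 rfl⟩
    · rw [closure_prod_eq]
      exact isClosed_closure.isCompact.prod b3
    · rw [closure_prod_eq]
      exact Set.prod_mono a4 b4
  · -- finiteness on rectangles
    rintro B ⟨J, U, hJ, hJc, h01, hU, -, rfl⟩ B' ⟨J', U', hJ', hJc', h01', hU', -, rfl⟩ hc hsub
    rcases fcyc_rect_cases J J' U U' hc hsub with he | ⟨⟨c, hcJ⟩, -, h1, h2, h3⟩
    · rw [he]
      exact fcfc_finAt_empty _ _
    · have hBB' : J ×ˢ U ⊆ J' ×ˢ U' := subset_closure.trans hsub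
      by_cases hend : (0 : unitInterval) ∈ J ∨ (1 : unitInterval) ∈ J
      · exact fcf_finAt_of_acycAt _ hBB' (fcyc_rect_half M J hJ hJc h01 hend U hU)
      · rw [not_or] at hend
        obtain ⟨E, hE, hfin⟩ := h U U' hU hU' h3 h2
        refine ⟨E.map (fcyTau M c), inferInstance, fun n hn hdn => ?_⟩
        obtain ⟨m₀, n', hm₀, hdm₀, hn', e⟩ := fcy_mid M J hJ hJc hend.1 hend.2 c hcJ U hU n hn hdn
        obtain ⟨e₀, he₀, w, hw, hr⟩ := hfin m₀ hm₀ hdm₀
        refine ⟨fcyTau M c e₀, Submodule.mem_map_of_mem he₀, n' - fcyTau M c w, ?_, ?_⟩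
        · refine ((fcyCyl M).supp_sub _ _).trans (Set.union_subset (hn'.trans hBB') ?_)
          exact (fcyTau_supp M c w).trans
            (Set.prod_mono (Set.singleton_subset_iff.2 (h1 (subset_closure hcJ))) hw)
        · rw [map_sub, fcyTau_d, ← hr, e, map_sub]
          abel

/-- realises the equation lemmas here (unique names) -/
theorem fcy_htp_eqns_cite : True := by
  have := @fcyPull.eq_1
  have := @fcyqPt.eq_1
  have := @fcyqPr.eq_1
  have := @fcyqPl.eq_1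
  have := @fcyqSh.eq_1
  have := @fcyqSh.eq_2
  have := @fcyPrismPt.eq_1
  have := @fcyPrism.eq_1
  have := @fcySig.eq_1
  have := @fcyConst.eq_1
  have := @fcyShadow.eq_1
  have := @fcyRect.eq_1
  trivial

end Claimed.Agent.R304
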