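/-
Row 304 (S0559, Hilbert-Smith).  Owner/designer: helper154.  LAYER S, package `FcCylPair`:
LEFSCHETZ DUALITY OF THE CYLINDER, general form.  Prefix `fcy` / `Fcy`.

DATA (`FcyPair X`): `M, M' : FcD X`, a sign `κ`, a local pairing `b : M × M' → ℝ` with `b (d x) y = κ b x (d y)`, and a local pairing
`h : N × N' → ℝ` of the cylinders `N = fcyCyl M`, `N' = fcyCyl M'` with the STOKES FORMULA
      `h n (D n') + κ h (D n) n' = b (ev_1 n) (ev_1 n') - b (ev_0 n) (ev_0 n')`.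
OBJECT  `P.S = N × ((M × M) × N'^∨)` over `I × X` (the two copies of `M` sit over `{1} × X`, `{0} × X`),
      `D (n, (p₁, p₀), ν) = (- D n, (ev_1 n + d p₁, ev_0 n + d p₀), h n + κ (b p₁ (ev_1 ·) - b p₀ (ev_0 ·)) - κ ν ∘ D)`.
MAIN THEOREM `fcy_pair_acycOn`:   `cone (ad_b : M → M'^∨)` acyclic on `O`  ⟹  `P.S` acyclic on `I × O`.
APPLICATIONS: (1) `M = M'`, `b` a form, `h = fcyH x`: `P.S = (fcyDat x).S.M` (file `FcCylDat`);
              (2) `M = A^∨`, `M' = A`, `b` = evaluation, `h = fcyHP 1 b`: `P.S` is acyclic for EVERY `A`; this gives `Cyl (A^∨) ∈ T'` from `Cyl A ∈ T'` (file `FcCylFun`).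

PROOF.  By LG2 on the rectangles `J × U` of `fcyRect X O` (`fcy_acycOn_of_rect`) there are three cases.
(mid) `0, 1 ∉ J`.  (`J = ∅` trivial; fix `c ∈ J`, `0 < c`.)  Sections: `(n, 0, ν)`.  A cycle: `D n = 0`, `h n = κ ν ∘ D`.
   1. `n = τ_c ⊗ m₀ + D n₁` (`fcy_mid`); subtract `D (- n₁, 0, 0)`: w.l.o.g. `n = τ_c ⊗ m₀`, `d m₀ = 0`.
   2. evaluate on `c m`: by `fcy_pair_tau`  `κ b m₀ m - κ λ (d m) = h (τ_c ⊗ m₀) (c m) = κ ν (c (d m))`; so `ad m₀ = d^∨ (γ ν + λ)` in `M'^∨(U)`; `ad` is a q.i. at `U`: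
      `m₀ = d w`; `τ_c ⊗ d w = - D (τ_c ⊗ w)`: w.l.o.g. `n = 0`, `ν` closed.
   3. `μ = γ ν ∈ M'^∨(U)` is closed: `μ = ad m₁ + κ μ' ∘ d`; `n' = κ τ_c ⊗ m₁`; `ν₂ = ν - h n'` is closed (Stokes, `ev_s n' = 0`),
      `γ ν₂ = d^∨ (κ μ' + λ₁)`; `fcy_gamma_inj`: `ν₂ = ν' ∘ D`.  Then `(0, 0, ν) = D (- n', 0, - κ ν')` up to the obvious signs.
(zero) `0 ∈ J`, `1 ∉ J`.  Sections `(n, (0, p₀), ν)`.  `N (J × U)` is acyclic (`fcy_acyc_half`, `t₀ = 1`): w.l.o.g. `n = 0`; then `d p₀ = 0`, `b p₀ (ev_0 ·) = - ν ∘ D`;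
      on `c m`: `ad p₀ = - d^∨ (γ ν)`, so `p₀ = d w`: w.l.o.g. `p₀ = 0`, `ν` closed; `μ = γ ν = ad m₁ + κ μ' ∘ d`; `p' = - κ m₁`: `ν₂ = ν - b m₁ (ev_0 ·)`; `fcy_gamma_inj`.
(one)  symmetric, with `ev_1`, `t₀ = 0` and the opposite sign.
Estimated 1400 lines.
-/
import Claimed.Agent.R304.FcCylHtp

set_option autoImplicit false

namespace Claimed.Agent.R304

open Topology

variable {X : Type} [TopologicalSpace X] [T2Space X]

/-! ### 1. `γ : N^∨ → M^∨` -/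

/-- obligation of `fcyGamma` -/
theorem fcyp_gamma_aux (M : FcD X) (ν : (fcyCyl M).dual.C) (m : M.C)
    (hm : Disjoint (M.supp m) (Prod.snd '' (fcyCyl M).dual.supp ν)) :
    (ν.1 ∘ₗ fcyTen M (fun _ => 1)) m = 0 := by
  show ν.1 (fcyTen M (fun _ => 1) m) = 0
  refine (fcyCyl M).toFcObj.dual_apply_eq_zero ν.1 _ ?_
  rw [Set.disjoint_left]
  intro p hp hpν
  have h1 := fcyTen_supp M (fun _ => 1) m hp
  exact Set.disjoint_left.1 hm h1.2 ⟨p, hpν, rfl⟩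

/-- `ν ↦ ν ∘ c`, `N^∨ → M^∨` -/
noncomputable def fcyGamma (M : FcD X) (ν : (fcyCyl M).dual.C) : M.dual.C :=
  fcgMkDual M (ν.1 ∘ₗ fcyTen M (fun _ => 1)) (Prod.snd '' (fcyCyl M).dual.supp ν)
    (((fcyCyl M).dual.supp_compact ν).image continuous_snd) (fcyp_gamma_aux M ν)

theorem fcyGamma_supp (M : FcD X) (ν : (fcyCyl M).dual.C) :
    M.dual.supp (fcyGamma M ν) ⊆ Prod.snd '' (fcyCyl M).dual.supp ν :=
  fcgMkDual_supp _ _ _ _ _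

theorem fcyGamma_ap (M : FcD X) (ν : (fcyCyl M).dual.C) (m : M.C) :
    fcAp (fcyGamma M ν) m = fcAp ν (fcyTen M (fun _ => 1) m) := rfl

theorem fcyGamma_d (M : FcD X) (ν : (fcyCyl M).dual.C) :
    fcyGamma M ((fcyCyl M).dual.d ν) = M.dual.d (fcyGamma M ν) := by
  apply fck_dual_ext
  intro m
  show ν.1 ((fcyCyl M).d (fcyTen M (fun _ => 1) m)) = ν.1 (fcyTen M (fun _ => 1) (M.d m))
  rw [fcyTen_one_d]

/-- `γ` IS INJECTIVE IN HOMOLOGY.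
`K' = [a', b'] × L`, `[a', b']` the convex hull of `pr₁ (supp ν)` (`⊆ J`), `L = pr₂ (supp ν) ∪ supp μ'` (`⊆ U`).  (`ν = 0` if `supp ν = ∅`.)
A relative cycle `n` of `Γ(K'; N)` is `c m + D n' + u`, `d m` off `L`, `u` off `K'` (`fcy_I1`, `U := univ`):
`ν n = μ' (d m) + (d^∨ ν) n' + ν u = 0`.  `fcg_dv_cobound` with `W' = N (K'ᶜ)`; `fcgMkDual`. -/
theorem fcy_gamma_inj (M : FcD X) (J : Set unitInterval) (hJc : J.OrdConnected)
    (U : Set X) (ν : (fcyCyl M).dual.C) (hν : (fcyCyl M).dual.supp ν ⊆ J ×ˢ U)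
    (hd : (fcyCyl M).dual.d ν = 0) (μ' : M.dual.C) (hμ' : M.dual.supp μ' ⊆ U)
    (h : fcyGamma M ν = M.dual.d μ') :
    ∃ ν', (fcyCyl M).dual.supp ν' ⊆ J ×ˢ U ∧ ν = (fcyCyl M).dual.d ν' := by
  by_cases hne : ((fcyCyl M).dual.supp ν).Nonempty
  swap
  · have h0 : ν = 0 :=
      ((fcyCyl M).dual.supp_empty_iff ν).1 (Set.not_nonempty_iff_eq_empty.1 hne)
    refine ⟨0, ?_, ?_⟩
    · rw [(fcyCyl M).dual.supp_zero]
      exact Set.empty_subset _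
    · rw [h0, map_zero]
  have hK := (fcyCyl M).dual.supp_compact ν
  obtain ⟨pa, hpa, hmin⟩ := hK.exists_isMinOn hne continuous_fst.continuousOn
  obtain ⟨pb, hpb, hmax⟩ := hK.exists_isMaxOn hne continuous_fst.continuousOn
  have hab : pa.1 ≤ pb.1 := hmin hpb
  obtain ⟨L, hL⟩ : ∃ L : Set X, L = Prod.snd '' (fcyCyl M).dual.supp ν ∪ M.dual.supp μ' :=
    ⟨_, rfl⟩
  have hLc : IsCompact L := by
    rw [hL]
    exact (hK.image continuous_snd).union (M.dual.supp_compact μ')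
  have hLU : L ⊆ U := by
    rw [hL]
    refine Set.union_subset ?_ hμ'
    rintro x ⟨p, hp, rfl⟩
    exact (hν hp).2
  have hIJ : Set.Icc pa.1 pb.1 ⊆ J := hJc.out (hν hpa).1 (hν hpb).1
  have hνK : (fcyCyl M).dual.supp ν ⊆ Set.Icc pa.1 pb.1 ×ˢ L := by
    intro p hp
    refine ⟨⟨hmin hp, hmax hp⟩, ?_⟩
    rw [hL]
    exact Or.inl ⟨p, hp, rfl⟩
  have hKc : IsCompact (Set.Icc pa.1 pb.1 ×ˢ L) := isClosed_Icc.isCompact.prod hLc
  obtain ⟨ψ, hψ0, hψ1⟩ := fcg_dv_cobound (fcyCyl M).d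
    ((fcyCyl M).sec (Set.Icc pa.1 pb.1 ×ˢ L)ᶜ) ν.1 (by
      intro n hn
      have hdn : Disjoint ((fcyCyl M).supp ((fcyCyl M).d n)) (Set.Icc pa.1 pb.1 ×ˢ L) :=
        Set.disjoint_left.2 fun x hx hxK => hn hx hxK
      obtain ⟨m, n', -, hm, -, hu⟩ := fcy_I1 M pa.1 pb.1 hab L hLc.isClosed Set.univ isOpen_univ n
        (fun p _ => ⟨trivial, trivial⟩) hdn
      have e : n = (n - fcyTen M (fun _ => 1) m - (fcyCyl M).d n') + fcyTen M (fun _ => 1) m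
          + (fcyCyl M).d n' := by abel
      have h1 : ν.1 (n - fcyTen M (fun _ => 1) m - (fcyCyl M).d n') = 0 :=
        (fcyCyl M).toFcObj.dual_apply_eq_zero ν.1 _ (Set.disjoint_of_subset_right hνK hu)
      have h2 : ν.1 (fcyTen M (fun _ => 1) m) = μ'.1 (M.d m) :=
        congrArg (fun φ : M.dual.C => φ.1 m) h
      have h3 : μ'.1 (M.d m) = 0 := by
        refine M.toFcObj.dual_apply_eq_zero μ'.1 _ (Set.disjoint_of_subset_right ?_ hm)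
        rw [hL]
        exact Set.subset_union_right
      have h4 : ν.1 ((fcyCyl M).d n') = 0 := congrArg (fun φ : (fcyCyl M).dual.C => φ.1 n') hd
      rw [e, map_add, map_add, h1, h2, h3, h4]
      simp)
  refine ⟨fcgMkDual (fcyCyl M) ψ (Set.Icc pa.1 pb.1 ×ˢ L) hKc
    (fun n hn => hψ0 n (fun x hx hxK => Set.disjoint_left.1 hn hx hxK)), ?_, ?_⟩
  · exact (fcgMkDual_supp _ _ _ _ _).trans (Set.prod_mono hIJ hLU)
  · apply fck_dual_ext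
    intro n
    exact (hψ1 n).symm

/-! ### 2. Pairs -/

/-- a pairing of differential objects together with a Stokes pairing of the cylinders -/
structure FcyPair (X : Type) [TopologicalSpace X] [T2Space X] where
  /-- the first object -/
  M : FcD X
  /-- the second object -/
  M' : FcD X
  /-- the sign -/
  κ : ℝ
  κ_sq : κ * κ = 1
  /-- the pairing -/
  b : M.C →ₗ[ℝ] M'.C →ₗ[ℝ] ℝ
  loc : FcLoc2 M M' b
  adj : ∀ x y, b (M.d x) y = κ * b x (M'.d y)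
  /-- the pairing of the cylinders -/
  h : (fcyCyl M).C →ₗ[ℝ] (fcyCyl M').C →ₗ[ℝ] ℝ
  h_loc : FcLoc2 (fcyCyl M) (fcyCyl M') h
  h_eq : ∀ n n', h n ((fcyCyl M').d n') + κ * h ((fcyCyl M).d n) n' =
    b (fcyEvL M 1 n) (fcyEvL M' 1 n') - b (fcyEvL M 0 n) (fcyEvL M' 0 n')

/-- the standard pair of a pairing: `h = fcyHP κ b` -/
noncomputable def fcyPairMk (M M' : FcD X) (κ : ℝ) (hκ : κ * κ = 1) (b : M.C →ₗ[ℝ] M'.C →ₗ[ℝ] ℝ)
    (hb : FcLoc2 M M' b) (hadj : ∀ x y, b (M.d x) y = κ * b x (M'.d y)) : FcyPair X where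
  M := M
  M' := M'
  κ := κ
  κ_sq := hκ
  b := b
  loc := hb
  adj := hadj
  h := fcyHP κ b hb
  h_loc := fcyHP_loc κ b hb
  h_eq := fcyHP_eq κ hκ b hb hadj

/-- the adjoint `M → (M'^∨, κ d^∨)` -/
def FcyPair.ad (P : FcyPair X) : FcHom P.M (P.M'.dual.resc P.κ) where
  f := fcCurry P.b P.loc
  loc := fck_curry_loc P.b P.loc
  comm := fun m => by
    apply Subtype.ext
    apply LinearMap.ext
    intro n
    exact P.adj m n

/-- obligation of `FcyPair.evD` -/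
theorem FcyPair.evD_aux (P : FcyPair X) (s : unitInterval) (p : P.M.C) (n : (fcyCyl P.M').C)
    (hn : Disjoint ((fcyCyl P.M').supp n) ({s} ×ˢ P.M.supp p)) :
    ((P.b p) ∘ₗ fcyEvL P.M' s) n = 0 := by
  show P.b p (fcyEvL P.M' s n) = 0
  refine P.loc p _ ?_
  rw [Set.disjoint_left]
  intro x hx hx'
  exact Set.disjoint_left.1 hn (fcyEvL_supp P.M' s n x hx') ⟨rfl, hx⟩

/-- `p ↦ b p (ev_s ·)`, `M → N'^∨`; the functional is supported in `{s} × supp p` -/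
noncomputable def FcyPair.evD (P : FcyPair X) (s : unitInterval) :
    P.M.C →ₗ[ℝ] (fcyCyl P.M').dual.C where
  toFun := fun p => ⟨(P.b p) ∘ₗ fcyEvL P.M' s, {s} ×ˢ P.M.supp p,
    isCompact_singleton.prod (P.M.supp_compact p), P.evD_aux s p⟩
  map_add' := fun p p' => by
    apply Subtype.ext
    apply LinearMap.ext
    intro n
    show P.b (p + p') (fcyEvL P.M' s n) = P.b p (fcyEvL P.M' s n) + P.b p' (fcyEvL P.M' s n)
    rw [map_add, LinearMap.add_apply]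
  map_smul' := fun c p => by
    apply Subtype.ext
    apply LinearMap.ext
    intro n
    show P.b (c • p) (fcyEvL P.M' s n) = c • P.b p (fcyEvL P.M' s n)
    rw [map_smul, LinearMap.smul_apply]

theorem FcyPair.evD_supp (P : FcyPair X) (s : unitInterval) (p : P.M.C) :
    (fcyCyl P.M').dual.supp (P.evD s p) ⊆ {s} ×ˢ P.M.supp p :=
  (fcyCyl P.M').toFcObj.dualSupp_subset_of_closed _
    (isClosed_singleton.prod (P.M.supp_closed p)) (P.evD_aux s p)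

/-- the differential of `P.S` -/
noncomputable def FcyPair.Sd (P : FcyPair X) :
    ((fcyCyl P.M).C × ((P.M.C × P.M.C) × (fcyCyl P.M').dual.C)) →ₗ[ℝ]
      ((fcyCyl P.M).C × ((P.M.C × P.M.C) × (fcyCyl P.M').dual.C)) :=
  ((-(fcyCyl P.M).d) ∘ₗ LinearMap.fst ℝ _ _).prod
    ((((fcyEvL P.M 1).prod (fcyEvL P.M 0)) ∘ₗ LinearMap.fst ℝ _ _ +
        (P.M.d.prodMap P.M.d) ∘ₗ LinearMap.fst ℝ _ _ ∘ₗ LinearMap.snd ℝ _ _).prod
      (fcCurry P.h P.h_loc ∘ₗ LinearMap.fst ℝ _ _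
        + P.κ • ((P.evD 1 ∘ₗ LinearMap.fst ℝ _ _ - P.evD 0 ∘ₗ LinearMap.snd ℝ _ _) ∘ₗ
            LinearMap.fst ℝ _ _ ∘ₗ LinearMap.snd ℝ _ _)
        - P.κ • ((fcyCyl P.M').dual.d ∘ₗ LinearMap.snd ℝ _ _ ∘ₗ LinearMap.snd ℝ _ _)))

theorem FcyPair.Sd_apply (P : FcyPair X) (n : (fcyCyl P.M).C) (p₁ p₀ : P.M.C)
    (ν : (fcyCyl P.M').dual.C) :
    P.Sd (n, ((p₁, p₀), ν)) =
      (- (fcyCyl P.M).d n, ((fcyEvL P.M 1 n + P.M.d p₁, fcyEvL P.M 0 n + P.M.d p₀),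
        fcCurry P.h P.h_loc n + P.κ • (P.evD 1 p₁ - P.evD 0 p₀)
          - P.κ • (fcyCyl P.M').dual.d ν)) := rfl

/-- obligation `d_loc` of `P.S` -/
theorem FcyPair.Sd_loc (P : FcyPair X)
    (σ : (fcyCyl P.M).C × ((P.M.C × P.M.C) × (fcyCyl P.M').dual.C)) :
    ((fcyCyl P.M).toFcObj.prod
      (((P.M.push (fcyInc X 1)).toFcObj.prod (P.M.push (fcyInc X 0)).toFcObj).prod
        (fcyCyl P.M').dual.toFcObj)).supp (P.Sd σ) ⊆
    ((fcyCyl P.M).toFcObj.prod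
      (((P.M.push (fcyInc X 1)).toFcObj.prod (P.M.push (fcyInc X 0)).toFcObj).prod
        (fcyCyl P.M').dual.toFcObj)).supp σ := by
  obtain ⟨n, ⟨p₁, p₀⟩, ν⟩ := σ
  show (fcyCyl P.M).supp (-(fcyCyl P.M).d n) ∪
      (((fcyInc X 1) '' P.M.supp (fcyEvL P.M 1 n + P.M.d p₁) ∪
        (fcyInc X 0) '' P.M.supp (fcyEvL P.M 0 n + P.M.d p₀)) ∪
      (fcyCyl P.M').dual.supp (fcCurry P.h P.h_loc n + P.κ • (P.evD 1 p₁ - P.evD 0 p₀)
          - P.κ • (fcyCyl P.M').dual.d ν)) ⊆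
    (fcyCyl P.M).supp n ∪ (((fcyInc X 1) '' P.M.supp p₁ ∪ (fcyInc X 0) '' P.M.supp p₀) ∪
      (fcyCyl P.M').dual.supp ν)
  rintro q (hq | (hq | hq) | hq)
  · exact Or.inl ((fcyCyl P.M).d_loc _ ((fcyCyl P.M).supp_neg _ hq))
  · obtain ⟨x, hx, rfl⟩ := hq
    rcases P.M.supp_add _ _ hx with h | h
    · exact Or.inl (fcyEvL_supp P.M 1 n x h)
    · exact Or.inr (Or.inl (Or.inl ⟨x, P.M.d_loc _ h, rfl⟩))
  · obtain ⟨x, hx, rfl⟩ := hq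
    rcases P.M.supp_add _ _ hx with h | h
    · exact Or.inl (fcyEvL_supp P.M 0 n x h)
    · exact Or.inr (Or.inl (Or.inr ⟨x, P.M.d_loc _ h, rfl⟩))
  · rcases (fcyCyl P.M').dual.supp_sub _ _ hq with h | h
    · rcases (fcyCyl P.M').dual.supp_add _ _ h with h | h
      · exact Or.inl (fck_curry_loc P.h P.h_loc n h)
      · rcases (fcyCyl P.M').dual.supp_sub _ _ ((fcyCyl P.M').dual.supp_smul _ _ h) with h | h
        · have h' := P.evD_supp 1 p₁ h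
          exact Or.inr (Or.inl (Or.inl ⟨q.2, h'.2, Prod.ext h'.1.symm rfl⟩))
        · have h' := P.evD_supp 0 p₀ h
          exact Or.inr (Or.inl (Or.inr ⟨q.2, h'.2, Prod.ext h'.1.symm rfl⟩))
    · exact Or.inr (Or.inr ((fcyCyl P.M').dual.d_loc _ ((fcyCyl P.M').dual.supp_smul _ _ h)))

/-- obligation `d_sq` of `P.S` -/
theorem FcyPair.Sd_sq (P : FcyPair X)
    (σ : (fcyCyl P.M).C × ((P.M.C × P.M.C) × (fcyCyl P.M').dual.C)) : P.Sd (P.Sd σ) = 0 := by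
  obtain ⟨n, ⟨p₁, p₀⟩, ν⟩ := σ
  rw [FcyPair.Sd_apply, FcyPair.Sd_apply]
  refine Prod.ext ?_ (Prod.ext (Prod.ext ?_ ?_) ?_)
  · show -(fcyCyl P.M).d (-(fcyCyl P.M).d n) = 0
    rw [map_neg, (fcyCyl P.M).d_sq]
    simp
  · show fcyEvL P.M 1 (-(fcyCyl P.M).d n) + P.M.d (fcyEvL P.M 1 n + P.M.d p₁) = 0
    rw [map_neg, fcyEvL_d, map_add, P.M.d_sq]
    simp
  · show fcyEvL P.M 0 (-(fcyCyl P.M).d n) + P.M.d (fcyEvL P.M 0 n + P.M.d p₀) = 0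
    rw [map_neg, fcyEvL_d, map_add, P.M.d_sq]
    simp
  · apply fck_dual_ext
    intro n'
    show P.h (-(fcyCyl P.M).d n) n' +
        P.κ * (P.b (fcyEvL P.M 1 n + P.M.d p₁) (fcyEvL P.M' 1 n')
          - P.b (fcyEvL P.M 0 n + P.M.d p₀) (fcyEvL P.M' 0 n'))
        - P.κ * (P.h n ((fcyCyl P.M').d n')
          + P.κ * (P.b p₁ (fcyEvL P.M' 1 ((fcyCyl P.M').d n'))
            - P.b p₀ (fcyEvL P.M' 0 ((fcyCyl P.M').d n')))
          - P.κ * ν.1 ((fcyCyl P.M').d ((fcyCyl P.M').d n'))) = 0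
    have hS := P.h_eq n n'
    rw [map_neg, LinearMap.neg_apply, map_add, map_add, LinearMap.add_apply, LinearMap.add_apply,
      P.adj, P.adj, fcyEvL_d, fcyEvL_d, (fcyCyl P.M').d_sq, map_zero]
    linear_combination (-P.κ) * hS + (P.h ((fcyCyl P.M).d n) n') * P.κ_sq

/-- **THE OBJECT `P.S`.**  `d_sq`: `β (lam n) = h n ∘ D + κ h (D n)` (Stokes), `β (d p) = κ β p ∘ D` (`adj`, `ev` chain map), `κ² = 1`. -/
noncomputable def FcyPair.S (P : FcyPair X) : FcD (unitInterval × X) :=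
  { (fcyCyl P.M).toFcObj.prod
      (((P.M.push (fcyInc X 1)).toFcObj.prod (P.M.push (fcyInc X 0)).toFcObj).prod
        (fcyCyl P.M').dual.toFcObj) with
    d := P.Sd
    d_loc := P.Sd_loc
    d_sq := P.Sd_sq }

theorem FcyPair.S_d (P : FcyPair X) (n : (fcyCyl P.M).C) (p₁ p₀ : P.M.C)
    (ν : (fcyCyl P.M').dual.C) :
    P.S.d (n, ((p₁, p₀), ν)) =
      (- (fcyCyl P.M).d n, ((fcyEvL P.M 1 n + P.M.d p₁, fcyEvL P.M 0 n + P.M.d p₀),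
        fcCurry P.h P.h_loc n + P.κ • (P.evD 1 p₁ - P.evD 0 p₀)
          - P.κ • (fcyCyl P.M').dual.d ν)) := rfl

theorem FcyPair.S_supp (P : FcyPair X) (n : (fcyCyl P.M).C) (p₁ p₀ : P.M.C)
    (ν : (fcyCyl P.M').dual.C) :
    P.S.supp (n, ((p₁, p₀), ν)) =
      (fcyCyl P.M).supp n ∪ (((fun y => ((1 : unitInterval), y)) '' P.M.supp p₁ ∪
        (fun y => ((0 : unitInterval), y)) '' P.M.supp p₀) ∪ (fcyCyl P.M').dual.supp ν) := rfl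

/-! ### 3. The evaluation formula -/

/-- Stokes for `n = 1_c ⊗ m₀`, `n' = c m`:  `D n = τ_c ⊗ m₀` (as `d m₀ = 0`), `ev_1 n = m₀`, `ev_0 n = 0` (`c > 0`).
`λ m = h (1_c ⊗ m₀) (c m)`, supported in `supp m₀` by the locality of `h`. -/
theorem fcy_pair_tau (P : FcyPair X) (c : unitInterval) (hc : 0 < c) (m₀ : P.M.C)
    (hm₀ : P.M.d m₀ = 0) :
    ∃ lam : P.M'.dual.C, P.M'.dual.supp lam ⊆ P.M.supp m₀ ∧
      ∀ m, P.h (fcyTau P.M c m₀) (fcyTen P.M' (fun _ => 1) m) =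
        P.κ * P.b m₀ m - P.κ * fcAp lam (P.M'.d m) := by
  have hτ : fcyTau P.M c m₀ = (fcyCyl P.M).d (fcyTen P.M (fcyInd c) m₀) := by
    show (fcyCyl P.M).d (fcyTen P.M (fcyInd c) m₀) - fcyTen P.M (fcyInd c) (P.M.d m₀) = _
    rw [hm₀, map_zero, sub_zero]
  refine ⟨fcyGamma P.M' (fcCurry P.h P.h_loc (fcyTen P.M (fcyInd c) m₀)), ?_, fun m => ?_⟩
  · refine (fcyGamma_supp _ _).trans ?_
    rintro x ⟨p, hp, rfl⟩
    exact (fcyTen_supp P.M _ m₀ (fck_curry_loc P.h P.h_loc _ hp)).2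
  · have hS := P.h_eq (fcyTen P.M (fcyInd c) m₀) (fcyTen P.M' (fun _ => 1) m)
    have h1 : fcyInd c 1 = 1 := if_pos unitInterval.le_one'
    have h0 : fcyInd c 0 = 0 := if_neg (not_le.2 hc)
    rw [fcyTen_one_d, fcyEvL_ten, fcyEvL_ten, fcyEvL_ten, fcyEvL_ten, ← hτ, h1, h0, one_smul,
      one_smul, zero_smul, map_zero, LinearMap.zero_apply, sub_zero] at hS
    show _ = P.κ * P.b m₀ m
      - P.κ * P.h (fcyTen P.M (fcyInd c) m₀) (fcyTen P.M' (fun _ => 1) (P.M'.d m))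
    linear_combination P.κ * hS
      - (P.h (fcyTau P.M c m₀) (fcyTen P.M' (fun _ => 1) m)) * P.κ_sq

/-! ### 4. The three cases and the main theorem -/

/-- the inclusion of the last factor `N'^∨ → P.S` -/
noncomputable def FcyPair.iD (P : FcyPair X) : (fcyCyl P.M').dual.C →ₗ[ℝ] P.S.C :=
  (LinearMap.inr ℝ (fcyCyl P.M).C ((P.M.C × P.M.C) × (fcyCyl P.M').dual.C)) ∘ₗ
    (LinearMap.inr ℝ (P.M.C × P.M.C) (fcyCyl P.M').dual.C)

theorem FcyPair.iD_apply (P : FcyPair X) (ν : (fcyCyl P.M').dual.C) :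
    P.iD ν = (0, ((0, 0), ν)) := rfl

theorem FcyPair.iD_inj (P : FcyPair X) {ν : (fcyCyl P.M').dual.C} (h : P.iD ν = 0) : ν = 0 :=
  congrArg (fun σ : (fcyCyl P.M).C × ((P.M.C × P.M.C) × (fcyCyl P.M').dual.C) => σ.2.2) h

theorem FcyPair.iD_supp (P : FcyPair X) (ν : (fcyCyl P.M').dual.C) :
    P.S.supp (P.iD ν) = (fcyCyl P.M').dual.supp ν := by
  show (fcyCyl P.M).supp 0 ∪ (((fun y => ((1 : unitInterval), y)) '' P.M.supp 0 ∪
        (fun y => ((0 : unitInterval), y)) '' P.M.supp 0) ∪ (fcyCyl P.M').dual.supp ν) = _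
  rw [(fcyCyl P.M).supp_zero, P.M.supp_zero]
  simp

theorem FcyPair.iD_d (P : FcyPair X) (ν : (fcyCyl P.M').dual.C) :
    P.S.d (P.iD ν) = P.iD (-(P.κ • (fcyCyl P.M').dual.d ν)) := by
  show ((- (fcyCyl P.M).d 0, ((fcyEvL P.M 1 0 + P.M.d 0, fcyEvL P.M 0 0 + P.M.d 0),
        fcCurry P.h P.h_loc 0 + P.κ • (P.evD 1 0 - P.evD 0 0)
          - P.κ • (fcyCyl P.M').dual.d ν)) :
      (fcyCyl P.M).C × ((P.M.C × P.M.C) × (fcyCyl P.M').dual.C)) =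
    (0, ((0, 0), -(P.κ • (fcyCyl P.M').dual.d ν)))
  simp only [map_zero, neg_zero, add_zero, sub_self, smul_zero, zero_sub]

theorem FcyPair.κ_ne (P : FcyPair X) : P.κ ≠ 0 := by
  intro h
  have := P.κ_sq
  rw [h] at this
  norm_num at this

theorem FcyPair.iD_closed (P : FcyPair X) {ν : (fcyCyl P.M').dual.C} (h : P.S.d (P.iD ν) = 0) :
    (fcyCyl P.M').dual.d ν = 0 := by
  rw [FcyPair.iD_d] at h
  have h1 := P.iD_inj h
  rw [neg_eq_zero] at h1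
  exact (smul_eq_zero.1 h1).resolve_left P.κ_ne

/-- subtracting a boundary -/
theorem fcyp_red {Y : Type} [TopologicalSpace Y] (A : FcD Y) (W : Set Y) (σ ρ₁ τ : A.C)
    (hσ : A.d σ = 0) (hρ₁ : A.supp ρ₁ ⊆ W) (e : σ = A.d ρ₁ + τ)
    (H : A.d τ = 0 → ∃ ρ, A.supp ρ ⊆ W ∧ A.d ρ = τ) : ∃ ρ, A.supp ρ ⊆ W ∧ A.d ρ = σ := by
  have hτ : A.d τ = 0 := by
    have h1 : τ = σ - A.d ρ₁ := by rw [e]; abel
    rw [h1, map_sub, hσ, A.d_sq, sub_zero]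
  obtain ⟨ρ, hρ, hd⟩ := H hτ
  refine ⟨ρ₁ + ρ, (A.supp_add _ _).trans (Set.union_subset hρ₁ hρ), ?_⟩
  rw [map_add, hd, e]

theorem fcyGamma_zero (M : FcD X) : fcyGamma M 0 = 0 := by
  apply fck_dual_ext
  intro m
  rfl

/-- an element of the cylinder supported off `{s} × X` has `ev_s = 0` -/
theorem fcyp_ev_zero (M : FcD X) (s : unitInterval) (J : Set unitInterval) (hs : s ∉ J)
    (U : Set X) (n : (fcyCyl M).C) (hn : (fcyCyl M).supp n ⊆ J ×ˢ U) : fcyEvL M s n = 0 := by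
  rw [← M.supp_empty_iff, ← Set.subset_empty_iff]
  intro x hx
  exact hs (hn (fcyEvL_supp M s n x hx)).1

theorem fcyp_ev_supp (M : FcD X) (s : unitInterval) (J : Set unitInterval)
    (U : Set X) (n : (fcyCyl M).C) (hn : (fcyCyl M).supp n ⊆ J ×ˢ U) :
    M.supp (fcyEvL M s n) ⊆ U :=
  fun x hx => (hn (fcyEvL_supp M s n x hx)).2

/-- THE COMMON PART OF THE THREE CASES.  `Lam : M → P.S` with `D (Lam m) = Lam (d m) + θ m`, `γ (θ m) = e ad m + d^∨ lam` for cycles `m`: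
every cycle `Lam m₀ + ν` of `P.S (J × U)` is a boundary. -/
theorem fcy_pair_abs (P : FcyPair X) (J : Set unitInterval) (hJc : J.OrdConnected) (U : Set X)
    (h : (fcCone P.ad).AcycAt U) (e : ℝ) (he : e ≠ 0)
    (Lam : P.M.C → P.S.C) (θ : P.M.C → (fcyCyl P.M').dual.C) (h0 : Lam 0 = 0)
    (ha : ∀ m, P.M.supp m ⊆ U → P.S.supp (Lam m) ⊆ J ×ˢ U)
    (hb : ∀ m, P.S.d (Lam m) = Lam (P.M.d m) + P.iD (θ m))
    (hc : ∀ m, P.M.supp m ⊆ U → P.M.d m = 0 → ∃ lam : P.M'.dual.C, P.M'.dual.supp lam ⊆ U ∧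
      ∀ m', fcAp (θ m) (fcyTen P.M' (fun _ => 1) m') = e * P.b m m' + fcAp lam (P.M'.d m'))
    (m₀ : P.M.C) (hm₀ : P.M.supp m₀ ⊆ U) (hdm₀ : P.M.d m₀ = 0)
    (ν : (fcyCyl P.M').dual.C) (hν : (fcyCyl P.M').dual.supp ν ⊆ J ×ˢ U)
    (hcyc : P.S.d (Lam m₀ + P.iD ν) = 0) :
    ∃ ρ, P.S.supp ρ ⊆ J ×ˢ U ∧ P.S.d ρ = Lam m₀ + P.iD ν := by
  -- supports of `θ w`
  have hθ : ∀ w, P.M.supp w ⊆ U → (fcyCyl P.M').dual.supp (θ w) ⊆ J ×ˢ U := by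
    intro w hw
    have e1 : P.iD (θ w) = P.S.d (Lam w) - Lam (P.M.d w) := by rw [hb]; abel
    rw [← P.iD_supp, e1]
    refine (P.S.supp_sub _ _).trans (Set.union_subset ((P.S.d_loc _).trans (ha w hw)) ?_)
    exact ha _ ((P.M.d_loc w).trans hw)
  have hγ : ∀ ξ : (fcyCyl P.M').dual.C, (fcyCyl P.M').dual.supp ξ ⊆ J ×ˢ U →
      P.M'.dual.supp (fcyGamma P.M' ξ) ⊆ U := by
    intro ξ hξ
    refine (fcyGamma_supp _ _).trans ?_
    rintro x ⟨p, hp, rfl⟩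
    exact (hξ hp).2
  -- stage 2: `m₀ = d w`
  have k1 : θ m₀ = P.κ • (fcyCyl P.M').dual.d ν := by
    rw [map_add, hb, hdm₀, h0, zero_add, P.iD_d, ← map_add] at hcyc
    have := P.iD_inj hcyc
    rwa [← sub_eq_add_neg, sub_eq_zero] at this
  obtain ⟨lam, hlam, hlam'⟩ := hc m₀ hm₀ hdm₀
  obtain ⟨φ₀, hφ₀⟩ : ∃ φ₀ : P.M'.dual.C, φ₀ = e⁻¹ • (fcyGamma P.M' ν - P.κ • lam) := ⟨_, rfl⟩
  have hφ₀s : P.M'.dual.supp φ₀ ⊆ U := by
    rw [hφ₀]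
    refine (P.M'.dual.supp_smul _ _).trans ((P.M'.dual.supp_sub _ _).trans
      (Set.union_subset (hγ ν hν) ((P.M'.dual.supp_smul _ _).trans hlam)))
  obtain ⟨⟨a, (φ : P.M'.dual.C)⟩, hs, hD⟩ := h ((m₀, -φ₀) : P.M.C × P.M'.dual.C)
    (Set.union_subset hm₀ ((P.M'.dual.supp_neg _).trans hφ₀s)) (by
      show ((-(P.M.d m₀), fcCurry P.b P.loc m₀ + P.κ • P.M'.dual.d (-φ₀)) :
        P.M.C × P.M'.dual.C) = 0
      refine Prod.ext ?_ ?_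
      · show -(P.M.d m₀) = 0
        rw [hdm₀, neg_zero]
      · apply fck_dual_ext
        intro m'
        have h1 := hlam' m'
        rw [k1] at h1
        have h2 : P.κ * fcAp ν (fcyTen P.M' (fun _ => 1) (P.M'.d m')) =
            e * P.b m₀ m' + fcAp lam (P.M'.d m') := by
          rw [← h1, ← fcyTen_one_d]
          rfl
        have h3 : P.b m₀ m' = e⁻¹ * (P.κ * fcAp ν (fcyTen P.M' (fun _ => 1) (P.M'.d m'))
            - fcAp lam (P.M'.d m')) := by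
          rw [h2]
          field_simp
          ring
        rw [hφ₀]
        show P.b m₀ m' + P.κ * (-(e⁻¹ * (fcAp ν (fcyTen P.M' (fun _ => 1) (P.M'.d m'))
          - P.κ * fcAp lam (P.M'.d m')))) = 0
        rw [h3]
        linear_combination (e⁻¹ * fcAp lam (P.M'.d m')) * P.κ_sq)
  have hD' : ((-(P.M.d a), fcCurry P.b P.loc a + P.κ • P.M'.dual.d φ) : P.M.C × P.M'.dual.C)
      = (m₀, -φ₀) := hD
  have hw : P.M.supp (-a) ⊆ U := (P.M.supp_neg _).trans (Set.subset_union_left.trans hs)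
  have hdw : P.M.d (-a) = m₀ := by
    rw [map_neg]
    exact congrArg Prod.fst hD'
  -- stage 3
  have e3 : P.iD (ν - θ (-a)) = Lam m₀ + P.iD ν - P.S.d (Lam (-a)) := by
    rw [hb, hdw, map_sub]
    abel
  have hd3 : (fcyCyl P.M').dual.d (ν - θ (-a)) = 0 := by
    apply P.iD_closed
    rw [e3, map_sub, hcyc, P.S.d_sq, sub_zero]
  have hs3 : (fcyCyl P.M').dual.supp (ν - θ (-a)) ⊆ J ×ˢ U :=
    ((fcyCyl P.M').dual.supp_sub _ _).trans (Set.union_subset hν (hθ _ hw))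
  obtain ⟨⟨a₁, (φ₁ : P.M'.dual.C)⟩, hs₁, hD₁⟩ := h ((0, fcyGamma P.M' (ν - θ (-a))) : P.M.C × P.M'.dual.C)
    (by
      show P.M.supp 0 ∪ P.M'.dual.supp (fcyGamma P.M' (ν - θ (-a))) ⊆ U
      rw [P.M.supp_zero, Set.empty_union]
      exact hγ _ hs3) (by
      show ((-(P.M.d 0), fcCurry P.b P.loc 0 + P.κ • P.M'.dual.d (fcyGamma P.M' (ν - θ (-a)))) :
        P.M.C × P.M'.dual.C) = 0
      rw [← fcyGamma_d, hd3, fcyGamma_zero]
      simp)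
  have hD₁' : ((-(P.M.d a₁), fcCurry P.b P.loc a₁ + P.κ • P.M'.dual.d φ₁) :
      P.M.C × P.M'.dual.C) = (0, fcyGamma P.M' (ν - θ (-a))) := hD₁
  have hda₁ : P.M.d a₁ = 0 := by
    have := congrArg Prod.fst hD₁'
    exact neg_eq_zero.1 this
  have hμ : fcCurry P.b P.loc a₁ + P.κ • P.M'.dual.d φ₁ = fcyGamma P.M' (ν - θ (-a)) :=
    congrArg Prod.snd hD₁'
  have hm₁ : P.M.supp (e⁻¹ • a₁) ⊆ U :=
    (P.M.supp_smul _ _).trans (Set.subset_union_left.trans hs₁)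
  have hφ₁ : P.M'.dual.supp φ₁ ⊆ U := Set.subset_union_right.trans hs₁
  have hdm₁ : P.M.d (e⁻¹ • a₁) = 0 := by rw [map_smul, hda₁, smul_zero]
  obtain ⟨lam₁, hlam₁, hlam₁'⟩ := hc _ hm₁ hdm₁
  have e4 : P.iD (ν - θ (-a) - θ (e⁻¹ • a₁)) = P.iD (ν - θ (-a)) - P.S.d (Lam (e⁻¹ • a₁)) := by
    rw [hb, hdm₁, h0, zero_add, ← map_sub]
  have hd4 : (fcyCyl P.M').dual.d (ν - θ (-a) - θ (e⁻¹ • a₁)) = 0 := by
    apply P.iD_closed
    rw [e4, map_sub, P.S.d_sq, sub_zero, P.iD_d, hd3]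
    simp
  have hs4 : (fcyCyl P.M').dual.supp (ν - θ (-a) - θ (e⁻¹ • a₁)) ⊆ J ×ˢ U :=
    ((fcyCyl P.M').dual.supp_sub _ _).trans (Set.union_subset hs3 (hθ _ hm₁))
  obtain ⟨ν', hν', hν'd⟩ := fcy_gamma_inj P.M' J hJc U _ hs4 hd4 (P.κ • φ₁ - lam₁)
    ((P.M'.dual.supp_sub _ _).trans (Set.union_subset ((P.M'.dual.supp_smul _ _).trans hφ₁) hlam₁))
    (by
      apply fck_dual_ext
      intro m'
      have h1 := hlam₁' m'
      have h2 : P.b a₁ m' + P.κ * fcAp φ₁ (P.M'.d m')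
          = fcAp (ν - θ (-a)) (fcyTen P.M' (fun _ => 1) m') :=
        congrArg (fun ξ : P.M'.dual.C => fcAp ξ m') hμ
      rw [map_smul, LinearMap.smul_apply, smul_eq_mul, ← mul_assoc, mul_inv_cancel₀ he,
        one_mul] at h1
      show fcAp (ν - θ (-a)) (fcyTen P.M' (fun _ => 1) m')
          - fcAp (θ (e⁻¹ • a₁)) (fcyTen P.M' (fun _ => 1) m')
        = P.κ * fcAp φ₁ (P.M'.d m') - fcAp lam₁ (P.M'.d m')
      rw [← h2, h1]
      ring)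
  refine ⟨Lam (-a) + Lam (e⁻¹ • a₁) + P.iD (-(P.κ • ν')), ?_, ?_⟩
  · refine (P.S.supp_add _ _).trans (Set.union_subset ((P.S.supp_add _ _).trans
      (Set.union_subset (ha _ hw) (ha _ hm₁))) ?_)
    rw [P.iD_supp]
    exact ((fcyCyl P.M').dual.supp_neg _).trans (((fcyCyl P.M').dual.supp_smul _ _).trans hν')
  · have e5 : -(P.κ • (fcyCyl P.M').dual.d (-(P.κ • ν'))) = ν - θ (-a) - θ (e⁻¹ • a₁) := by
      rw [map_neg, map_smul, smul_neg, neg_neg, smul_smul, P.κ_sq, one_smul, ← hν'd]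
    rw [map_add, map_add, hb, hb, hdw, hdm₁, h0, zero_add, P.iD_d, e5, map_sub, map_sub]
    abel

/-- STAGE 1 of the three cases: subtract `D (- n₁, 0, 0)` -/
theorem FcyPair.S_red (P : FcyPair X) (W : Set (unitInterval × X)) (n n₁ : (fcyCyl P.M).C)
    (p₁ p₀ : P.M.C) (ν : (fcyCyl P.M').dual.C) (hn₁ : (fcyCyl P.M).supp n₁ ⊆ W)
    (hd : P.S.d (n, ((p₁, p₀), ν)) = 0) (τ : P.S.C)
    (hτ : τ = (n - (fcyCyl P.M).d n₁, ((p₁ + fcyEvL P.M 1 n₁, p₀ + fcyEvL P.M 0 n₁),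
        ν + fcCurry P.h P.h_loc n₁)))
    (H : P.S.d τ = 0 → ∃ ρ, P.S.supp ρ ⊆ W ∧ P.S.d ρ = τ) :
    ∃ ρ, P.S.supp ρ ⊆ W ∧ P.S.d ρ = (n, ((p₁, p₀), ν)) := by
  refine fcyp_red P.S W _ ((-n₁, ((0, 0), 0)) : (fcyCyl P.M).C × ((P.M.C × P.M.C) × (fcyCyl P.M').dual.C)) τ hd ?_ ?_ H
  · show (fcyCyl P.M).supp (-n₁) ∪ (((fun y => ((1 : unitInterval), y)) '' P.M.supp 0 ∪
        (fun y => ((0 : unitInterval), y)) '' P.M.supp 0) ∪ (fcyCyl P.M').dual.supp 0) ⊆ W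
    rw [P.M.supp_zero, (fcyCyl P.M').dual.supp_zero]
    simp only [Set.image_empty, Set.union_empty]
    exact ((fcyCyl P.M).supp_neg _).trans hn₁
  · rw [hτ]
    show ((n, ((p₁, p₀), ν)) : (fcyCyl P.M).C × ((P.M.C × P.M.C) × (fcyCyl P.M').dual.C)) =
      (-(fcyCyl P.M).d (-n₁) + (n - (fcyCyl P.M).d n₁),
        ((fcyEvL P.M 1 (-n₁) + P.M.d 0 + (p₁ + fcyEvL P.M 1 n₁),
          fcyEvL P.M 0 (-n₁) + P.M.d 0 + (p₀ + fcyEvL P.M 0 n₁)),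
        fcCurry P.h P.h_loc (-n₁) + P.κ • (P.evD 1 0 - P.evD 0 0)
          - P.κ • (fcyCyl P.M').dual.d 0 + (ν + fcCurry P.h P.h_loc n₁)))
    simp only [map_neg, map_zero, neg_neg, add_zero, sub_self, smul_zero, sub_zero,
      add_sub_cancel, neg_add_cancel_comm_assoc]

/-- the components of a section of `P.S` over `J × U` -/
theorem FcyPair.S_sec (P : FcyPair X) (J : Set unitInterval) (U : Set X) (n : (fcyCyl P.M).C)
    (p₁ p₀ : P.M.C) (ν : (fcyCyl P.M').dual.C) (hs : P.S.supp (n, ((p₁, p₀), ν)) ⊆ J ×ˢ U) :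
    (fcyCyl P.M).supp n ⊆ J ×ˢ U ∧ (fcyCyl P.M').dual.supp ν ⊆ J ×ˢ U ∧
      P.M.supp p₁ ⊆ U ∧ P.M.supp p₀ ⊆ U ∧ ((1 : unitInterval) ∉ J → p₁ = 0) ∧
      ((0 : unitInterval) ∉ J → p₀ = 0) := by
  rw [FcyPair.S_supp] at hs
  refine ⟨Set.subset_union_left.trans hs, fun q hq => hs (Or.inr (Or.inr hq)),
    fun x hx => (hs (Or.inr (Or.inl (Or.inl ⟨x, hx, rfl⟩)))).2,
    fun x hx => (hs (Or.inr (Or.inl (Or.inr ⟨x, hx, rfl⟩)))).2, fun h1 => ?_, fun h0 => ?_⟩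
  · rw [← P.M.supp_empty_iff, ← Set.subset_empty_iff]
    intro x hx
    exact h1 (hs (Or.inr (Or.inl (Or.inl ⟨x, hx, rfl⟩)))).1
  · rw [← P.M.supp_empty_iff, ← Set.subset_empty_iff]
    intro x hx
    exact h0 (hs (Or.inr (Or.inl (Or.inr ⟨x, hx, rfl⟩)))).1

theorem fcy_pair_mid (P : FcyPair X) (J : Set unitInterval) (hJ : IsOpen J)
    (hJc : J.OrdConnected) (h0 : (0 : unitInterval) ∉ J) (h1 : (1 : unitInterval) ∉ J) (U : Set X)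
    (hU : IsOpen U) (h : (fcCone P.ad).AcycAt U) : P.S.AcycAt (J ×ˢ U) := by
  by_cases hne : J.Nonempty
  swap
  · rw [Set.not_nonempty_iff_eq_empty.1 hne, Set.empty_prod]
    exact fcg_acycAt_empty _
  obtain ⟨c, hc⟩ := hne
  have hc0 : 0 < c := lt_of_le_of_ne unitInterval.nonneg' (fun hh => h0 (hh ▸ hc))
  rintro ⟨(n : (fcyCyl P.M).C), ⟨(p₁ : P.M.C), (p₀ : P.M.C)⟩, (ν : (fcyCyl P.M').dual.C)⟩ hs hd
  obtain ⟨hn, hν, -, -, hp₁, hp₀⟩ := P.S_sec J U n p₁ p₀ ν hs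
  have hd' : ((- (fcyCyl P.M).d n, ((fcyEvL P.M 1 n + P.M.d p₁, fcyEvL P.M 0 n + P.M.d p₀),
        fcCurry P.h P.h_loc n + P.κ • (P.evD 1 p₁ - P.evD 0 p₀)
          - P.κ • (fcyCyl P.M').dual.d ν)) : (fcyCyl P.M).C × ((P.M.C × P.M.C) × (fcyCyl P.M').dual.C)) = 0 := hd
  have hdn : (fcyCyl P.M).d n = 0 := neg_eq_zero.1 (congrArg Prod.fst hd')
  obtain ⟨m₀, n₁, hm₀, hdm₀, hn₁, hn_eq⟩ := fcy_mid P.M J hJ hJc h0 h1 c hc U hU n hn hdn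
  obtain ⟨Lam, hLam⟩ : ∃ Lam : P.M.C → P.S.C, ∀ m, Lam m = (fcyTau P.M c m, ((0, 0), 0)) :=
    ⟨fun m => (fcyTau P.M c m, ((0, 0), 0)), fun _ => rfl⟩
  refine P.S_red (J ×ˢ U) n n₁ p₁ p₀ ν hn₁ hd
    (Lam m₀ + P.iD (ν + fcCurry P.h P.h_loc n₁)) ?_ ?_
  · rw [hLam]
    symm
    show ((n - (fcyCyl P.M).d n₁, ((p₁ + fcyEvL P.M 1 n₁, p₀ + fcyEvL P.M 0 n₁),
      ν + fcCurry P.h P.h_loc n₁)) : (fcyCyl P.M).C × ((P.M.C × P.M.C) × (fcyCyl P.M').dual.C)) =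
      (fcyTau P.M c m₀ + 0, (((0 : P.M.C) + 0, (0 : P.M.C) + 0), 0 + (ν + fcCurry P.h P.h_loc n₁)))
    rw [hp₁ h1, hp₀ h0, fcyp_ev_zero P.M 1 J h1 U n₁ hn₁, fcyp_ev_zero P.M 0 J h0 U n₁ hn₁, hn_eq]
    simp only [add_zero, zero_add, add_sub_cancel_right]
  refine fcy_pair_abs P J hJc U h P.κ P.κ_ne Lam
    (fun m => fcCurry P.h P.h_loc (fcyTau P.M c m)) ?_ ?_ ?_ ?_ m₀ hm₀ hdm₀ _ ?_
  · rw [hLam]
    show ((fcyTau P.M c 0, ((0, 0), 0)) : (fcyCyl P.M).C × ((P.M.C × P.M.C) × (fcyCyl P.M').dual.C)) = 0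
    rw [map_zero]
    rfl
  · intro m hm
    rw [hLam]
    show (fcyCyl P.M).supp (fcyTau P.M c m) ∪ (((fun y => ((1 : unitInterval), y)) '' P.M.supp 0 ∪
        (fun y => ((0 : unitInterval), y)) '' P.M.supp 0) ∪ (fcyCyl P.M').dual.supp 0) ⊆ J ×ˢ U
    rw [P.M.supp_zero, (fcyCyl P.M').dual.supp_zero]
    simp only [Set.image_empty, Set.union_empty]
    exact (fcyTau_supp P.M c m).trans (Set.prod_mono (Set.singleton_subset_iff.2 hc) hm)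
  · intro m
    rw [hLam, hLam]
    show ((-(fcyCyl P.M).d (fcyTau P.M c m), ((fcyEvL P.M 1 (fcyTau P.M c m) + P.M.d 0,
        fcyEvL P.M 0 (fcyTau P.M c m) + P.M.d 0),
        fcCurry P.h P.h_loc (fcyTau P.M c m) + P.κ • (P.evD 1 0 - P.evD 0 0)
          - P.κ • (fcyCyl P.M').dual.d 0)) : (fcyCyl P.M).C × ((P.M.C × P.M.C) × (fcyCyl P.M').dual.C)) =
      (fcyTau P.M c (P.M.d m) + 0, (((0 : P.M.C) + 0, (0 : P.M.C) + 0), 0 + fcCurry P.h P.h_loc (fcyTau P.M c m)))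
    rw [fcyTau_d, fcyEvL_tau, fcyEvL_tau]
    simp only [map_zero, neg_neg, add_zero, zero_add, sub_self, smul_zero, sub_zero]
  · intro m hm hdm
    obtain ⟨lam, hlam, hl⟩ := fcy_pair_tau P c hc0 m hdm
    refine ⟨-(P.κ • lam), (P.M'.dual.supp_neg _).trans ((P.M'.dual.supp_smul _ _).trans
      (hlam.trans hm)), fun m' => ?_⟩
    show P.h (fcyTau P.M c m) (fcyTen P.M' (fun _ => 1) m')
      = P.κ * P.b m m' + -(P.κ * fcAp lam (P.M'.d m'))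
    rw [hl]
    ring
  · exact ((fcyCyl P.M').dual.supp_add _ _).trans
      (Set.union_subset hν ((fck_curry_loc P.h P.h_loc n₁).trans hn₁))

theorem fcy_pair_zero (P : FcyPair X) (J : Set unitInterval) (hJ : IsOpen J)
    (hJc : J.OrdConnected) (h0 : (0 : unitInterval) ∈ J) (h1 : (1 : unitInterval) ∉ J) (U : Set X)
    (hU : IsOpen U) (h : (fcCone P.ad).AcycAt U) : P.S.AcycAt (J ×ˢ U) := by
  rintro ⟨(n : (fcyCyl P.M).C), ⟨(p₁ : P.M.C), (p₀ : P.M.C)⟩, (ν : (fcyCyl P.M').dual.C)⟩ hs hd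
  obtain ⟨hn, hν, -, hp₀U, hp₁, -⟩ := P.S_sec J U n p₁ p₀ ν hs
  have hd' : ((- (fcyCyl P.M).d n, ((fcyEvL P.M 1 n + P.M.d p₁, fcyEvL P.M 0 n + P.M.d p₀),
        fcCurry P.h P.h_loc n + P.κ • (P.evD 1 p₁ - P.evD 0 p₀)
          - P.κ • (fcyCyl P.M').dual.d ν)) : (fcyCyl P.M).C × ((P.M.C × P.M.C) × (fcyCyl P.M').dual.C)) = 0 := hd
  have hdn : (fcyCyl P.M).d n = 0 := neg_eq_zero.1 (congrArg Prod.fst hd')
  have hd0 : fcyEvL P.M 0 n + P.M.d p₀ = 0 := congrArg (fun σ : (fcyCyl P.M).C × ((P.M.C × P.M.C) × (fcyCyl P.M').dual.C) => σ.2.1.2) hd'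
  obtain ⟨n₁, hn₁, hn_eq⟩ := fcy_acyc_half P.M 1 J hJ h1 (by
    intro t' ht' t ht
    rw [Set.uIcc_of_ge unitInterval.le_one'] at ht
    exact hJc.out h0 ht' ⟨unitInterval.nonneg', ht.1⟩) U hU n hn hdn
  obtain ⟨Lam, hLam⟩ : ∃ Lam : P.M.C → P.S.C, ∀ m, Lam m = (0, ((0, m), 0)) :=
    ⟨fun m => (0, ((0, m), 0)), fun _ => rfl⟩
  refine P.S_red (J ×ˢ U) n n₁ p₁ p₀ ν hn₁ hd
    (Lam (p₀ + fcyEvL P.M 0 n₁) + P.iD (ν + fcCurry P.h P.h_loc n₁)) ?_ ?_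
  · rw [hLam]
    symm
    show ((n - (fcyCyl P.M).d n₁, ((p₁ + fcyEvL P.M 1 n₁, p₀ + fcyEvL P.M 0 n₁),
      ν + fcCurry P.h P.h_loc n₁)) : (fcyCyl P.M).C × ((P.M.C × P.M.C) × (fcyCyl P.M').dual.C)) =
      ((0 : (fcyCyl P.M).C) + 0, (((0 : P.M.C) + 0, p₀ + fcyEvL P.M 0 n₁ + 0), 0 + (ν + fcCurry P.h P.h_loc n₁)))
    rw [hp₁ h1, fcyp_ev_zero P.M 1 J h1 U n₁ hn₁, hn_eq]
    simp only [add_zero, zero_add, sub_self]
  refine fcy_pair_abs P J hJc U h (-P.κ) (neg_ne_zero.2 P.κ_ne) Lam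
    (fun m => -(P.κ • P.evD 0 m)) (by rw [hLam]; rfl) ?_ ?_ ?_ _ ?_ ?_ _ ?_
  · intro m hm
    rw [hLam]
    show (fcyCyl P.M).supp 0 ∪ (((fun y => ((1 : unitInterval), y)) '' P.M.supp 0 ∪
        (fun y => ((0 : unitInterval), y)) '' P.M.supp m) ∪ (fcyCyl P.M').dual.supp 0) ⊆ J ×ˢ U
    rw [P.M.supp_zero, (fcyCyl P.M').dual.supp_zero, (fcyCyl P.M).supp_zero]
    simp only [Set.image_empty, Set.union_empty, Set.empty_union]
    rintro q ⟨x, hx, rfl⟩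
    exact ⟨h0, hm hx⟩
  · intro m
    rw [hLam, hLam]
    show ((-(fcyCyl P.M).d 0, ((fcyEvL P.M 1 0 + P.M.d 0, fcyEvL P.M 0 0 + P.M.d m),
        fcCurry P.h P.h_loc 0 + P.κ • (P.evD 1 0 - P.evD 0 m)
          - P.κ • (fcyCyl P.M').dual.d 0)) : (fcyCyl P.M).C × ((P.M.C × P.M.C) × (fcyCyl P.M').dual.C)) =
      ((0 : (fcyCyl P.M).C) + 0, (((0 : P.M.C) + 0, P.M.d m + 0), 0 + -(P.κ • P.evD 0 m)))
    simp only [map_zero, neg_zero, add_zero, zero_add, zero_sub, smul_neg, smul_zero, sub_zero]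
  · intro m _ _
    refine ⟨0, by rw [P.M'.dual.supp_zero]; exact Set.empty_subset _, fun m' => ?_⟩
    show -(P.κ * P.b m ((1 : ℝ) • m')) = -P.κ * P.b m m' + 0
    rw [one_smul]
    ring
  · exact (P.M.supp_add _ _).trans (Set.union_subset hp₀U (fcyp_ev_supp P.M 0 J U n₁ hn₁))
  · rw [map_add, ← fcyEvL_d, hn_eq, add_comm]
    exact hd0
  · exact ((fcyCyl P.M').dual.supp_add _ _).trans
      (Set.union_subset hν ((fck_curry_loc P.h P.h_loc n₁).trans hn₁))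

theorem fcy_pair_one (P : FcyPair X) (J : Set unitInterval) (hJ : IsOpen J)
    (hJc : J.OrdConnected) (h0 : (0 : unitInterval) ∉ J) (h1 : (1 : unitInterval) ∈ J) (U : Set X)
    (hU : IsOpen U) (h : (fcCone P.ad).AcycAt U) : P.S.AcycAt (J ×ˢ U) := by
  rintro ⟨(n : (fcyCyl P.M).C), ⟨(p₁ : P.M.C), (p₀ : P.M.C)⟩, (ν : (fcyCyl P.M').dual.C)⟩ hs hd
  obtain ⟨hn, hν, hp₁U, -, -, hp₀⟩ := P.S_sec J U n p₁ p₀ ν hs
  have hd' : ((- (fcyCyl P.M).d n, ((fcyEvL P.M 1 n + P.M.d p₁, fcyEvL P.M 0 n + P.M.d p₀),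
        fcCurry P.h P.h_loc n + P.κ • (P.evD 1 p₁ - P.evD 0 p₀)
          - P.κ • (fcyCyl P.M').dual.d ν)) : (fcyCyl P.M).C × ((P.M.C × P.M.C) × (fcyCyl P.M').dual.C)) = 0 := hd
  have hdn : (fcyCyl P.M).d n = 0 := neg_eq_zero.1 (congrArg Prod.fst hd')
  have hd1 : fcyEvL P.M 1 n + P.M.d p₁ = 0 := congrArg (fun σ : (fcyCyl P.M).C × ((P.M.C × P.M.C) × (fcyCyl P.M').dual.C) => σ.2.1.1) hd'
  obtain ⟨n₁, hn₁, hn_eq⟩ := fcy_acyc_half P.M 0 J hJ h0 (by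
    intro t' ht' t ht
    rw [Set.uIcc_of_le unitInterval.nonneg'] at ht
    exact hJc.out ht' h1 ⟨ht.2, unitInterval.le_one'⟩) U hU n hn hdn
  obtain ⟨Lam, hLam⟩ : ∃ Lam : P.M.C → P.S.C, ∀ m, Lam m = (0, ((m, 0), 0)) :=
    ⟨fun m => (0, ((m, 0), 0)), fun _ => rfl⟩
  refine P.S_red (J ×ˢ U) n n₁ p₁ p₀ ν hn₁ hd
    (Lam (p₁ + fcyEvL P.M 1 n₁) + P.iD (ν + fcCurry P.h P.h_loc n₁)) ?_ ?_
  · rw [hLam]
    symm
    show ((n - (fcyCyl P.M).d n₁, ((p₁ + fcyEvL P.M 1 n₁, p₀ + fcyEvL P.M 0 n₁),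
      ν + fcCurry P.h P.h_loc n₁)) : (fcyCyl P.M).C × ((P.M.C × P.M.C) × (fcyCyl P.M').dual.C)) =
      ((0 : (fcyCyl P.M).C) + 0, ((p₁ + fcyEvL P.M 1 n₁ + 0, (0 : P.M.C) + 0), 0 + (ν + fcCurry P.h P.h_loc n₁)))
    rw [hp₀ h0, fcyp_ev_zero P.M 0 J h0 U n₁ hn₁, hn_eq]
    simp only [add_zero, zero_add, sub_self]
  refine fcy_pair_abs P J hJc U h P.κ P.κ_ne Lam
    (fun m => P.κ • P.evD 1 m) (by rw [hLam]; rfl) ?_ ?_ ?_ _ ?_ ?_ _ ?_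
  · intro m hm
    rw [hLam]
    show (fcyCyl P.M).supp 0 ∪ (((fun y => ((1 : unitInterval), y)) '' P.M.supp m ∪
        (fun y => ((0 : unitInterval), y)) '' P.M.supp 0) ∪ (fcyCyl P.M').dual.supp 0) ⊆ J ×ˢ U
    rw [P.M.supp_zero, (fcyCyl P.M').dual.supp_zero, (fcyCyl P.M).supp_zero]
    simp only [Set.image_empty, Set.union_empty, Set.empty_union]
    rintro q ⟨x, hx, rfl⟩
    exact ⟨h1, hm hx⟩
  · intro m
    rw [hLam, hLam]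
    show ((-(fcyCyl P.M).d 0, ((fcyEvL P.M 1 0 + P.M.d m, fcyEvL P.M 0 0 + P.M.d 0),
        fcCurry P.h P.h_loc 0 + P.κ • (P.evD 1 m - P.evD 0 0)
          - P.κ • (fcyCyl P.M').dual.d 0)) : (fcyCyl P.M).C × ((P.M.C × P.M.C) × (fcyCyl P.M').dual.C)) =
      ((0 : (fcyCyl P.M).C) + 0, ((P.M.d m + 0, (0 : P.M.C) + 0), 0 + P.κ • P.evD 1 m))
    simp only [map_zero, neg_zero, add_zero, zero_add, smul_zero, sub_zero]
  · intro m _ _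
    refine ⟨0, by rw [P.M'.dual.supp_zero]; exact Set.empty_subset _, fun m' => ?_⟩
    show P.κ * P.b m ((1 : ℝ) • m') = P.κ * P.b m m' + 0
    rw [one_smul]
    ring
  · exact (P.M.supp_add _ _).trans (Set.union_subset hp₁U (fcyp_ev_supp P.M 1 J U n₁ hn₁))
  · rw [map_add, ← fcyEvL_d, hn_eq, add_comm]
    exact hd1
  · exact ((fcyCyl P.M').dual.supp_add _ _).trans
      (Set.union_subset hν ((fck_curry_loc P.h P.h_loc n₁).trans hn₁))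

/-- **LEFSCHETZ DUALITY OF THE CYLINDER.** -/
theorem fcy_pair_acycOn (P : FcyPair X) (O : Set X) (h : (fcCone P.ad).AcycOn O) :
    P.S.AcycOn (Set.univ ×ˢ O) := by
  refine fcy_acycOn_of_rect _ O ?_
  rintro R ⟨J, U, hJ, hJc, h01, hU, hUO, rfl⟩
  by_cases h0 : (0 : unitInterval) ∈ J
  · exact fcy_pair_zero P J hJ hJc h0 (fun h1 => h01 ⟨h0, h1⟩) U hU (h U hU hUO)
  · by_cases h1 : (1 : unitInterval) ∈ J
    · exact fcy_pair_one P J hJ hJc h0 h1 U hU (h U hU hUO)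
    · exact fcy_pair_mid P J hJ hJc h0 h1 U hU (h U hU hUO)

/-- realises the equation lemmas here (unique names) -/
theorem fcy_pair_eqns_cite : True := by
  have := @fcyGamma.eq_1
  have := @fcyPairMk.eq_1
  have := @FcyPair.ad.eq_1
  have := @FcyPair.evD.eq_1
  have := @FcyPair.Sd.eq_1
  have := @FcyPair.S.eq_1
  have := @FcyPair.iD.eq_1
  trivial

end Claimed.Agent.R304
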