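/-
Row 304 (S0559, Hilbert-Smith).  Owner/designer: helper154.  LAYER S, package `FcCylDat`:
THE CYLINDER IS A NULL-COBORDISM.  `x = (M, b)` a form of type `t` over `X`, `κ = wtK t`, `N = fcyCyl M`, `D = fcyDat x` the datum on
`fcyEnds x = (i_1)_! x ⊥ - (i_0)_! x`.   MAIN THEOREM `fcy_S_acycOn`:

      `cone (x.ad)` acyclic on `O`   ⟹   `D.S.M` acyclic on `I × O`.

It is `fcy_pair_acycOn` (file `FcCylPair`) for the pair `fcyPairForm x = (M, M, κ, b, fcyH x)`: `D.S.M` and `(fcyPairForm x).S` have the same underlying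
object of `FC(I × X)` and the same differential (`fcy_S_iso`: identity map; compare `WtDat.Sd` and `FcyPair.Sd` coordinatewise, `Subtype.ext` in the last one).
Estimated 200 lines.
-/
import Claimed.Agent.R304.FcCylPair

set_option autoImplicit false

namespace Claimed.Agent.R304

open Topology

variable {X : Type} [TopologicalSpace X] [T2Space X]

/-- `h_eq` of the datum in explicit form: `fcyH_apply`, `fcyHP_eq` for `(n, n')` and `(n', n)`, `x.symm`, `κ² = ε² = 1` -/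
theorem fcyH_d {t : ZMod 4} (x : WtForm X t) (n n' : (fcyCyl x.M).C) :
    fcyH x n ((fcyCyl x.M).d n') + wtK t * fcyH x ((fcyCyl x.M).d n) n' =
      x.b (fcyEvL x.M 1 n) (fcyEvL x.M 1 n') - x.b (fcyEvL x.M 0 n) (fcyEvL x.M 0 n') := by
  have e1 := fcyHP_eq (wtK t) (wtK_sq t) x.b x.loc x.adj n n'
  have e2 := fcyHP_eq (wtK t) (wtK_sq t) x.b x.loc x.adj n' n
  rw [x.symm (fcyEvL x.M 1 n) (fcyEvL x.M 1 n'), x.symm (fcyEvL x.M 0 n) (fcyEvL x.M 0 n')] at e2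
  rw [fcyH_apply, fcyH_apply]
  linear_combination (1 / 2 : ℝ) * e1 + (wtE t / 2) * e2
    + (wtE t * fcyHP (wtK t) x.b x.loc n' ((fcyCyl x.M).d n) / 2) * wtK_sq t
    + ((x.b (fcyEvL x.M 1 n) (fcyEvL x.M 1 n') - x.b (fcyEvL x.M 0 n) (fcyEvL x.M 0 n')) / 2) * wtE_sq t

theorem fcyH_loc {t : ZMod 4} (x : WtForm X t) : FcLoc2 (fcyCyl x.M) (fcyCyl x.M) (fcyH x) := by
  intro n n' h
  rw [fcyH_apply, fcyHP_loc (wtK t) x.b x.loc n n' h, fcyHP_loc (wtK t) x.b x.loc n' n h.symm]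
  ring

/-- the pair of a form -/
noncomputable def fcyPairForm {t : ZMod 4} (x : WtForm X t) : FcyPair X where
  M := x.M
  M' := x.M
  κ := wtK t
  κ_sq := wtK_sq t
  b := x.b
  loc := x.loc
  adj := x.adj
  h := fcyH x
  h_loc := fcyH_loc x
  h_eq := fcyH_d x

/-- the surgery object of the datum is the object of the pair -/
theorem fcy_S_iso {t : ZMod 4} (x : WtForm X t) :
    Nonempty (FcIso (fcyPairForm x).S (fcyDat x).S.M) := by
  refine ⟨⟨LinearEquiv.refl ℝ _, fun m => rfl, fun m => ?_⟩⟩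
  obtain ⟨n, ⟨p₁, p₀⟩, ν⟩ := m
  show (fcyPairForm x).S.d (n, ((p₁, p₀), ν)) = (fcyDat x).S.M.d (n, ((p₁, p₀), ν))
  refine Prod.ext rfl (Prod.ext rfl ?_)
  apply Subtype.ext
  apply LinearMap.ext
  intro n'
  show fcyH x n n' + wtK t * (x.b p₁ (fcyEvL x.M 1 n') - x.b p₀ (fcyEvL x.M 0 n'))
      - wtK t * ν.1 ((fcyCyl x.M).d n')
    = fcyH x n n' + wtK t * (x.b p₁ (fcyEvL x.M 1 n') + -(x.b p₀ (fcyEvL x.M 0 n')))
      - wtK t * ν.1 ((fcyCyl x.M).d n')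
  ring

/-- **MAIN THEOREM of the cylinder.** -/
theorem fcy_S_acycOn {t : ZMod 4} (x : WtForm X t) (O : Set X)
    (h : (fcCone x.ad).AcycOn O) : (fcyDat x).S.M.AcycOn (Set.univ ×ˢ O) := by
  obtain ⟨e⟩ := fcy_S_iso x
  have h' : (fcCone (fcyPairForm x).ad).AcycOn O := h
  exact fun U hU hUO => (fcy_pair_acycOn (fcyPairForm x) O h' U hU hUO).of_iso e

/-- HOMOTOPY INVARIANCE on `I × X`, for all pairs at once -/
theorem fcy_htpy {t : ZMod 4} (x : WtForm X t) (T' : FcCls (unitInterval × X))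
    (V U : Set X) (hN : T'.mem (fcyCyl x.M)) (hS : T'.mem (fcyDat x).S.M)
    (hV : ∃ O, IsOpen O ∧ Vᶜ ⊆ O ∧ x.M.AcycOn O)
    (hU : ∃ O, IsOpen O ∧ Uᶜ ⊆ O ∧ (fcCone x.ad).AcycOn O) :
    WtRel (T'.near (Set.univ ×ˢ V)) (T'.near (Set.univ ×ˢ U)) (x.push (fcyInc X 1))
      (x.push (fcyInc X 0)) := by
  obtain ⟨O, hO, hVO, hM⟩ := hV
  obtain ⟨O', hO', hUO', hC⟩ := hU
  refine ⟨fcyDat x, ⟨hN, Set.univ ×ˢ O, isOpen_univ.prod hO, ?_, fcy_acycOn x.M O hM⟩,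
    ⟨hS, Set.univ ×ˢ O', isOpen_univ.prod hO', ?_, fcy_S_acycOn x O' hC⟩⟩
  · rintro ⟨s, y⟩ hy
    exact ⟨trivial, hVO (fun hyV => hy ⟨trivial, hyV⟩)⟩
  · rintro ⟨s, y⟩ hy
    exact ⟨trivial, hUO' (fun hyU => hy ⟨trivial, hyU⟩)⟩

/-- realises the equation lemmas here (unique names) -/
theorem fcy_dat_eqns_cite : True := by
  have := @fcyPairForm.eq_1
  trivial

end Claimed.Agent.R304
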