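/-
Row 304 (S0559, Hilbert-Smith).  Owner: helper231.  LAYER S, package `FcBasic`, DEFINITIONS (prefix `fcb`, `FcExt`, `FcHtpy`).

Chain level homological algebra of differential objects of `FC(X)` (file `FcDefs`).  The central notion is

* `FcExt B E A`   a short exact sequence `0 → B → E → A → 0` of differential objects which is SPLIT IN `FC(X)`
                  (local linear section `s` and retraction `r`, not chain maps).  Every "filtered object" and every
                  "twisted sum" `Tw(A,B,τ)` of `CbNotes` is an `FcExt`; every "filtered map" is a map of `FcExt`s.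

Constructions: `FcIso.refl/symm/trans/toHom`, `fcbZero`, `fcbInl/Inr/Fst/Snd`, `fcbConeIn`, `fcbConeOut`, `FcHom.resc`, `FcHom.res`,
`FcHom.prodMap`, `FcHom.neg/add`, `FcHtpy` (local chain homotopies), `fcbConeMap` (map of cones of a homotopy commutative square),
`fcbPb` (homotopy pull-back), and the standard extensions `fcbExtCone`, `fcbExtProd`, `FcExt.resc`, `FcExt.dual`, `FcExt.cone`, ...
-/
import Claimed.Agent.R304.FcDefs

set_option autoImplicit false

namespace Claimed.Agent.R304

open Topology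

variable {X Y : Type} [TopologicalSpace X] [TopologicalSpace Y]

/-! ### Isomorphisms -/

/-- the identity isomorphism -/
def FcIso.refl (A : FcD X) : FcIso A A := ⟨LinearEquiv.refl ℝ A.C, fun _ => rfl, fun _ => rfl⟩

/-- the inverse isomorphism -/
def FcIso.symm {A B : FcD X} (e : FcIso A B) : FcIso B A where
  e := e.e.symm
  supp_eq := fun m => by rw [← e.supp_eq, LinearEquiv.apply_symm_apply]
  comm := fun m => by
    apply e.e.injective
    rw [e.comm, LinearEquiv.apply_symm_apply, LinearEquiv.apply_symm_apply]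

/-- composition of isomorphisms -/
def FcIso.trans {A B C : FcD X} (e : FcIso A B) (e' : FcIso B C) : FcIso A C where
  e := e.e.trans e'.e
  supp_eq := fun m => by
    show C.supp (e'.e (e.e m)) = A.supp m
    rw [e'.supp_eq, e.supp_eq]
  comm := fun m => by
    show e'.e (e.e (A.d m)) = C.d (e'.e (e.e m))
    rw [e.comm, e'.comm]

/-- the underlying chain map of an isomorphism -/
def FcIso.toHom {A B : FcD X} (e : FcIso A B) : FcHom A B :=
  ⟨e.e.toLinearMap, fun m => (e.supp_eq m).subset, e.comm⟩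

/-! ### Elementary chain maps -/

/-- the zero map -/
def fcbZero (A B : FcD X) : FcHom A B :=
  ⟨0, fun m => by
    show B.supp 0 ⊆ A.supp m
    rw [B.supp_zero]; exact Set.empty_subset _, fun m => by simp⟩

/-- the negative of a chain map -/
def FcHom.neg {A B : FcD X} (f : FcHom A B) : FcHom A B :=
  ⟨-f.f, fun m => (B.supp_neg _).trans (f.loc m), fun m => by simp [f.comm]⟩

/-- the sum of two chain maps -/
def FcHom.add {A B : FcD X} (f g : FcHom A B) : FcHom A B :=
  ⟨f.f + g.f, fun m => (B.supp_add _ _).trans (Set.union_subset (f.loc m) (g.loc m)),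
    fun m => by simp [f.comm, g.comm]⟩

/-- a scalar multiple of a chain map -/
def FcHom.smul {A B : FcD X} (c : ℝ) (f : FcHom A B) : FcHom A B :=
  ⟨c • f.f, fun m => (B.supp_smul _ _).trans (f.loc m), fun m => by simp [f.comm]⟩

/-- the same map between the rescaled objects -/
def FcHom.resc {A B : FcD X} (f : FcHom A B) (c : ℝ) : FcHom (A.resc c) (B.resc c) :=
  ⟨f.f, f.loc, fun m => (map_smul f.f c (A.d m)).trans (congrArg (fun z => c • z) (f.comm m))⟩

/-- the restriction of a chain map to the sections over `U` -/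
def FcHom.res {A B : FcD X} (f : FcHom A B) (U : Set X) : FcHom (A.res U) (B.res U) :=
  ⟨f.f.restrict (p := A.sec U) (q := B.sec U) (fun m hm => (f.loc m).trans hm), fun m => f.loc m.1,
    fun m => Subtype.ext (f.comm m.1)⟩

/-- the inclusion `M(U) → M(V)` for `U ⊆ V` -/
def fcbResMono (A : FcD X) {U V : Set X} (h : U ⊆ V) : FcHom (A.res U) (A.res V) :=
  ⟨Submodule.inclusion (p := A.sec U) (p' := A.sec V) (fun _ hm => Set.Subset.trans hm h),
    fun _ => subset_rfl, fun _ => rfl⟩

/-- first injection -/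
def fcbInl (A B : FcD X) : FcHom A (A.prod B) :=
  ⟨LinearMap.inl ℝ A.C B.C, fun m => by
    show A.supp m ∪ B.supp 0 ⊆ A.supp m
    rw [B.supp_zero, Set.union_empty], fun m => by
    show (A.d m, (0 : B.C)) = (A.d m, B.d 0)
    rw [map_zero]⟩

/-- second injection -/
def fcbInr (A B : FcD X) : FcHom B (A.prod B) :=
  ⟨LinearMap.inr ℝ A.C B.C, fun m => by
    show A.supp 0 ∪ B.supp m ⊆ B.supp m
    rw [A.supp_zero, Set.empty_union], fun m => by
    show ((0 : A.C), B.d m) = (A.d 0, B.d m)
    rw [map_zero]⟩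

/-- first projection -/
def fcbFst (A B : FcD X) : FcHom (A.prod B) A :=
  ⟨LinearMap.fst ℝ A.C B.C, fun _ => Set.subset_union_left, fun _ => rfl⟩

/-- second projection -/
def fcbSnd (A B : FcD X) : FcHom (A.prod B) B :=
  ⟨LinearMap.snd ℝ A.C B.C, fun _ => Set.subset_union_right, fun _ => rfl⟩

/-- the product of two chain maps -/
def FcHom.prodMap {A B A' B' : FcD X} (f : FcHom A A') (g : FcHom B B') :
    FcHom (A.prod B) (A'.prod B') :=
  ⟨f.f.prodMap g.f, fun m => Set.union_subset_union (f.loc m.1) (g.loc m.2), fun m => by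
    show (f.f (A.d m.1), g.f (B.d m.2)) = (A'.d (f.f m.1), B'.d (g.f m.2))
    rw [f.comm, g.comm]⟩

/-- the pairing of two chain maps `C → A`, `C → B` -/
def FcHom.pair {A B C : FcD X} (f : FcHom C A) (g : FcHom C B) : FcHom C (A.prod B) :=
  ⟨f.f.prod g.f, fun m => Set.union_subset (f.loc m) (g.loc m), fun m => by
    show (f.f (C.d m), g.f (C.d m)) = (A.d (f.f m), B.d (g.f m))
    rw [f.comm, g.comm]⟩

/-- the copairing of two chain maps `A → C`, `B → C` -/
def FcHom.copair {A B C : FcD X} (f : FcHom A C) (g : FcHom B C) : FcHom (A.prod B) C :=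
  ⟨f.f.coprod g.f, fun m => (C.supp_add _ _).trans (Set.union_subset_union (f.loc m.1) (g.loc m.2)),
    fun m => by
      show f.f (A.d m.1) + g.f (B.d m.2) = C.d (f.f m.1 + g.f m.2)
      rw [f.comm, g.comm, map_add]⟩

/-- the inclusion of the target in the cone -/
def fcbConeIn {A B : FcD X} (f : FcHom A B) : FcHom B (fcCone f) :=
  ⟨LinearMap.inr ℝ A.C B.C, fun m => by
    show A.supp 0 ∪ B.supp m ⊆ B.supp m
    rw [A.supp_zero, Set.empty_union], fun m => by
    show ((0 : A.C), B.d m) = (-(A.d 0), f.f 0 + B.d m)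
    simp⟩

/-- the projection of the cone onto the source with the opposite differential -/
def fcbConeOut {A B : FcD X} (f : FcHom A B) : FcHom (fcCone f) (A.resc (-1)) :=
  ⟨LinearMap.fst ℝ A.C B.C, fun _ => Set.subset_union_left, fun m => by
    show -(A.d m.1) = (-1 : ℝ) • A.d m.1
    rw [neg_one_smul]⟩

/-! ### Local chain homotopies -/

/-- a LOCAL chain homotopy `f - g = d s + s d` -/
structure FcHtpy {A B : FcD X} (f g : FcHom A B) where
  /-- the homotopy -/
  s : A.C →ₗ[ℝ] B.C
  loc : FcLoc A B s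
  eq : ∀ m, f.f m - g.f m = B.d (s m) + s (A.d m)

/-- the map of cones induced by a square `y ∘ f' ≃ f ∘ x` which commutes up to a local homotopy:
`(a', b') ↦ (x a', y b' + s a')` -/
def fcbConeMap {A B A' B' : FcD X} {f : FcHom A B} {f' : FcHom A' B'} (x : FcHom A' A) (y : FcHom B' B)
    (H : FcHtpy (y.comp f') (f.comp x)) : FcHom (fcCone f') (fcCone f) where
  f := (x.f ∘ₗ LinearMap.fst ℝ A'.C B'.C).prod
        (y.f ∘ₗ LinearMap.snd ℝ A'.C B'.C + H.s ∘ₗ LinearMap.fst ℝ A'.C B'.C)
  loc := fun m => by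
    show A.supp (x.f m.1) ∪ B.supp (y.f m.2 + H.s m.1) ⊆ A'.supp m.1 ∪ B'.supp m.2
    refine Set.union_subset ((x.loc _).trans Set.subset_union_left) ((B.supp_add _ _).trans ?_)
    exact Set.union_subset ((y.loc _).trans Set.subset_union_right)
      ((H.loc _).trans Set.subset_union_left)
  comm := fun m => by
    show (x.f (-(A'.d m.1)), y.f (f'.f m.1 + B'.d m.2) + H.s (-(A'.d m.1))) =
      (-(A.d (x.f m.1)), f.f (x.f m.1) + B.d (y.f m.2 + H.s m.1))
    have h' : y.f (f'.f m.1) - f.f (x.f m.1) = B.d (H.s m.1) + H.s (A'.d m.1) := H.eq m.1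
    rw [map_neg, x.comm, map_add, y.comm, map_neg, map_add]
    refine Prod.ext rfl ?_
    show y.f (f'.f m.1) + B.d (y.f m.2) + -H.s (A'.d m.1) =
      f.f (x.f m.1) + (B.d (y.f m.2) + B.d (H.s m.1))
    have h'' : y.f (f'.f m.1) = f.f (x.f m.1) + (B.d (H.s m.1) + H.s (A'.d m.1)) := by
      rw [← h']; abel
    rw [h'']; abel

/-- the trivial homotopy of a strictly commutative square -/
def fcbHtpyOfEq {A B : FcD X} {f g : FcHom A B} (h : ∀ m, f.f m = g.f m) : FcHtpy f g :=
  ⟨0, fun m => by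
    show B.supp 0 ⊆ A.supp m
    rw [B.supp_zero]; exact Set.empty_subset _, fun m => by simp [h m]⟩

/-! ### Split short exact sequences -/

/-- a short exact sequence `0 → B → E → A → 0` of differential objects which is split in `FC(X)` -/
structure FcExt (B E A : FcD X) where
  /-- the inclusion of the subobject -/
  i : FcHom B E
  /-- the projection onto the quotient -/
  p : FcHom E A
  /-- the retraction (local, linear, NOT a chain map) -/
  r : E.C →ₗ[ℝ] B.C
  /-- the section (local, linear, NOT a chain map) -/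
  s : A.C →ₗ[ℝ] E.C
  r_loc : FcLoc E B r
  s_loc : FcLoc A E s
  ri : ∀ b, r (i.f b) = b
  ps : ∀ a, p.f (s a) = a
  sum : ∀ e, i.f (r e) + s (p.f e) = e

/-- a map of split short exact sequences -/
structure FcExtHom {B E A B' E' A' : FcD X} (e : FcExt B E A) (e' : FcExt B' E' A') where
  /-- on the subobjects -/
  fB : FcHom B B'
  /-- on the total objects -/
  fE : FcHom E E'
  /-- on the quotients -/
  fA : FcHom A A'
  comm_i : ∀ b, fE.f (e.i.f b) = e'.i.f (fB.f b)
  comm_p : ∀ x, e'.p.f (fE.f x) = fA.f (e.p.f x)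

/-- the extension `0 → B → cone f → A<-1> → 0` -/
def fcbExtCone {A B : FcD X} (f : FcHom A B) : FcExt B (fcCone f) (A.resc (-1)) where
  i := fcbConeIn f
  p := fcbConeOut f
  r := LinearMap.snd ℝ A.C B.C
  s := LinearMap.inl ℝ A.C B.C
  r_loc := fun _ => Set.subset_union_right
  s_loc := fun m => by
    show A.supp m ∪ B.supp 0 ⊆ A.supp m
    rw [B.supp_zero, Set.union_empty]
  ri := fun _ => rfl
  ps := fun _ => rfl
  sum := fun e => by
    show ((0 : A.C), e.2) + (e.1, (0 : B.C)) = e
    ext <;> simp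

/-- the extension `0 → B → A × B → A → 0` -/
def fcbExtProd (A B : FcD X) : FcExt B (A.prod B) A where
  i := fcbInr A B
  p := fcbFst A B
  r := LinearMap.snd ℝ A.C B.C
  s := LinearMap.inl ℝ A.C B.C
  r_loc := fun _ => Set.subset_union_right
  s_loc := fun m => by
    show A.supp m ∪ B.supp 0 ⊆ A.supp m
    rw [B.supp_zero, Set.union_empty]
  ri := fun _ => rfl
  ps := fun _ => rfl
  sum := fun e => by
    show ((0 : A.C), e.2) + (e.1, (0 : B.C)) = e
    ext <;> simp

/-- the extension `0 → A → A × B → B → 0` -/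
def fcbExtProd' (A B : FcD X) : FcExt A (A.prod B) B where
  i := fcbInl A B
  p := fcbSnd A B
  r := LinearMap.fst ℝ A.C B.C
  s := LinearMap.inr ℝ A.C B.C
  r_loc := fun _ => Set.subset_union_left
  s_loc := fun m => by
    show A.supp 0 ∪ B.supp m ⊆ B.supp m
    rw [A.supp_zero, Set.empty_union]
  ri := fun _ => rfl
  ps := fun _ => rfl
  sum := fun e => by
    show (e.1, (0 : B.C)) + ((0 : A.C), e.2) = e
    ext <;> simp

/-- rescaling an extension -/
def FcExt.resc {B E A : FcD X} (e : FcExt B E A) (c : ℝ) : FcExt (B.resc c) (E.resc c) (A.resc c) where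
  i := e.i.resc c
  p := e.p.resc c
  r := e.r
  s := e.s
  r_loc := e.r_loc
  s_loc := e.s_loc
  ri := e.ri
  ps := e.ps
  sum := e.sum

theorem FcExt.pi {B E A : FcD X} (e : FcExt B E A) (b : B.C) : e.p.f (e.i.f b) = 0 := by
  have h := e.sum (e.i.f b)
  rw [e.ri] at h
  have h2 : e.s (e.p.f (e.i.f b)) = 0 := by
    have := congrArg (fun z => z - e.i.f b) h
    simpa using this
  have h3 := e.ps (e.p.f (e.i.f b))
  rw [h2, map_zero] at h3
  exact h3.symm

theorem FcExt.rs {B E A : FcD X} (e : FcExt B E A) (a : A.C) : e.r (e.s a) = 0 := by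
  have h := e.sum (e.s a)
  rw [e.ps] at h
  have h2 : e.i.f (e.r (e.s a)) = 0 := by
    have := congrArg (fun z => z - e.s a) h
    simpa using this
  have h3 := e.ri (e.r (e.s a))
  rw [h2, map_zero] at h3
  exact h3.symm

theorem FcExt.supp_eq {B E A : FcD X} (e : FcExt B E A) (x : E.C) :
    E.supp x = A.supp (e.p.f x) ∪ B.supp (e.r x) := by
  apply Set.Subset.antisymm
  · conv_lhs => rw [← e.sum x]
    refine (E.supp_add _ _).trans (Set.union_subset ?_ ?_)
    · exact (e.i.loc _).trans Set.subset_union_right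
    · exact (e.s_loc _).trans Set.subset_union_left
  · exact Set.union_subset (e.p.loc x) (e.r_loc x)

/-- the twisting map `τ = r d s : A → B` of an extension -/
def FcExt.tau {B E A : FcD X} (e : FcExt B E A) : A.C →ₗ[ℝ] B.C := e.r ∘ₗ E.d ∘ₗ e.s

theorem FcExt.d_s {B E A : FcD X} (e : FcExt B E A) (a : A.C) :
    E.d (e.s a) = e.i.f (e.tau a) + e.s (A.d a) := by
  have h := e.sum (E.d (e.s a))
  rw [e.p.comm, e.ps] at h
  exact h.symm

theorem FcExt.tau_anti {B E A : FcD X} (e : FcExt B E A) (a : A.C) :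
    e.tau (A.d a) + B.d (e.tau a) = 0 := by
  have h1 := e.d_s a
  have h2 := e.d_s (A.d a)
  rw [A.d_sq, map_zero, add_zero] at h2
  have h3 : E.d (E.d (e.s a)) = 0 := E.d_sq _
  rw [h1, map_add, h2, ← e.i.comm, ← map_add] at h3
  have h4 := e.ri (B.d (e.tau a) + e.tau (A.d a))
  rw [h3, map_zero] at h4
  rw [add_comm]
  exact h4.symm

/-- the twisting map as a chain map `A<-1> → B` -/
def FcExt.tauHom {B E A : FcD X} (e : FcExt B E A) : FcHom (A.resc (-1)) B where
  f := e.tau
  loc := fun a => (e.r_loc _).trans ((E.d_loc _).trans (e.s_loc a))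
  comm := fun a => by
    show e.tau ((-1 : ℝ) • A.d a) = B.d (e.tau a)
    have h := e.tau_anti a
    rw [map_smul, neg_one_smul]
    exact (neg_eq_of_add_eq_zero_right h)

theorem FcExt.p_inv {B E A : FcD X} (e : FcExt B E A) (a : A.C) (b : B.C) :
    e.p.f (e.s a + e.i.f b) = a := by rw [map_add, e.ps, e.pi, add_zero]

theorem FcExt.r_inv {B E A : FcD X} (e : FcExt B E A) (a : A.C) (b : B.C) :
    e.r (e.s a + e.i.f b) = b := by rw [map_add, e.rs, e.ri, zero_add]

/-- an extension is the cone of its twisting map -/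
def FcExt.isoCone {B E A : FcD X} (e : FcExt B E A) : FcIso E (fcCone e.tauHom) where
  e :=
    { toFun := fun x => (e.p.f x, e.r x)
      map_add' := fun x y => by rw [map_add, map_add]; rfl
      map_smul' := fun c x => by rw [map_smul, map_smul]; rfl
      invFun := fun z => e.s z.1 + e.i.f z.2
      left_inv := fun x => by
        show e.s (e.p.f x) + e.i.f (e.r x) = x
        rw [add_comm]; exact e.sum x
      right_inv := fun z => Prod.ext (e.p_inv z.1 z.2) (e.r_inv z.1 z.2) }
  supp_eq := fun x => (e.supp_eq x).symm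
  comm := fun x => by
    show (e.p.f (E.d x), e.r (E.d x)) = (-((-1 : ℝ) • A.d (e.p.f x)), e.tau (e.p.f x) + B.d (e.r x))
    refine Prod.ext ?_ ?_
    · show e.p.f (E.d x) = -((-1 : ℝ) • A.d (e.p.f x))
      rw [neg_one_smul, neg_neg, e.p.comm]
    · show e.r (E.d x) = e.tau (e.p.f x) + B.d (e.r x)
      conv_lhs => rw [← e.sum x]
      rw [map_add, ← e.i.comm, e.d_s, map_add, map_add, e.ri, e.ri, e.rs, add_zero, add_comm]

/-- the cone of a map of extensions is an extension of the cones -/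
def FcExtHom.cone {B E A B' E' A' : FcD X} {e : FcExt B E A} {e' : FcExt B' E' A'}
    (φ : FcExtHom e e') : FcExt (fcCone φ.fB) (fcCone φ.fE) (fcCone φ.fA) where
  i :=
    { f := e.i.f.prodMap e'.i.f
      loc := fun m => Set.union_subset_union (e.i.loc m.1) (e'.i.loc m.2)
      comm := fun m => by
        show (e.i.f (-(B.d m.1)), e'.i.f (φ.fB.f m.1 + B'.d m.2)) =
          (-(E.d (e.i.f m.1)), φ.fE.f (e.i.f m.1) + E'.d (e'.i.f m.2))
        rw [map_neg, e.i.comm, map_add, e'.i.comm, φ.comm_i] }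
  p :=
    { f := e.p.f.prodMap e'.p.f
      loc := fun m => Set.union_subset_union (e.p.loc m.1) (e'.p.loc m.2)
      comm := fun m => by
        show (e.p.f (-(E.d m.1)), e'.p.f (φ.fE.f m.1 + E'.d m.2)) =
          (-(A.d (e.p.f m.1)), φ.fA.f (e.p.f m.1) + A'.d (e'.p.f m.2))
        rw [map_neg, e.p.comm, map_add, e'.p.comm, φ.comm_p] }
  r := e.r.prodMap e'.r
  s := e.s.prodMap e'.s
  r_loc := fun m => Set.union_subset_union (e.r_loc m.1) (e'.r_loc m.2)
  s_loc := fun m => Set.union_subset_union (e.s_loc m.1) (e'.s_loc m.2)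
  ri := fun b => Prod.ext (e.ri b.1) (e'.ri b.2)
  ps := fun a => Prod.ext (e.ps a.1) (e'.ps a.2)
  sum := fun x => Prod.ext (e.sum x.1) (e'.sum x.2)

/-- the dual extension `0 → A^∨ → E^∨ → B^∨ → 0` -/
def FcExt.dual [T2Space X] {B E A : FcD X} (e : FcExt B E A) : FcExt A.dual E.dual B.dual where
  i := fcTr e.p
  p := fcTr e.i
  r := fcTrLin e.s e.s_loc
  s := fcTrLin e.r e.r_loc
  r_loc := fun φ => FcObj.dualSupp_comp e.s e.s_loc φ.1
  s_loc := fun φ => FcObj.dualSupp_comp e.r e.r_loc φ.1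
  ri := fun α => by
    apply Subtype.ext
    apply LinearMap.ext
    intro a
    show α.1 (e.p.f (e.s a)) = α.1 a
    rw [e.ps]
  ps := fun β => by
    apply Subtype.ext
    apply LinearMap.ext
    intro b
    show β.1 (e.r (e.i.f b)) = β.1 b
    rw [e.ri]
  sum := fun φ => by
    apply Subtype.ext
    apply LinearMap.ext
    intro x
    show φ.1 (e.s (e.p.f x)) + φ.1 (e.i.f (e.r x)) = φ.1 x
    rw [← map_add, add_comm, e.sum]

/-- the push forward of an extension -/
def FcExt.push [T2Space Y] (g : C(X, Y)) {B E A : FcD X} (e : FcExt B E A) :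
    FcExt (B.push g) (E.push g) (A.push g) where
  i := e.i.push g
  p := e.p.push g
  r := e.r
  s := e.s
  r_loc := fun m => Set.image_mono (e.r_loc m)
  s_loc := fun m => Set.image_mono (e.s_loc m)
  ri := e.ri
  ps := e.ps
  sum := e.sum

/-- the sections of an extension over `U` -/
def FcExt.res {B E A : FcD X} (e : FcExt B E A) (U : Set X) : FcExt (B.res U) (E.res U) (A.res U) where
  i := e.i.res U
  p := e.p.res U
  r := e.r.restrict (p := E.sec U) (q := B.sec U) (fun m hm => (e.r_loc m).trans hm)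
  s := e.s.restrict (p := A.sec U) (q := E.sec U) (fun m hm => (e.s_loc m).trans hm)
  r_loc := fun m => e.r_loc m.1
  s_loc := fun m => e.s_loc m.1
  ri := fun b => Subtype.ext (e.ri b.1)
  ps := fun a => Subtype.ext (e.ps a.1)
  sum := fun x => Subtype.ext (e.sum x.1)

/-- transport of an extension along isomorphisms of the three terms is not needed: we only transport the middle term -/
def FcExt.ofIso {B E A E' : FcD X} (e : FcExt B E A) (u : FcIso E E') : FcExt B E' A where
  i := u.toHom.comp e.i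
  p := e.p.comp u.symm.toHom
  r := e.r ∘ₗ u.e.symm.toLinearMap
  s := u.e.toLinearMap ∘ₗ e.s
  r_loc := fun m => (e.r_loc _).trans (u.symm.supp_eq m).subset
  s_loc := fun m => (u.supp_eq _).subset.trans (e.s_loc m)
  ri := fun b => by
    show e.r (u.e.symm (u.e (e.i.f b))) = b
    rw [LinearEquiv.symm_apply_apply, e.ri]
  ps := fun a => by
    show e.p.f (u.e.symm (u.e (e.s a))) = a
    rw [LinearEquiv.symm_apply_apply, e.ps]
  sum := fun x => by
    show u.e (e.i.f (e.r (u.e.symm x))) + u.e (e.s (e.p.f (u.e.symm x))) = x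
    rw [← map_add, e.sum, LinearEquiv.apply_symm_apply]

/-- `(M<c>)<c'> = M<c' c>` -/
def fcbRescResc (A : FcD X) (c c' : ℝ) : FcIso ((A.resc c).resc c') (A.resc (c' * c)) where
  e := LinearEquiv.refl ℝ A.C
  supp_eq := fun _ => rfl
  comm := fun m => by
    show c' • (c • A.d m) = (c' * c) • A.d m
    rw [smul_smul]

/-- `M<1> = M` -/
def fcbRescOne (A : FcD X) : FcIso (A.resc 1) A where
  e := LinearEquiv.refl ℝ A.C
  supp_eq := fun _ => rfl
  comm := fun m => by
    show (1 : ℝ) • A.d m = A.d m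
    rw [one_smul]

/-- `(M<-1>)<-1> = M` -/
def fcbRescNegNeg (A : FcD X) : FcIso ((A.resc (-1)).resc (-1)) A where
  e := LinearEquiv.refl ℝ A.C
  supp_eq := fun _ => rfl
  comm := fun m => by
    show (-1 : ℝ) • ((-1 : ℝ) • A.d m) = A.d m
    rw [smul_smul]; norm_num

/-- `(M<c>)^∨ = (M^∨)<c>` -/
def fcbDualResc [T2Space X] (A : FcD X) (c : ℝ) : FcIso (A.resc c).dual (A.dual.resc c) where
  e := LinearEquiv.refl ℝ A.dual.C
  supp_eq := fun _ => rfl
  comm := fun φ => by
    apply Subtype.ext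
    apply LinearMap.ext
    intro m
    exact map_smul φ.1 c (A.d m)

/-- an isomorphism induces an isomorphism of the rescaled objects -/
def FcIso.resc {A B : FcD X} (e : FcIso A B) (c : ℝ) : FcIso (A.resc c) (B.resc c) where
  e := e.e
  supp_eq := e.supp_eq
  comm := fun m => (map_smul e.e c (A.d m)).trans (congrArg (fun z => c • z) (e.comm m))

/-- the extension `0 → 0 → A → A → 0` -/
def fcbExtId (A : FcD X) : FcExt (fcZero X) A A where
  i := fcbZero _ _
  p := fcId A
  r := 0
  s := LinearMap.id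
  r_loc := fun _ => Set.empty_subset _
  s_loc := fun _ => subset_rfl
  ri := fun _ => rfl
  ps := fun _ => rfl
  sum := fun e => by
    show (0 : A.C) + e = e
    rw [zero_add]

/-- the extension `0 → A → A → 0 → 0` -/
def fcbExtId' (A : FcD X) : FcExt A A (fcZero X) where
  i := fcId A
  p := fcbZero _ _
  r := LinearMap.id
  s := 0
  r_loc := fun _ => subset_rfl
  s_loc := fun m => by
    show A.supp 0 ⊆ _
    rw [A.supp_zero]; exact Set.empty_subset _
  ri := fun _ => rfl
  ps := fun _ => rfl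
  sum := fun e => by
    show e + (0 : A.C) = e
    rw [add_zero]

/-- the projection of an extension, as a map of extensions to `0 → 0 → A → A → 0` -/
def FcExt.pHom {B E A : FcD X} (e : FcExt B E A) : FcExtHom e (fcbExtId A) where
  fB := fcbZero _ _
  fE := e.p
  fA := fcId A
  comm_i := fun b => e.pi b
  comm_p := fun _ => rfl

/-- the inclusion of an extension, as a map of extensions from `0 → B → B → 0 → 0` -/
def FcExt.iHom {B E A : FcD X} (e : FcExt B E A) : FcExtHom (fcbExtId' B) e where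
  fB := fcId B
  fE := e.i
  fA := fcbZero _ _
  comm_i := fun _ => rfl
  comm_p := fun b => e.pi b

/-- the map of cones of a homotopy commutative square, as a map of extensions -/
def fcbConeMapExt {A B A' B' : FcD X} {f : FcHom A B} {f' : FcHom A' B'} (x : FcHom A' A) (y : FcHom B' B)
    (H : FcHtpy (y.comp f') (f.comp x)) : FcExtHom (fcbExtCone f') (fcbExtCone f) where
  fB := y
  fE := fcbConeMap x y H
  fA := x.resc (-1)
  comm_i := fun b => by
    show (x.f 0, y.f b + H.s 0) = ((0 : A.C), y.f b)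
    rw [map_zero, map_zero, add_zero]
  comm_p := fun _ => rfl

theorem fcb_supp_smul_eq (A : FcObj X) {c : ℝ} (hc : c ≠ 0) (m : A.carrier) :
    A.supp (c • m) = A.supp m := by
  apply Set.Subset.antisymm (A.supp_smul _ _)
  have h := A.supp_smul c⁻¹ (c • m)
  rwa [smul_smul, inv_mul_cancel₀ hc, one_smul] at h

theorem fcb_supp_neg_eq (A : FcObj X) (m : A.carrier) : A.supp (-m) = A.supp m := by
  apply Set.Subset.antisymm (A.supp_neg _)
  have h := A.supp_neg (-m)
  rwa [neg_neg] at h

theorem fcb_coneResc_aux {A B : FcD X} (f : FcHom A B) {c : ℝ} (hc : c ≠ 0) (a : A.C) (b : B.C) :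
    ((c⁻¹ • (-(c • A.d a)), f.f a + c • B.d b) : A.C × B.C) =
      c • (-(A.d (c⁻¹ • a)), f.f (c⁻¹ • a) + B.d b) := by
  refine Prod.ext ?_ ?_
  · show c⁻¹ • (-(c • A.d a)) = c • (-(A.d (c⁻¹ • a)))
    rw [map_smul, smul_neg, smul_neg, smul_smul, smul_smul, mul_comm]
  · show f.f a + c • B.d b = c • (f.f (c⁻¹ • a) + B.d b)
    rw [map_smul, smul_add, smul_smul, mul_inv_cancel₀ hc, one_smul]

/-- `cone(f<c>) = cone(f)<c>` via `(a, b) ↦ (c⁻¹ a, b)` -/
noncomputable def fcbConeResc {A B : FcD X} (f : FcHom A B) {c : ℝ} (hc : c ≠ 0) :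
    FcIso (fcCone (f.resc c)) ((fcCone f).resc c) where
  e := (LinearEquiv.smulOfNeZero ℝ A.C c⁻¹ (inv_ne_zero hc)).prodCongr (LinearEquiv.refl ℝ B.C)
  supp_eq := fun m => congrArg (fun S => S ∪ B.supp m.2) (fcb_supp_smul_eq A.toFcObj (inv_ne_zero hc) m.1)
  comm := fun m => fcb_coneResc_aux f hc m.1 m.2

/-- `cone(-f) = cone(f)` via `(a, b) ↦ (-a, b)` -/
def fcbConeNeg {A B : FcD X} (f : FcHom A B) : FcIso (fcCone f.neg) (fcCone f) where
  e := (LinearEquiv.neg ℝ).prodCongr (LinearEquiv.refl ℝ B.C)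
  supp_eq := fun m => congrArg (fun S => S ∪ B.supp m.2) (fcb_supp_neg_eq A.toFcObj m.1)
  comm := fun m => by
    show (-(-(A.d m.1)), -f.f m.1 + B.d m.2) = (-(A.d (-m.1)), f.f (-m.1) + B.d m.2)
    rw [map_neg, map_neg]

/-- the homotopy pull-back of `f : A → C` and `g : B → C`: `(A × B) × C` with
`D ((a, b), c) = ((d a, d b), f a - g b - d c)` -/
def fcbPb {A B C : FcD X} (f : FcHom A C) (g : FcHom B C) : FcD X :=
  (fcCone (FcHom.copair f.neg g)).resc (-1)

/-- the projection of the homotopy pull-back to the first factor -/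
def fcbPbFst {A B C : FcD X} (f : FcHom A C) (g : FcHom B C) : FcHom (fcbPb f g) A where
  f := LinearMap.fst ℝ A.C B.C ∘ₗ LinearMap.fst ℝ (A.C × B.C) C.C
  loc := fun _ => Set.subset_union_left.trans Set.subset_union_left
  comm := fun m => by
    show ((-1 : ℝ) • (-(A.d m.1.1, B.d m.1.2), (-f.f m.1.1 + g.f m.1.2) + C.d m.2)).1.1 = A.d m.1.1
    simp

/-- the projection of the homotopy pull-back to the second factor -/
def fcbPbSnd {A B C : FcD X} (f : FcHom A C) (g : FcHom B C) : FcHom (fcbPb f g) B where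
  f := LinearMap.snd ℝ A.C B.C ∘ₗ LinearMap.fst ℝ (A.C × B.C) C.C
  loc := fun _ => Set.subset_union_right.trans Set.subset_union_left
  comm := fun m => by
    show ((-1 : ℝ) • (-(A.d m.1.1, B.d m.1.2), (-f.f m.1.1 + g.f m.1.2) + C.d m.2)).1.2 = B.d m.1.2
    simp

/-- the canonical local homotopy `f ∘ pr₁ ≃ g ∘ pr₂` on the homotopy pull-back -/
def fcbPbHtpy {A B C : FcD X} (f : FcHom A C) (g : FcHom B C) :
    FcHtpy (f.comp (fcbPbFst f g)) (g.comp (fcbPbSnd f g)) where
  s := LinearMap.snd ℝ (A.C × B.C) C.C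
  loc := fun _ => Set.subset_union_right
  eq := fun m => by
    show f.f m.1.1 - g.f m.1.2 =
      C.d m.2 + ((-1 : ℝ) • (-(A.d m.1.1, B.d m.1.2), (-f.f m.1.1 + g.f m.1.2) + C.d m.2)).2
    simp
    abel

/-- the kernel of the first projection of the homotopy pull-back is `cone(g)<-1>` -/
def fcbPbExtFst {A B C : FcD X} (f : FcHom A C) (g : FcHom B C) :
    FcExt ((fcCone g).resc (-1)) (fcbPb f g) A where
  i :=
    { f := (LinearMap.inr ℝ A.C B.C).prodMap LinearMap.id
      loc := fun m => by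
        show (A.supp 0 ∪ B.supp m.1) ∪ C.supp m.2 ⊆ B.supp m.1 ∪ C.supp m.2
        rw [A.supp_zero, Set.empty_union]
      comm := fun m => by
        show (((0 : A.C), ((-1 : ℝ) • (-(B.d m.1), g.f m.1 + C.d m.2)).1),
            ((-1 : ℝ) • (-(B.d m.1), g.f m.1 + C.d m.2)).2) =
          (-1 : ℝ) • (-(A.d 0, B.d m.1), (-f.f 0 + g.f m.1) + C.d m.2)
        simp }
  p := fcbPbFst f g
  r := (LinearMap.snd ℝ A.C B.C).prodMap LinearMap.id
  s := LinearMap.inl ℝ (A.C × B.C) C.C ∘ₗ LinearMap.inl ℝ A.C B.C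
  r_loc := fun m => Set.union_subset_union_left _ Set.subset_union_right
  s_loc := fun m => by
    show (A.supp m ∪ B.supp 0) ∪ C.supp 0 ⊆ A.supp m
    rw [B.supp_zero, C.supp_zero, Set.union_empty, Set.union_empty]
  ri := fun _ => rfl
  ps := fun _ => rfl
  sum := fun e => by
    show (((0 : A.C), e.1.2), e.2) + ((e.1.1, (0 : B.C)), (0 : C.C)) = e
    ext <;> simp

/-- the kernel of the second projection of the homotopy pull-back is `cone(-f)<-1>` -/
def fcbPbExtSnd {A B C : FcD X} (f : FcHom A C) (g : FcHom B C) :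
    FcExt ((fcCone f.neg).resc (-1)) (fcbPb f g) B where
  i :=
    { f := (LinearMap.inl ℝ A.C B.C).prodMap LinearMap.id
      loc := fun m => by
        show (A.supp m.1 ∪ B.supp 0) ∪ C.supp m.2 ⊆ A.supp m.1 ∪ C.supp m.2
        rw [B.supp_zero, Set.union_empty]
      comm := fun m => by
        show ((((-1 : ℝ) • (-(A.d m.1), -f.f m.1 + C.d m.2)).1, (0 : B.C)),
            ((-1 : ℝ) • (-(A.d m.1), -f.f m.1 + C.d m.2)).2) =
          (-1 : ℝ) • (-(A.d m.1, B.d 0), (-f.f m.1 + g.f 0) + C.d m.2)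
        simp }
  p := fcbPbSnd f g
  r := (LinearMap.fst ℝ A.C B.C).prodMap LinearMap.id
  s := LinearMap.inl ℝ (A.C × B.C) C.C ∘ₗ LinearMap.inr ℝ A.C B.C
  r_loc := fun m => Set.union_subset_union_left _ Set.subset_union_left
  s_loc := fun m => by
    show (A.supp 0 ∪ B.supp m) ∪ C.supp 0 ⊆ B.supp m
    rw [A.supp_zero, C.supp_zero, Set.union_empty, Set.empty_union]
  ri := fun _ => rfl
  ps := fun _ => rfl
  sum := fun e => by
    show ((e.1.1, (0 : B.C)), e.2) + (((0 : A.C), e.1.2), (0 : C.C)) = e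
    ext <;> simp

/-- realises the equation lemmas here (unique names) -/
theorem fcb_defs_eqns_cite : True := by
  have := @FcIso.refl.eq_1
  have := @FcIso.symm.eq_1
  have := @FcIso.trans.eq_1
  have := @FcIso.toHom.eq_1
  have := @fcbZero.eq_1
  have := @FcHom.neg.eq_1
  have := @FcHom.add.eq_1
  have := @FcHom.smul.eq_1
  have := @FcHom.resc.eq_1
  have := @FcHom.res.eq_1
  have := @fcbResMono.eq_1
  have := @fcbInl.eq_1
  have := @fcbInr.eq_1
  have := @fcbFst.eq_1
  have := @fcbSnd.eq_1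
  have := @FcHom.prodMap.eq_1
  have := @FcHom.pair.eq_1
  have := @FcHom.copair.eq_1
  have := @fcbConeIn.eq_1
  have := @fcbConeOut.eq_1
  have := @fcbConeMap.eq_1
  have := @fcbHtpyOfEq.eq_1
  have := @fcbExtCone.eq_1
  have := @fcbExtProd.eq_1
  have := @fcbExtProd'.eq_1
  have := @FcExt.resc.eq_1
  have := @FcExt.tau.eq_1
  have := @FcExt.tauHom.eq_1
  have := @FcExt.isoCone.eq_1
  have := @FcExtHom.cone.eq_1
  have := @FcExt.dual.eq_1
  have := @FcExt.push.eq_1
  have := @FcExt.res.eq_1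
  have := @FcExt.ofIso.eq_1
  have := @fcbRescResc.eq_1
  have := @fcbRescOne.eq_1
  have := @fcbRescNegNeg.eq_1
  have := @fcbDualResc.eq_1
  have := @FcIso.resc.eq_1
  have := @fcbPb.eq_1
  have := @fcbPbFst.eq_1
  have := @fcbPbSnd.eq_1
  have := @fcbPbHtpy.eq_1
  have := @fcbExtId.eq_1
  have := @fcbExtId'.eq_1
  have := @FcExt.pHom.eq_1
  have := @FcExt.iHom.eq_1
  have := @fcbConeMapExt.eq_1
  have := @fcbConeResc.eq_1
  have := @fcbConeNeg.eq_1
  have := @fcbPbExtFst.eq_1
  have := @fcbPbExtSnd.eq_1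
  trivial

end Claimed.Agent.R304
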