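/-
Row 304 (S0559, Hilbert-Smith).  Owner: helper231.  LAYER S, package `FcPre`, DEFINITIONS (prefix `fcp`, `FcPre`).

`FcPre X`: a class of differential objects closed under isomorphisms, rescaling, two-out-of-three for cones, containing the
locally acyclic objects.  (`FcCls X` = `FcPre X` + closure under duals.)
-/
import Claimed.Agent.R304.FcBasicDefs

set_option autoImplicit false

namespace Claimed.Agent.R304

open Topology

variable {X Y : Type} [TopologicalSpace X] [TopologicalSpace Y]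

/-- a class of differential objects, not necessarily closed under duals -/
structure FcPre (X : Type) [TopologicalSpace X] where
  /-- membership -/
  mem : FcD X → Prop
  iso : ∀ {A B : FcD X}, FcIso A B → mem A → mem B
  acyc : ∀ {A : FcD X}, A.Acyc → mem A
  resc : ∀ {A : FcD X} (c : ℝ), c ≠ 0 → mem A → mem (A.resc c)
  cone : ∀ {A B : FcD X} (f : FcHom A B), mem A → mem B → mem (fcCone f)
  cone_src : ∀ {A B : FcD X} (f : FcHom A B), mem B → mem (fcCone f) → mem A
  cone_tgt : ∀ {A B : FcD X} (f : FcHom A B), mem A → mem (fcCone f) → mem B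

/-- forget the closure under duals -/
def FcCls.pre [T2Space X] (P : FcCls X) : FcPre X :=
  ⟨P.mem, P.iso, P.acyc, P.resc, P.cone, P.cone_src, P.cone_tgt⟩

/-- the generated class (no summand rule) -/
def fcpGen [T2Space X] (G : FcD X → Prop) : FcPre X :=
  ⟨FcGen G, FcGen.iso, FcGen.acyc, FcGen.resc, FcGen.cone, FcGen.cone_src, FcGen.cone_tgt⟩

/-- the generated thick class -/
def fcpThick [T2Space X] (G : FcD X → Prop) : FcPre X :=
  ⟨FcThick G, FcThick.iso, FcThick.acyc, FcThick.resc, FcThick.cone, FcThick.cone_src, FcThick.cone_tgt⟩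

/-- closed under direct summands -/
def FcPre.Summ (P : FcPre X) : Prop := ∀ A B : FcD X, P.mem (A.prod B) → P.mem A

/-- inclusion -/
def FcPre.le (P Q : FcPre X) : Prop := ∀ A, P.mem A → Q.mem A

/-- the class of locally acyclic objects -/
def fcpAcyc (X : Type) [TopologicalSpace X] : FcPre X where
  mem := fun A => A.Acyc
  iso := fun e h U hU hUO => (h U hU hUO).of_iso e
  acyc := fun h => h
  resc := fun _ hc h U hU hUO => (h U hU hUO).resc hc
  cone := fun f hA hB U hU hUO => fcCone_acycAt f (hA U hU hUO) (hB U hU hUO)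
  cone_src := fun f hB hC U hU hUO => fcCone_acycAt_src f (hB U hU hUO) (hC U hU hUO)
  cone_tgt := fun f hA hC U hU hUO => fcCone_acycAt_tgt f (hA U hU hUO) (hC U hU hUO)

/-- the class of the objects which are locally acyclic on `O` -/
def fcpAcycOn (O : Set X) : FcPre X where
  mem := fun A => A.AcycOn O
  iso := fun e h U hU hUO => (h U hU hUO).of_iso e
  acyc := fun h U hU _ => h U hU (Set.subset_univ _)
  resc := fun _ hc h U hU hUO => (h U hU hUO).resc hc
  cone := fun f hA hB U hU hUO => fcCone_acycAt f (hA U hU hUO) (hB U hU hUO)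
  cone_src := fun f hB hC U hU hUO => fcCone_acycAt_src f (hB U hU hUO) (hC U hU hUO)
  cone_tgt := fun f hA hC U hU hUO => fcCone_acycAt_tgt f (hA U hU hUO) (hC U hU hUO)

/-- the class of the objects which are locally acyclic off a compact subset of `V` -/
def fcpCpt (V : Set X) : FcPre X where
  mem := fun A => ∃ K, IsCompact K ∧ K ⊆ V ∧ A.AcycOn Kᶜ
  iso := fun e ⟨K, hK, hKV, h⟩ => ⟨K, hK, hKV, (fcpAcycOn Kᶜ).iso e h⟩
  acyc := fun h => ⟨∅, isCompact_empty, Set.empty_subset _, fun U hU _ => h U hU (Set.subset_univ _)⟩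
  resc := fun c hc ⟨K, hK, hKV, h⟩ => ⟨K, hK, hKV, (fcpAcycOn Kᶜ).resc c hc h⟩
  cone := fun f ⟨K, hK, hKV, h⟩ ⟨K', hK', hKV', h'⟩ =>
    ⟨K ∪ K', hK.union hK', Set.union_subset hKV hKV',
      (fcpAcycOn (K ∪ K')ᶜ).cone f (h.mono (Set.compl_subset_compl.2 Set.subset_union_left))
        (h'.mono (Set.compl_subset_compl.2 Set.subset_union_right))⟩
  cone_src := fun f ⟨K, hK, hKV, h⟩ ⟨K', hK', hKV', h'⟩ =>
    ⟨K ∪ K', hK.union hK', Set.union_subset hKV hKV',
      (fcpAcycOn (K ∪ K')ᶜ).cone_src f (h.mono (Set.compl_subset_compl.2 Set.subset_union_left))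
        (h'.mono (Set.compl_subset_compl.2 Set.subset_union_right))⟩
  cone_tgt := fun f ⟨K, hK, hKV, h⟩ ⟨K', hK', hKV', h'⟩ =>
    ⟨K ∪ K', hK.union hK', Set.union_subset hKV hKV',
      (fcpAcycOn (K ∪ K')ᶜ).cone_tgt f (h.mono (Set.compl_subset_compl.2 Set.subset_union_left))
        (h'.mono (Set.compl_subset_compl.2 Set.subset_union_right))⟩

/-- the intersection of two classes -/
def FcPre.inf (P Q : FcPre X) : FcPre X where
  mem := fun A => P.mem A ∧ Q.mem A
  iso := fun e h => ⟨P.iso e h.1, Q.iso e h.2⟩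
  acyc := fun h => ⟨P.acyc h, Q.acyc h⟩
  resc := fun c hc h => ⟨P.resc c hc h.1, Q.resc c hc h.2⟩
  cone := fun f h h' => ⟨P.cone f h.1 h'.1, Q.cone f h.2 h'.2⟩
  cone_src := fun f h h' => ⟨P.cone_src f h.1 h'.1, Q.cone_src f h.2 h'.2⟩
  cone_tgt := fun f h h' => ⟨P.cone_tgt f h.1 h'.1, Q.cone_tgt f h.2 h'.2⟩

/-- realises the equation lemmas here (unique names) -/
theorem fcp_defs_eqns_cite : True := by
  have := @FcCls.pre.eq_1
  have := @fcpGen.eq_1
  have := @fcpThick.eq_1
  have := @FcPre.Summ.eq_1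
  have := @FcPre.le.eq_1
  have := @fcpAcyc.eq_1
  have := @fcpAcycOn.eq_1
  have := @fcpCpt.eq_1
  have := @FcPre.inf.eq_1
  trivial

end Claimed.Agent.R304
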