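/-
Row 304 (S0559, Hilbert-Smith).  Owner: helper231.  LAYER S, package `FcPre` (prefix `fcp`).

`FcPre X` = a class of differential objects with all the rules of `FcCls X` EXCEPT closure under duals (`FcPreDefs`).
The classes `FcGen G`, `FcThick G` are `FcPre`s by definition; that they are closed under duals is a theorem (`fcp_gen_dual`).
This file repeats the calculus (T1)-(T6) of `FcBasic` verbatim for `FcPre` (same proofs, prefix `fcp` instead of `fcb`).
-/
import Claimed.Agent.R304.FcBasic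
import Claimed.Agent.R304.FcPreDefs

set_option autoImplicit false

namespace Claimed.Agent.R304

open Topology

variable {X : Type} [TopologicalSpace X]

section Pre

variable (P : FcPre X)

theorem fcp_zero_mem : P.mem (fcZero X) := P.acyc (fcb_zero_acyc X)

theorem fcp_cone_id_mem (A : FcD X) : P.mem (fcCone (fcId A)) := P.acyc (fcb_cone_id_acyc A)

theorem fcp_resc_neg_iff (A : FcD X) : P.mem (A.resc (-1)) ↔ P.mem A :=
  ⟨fun h => P.iso (fcbRescNegNeg A) (P.resc (-1) (by norm_num) h), P.resc (-1) (by norm_num)⟩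

theorem fcp_resc_iff (A : FcD X) {c : ℝ} (hc : c ≠ 0) : P.mem (A.resc c) ↔ P.mem A := by
  refine ⟨fun h => ?_, P.resc c hc⟩
  have h1 := P.iso (fcbRescResc A c c⁻¹) (P.resc c⁻¹ (inv_ne_zero hc) h)
  rw [inv_mul_cancel₀ hc] at h1
  exact P.iso (fcbRescOne A) h1

/-! ### (T4) extensions -/

theorem fcp_ext_mem {B E A : FcD X} (e : FcExt B E A) (hA : P.mem A) (hB : P.mem B) : P.mem E :=
  P.iso e.isoCone.symm (P.cone e.tauHom ((fcp_resc_neg_iff P A).2 hA) hB)

theorem fcp_ext_quot {B E A : FcD X} (e : FcExt B E A) (hE : P.mem E) (hB : P.mem B) : P.mem A :=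
  (fcp_resc_neg_iff P A).1 (P.cone_src e.tauHom hB (P.iso e.isoCone hE))

theorem fcp_ext_sub {B E A : FcD X} (e : FcExt B E A) (hE : P.mem E) (hA : P.mem A) : P.mem B :=
  P.cone_tgt e.tauHom ((fcp_resc_neg_iff P A).2 hA) (P.iso e.isoCone hE)

/-- (T4) a filtered map whose graded pieces are `P`-equivalences is a `P`-equivalence -/
theorem fcp_extHom_mem {B E A B' E' A' : FcD X} {e : FcExt B E A} {e' : FcExt B' E' A'}
    (φ : FcExtHom e e') (hB : P.mem (fcCone φ.fB)) (hA : P.mem (fcCone φ.fA)) : P.mem (fcCone φ.fE) :=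
  fcp_ext_mem P φ.cone hA hB

theorem fcp_extHom_quot {B E A B' E' A' : FcD X} {e : FcExt B E A} {e' : FcExt B' E' A'}
    (φ : FcExtHom e e') (hE : P.mem (fcCone φ.fE)) (hB : P.mem (fcCone φ.fB)) : P.mem (fcCone φ.fA) :=
  fcp_ext_quot P φ.cone hE hB

theorem fcp_extHom_sub {B E A B' E' A' : FcD X} {e : FcExt B E A} {e' : FcExt B' E' A'}
    (φ : FcExtHom e e') (hE : P.mem (fcCone φ.fE)) (hA : P.mem (fcCone φ.fA)) : P.mem (fcCone φ.fB) :=
  fcp_ext_sub P φ.cone hE hA

/-! ### (T1) products -/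

theorem fcp_prod_mem {A B : FcD X} (hA : P.mem A) (hB : P.mem B) : P.mem (A.prod B) :=
  fcp_ext_mem P (fcbExtProd A B) hA hB

theorem fcp_prod_left {A B : FcD X} (h : P.mem (A.prod B)) (hB : P.mem B) : P.mem A :=
  fcp_ext_quot P (fcbExtProd A B) h hB

theorem fcp_prod_right {A B : FcD X} (h : P.mem (A.prod B)) (hA : P.mem A) : P.mem B :=
  fcp_ext_sub P (fcbExtProd A B) h hA

/-! ### cones of zero maps, (T6) -/

theorem fcp_cone_to_zero_iff (B : FcD X) : P.mem (fcCone (fcbZero B (fcZero X))) ↔ P.mem B :=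
  ⟨fun h => P.cone_src _ (fcp_zero_mem P) h, fun h => P.cone _ h (fcp_zero_mem P)⟩

theorem fcp_cone_from_zero_iff (A : FcD X) : P.mem (fcCone (fcbZero (fcZero X) A)) ↔ P.mem A :=
  ⟨fun h => P.cone_tgt _ (fcp_zero_mem P) h, fun h => P.cone _ (fcp_zero_mem P) h⟩

/-- (T6) the projection of an extension is a `P`-equivalence iff the kernel is in `P` -/
theorem fcp_ext_p_mem_iff {B E A : FcD X} (e : FcExt B E A) : P.mem (fcCone e.p) ↔ P.mem B :=
  ⟨fun h => (fcp_cone_to_zero_iff P B).1 (fcp_extHom_sub P e.pHom h (fcp_cone_id_mem P A)),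
    fun h => fcp_extHom_mem P e.pHom ((fcp_cone_to_zero_iff P B).2 h) (fcp_cone_id_mem P A)⟩

/-- (T6) the inclusion of an extension is a `P`-equivalence iff the quotient is in `P` -/
theorem fcp_ext_i_mem_iff {B E A : FcD X} (e : FcExt B E A) : P.mem (fcCone e.i) ↔ P.mem A :=
  ⟨fun h => (fcp_cone_from_zero_iff P A).1 (fcp_extHom_quot P e.iHom h (fcp_cone_id_mem P B)),
    fun h => fcp_extHom_mem P e.iHom (fcp_cone_id_mem P B) ((fcp_cone_from_zero_iff P A).2 h)⟩

/-- an isomorphism is a `P`-equivalence -/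
theorem fcp_iso_cone_mem {A B : FcD X} (e : FcIso A B) : P.mem (fcCone e.toHom) :=
  (fcp_ext_i_mem_iff P ((fcbExtId' A).ofIso e)).2 (fcp_zero_mem P)

theorem fcp_cone_resc_iff {A B : FcD X} (f : FcHom A B) {c : ℝ} (hc : c ≠ 0) :
    P.mem (fcCone (f.resc c)) ↔ P.mem (fcCone f) :=
  ⟨fun h => (fcp_resc_iff P _ hc).1 (P.iso (fcbConeResc f hc) h),
    fun h => P.iso (fcbConeResc f hc).symm ((fcp_resc_iff P _ hc).2 h)⟩

theorem fcp_cone_neg_iff {A B : FcD X} (f : FcHom A B) : P.mem (fcCone f.neg) ↔ P.mem (fcCone f) :=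
  ⟨fun h => P.iso (fcbConeNeg f) h, fun h => P.iso (fcbConeNeg f).symm h⟩

/-! ### maps of cones -/

/-- the map of cones of a homotopy commutative square of `P`-equivalences is a `P`-equivalence -/
theorem fcp_coneMap_mem {A B A' B' : FcD X} {f : FcHom A B} {f' : FcHom A' B'} (x : FcHom A' A)
    (y : FcHom B' B) (H : FcHtpy (y.comp f') (f.comp x)) (hx : P.mem (fcCone x)) (hy : P.mem (fcCone y)) :
    P.mem (fcCone (fcbConeMap x y H)) :=
  fcp_extHom_mem P (fcbConeMapExt x y H) hy ((fcp_cone_resc_iff P x (by norm_num)).2 hx)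

/-! ### (T3) two-out-of-three for compositions -/

/-- the comparison `cone f → cone (g ∘ f)`, `(a, b) ↦ (a, g b)`; its cone is an extension of `cone(1)` by `cone g` -/
theorem fcp_octa {A B C : FcD X} (f : FcHom A B) (g : FcHom B C) :
    P.mem (fcCone (fcbConeMap (f := g.comp f) (f' := f) (fcId A) g (fcbHtpyOfEq fun _ => rfl))) ↔
      P.mem (fcCone g) := by
  have φ := fcbConeMapExt (f := g.comp f) (f' := f) (fcId A) g (fcbHtpyOfEq fun _ => rfl)
  have hid : P.mem (fcCone ((fcId A).resc (-1))) :=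
    (fcp_cone_resc_iff P (fcId A) (by norm_num)).2 (fcp_cone_id_mem P A)
  exact ⟨fun h => fcp_extHom_sub P
      (fcbConeMapExt (f := g.comp f) (f' := f) (fcId A) g (fcbHtpyOfEq fun _ => rfl)) h hid,
    fun h => fcp_extHom_mem P
      (fcbConeMapExt (f := g.comp f) (f' := f) (fcId A) g (fcbHtpyOfEq fun _ => rfl)) h hid⟩

theorem fcp_comp_mem {A B C : FcD X} (f : FcHom A B) (g : FcHom B C) (hf : P.mem (fcCone f))
    (hg : P.mem (fcCone g)) : P.mem (fcCone (g.comp f)) :=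
  P.cone_tgt _ hf ((fcp_octa P f g).2 hg)

theorem fcp_comp_left {A B C : FcD X} (f : FcHom A B) (g : FcHom B C) (hg : P.mem (fcCone g))
    (hgf : P.mem (fcCone (g.comp f))) : P.mem (fcCone f) :=
  P.cone_src _ hgf ((fcp_octa P f g).2 hg)

theorem fcp_comp_right {A B C : FcD X} (f : FcHom A B) (g : FcHom B C) (hf : P.mem (fcCone f))
    (hgf : P.mem (fcCone (g.comp f))) : P.mem (fcCone g) :=
  (fcp_octa P f g).1 (P.cone _ hf hgf)

/-- membership is invariant under `P`-equivalences -/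
theorem fcp_mem_of_equiv {A B : FcD X} (f : FcHom A B) (hf : P.mem (fcCone f)) : P.mem A ↔ P.mem B :=
  ⟨fun h => P.cone_tgt f h hf, fun h => P.cone_src f h hf⟩

/-! ### rotation -/

/-- `cone(B → cone f) ∈ P ↔ A ∈ P` -/
theorem fcp_cone_in_iff {A B : FcD X} (f : FcHom A B) : P.mem (fcCone (fcbConeIn f)) ↔ P.mem A :=
  (fcp_ext_i_mem_iff P (fcbExtCone f)).trans (fcp_resc_neg_iff P A)

/-- `cone(cone f → A<-1>) ∈ P ↔ B ∈ P` -/
theorem fcp_cone_out_iff {A B : FcD X} (f : FcHom A B) : P.mem (fcCone (fcbConeOut f)) ↔ P.mem B :=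
  fcp_ext_p_mem_iff P (fcbExtCone f)

/-! ### homotopy pull-backs -/

theorem fcp_pb_fst_iff {A B C : FcD X} (f : FcHom A C) (g : FcHom B C) :
    P.mem (fcCone (fcbPbFst f g)) ↔ P.mem (fcCone g) :=
  (fcp_ext_p_mem_iff P (fcbPbExtFst f g)).trans (fcp_resc_neg_iff P _)

theorem fcp_pb_snd_iff {A B C : FcD X} (f : FcHom A C) (g : FcHom B C) :
    P.mem (fcCone (fcbPbSnd f g)) ↔ P.mem (fcCone f) :=
  ((fcp_ext_p_mem_iff P (fcbPbExtSnd f g)).trans (fcp_resc_neg_iff P _)).trans (fcp_cone_neg_iff P f)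

/-! ### (T5) duals -/

variable [T2Space X]

theorem fcp_dual_resc_iff (A : FcD X) (c : ℝ) : P.mem (A.resc c).dual ↔ P.mem (A.dual.resc c) :=
  ⟨fun h => P.iso (fcbDualResc A c) h, fun h => P.iso (fcbDualResc A c).symm h⟩

/-- the dual of a cone is an extension of `B^∨` by `(A<-1>)^∨` -/
theorem fcp_dual_cone_mem {A B : FcD X} (f : FcHom A B) (hA : P.mem A.dual) (hB : P.mem B.dual) :
    P.mem (fcCone f).dual :=
  fcp_ext_mem P (fcbExtCone f).dual hB ((fcp_dual_resc_iff P A (-1)).2 ((fcp_resc_neg_iff P _).2 hA))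

theorem fcp_dual_cone_src {A B : FcD X} (f : FcHom A B) (hB : P.mem B.dual)
    (hC : P.mem (fcCone f).dual) : P.mem A.dual :=
  (fcp_resc_neg_iff P _).1 ((fcp_dual_resc_iff P A (-1)).1 (fcp_ext_sub P (fcbExtCone f).dual hC hB))

theorem fcp_dual_cone_tgt {A B : FcD X} (f : FcHom A B) (hA : P.mem A.dual)
    (hC : P.mem (fcCone f).dual) : P.mem B.dual :=
  fcp_ext_quot P (fcbExtCone f).dual hC ((fcp_dual_resc_iff P A (-1)).2 ((fcp_resc_neg_iff P _).2 hA))

theorem fcp_dual_prod_left {A B : FcD X} (h : P.mem (A.prod B).dual) (hB : P.mem B.dual) :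
    P.mem A.dual :=
  fcp_ext_sub P (fcbExtProd A B).dual h hB

end Pre

end Claimed.Agent.R304
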