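/-
Row 304 (S0559, Hilbert-Smith).  Owner: helper231.  LAYER S, package `FcFun`, DEFINITIONS (prefix `fcf`):
compatibility isomorphisms of the operations `dual`, `push`, `res`, `pull` (restriction to an open subspace) with cones, products, rescaling,
and the classes obtained by transport: `FcPre.dualPre`, `FcPre.pushPre`, `FcPre.resPre`, `FcPre.pullPre`.
-/
import Claimed.Agent.R304.FcPre

set_option autoImplicit false

namespace Claimed.Agent.R304

open Topology

variable {X Y Z : Type} [TopologicalSpace X] [TopologicalSpace Y] [TopologicalSpace Z]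

/-! ### duals -/

/-- the dual of an isomorphism -/
def FcIso.dual [T2Space X] {A B : FcD X} (e : FcIso A B) : FcIso B.dual A.dual where
  e :=
    { toFun := fcTrLin e.e.toLinearMap (fun m => (e.supp_eq m).subset)
      map_add' := fun _ _ => rfl
      map_smul' := fun _ _ => rfl
      invFun := fcTrLin e.e.symm.toLinearMap (fun m => (e.symm.supp_eq m).subset)
      left_inv := fun φ => by
        apply Subtype.ext
        apply LinearMap.ext
        intro m
        show φ.1 (e.e (e.e.symm m)) = φ.1 m
        rw [LinearEquiv.apply_symm_apply]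
      right_inv := fun φ => by
        apply Subtype.ext
        apply LinearMap.ext
        intro m
        show φ.1 (e.e.symm (e.e m)) = φ.1 m
        rw [LinearEquiv.symm_apply_apply] }
  supp_eq := fun φ => by
    apply Set.Subset.antisymm
    · exact FcObj.dualSupp_comp e.e.toLinearMap (fun m => (e.supp_eq m).subset) φ.1
    · have h := FcObj.dualSupp_comp e.e.symm.toLinearMap (fun m => (e.symm.supp_eq m).subset)
        (φ.1 ∘ₗ e.e.toLinearMap)
      have e1 : (φ.1 ∘ₗ e.e.toLinearMap) ∘ₗ e.e.symm.toLinearMap = φ.1 := by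
        apply LinearMap.ext
        intro m
        show φ.1 (e.e (e.e.symm m)) = φ.1 m
        rw [LinearEquiv.apply_symm_apply]
      rw [e1] at h
      exact h
  comm := fun φ => by
    apply Subtype.ext
    apply LinearMap.ext
    intro m
    show φ.1 (B.d (e.e m)) = φ.1 (e.e (A.d m))
    rw [e.comm]

theorem fcf_dual_split {V W : Type} [AddCommGroup V] [Module ℝ V] [AddCommGroup W] [Module ℝ W]
    (φ : Module.Dual ℝ (V × W)) (m : V × W) : φ (m.1, 0) + φ (0, m.2) = φ m := by
  rw [← map_add]
  congr 1
  ext <;> simp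

/-- `(A × B)^∨ = A^∨ × B^∨` -/
def fcfDualProd [T2Space X] (A B : FcD X) : FcIso (A.prod B).dual (A.dual.prod B.dual) where
  e :=
    { toFun := fun φ => ((fcTr (fcbInl A B)).f φ, (fcTr (fcbInr A B)).f φ)
      map_add' := fun _ _ => rfl
      map_smul' := fun _ _ => rfl
      invFun := fun z => (fcTr (fcbFst A B)).f z.1 + (fcTr (fcbSnd A B)).f z.2
      left_inv := fun φ => by
        apply Subtype.ext
        apply LinearMap.ext
        intro m
        exact fcf_dual_split φ.1 m
      right_inv := fun z => by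
        refine Prod.ext ?_ ?_
        · apply Subtype.ext
          apply LinearMap.ext
          intro a
          show z.1.1 a + z.2.1 0 = z.1.1 a
          rw [map_zero, add_zero]
        · apply Subtype.ext
          apply LinearMap.ext
          intro b
          show z.1.1 0 + z.2.1 b = z.2.1 b
          rw [map_zero, zero_add] }
  supp_eq := fun φ => by
    apply Set.Subset.antisymm
    · exact Set.union_subset ((fcTr (fcbInl A B)).loc φ) ((fcTr (fcbInr A B)).loc φ)
    · have e1 : φ = (fcTr (fcbFst A B)).f ((fcTr (fcbInl A B)).f φ) +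
          (fcTr (fcbSnd A B)).f ((fcTr (fcbInr A B)).f φ) := by
        apply Subtype.ext
        apply LinearMap.ext
        intro m
        exact (fcf_dual_split φ.1 m).symm
      conv_lhs => rw [e1]
      refine ((A.prod B).dual.supp_add _ _).trans (Set.union_subset_union ?_ ?_)
      · exact (fcTr (fcbFst A B)).loc _
      · exact (fcTr (fcbSnd A B)).loc _
  comm := fun φ => Prod.ext ((fcTr (fcbInl A B)).comm φ) ((fcTr (fcbInr A B)).comm φ)

/-- the class of the objects whose dual is in `P` -/
def FcPre.dualPre [T2Space X] (P : FcPre X) : FcPre X where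
  mem := fun A => P.mem A.dual
  iso := fun e h => P.iso e.symm.dual h
  acyc := fun h => P.acyc (FcD.AcycOn.dual h)
  resc := fun c hc h => (fcp_dual_resc_iff P _ c).2 (P.resc c hc h)
  cone := fun f hA hB => fcp_dual_cone_mem P f hA hB
  cone_src := fun f hB hC => fcp_dual_cone_src P f hB hC
  cone_tgt := fun f hA hC => fcp_dual_cone_tgt P f hA hC

/-! ### push forward -/

/-- push forward of an isomorphism -/
def FcIso.push [T2Space Y] (g : C(X, Y)) {A B : FcD X} (e : FcIso A B) : FcIso (A.push g) (B.push g) where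
  e := e.e
  supp_eq := fun m => congrArg (fun S => g '' S) (e.supp_eq m)
  comm := e.comm

/-- `g_! cone(f) = cone(g_! f)` -/
def fcfPushCone [T2Space Y] (g : C(X, Y)) {A B : FcD X} (f : FcHom A B) :
    FcIso ((fcCone f).push g) (fcCone (f.push g)) where
  e := LinearEquiv.refl ℝ (A.C × B.C)
  supp_eq := fun m => (Set.image_union g (A.supp m.1) (B.supp m.2)).symm
  comm := fun _ => rfl

/-- `g_! (A × B) = g_! A × g_! B` -/
def fcfPushProd [T2Space Y] (g : C(X, Y)) (A B : FcD X) :
    FcIso ((A.prod B).push g) ((A.push g).prod (B.push g)) where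
  e := LinearEquiv.refl ℝ (A.C × B.C)
  supp_eq := fun m => (Set.image_union g (A.supp m.1) (B.supp m.2)).symm
  comm := fun _ => rfl

/-- `g_! (A<c>) = (g_! A)<c>` -/
def fcfPushResc [T2Space Y] (g : C(X, Y)) (A : FcD X) (c : ℝ) :
    FcIso ((A.resc c).push g) ((A.push g).resc c) where
  e := LinearEquiv.refl ℝ A.C
  supp_eq := fun _ => rfl
  comm := fun _ => rfl

/-- `h_! g_! A = (h ∘ g)_! A` -/
def fcfPushPush [T2Space Y] [T2Space Z] (g : C(X, Y)) (h : C(Y, Z)) (A : FcD X) :
    FcIso ((A.push g).push h) (A.push (h.comp g)) where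
  e := LinearEquiv.refl ℝ A.C
  supp_eq := fun m => (Set.image_image h g (A.supp m)).symm
  comm := fun _ => rfl

theorem FcD.AcycAt.push [T2Space Y] (g : C(X, Y)) {A : FcD X} {U : Set Y} (h : A.AcycAt (g ⁻¹' U)) :
    (A.push g).AcycAt U := by
  intro m hm hd
  obtain ⟨m', hm', hd'⟩ := h m (Set.image_subset_iff.1 hm) hd
  exact ⟨m', Set.image_subset_iff.2 hm', hd'⟩

theorem FcD.AcycOn.push [T2Space Y] (g : C(X, Y)) {A : FcD X} {O : Set Y} (h : A.AcycOn (g ⁻¹' O)) :
    (A.push g).AcycOn O :=
  fun _ hU hUO => FcD.AcycAt.push g (h _ (hU.preimage g.continuous) (Set.preimage_mono hUO))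

/-- the class of the objects whose push forward is in `P` -/
def FcPre.pushPre [T2Space Y] (g : C(X, Y)) (P : FcPre Y) : FcPre X where
  mem := fun A => P.mem (A.push g)
  iso := fun e h => P.iso (e.push g) h
  acyc := fun h => P.acyc (FcD.AcycOn.push g (O := Set.univ) (by rw [Set.preimage_univ]; exact h))
  resc := fun c hc h => P.iso (fcfPushResc g _ c).symm (P.resc c hc h)
  cone := fun f hA hB => P.iso (fcfPushCone g f).symm (P.cone (f.push g) hA hB)
  cone_src := fun f hB hC => P.cone_src (f.push g) hB (P.iso (fcfPushCone g f) hC)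
  cone_tgt := fun f hA hC => P.cone_tgt (f.push g) hA (P.iso (fcfPushCone g f) hC)

/-! ### sections over a set -/

/-- `cone(f)(U) = cone(f(U))` -/
def fcfResCone {A B : FcD X} (f : FcHom A B) (U : Set X) :
    FcIso ((fcCone f).res U) (fcCone (f.res U)) where
  e :=
    { toFun := fun m => (⟨m.1.1, Set.subset_union_left.trans m.2⟩, ⟨m.1.2, Set.subset_union_right.trans m.2⟩)
      map_add' := fun _ _ => rfl
      map_smul' := fun _ _ => rfl
      invFun := fun z => ⟨(z.1.1, z.2.1), Set.union_subset z.1.2 z.2.2⟩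
      left_inv := fun _ => rfl
      right_inv := fun _ => rfl }
  supp_eq := fun _ => rfl
  comm := fun _ => rfl

/-- `(A<c>)(U) = A(U)<c>` -/
def fcfResResc (A : FcD X) (c : ℝ) (U : Set X) : FcIso ((A.resc c).res U) ((A.res U).resc c) where
  e := LinearEquiv.refl ℝ (A.sec U)
  supp_eq := fun _ => rfl
  comm := fun _ => rfl

/-- restriction of an isomorphism -/
def FcIso.res {A B : FcD X} (e : FcIso A B) (U : Set X) : FcIso (A.res U) (B.res U) where
  e :=
    { toFun := (e.toHom.res U).f
      map_add' := (e.toHom.res U).f.map_add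
      map_smul' := (e.toHom.res U).f.map_smul
      invFun := (e.symm.toHom.res U).f
      left_inv := fun m => Subtype.ext (e.e.symm_apply_apply m.1)
      right_inv := fun m => Subtype.ext (e.e.apply_symm_apply m.1) }
  supp_eq := fun m => e.supp_eq m.1
  comm := fun m => Subtype.ext (e.comm m.1)

theorem fcf_res_acycAt_iff (A : FcD X) (U W : Set X) : (A.res U).AcycAt W ↔ A.AcycAt (U ∩ W) := by
  constructor
  · intro h m hm hd
    obtain ⟨m', hm', hd'⟩ := h ⟨m, hm.trans Set.inter_subset_left⟩ (hm.trans Set.inter_subset_right)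
      (Subtype.ext hd)
    exact ⟨m'.1, Set.subset_inter m'.2 hm', congrArg Subtype.val hd'⟩
  · intro h m hm hd
    obtain ⟨m', hm', hd'⟩ := h m.1 (Set.subset_inter m.2 hm) (congrArg Subtype.val hd)
    exact ⟨⟨m', hm'.trans Set.inter_subset_left⟩, hm'.trans Set.inter_subset_right, Subtype.ext hd'⟩

/-- `A(U)(W) = A(U ∩ W)` -/
def fcfResRes (A : FcD X) (U W : Set X) : FcIso ((A.res U).res W) (A.res (U ∩ W)) where
  e :=
    { toFun := fun m => ⟨m.1.1, Set.subset_inter m.1.2 m.2⟩
      map_add' := fun _ _ => rfl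
      map_smul' := fun _ _ => rfl
      invFun := fun m => ⟨⟨m.1, m.2.trans Set.inter_subset_left⟩, m.2.trans Set.inter_subset_right⟩
      left_inv := fun _ => rfl
      right_inv := fun _ => rfl }
  supp_eq := fun _ => rfl
  comm := fun _ => rfl

/-- the class of the objects `A` with `A(U) ∈ P`, `U` an open set -/
def FcPre.resPre (P : FcPre X) (U : Set X) (hU : IsOpen U) : FcPre X where
  mem := fun A => P.mem (A.res U)
  iso := fun e h => P.iso (e.res U) h
  acyc := fun h => P.acyc (fun W hW _ => (fcf_res_acycAt_iff _ U W).2 (h _ (hU.inter hW) (Set.subset_univ _)))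
  resc := fun c hc h => P.iso (fcfResResc _ c U).symm (P.resc c hc h)
  cone := fun f hA hB => P.iso (fcfResCone f U).symm (P.cone (f.res U) hA hB)
  cone_src := fun f hB hC => P.cone_src (f.res U) hB (P.iso (fcfResCone f U) hC)
  cone_tgt := fun f hA hC => P.cone_tgt (f.res U) hA (P.iso (fcfResCone f U) hC)

/-- realises the equation lemmas here (unique names) -/
theorem fcf_defs_eqns_cite : True := by
  have := @FcIso.dual.eq_1
  have := @fcfDualProd.eq_1
  have := @FcPre.dualPre.eq_1
  have := @FcIso.push.eq_1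
  have := @fcfPushCone.eq_1
  have := @fcfPushProd.eq_1
  have := @fcfPushResc.eq_1
  have := @fcfPushPush.eq_1
  have := @FcPre.pushPre.eq_1
  have := @fcfResCone.eq_1
  have := @fcfResResc.eq_1
  have := @FcIso.res.eq_1
  have := @fcfResRes.eq_1
  have := @FcPre.resPre.eq_1
  trivial

/-! ### further canonical isomorphisms of products and cones (prefix `fci`) -/

/-- `(A × B)<c> = A<c> × B<c>` -/
def fciProdResc (A B : FcD X) (c : ℝ) : FcIso ((A.prod B).resc c) ((A.resc c).prod (B.resc c)) where
  e := LinearEquiv.refl ℝ (A.C × B.C)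
  supp_eq := fun _ => rfl
  comm := fun _ => rfl

/-- `A × B = B × A` -/
def fciProdComm (A B : FcD X) : FcIso (A.prod B) (B.prod A) where
  e := LinearEquiv.prodComm ℝ A.C B.C
  supp_eq := fun m => Set.union_comm (B.supp m.2) (A.supp m.1)
  comm := fun _ => rfl

/-- `(A × B) × C = A × (B × C)` -/
def fciProdAssoc (A B C : FcD X) : FcIso ((A.prod B).prod C) (A.prod (B.prod C)) where
  e := LinearEquiv.prodAssoc ℝ A.C B.C C.C
  supp_eq := fun m => (Set.union_assoc (A.supp m.1.1) (B.supp m.1.2) (C.supp m.2)).symm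
  comm := fun _ => rfl

/-- `cone(f × f') = cone f × cone f'` -/
def fciConeProd {A B A' B' : FcD X} (f : FcHom A B) (f' : FcHom A' B') :
    FcIso (fcCone (f.prodMap f')) ((fcCone f).prod (fcCone f')) where
  e := LinearEquiv.prodProdProdComm ℝ A.C A'.C B.C B'.C
  supp_eq := fun m =>
    Set.union_union_union_comm (A.supp m.1.1) (B.supp m.2.1) (A'.supp m.1.2) (B'.supp m.2.2)
  comm := fun _ => rfl

/-- `cone(0 : A → B) = A<-1> × B` -/
def fciConeZero (A B : FcD X) : FcIso (fcCone (fcbZero A B)) ((A.resc (-1)).prod B) where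
  e := LinearEquiv.refl ℝ (A.C × B.C)
  supp_eq := fun _ => rfl
  comm := fun m => by
    show (-(A.d m.1), (0 : B.C) + B.d m.2) = ((-1 : ℝ) • A.d m.1, B.d m.2)
    rw [zero_add, neg_one_smul]

/-- the product of two isomorphisms -/
def FcIso.prodCongr {A B A' B' : FcD X} (e : FcIso A A') (e' : FcIso B B') :
    FcIso (A.prod B) (A'.prod B') where
  e := e.e.prodCongr e'.e
  supp_eq := fun m => by
    show A'.supp (e.e m.1) ∪ B'.supp (e'.e m.2) = A.supp m.1 ∪ B.supp m.2
    rw [e.supp_eq, e'.supp_eq]
  comm := fun m => Prod.ext (e.comm m.1) (e'.comm m.2)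

/-- realises the equation lemmas here (unique names) -/
theorem fci_defs_eqns_cite : True := by
  have := @fciProdResc.eq_1
  have := @fciProdComm.eq_1
  have := @fciProdAssoc.eq_1
  have := @fciConeProd.eq_1
  have := @fciConeZero.eq_1
  have := @FcIso.prodCongr.eq_1
  trivial

end Claimed.Agent.R304
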