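/-
Row 304 (S0559, Hilbert-Smith).  Owner/designer: helper154.  LAYER S, package `FcCylFun`:
FUNCTORIALITY OF THE CYLINDER and the induction `M ∈ FcThick G ⟹ fcyCyl M ∈ FcThick G'`.  Prefix `fcy`.

 0. two more consequences of the core lemma: `fcy_ev_htpy` (`ev_1 ~ ev_0` on cycles), `fcy_tau_inj` (`τ_c ⊗ : H(M(U)) → H(N(J × U))` is injective).
 1. `fcyMap f : fcyCyl A → fcyCyl B` (apply `f` pointwise).
 2. isomorphisms: `Cyl (cone f) ≅ cone (Cyl f)` (`(F^A, F^B) ↦ ((-1)^n F^A_n, F^B)`), `Cyl (A × B) ≅ Cyl A × Cyl B`, `Cyl (A.resc c) ≅ (Cyl A).resc c` (`F_n ↦ c^n F_n`),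
    `Cyl` of an isomorphism, `Cyl (g_! A) ≅ (id × g)_! Cyl A` for a COMPACT source.
 3. `fcy_thick`, `fcy_gen`: the induction.
 4. `fcy_res_qi`: `(Cyl C)(I × E) → Cyl (C(E))` is a local quasi-isomorphism.
 5. `fcy_dual_mem`: `Cyl A ∈ T'`, `(i_s)_! A^∨ ∈ T'` `⟹` `Cyl (A^∨) ∈ T'`  (from `fcy_pair_acycOn` for the evaluation pairing).
Estimated: 0: 150, 1-2: 900, 3: done, 4: 450, 5: 350 lines.
-/
import Claimed.Agent.R304.FcCylPair
import Claimed.Agent.R304.FcBasic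
import Claimed.Agent.R304.FcFunDefs

set_option autoImplicit false
set_option linter.unusedSectionVars false

namespace Claimed.Agent.R304

open Topology

variable {X Y : Type} [TopologicalSpace X] [T2Space X] [TopologicalSpace Y]

/-! ### 0. Two more consequences of the core lemma -/

theorem fcyf_eq_zero_of_supp (A : FcD X) (m : A.C) (h : A.supp m ⊆ ∅) : m = 0 :=
  (A.supp_empty_iff m).1 (Set.subset_empty_iff.1 h)

/-- `ev_t n = 0` if the support of `n` misses `{t} × X` -/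
theorem fcyf_ev_eq_zero (M : FcD X) (t : unitInterval) (n : (fcyCyl M).C)
    (h : ∀ x, (t, x) ∉ (fcyCyl M).supp n) : fcyEvL M t n = 0 :=
  fcyf_eq_zero_of_supp M _ fun x hx => h x (fcyEvL_supp M t n x hx)

theorem fcy_ev_htpy (M : FcD X) (U : Set X) (hU : IsOpen U) (n : (fcyCyl M).C)
    (hn : (fcyCyl M).supp n ⊆ Set.univ ×ˢ U) (hdn : (fcyCyl M).d n = 0) :
    ∃ w, M.supp w ⊆ U ∧ fcyEvL M 1 n - fcyEvL M 0 n = M.d w := by
  obtain ⟨n', n'', h1, h2, h3⟩ := fcy_CL M 0 n (Set.univ ×ˢ U) ∅ (isOpen_univ.prod hU) isOpen_empty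
    (by
      rintro p ⟨t', _, hp⟩
      exact ⟨trivial, (hn hp).2⟩)
    (by
      rintro p ⟨t', _, hp⟩
      rw [hdn, (fcyCyl M).supp_zero] at hp
      exact hp)
  have h0 : n'' = 0 := fcyf_eq_zero_of_supp _ _ h2
  refine ⟨fcyEvL M 1 n', fun x hx => (h1 (fcyEvL_supp M 1 n' x hx)).2, ?_⟩
  have h4 := congrArg (fcyEvL M 1) h3
  rw [h0, add_zero, map_sub, fcyEvL_ten, one_smul, fcyEvL_d] at h4
  exact h4

theorem fcy_tau_inj (M : FcD X) (J : Set unitInterval) (h0 : (0 : unitInterval) ∉ J)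
    (h1 : (1 : unitInterval) ∉ J) (c : unitInterval) (hc : c ∈ J) (U : Set X) (hU : IsOpen U)
    (m₀ : M.C) (hm₀ : M.supp m₀ ⊆ U) (hd : M.d m₀ = 0) (w : (fcyCyl M).C)
    (hw : (fcyCyl M).supp w ⊆ J ×ˢ U) (h : fcyTau M c m₀ = (fcyCyl M).d w) :
    ∃ m', M.supp m' ⊆ U ∧ m₀ = M.d m' := by
  have hτ : fcyTau M c m₀ = (fcyCyl M).d (fcyTen M (fcyInd c) m₀) - fcyTen M (fcyInd c) (M.d m₀) := rfl
  obtain ⟨m', hm', e⟩ := fcy_ev_htpy M U hU (fcyTen M (fcyInd c) m₀ - w)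
    (by
      refine ((fcyCyl M).supp_sub _ _).trans (Set.union_subset ?_ ?_)
      · exact (fcyTen_supp M _ _).trans (Set.prod_mono (Set.subset_univ _) hm₀)
      · exact hw.trans (Set.prod_mono (Set.subset_univ _) subset_rfl))
    (by
      rw [map_sub, ← h, hτ, hd, map_zero, sub_zero, sub_self])
  refine ⟨m', hm', ?_⟩
  have e1 : fcyEvL M 1 w = 0 := fcyf_ev_eq_zero M 1 w fun x hx => h1 (hw hx).1
  have e0 : fcyEvL M 0 w = 0 := fcyf_ev_eq_zero M 0 w fun x hx => h0 (hw hx).1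
  have i1 : fcyInd c 1 = 1 := by
    unfold fcyInd
    rw [if_pos unitInterval.le_one']
  have i0 : fcyInd c 0 = 0 := by
    unfold fcyInd
    rw [if_neg]
    intro hc0
    have : c = 0 := le_antisymm hc0 unitInterval.nonneg'
    exact h0 (this ▸ hc)
  rw [map_sub, map_sub, fcyEvL_ten, fcyEvL_ten, e1, e0, i1, i0] at e
  simpa using e

/-! ### 1. The induced maps -/

/-- GENERAL LIFT: a linear map of families which preserves admissible and null families descends to the cylinders -/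
theorem fcyf_lift_exists [T2Space Y] {A : FcD X} {B : FcD Y} (Φ : FcyFam A →ₗ[ℝ] FcyFam B)
    (hadm : ∀ F ∈ fcyAdm A, Φ F ∈ fcyAdm B)
    (hnull : ∀ F ∈ fcyAdm A, fcyFSupp A F = ∅ → fcyFSupp B (Φ F) = ∅) :
    ∃ g : (fcyCyl A).C →ₗ[ℝ] (fcyCyl B).C, ∀ F : fcyAdm A,
      g (fcyMk A F) = fcyMk B ⟨Φ F.1, hadm F.1 F.2⟩ :=
  ⟨Submodule.mapQ (fcyNull A) (fcyNull B) (Φ.restrict hadm) (fun F hF => hnull F.1 F.2 hF),
    fun _ => rfl⟩

/-- the lift -/
noncomputable def fcyfLift [T2Space Y] {A : FcD X} {B : FcD Y} (Φ : FcyFam A →ₗ[ℝ] FcyFam B)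
    (hadm : ∀ F ∈ fcyAdm A, Φ F ∈ fcyAdm B)
    (hnull : ∀ F ∈ fcyAdm A, fcyFSupp A F = ∅ → fcyFSupp B (Φ F) = ∅) :
    (fcyCyl A).C →ₗ[ℝ] (fcyCyl B).C := (fcyf_lift_exists Φ hadm hnull).choose

theorem fcyfLift_mk [T2Space Y] {A : FcD X} {B : FcD Y} (Φ : FcyFam A →ₗ[ℝ] FcyFam B)
    (hadm : ∀ F ∈ fcyAdm A, Φ F ∈ fcyAdm B)
    (hnull : ∀ F ∈ fcyAdm A, fcyFSupp A F = ∅ → fcyFSupp B (Φ F) = ∅) (F : fcyAdm A) :
    fcyfLift Φ hadm hnull (fcyMk A F) = fcyMk B ⟨Φ F.1, hadm F.1 F.2⟩ :=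
  (fcyf_lift_exists Φ hadm hnull).choose_spec F

/-- equality of classes from equality of families -/
theorem fcyf_mk_congr (A : FcD X) {F G : fcyAdm A} (h : F.1 = G.1) : fcyMk A F = fcyMk A G :=
  congrArg _ (Subtype.ext h)

/-- apply a linear map pointwise, with a scalar depending on the degree -/
def fcyfTw {A B : FcD X} (u : A.C →ₗ[ℝ] B.C) (c : ℕ → ℝ) : FcyFam A →ₗ[ℝ] FcyFam B where
  toFun := fun F n s => c n • u (F n s)
  map_add' := fun F G => by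
    funext n s
    show c n • u (F n s + G n s) = c n • u (F n s) + c n • u (G n s)
    rw [map_add, smul_add]
  map_smul' := fun a F => by
    funext n s
    show c n • u (a • F n s) = a • c n • u (F n s)
    rw [map_smul, smul_comm]

theorem fcyfTw_adm {A B : FcD X} (u : A.C →ₗ[ℝ] B.C) (hu : FcLoc A B u) (c : ℕ → ℝ) (F : FcyFam A)
    (hF : F ∈ fcyAdm A) : fcyfTw u c F ∈ fcyAdm B := by
  obtain ⟨⟨K, hK, hFK⟩, N, hN⟩ := hF
  refine ⟨⟨K, hK, fun n s => ((B.supp_smul _ _).trans (hu _)).trans (hFK n s)⟩, N, fun n hn => ?_⟩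
  funext s
  show c n • u (F n s) = 0
  rw [hN n hn]
  simp

theorem fcyfTw_van {A B : FcD X} (u : A.C →ₗ[ℝ] B.C) (hu : FcLoc A B u) (c : ℕ → ℝ) (F : FcyFam A)
    {J : Set unitInterval} {W : Set X} (h : FcyVanS A F J W) : FcyVanS B (fcyfTw u c F) J W :=
  fun n s hs => Set.disjoint_of_subset_left ((B.supp_smul _ _).trans (hu _)) (h n s hs)

theorem fcyfTw_supp {A B : FcD X} (u : A.C →ₗ[ℝ] B.C) (hu : FcLoc A B u) (c : ℕ → ℝ) (F : FcyFam A) :
    fcyFSupp B (fcyfTw u c F) ⊆ fcyFSupp A F := by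
  intro p hp hcon
  obtain ⟨J, hJ, W, hW, h⟩ := hcon
  exact hp ⟨J, hJ, W, hW, fcyfTw_van u hu c F h⟩

/-- the twisted map of cylinders -/
noncomputable def fcyfTwL {A B : FcD X} (u : A.C →ₗ[ℝ] B.C) (hu : FcLoc A B u) (c : ℕ → ℝ) :
    (fcyCyl A).C →ₗ[ℝ] (fcyCyl B).C :=
  fcyfLift (fcyfTw u c) (fcyfTw_adm u hu c) (fun F _ h =>
    Set.subset_empty_iff.1 (h ▸ fcyfTw_supp u hu c F))

theorem fcyfTwL_mk {A B : FcD X} (u : A.C →ₗ[ℝ] B.C) (hu : FcLoc A B u) (c : ℕ → ℝ) (F : fcyAdm A) :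
    fcyfTwL u hu c (fcyMk A F) = fcyMk B ⟨fcyfTw u c F.1, fcyfTw_adm u hu c F.1 F.2⟩ :=
  fcyfLift_mk _ _ _ F

theorem fcyfTwL_supp {A B : FcD X} (u : A.C →ₗ[ℝ] B.C) (hu : FcLoc A B u) (c : ℕ → ℝ)
    (n : (fcyCyl A).C) : (fcyCyl B).supp (fcyfTwL u hu c n) ⊆ (fcyCyl A).supp n := by
  obtain ⟨F, rfl⟩ := fcyMk_surj A n
  rw [fcyfTwL_mk, fcyMk_supp, fcyMk_supp]
  exact fcyfTw_supp u hu c F.1

/-- `δ` of a twisted family -/
theorem fcyfTw_delta {A B : FcD X} (u : A.C →ₗ[ℝ] B.C) (c : ℕ → ℝ) (F : FcyFam A) (k : ℕ)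
    (s : Fin (k + 2) → unitInterval) :
    fcyDelta B (fcyfTw u c F) (k + 1) s = c k • u (fcyDelta A F (k + 1) s) := by
  show ∑ i : Fin (k + 2), ((-1 : ℝ) ^ (i : ℕ)) • (c k • u (F k (fun j => s (i.succAbove j)))) =
    c k • u (∑ i : Fin (k + 2), ((-1 : ℝ) ^ (i : ℕ)) • F k (fun j => s (i.succAbove j)))
  rw [map_sum, Finset.smul_sum]
  refine Finset.sum_congr rfl fun i _ => ?_
  rw [map_smul, smul_comm]

theorem fcyf_D_zero (A : FcD X) (F : FcyFam A) (s : Fin 1 → unitInterval) :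
    fcyDfam A F 0 s = A.d (F 0 s) := by
  show (0 : A.C) + ((-1 : ℝ) ^ 0) • A.d (F 0 s) = A.d (F 0 s)
  simp

theorem fcyf_D_succ (A : FcD X) (F : FcyFam A) (k : ℕ) (s : Fin (k + 2) → unitInterval) :
    fcyDfam A F (k + 1) s = fcyDelta A F (k + 1) s + ((-1 : ℝ) ^ (k + 1)) • A.d (F (k + 1) s) := rfl

/-- apply a linear map pointwise -/
def fcyMapFam {A B : FcD X} (f : A.C →ₗ[ℝ] B.C) : FcyFam A →ₗ[ℝ] FcyFam B where
  toFun := fun F n s => f (F n s)
  map_add' := fun F G => by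
    funext n s
    exact map_add f _ _
  map_smul' := fun c F => by
    funext n s
    exact map_smul f _ _

theorem fcyf_mapFam_eq {A B : FcD X} (f : A.C →ₗ[ℝ] B.C) : fcyMapFam f = fcyfTw f (fun _ => 1) := by
  apply LinearMap.ext
  intro F
  funext n s
  show f (F n s) = (1 : ℝ) • f (F n s)
  rw [one_smul]

theorem fcyMapFam_adm {A B : FcD X} (f : A.C →ₗ[ℝ] B.C) (hf : FcLoc A B f) (F : FcyFam A)
    (hF : F ∈ fcyAdm A) : fcyMapFam f F ∈ fcyAdm B := by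
  rw [fcyf_mapFam_eq]
  exact fcyfTw_adm f hf _ F hF

theorem fcyMapFam_supp {A B : FcD X} (f : A.C →ₗ[ℝ] B.C) (hf : FcLoc A B f) (F : FcyFam A) :
    fcyFSupp B (fcyMapFam f F) ⊆ fcyFSupp A F := by
  rw [fcyf_mapFam_eq]
  exact fcyfTw_supp f hf _ F

/-- a chain map commutes with `D` on families -/
theorem fcyf_mapFam_D {A B : FcD X} (f : FcHom A B) (F : FcyFam A) :
    fcyMapFam f.f (fcyDfam A F) = fcyDfam B (fcyMapFam f.f F) := by
  funext n s
  cases n with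
  | zero =>
    show f.f (fcyDfam A F 0 s) = fcyDfam B (fcyMapFam f.f F) 0 s
    rw [fcyf_D_zero, fcyf_D_zero, f.comm]
    rfl
  | succ k =>
    show f.f (fcyDfam A F (k + 1) s) = fcyDfam B (fcyMapFam f.f F) (k + 1) s
    rw [fcyf_D_succ, fcyf_D_succ, map_add, map_smul, f.comm, fcyf_mapFam_eq, fcyfTw_delta, one_smul]
    show _ = _ + ((-1 : ℝ) ^ (k + 1)) • B.d ((1 : ℝ) • f.f (F (k + 1) s))
    rw [one_smul]

/-- `Submodule.mapQ` of the restriction of `fcyMapFam f.f` -/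
theorem fcy_map_exists {A B : FcD X} (f : FcHom A B) :
    ∃ g : FcHom (fcyCyl A) (fcyCyl B), ∀ F : fcyAdm A,
      g.f (fcyMk A F) = fcyMk B ⟨fcyMapFam f.f F.1, fcyMapFam_adm f.f f.loc F.1 F.2⟩ := by
  have hnull : ∀ F ∈ fcyAdm A, fcyFSupp A F = ∅ → fcyFSupp B (fcyMapFam f.f F) = ∅ := fun F _ h =>
    Set.subset_empty_iff.1 (h ▸ fcyMapFam_supp f.f f.loc F)
  have hmk := fcyfLift_mk (fcyMapFam f.f) (fcyMapFam_adm f.f f.loc) hnull
  refine ⟨⟨fcyfLift (fcyMapFam f.f) (fcyMapFam_adm f.f f.loc) hnull, ?_, ?_⟩, hmk⟩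
  · intro n
    obtain ⟨F, rfl⟩ := fcyMk_surj A n
    rw [hmk, fcyMk_supp, fcyMk_supp]
    exact fcyMapFam_supp f.f f.loc F.1
  · intro n
    obtain ⟨F, rfl⟩ := fcyMk_surj A n
    rw [hmk, fcyMk_d, fcyMk_d, hmk]
    exact fcyf_mk_congr B (fcyf_mapFam_D f F.1)

/-- `Cyl f` -/
noncomputable def fcyMap {A B : FcD X} (f : FcHom A B) : FcHom (fcyCyl A) (fcyCyl B) :=
  (fcy_map_exists f).choose

theorem fcyMap_mk {A B : FcD X} (f : FcHom A B) (F : fcyAdm A) :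
    (fcyMap f).f (fcyMk A F) = fcyMk B ⟨fcyMapFam f.f F.1, fcyMapFam_adm f.f f.loc F.1 F.2⟩ :=
  (fcy_map_exists f).choose_spec F

theorem fcyMap_ten {A B : FcD X} (f : FcHom A B) (φ : unitInterval → ℝ) (m : A.C) :
    (fcyMap f).f (fcyTen A φ m) = fcyTen B φ (f.f m) := by
  show (fcyMap f).f (fcyMk A ⟨fcyTenFam A φ m, fcyTenFam_adm A φ m⟩) =
    fcyMk B ⟨fcyTenFam B φ (f.f m), fcyTenFam_adm B φ (f.f m)⟩
  rw [fcyMap_mk]
  apply fcyf_mk_congr
  funext n s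
  cases n with
  | zero => exact map_smul f.f _ _
  | succ k => exact map_zero f.f

theorem fcyMap_tau {A B : FcD X} (f : FcHom A B) (c : unitInterval) (m : A.C) :
    (fcyMap f).f (fcyTau A c m) = fcyTau B c (f.f m) := by
  show (fcyMap f).f ((fcyCyl A).d (fcyTen A (fcyInd c) m) - fcyTen A (fcyInd c) (A.d m)) =
    (fcyCyl B).d (fcyTen B (fcyInd c) (f.f m)) - fcyTen B (fcyInd c) (B.d (f.f m))
  rw [map_sub, (fcyMap f).comm, fcyMap_ten, fcyMap_ten, f.comm]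

theorem fcyMap_ev {A B : FcD X} (f : FcHom A B) (t : unitInterval) (n : (fcyCyl A).C) :
    fcyEvL B t ((fcyMap f).f n) = f.f (fcyEvL A t n) := by
  obtain ⟨F, rfl⟩ := fcyMk_surj A n
  rw [fcyMap_mk, fcyEvL_mk, fcyEvL_mk]
  rfl



/-! ### 2. Isomorphisms -/

theorem fcyfTwL_comp {A B C : FcD X} (u : A.C →ₗ[ℝ] B.C) (hu : FcLoc A B u) (c : ℕ → ℝ)
    (v : B.C →ₗ[ℝ] C.C) (hv : FcLoc B C v) (c' : ℕ → ℝ) (w : A.C →ₗ[ℝ] C.C) (hw : FcLoc A C w)
    (c'' : ℕ → ℝ) (h : ∀ k m, c' k • v (c k • u m) = c'' k • w m) (n : (fcyCyl A).C) :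
    fcyfTwL v hv c' (fcyfTwL u hu c n) = fcyfTwL w hw c'' n := by
  obtain ⟨F, rfl⟩ := fcyMk_surj A n
  rw [fcyfTwL_mk, fcyfTwL_mk, fcyfTwL_mk]
  apply fcyf_mk_congr
  funext k s
  exact h k (F.1 k s)

theorem fcyfTwL_id {A : FcD X} (u : A.C →ₗ[ℝ] A.C) (hu : FcLoc A A u) (c : ℕ → ℝ)
    (h : ∀ k m, c k • u m = m) (n : (fcyCyl A).C) : fcyfTwL u hu c n = n := by
  obtain ⟨F, rfl⟩ := fcyMk_surj A n
  rw [fcyfTwL_mk]
  apply fcyf_mk_congr
  funext k s
  exact h k (F.1 k s)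

theorem fcyfTwL_zero {A B : FcD X} (u : A.C →ₗ[ℝ] B.C) (hu : FcLoc A B u) (c : ℕ → ℝ)
    (h : ∀ k m, c k • u m = 0) (n : (fcyCyl A).C) : fcyfTwL u hu c n = 0 := by
  obtain ⟨F, rfl⟩ := fcyMk_surj A n
  rw [fcyfTwL_mk, ← map_zero (fcyMk B)]
  apply fcyf_mk_congr
  funext k s
  exact h k (F.1 k s)

theorem fcyfTwL_add {A B : FcD X} (u : A.C →ₗ[ℝ] B.C) (hu : FcLoc A B u) (c : ℕ → ℝ)
    (u' : A.C →ₗ[ℝ] B.C) (hu' : FcLoc A B u') (c' : ℕ → ℝ) (w : A.C →ₗ[ℝ] B.C) (hw : FcLoc A B w)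
    (c'' : ℕ → ℝ) (h : ∀ k m, c k • u m + c' k • u' m = c'' k • w m) (n : (fcyCyl A).C) :
    fcyfTwL u hu c n + fcyfTwL u' hu' c' n = fcyfTwL w hw c'' n := by
  obtain ⟨F, rfl⟩ := fcyMk_surj A n
  rw [fcyfTwL_mk, fcyfTwL_mk, fcyfTwL_mk, ← map_add]
  apply fcyf_mk_congr
  funext k s
  exact h k (F.1 k s)

/-- `fcyMap` is a twisted map -/
theorem fcyf_map_eq_tw {A B : FcD X} (f : FcHom A B) (n : (fcyCyl A).C) :
    (fcyMap f).f n = fcyfTwL f.f f.loc (fun _ => 1) n := by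
  obtain ⟨F, rfl⟩ := fcyMk_surj A n
  rw [fcyMap_mk, fcyfTwL_mk]
  apply fcyf_mk_congr
  show fcyMapFam f.f F.1 = fcyfTw f.f (fun _ => 1) F.1
  rw [fcyf_mapFam_eq]

/-- an isomorphism from two mutually inverse local linear maps -/
theorem fcyf_iso_of {Z : Type} [TopologicalSpace Z] {A B : FcD Z} (θ : A.C →ₗ[ℝ] B.C)
    (ψ : B.C →ₗ[ℝ] A.C) (h1 : ∀ b, θ (ψ b) = b) (h2 : ∀ a, ψ (θ a) = a)
    (l1 : ∀ a, B.supp (θ a) ⊆ A.supp a) (l2 : ∀ b, A.supp (ψ b) ⊆ B.supp b)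
    (hc : ∀ a, θ (A.d a) = B.d (θ a)) : Nonempty (FcIso A B) :=
  ⟨{ e := LinearEquiv.ofLinearMap θ ψ (LinearMap.ext h1) (LinearMap.ext h2)
     supp_eq := fun a => by
       apply subset_antisymm (l1 a)
       have := l2 (θ a)
       rwa [h2] at this
     comm := hc }⟩

theorem fcyf_sq (k : ℕ) : ((-1 : ℝ) ^ k) * ((-1 : ℝ) ^ k) = 1 := by
  rw [← mul_pow]
  simp

/-! #### typed coordinate maps of a cone -/

section cone

variable {Z : Type} [TopologicalSpace Z] {A B : FcD Z}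

/-- first coordinate -/
def fcyfFst (f : FcHom A B) : (fcCone f).C →ₗ[ℝ] A.C := LinearMap.fst ℝ A.C B.C

/-- second coordinate -/
def fcyfSnd (f : FcHom A B) : (fcCone f).C →ₗ[ℝ] B.C := LinearMap.snd ℝ A.C B.C

/-- first inclusion -/
def fcyfInl (f : FcHom A B) : A.C →ₗ[ℝ] (fcCone f).C := LinearMap.inl ℝ A.C B.C

/-- second inclusion -/
def fcyfInr (f : FcHom A B) : B.C →ₗ[ℝ] (fcCone f).C := LinearMap.inr ℝ A.C B.C

theorem fcyfFst_inl (f : FcHom A B) (a : A.C) : fcyfFst f (fcyfInl f a) = a := rfl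

theorem fcyfFst_inr (f : FcHom A B) (b : B.C) : fcyfFst f (fcyfInr f b) = 0 := rfl

theorem fcyfSnd_inl (f : FcHom A B) (a : A.C) : fcyfSnd f (fcyfInl f a) = 0 := rfl

theorem fcyfSnd_inr (f : FcHom A B) (b : B.C) : fcyfSnd f (fcyfInr f b) = b := rfl

theorem fcyf_cone_ext (f : FcHom A B) {m m' : (fcCone f).C} (h1 : fcyfFst f m = fcyfFst f m')
    (h2 : fcyfSnd f m = fcyfSnd f m') : m = m' := Prod.ext h1 h2

theorem fcyf_cone_sum (f : FcHom A B) (m : (fcCone f).C) :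
    fcyfInl f (fcyfFst f m) + fcyfInr f (fcyfSnd f m) = m := by
  apply fcyf_cone_ext f
  · rw [map_add, fcyfFst_inl, fcyfFst_inr, add_zero]
  · rw [map_add, fcyfSnd_inl, fcyfSnd_inr, zero_add]

theorem fcyfFst_d (f : FcHom A B) (m : (fcCone f).C) :
    fcyfFst f ((fcCone f).d m) = -A.d (fcyfFst f m) := rfl

theorem fcyfSnd_d (f : FcHom A B) (m : (fcCone f).C) :
    fcyfSnd f ((fcCone f).d m) = f.f (fcyfFst f m) + B.d (fcyfSnd f m) := rfl

theorem fcyf_cone_supp (f : FcHom A B) (m : (fcCone f).C) :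
    (fcCone f).supp m = A.supp (fcyfFst f m) ∪ B.supp (fcyfSnd f m) := rfl

theorem fcyfFst_loc (f : FcHom A B) : FcLoc (fcCone f) A (fcyfFst f) :=
  fun _ => Set.subset_union_left

theorem fcyfSnd_loc (f : FcHom A B) : FcLoc (fcCone f) B (fcyfSnd f) :=
  fun _ => Set.subset_union_right

theorem fcyfInl_loc (f : FcHom A B) : FcLoc A (fcCone f) (fcyfInl f) := fun a => by
  rw [fcyf_cone_supp, fcyfFst_inl, fcyfSnd_inl, B.supp_zero, Set.union_empty]

theorem fcyfInr_loc (f : FcHom A B) : FcLoc B (fcCone f) (fcyfInr f) := fun b => by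
  rw [fcyf_cone_supp, fcyfFst_inr, fcyfSnd_inr, A.supp_zero, Set.empty_union]

end cone

theorem fcyf_zero_loc (A B : FcD X) : FcLoc A B 0 := fun m => by
  show B.supp 0 ⊆ _
  rw [B.supp_zero]
  exact Set.empty_subset _

theorem fcyf_id_loc (A : FcD X) : FcLoc A A LinearMap.id := fun _ => subset_rfl

theorem fcyf_comp_loc {A B C : FcD X} {u : A.C →ₗ[ℝ] B.C} {v : B.C →ₗ[ℝ] C.C} (hu : FcLoc A B u)
    (hv : FcLoc B C v) : FcLoc A C (v ∘ₗ u) := fun m => (hv (u m)).trans (hu m)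

/-- `(F^A, F^B) ↦ ((-1)^n F^A_n, F^B)`. -/
theorem fcy_cone_iso {A B : FcD X} (f : FcHom A B) :
    Nonempty (FcIso (fcyCyl (fcCone f)) (fcCone (fcyMap f))) := by
  set σ : ℕ → ℝ := fun k => (-1) ^ k with hσ
  set o : ℕ → ℝ := fun _ => 1 with ho
  set pA := fcyfTwL (fcyfFst f) (fcyfFst_loc f) σ with hpA
  set pB := fcyfTwL (fcyfSnd f) (fcyfSnd_loc f) o with hpB
  set iA := fcyfTwL (fcyfInl f) (fcyfInl_loc f) σ with hiA
  set iB := fcyfTwL (fcyfInr f) (fcyfInr_loc f) o with hiB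
  have e1 : ∀ a, pA (iA a) = a := fun a => by
    rw [hpA, hiA, fcyfTwL_comp _ _ σ _ _ σ LinearMap.id (fcyf_id_loc A) o]
    · exact fcyfTwL_id _ _ _ (fun k m => one_smul _ _) a
    · intro k m
      rw [map_smul, fcyfFst_inl, smul_smul, fcyf_sq]
      rfl
  have e2 : ∀ b, pA (iB b) = 0 := fun b => by
    rw [hpA, hiB, fcyfTwL_comp _ _ o _ _ σ 0 (fcyf_zero_loc B A) o]
    · exact fcyfTwL_zero _ _ _ (fun k m => smul_zero _) b
    · intro k m
      rw [map_smul, fcyfFst_inr]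
      simp
  have e3 : ∀ a, pB (iA a) = 0 := fun a => by
    rw [hpB, hiA, fcyfTwL_comp _ _ σ _ _ o 0 (fcyf_zero_loc A B) o]
    · exact fcyfTwL_zero _ _ _ (fun k m => smul_zero _) a
    · intro k m
      rw [map_smul, fcyfSnd_inl]
      simp
  have e4 : ∀ b, pB (iB b) = b := fun b => by
    rw [hpB, hiB, fcyfTwL_comp _ _ o _ _ o LinearMap.id (fcyf_id_loc B) o]
    · exact fcyfTwL_id _ _ _ (fun k m => one_smul _ _) b
    · intro k m
      rw [map_smul, fcyfSnd_inr]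
      simp [ho]
  have e5 : ∀ n, iA (pA n) + iB (pB n) = n := fun n => by
    rw [hpA, hiA, hpB, hiB,
      fcyfTwL_comp _ _ σ _ _ σ (fcyfInl f ∘ₗ fcyfFst f)
        (fcyf_comp_loc (fcyfFst_loc f) (fcyfInl_loc f)) o (by
          intro k m
          rw [map_smul, smul_smul, fcyf_sq]
          rfl),
      fcyfTwL_comp _ _ o _ _ o (fcyfInr f ∘ₗ fcyfSnd f)
        (fcyf_comp_loc (fcyfSnd_loc f) (fcyfInr_loc f)) o (by
          intro k m
          rw [map_smul, smul_smul]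
          simp [ho]),
      fcyfTwL_add _ _ o _ _ o LinearMap.id (fcyf_id_loc _) o (by
          intro k m
          rw [← smul_add]
          show o k • (fcyfInl f (fcyfFst f m) + fcyfInr f (fcyfSnd f m)) = o k • m
          rw [fcyf_cone_sum])]
    exact fcyfTwL_id _ _ _ (fun k m => one_smul _ _) n
  refine fcyf_iso_of (A := fcyCyl (fcCone f)) (B := fcCone (fcyMap f))
    (fcyfInl (fcyMap f) ∘ₗ pA + fcyfInr (fcyMap f) ∘ₗ pB)
    (iA ∘ₗ fcyfFst (fcyMap f) + iB ∘ₗ fcyfSnd (fcyMap f)) ?_ ?_ ?_ ?_ ?_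
  · intro m
    simp only [LinearMap.add_apply, LinearMap.comp_apply, map_add, e1, e2, e3, e4, map_zero, add_zero,
      zero_add]
    exact fcyf_cone_sum _ m
  · intro n
    simp only [LinearMap.add_apply, LinearMap.comp_apply, map_add, fcyfFst_inl, fcyfFst_inr,
      fcyfSnd_inl, fcyfSnd_inr, map_zero, add_zero, zero_add]
    exact e5 n
  · intro n
    rw [fcyf_cone_supp]
    simp only [LinearMap.add_apply, LinearMap.comp_apply, map_add, fcyfFst_inl, fcyfFst_inr,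
      fcyfSnd_inl, fcyfSnd_inr, add_zero, zero_add]
    exact Set.union_subset (fcyfTwL_supp _ _ σ n) (fcyfTwL_supp _ _ o n)
  · intro m
    rw [fcyf_cone_supp]
    simp only [LinearMap.add_apply, LinearMap.comp_apply]
    exact ((fcyCyl (fcCone f)).supp_add _ _).trans
      (Set.union_subset_union (fcyfTwL_supp _ _ σ _) (fcyfTwL_supp _ _ o _))
  · intro n
    apply fcyf_cone_ext
    · rw [fcyfFst_d]
      simp only [LinearMap.add_apply, LinearMap.comp_apply, map_add, fcyfFst_inl, fcyfFst_inr,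
        add_zero]
      obtain ⟨F, rfl⟩ := fcyMk_surj _ n
      rw [hpA, fcyMk_d, fcyfTwL_mk, fcyfTwL_mk, fcyMk_d, ← map_neg]
      apply fcyf_mk_congr
      funext k s
      show σ k • fcyfFst f (fcyDfam (fcCone f) F.1 k s) =
        -(fcyDfam A (fcyfTw (fcyfFst f) σ F.1) k s)
      cases k with
      | zero =>
        rw [fcyf_D_zero, fcyf_D_zero, fcyfFst_d]
        show ((-1 : ℝ) ^ 0) • (-(A.d (fcyfFst f (F.1 0 s)))) =
          -(A.d (((-1 : ℝ) ^ 0) • (fcyfFst f (F.1 0 s))))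
        simp
      | succ k =>
        rw [fcyf_D_succ, fcyf_D_succ, fcyfTw_delta, map_add, map_smul, fcyfFst_d]
        show ((-1 : ℝ) ^ (k + 1)) • (fcyfFst f (fcyDelta (fcCone f) F.1 (k + 1) s) +
            ((-1 : ℝ) ^ (k + 1)) • (-(A.d (fcyfFst f (F.1 (k + 1) s))))) =
          -(((-1 : ℝ) ^ k) • fcyfFst f (fcyDelta (fcCone f) F.1 (k + 1) s) +
            ((-1 : ℝ) ^ (k + 1)) • A.d (((-1 : ℝ) ^ (k + 1)) • fcyfFst f (F.1 (k + 1) s)))
        rw [map_smul, smul_add, smul_smul, smul_smul, fcyf_sq, pow_succ]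
        simp only [mul_neg, mul_one, neg_smul, one_smul, neg_add_rev]
        abel
    · rw [fcyfSnd_d]
      simp only [LinearMap.add_apply, LinearMap.comp_apply, map_add, fcyfFst_inl, fcyfFst_inr,
        fcyfSnd_inl, fcyfSnd_inr, add_zero, zero_add]
      obtain ⟨F, rfl⟩ := fcyMk_surj _ n
      rw [hpA, hpB, fcyMk_d, fcyfTwL_mk, fcyfTwL_mk, fcyfTwL_mk, fcyMk_d, fcyMap_mk, ← map_add]
      apply fcyf_mk_congr
      funext k s
      show o k • fcyfSnd f (fcyDfam (fcCone f) F.1 k s) =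
        f.f (σ k • fcyfFst f (F.1 k s)) + fcyDfam B (fcyfTw (fcyfSnd f) o F.1) k s
      cases k with
      | zero =>
        rw [fcyf_D_zero, fcyf_D_zero, fcyfSnd_d]
        show (1 : ℝ) • (f.f (fcyfFst f (F.1 0 s)) + B.d (fcyfSnd f (F.1 0 s))) =
          f.f (((-1 : ℝ) ^ 0) • fcyfFst f (F.1 0 s)) + B.d ((1 : ℝ) • fcyfSnd f (F.1 0 s))
        simp
      | succ k =>
        rw [fcyf_D_succ, fcyf_D_succ, fcyfTw_delta, map_add, map_smul, fcyfSnd_d]
        show (1 : ℝ) • (fcyfSnd f (fcyDelta (fcCone f) F.1 (k + 1) s) +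
            ((-1 : ℝ) ^ (k + 1)) • (f.f (fcyfFst f (F.1 (k + 1) s)) + B.d (fcyfSnd f (F.1 (k + 1) s)))) =
          f.f (((-1 : ℝ) ^ (k + 1)) • fcyfFst f (F.1 (k + 1) s)) +
          ((1 : ℝ) • fcyfSnd f (fcyDelta (fcCone f) F.1 (k + 1) s) +
            ((-1 : ℝ) ^ (k + 1)) • B.d ((1 : ℝ) • fcyfSnd f (F.1 (k + 1) s)))
        rw [map_smul, one_smul, one_smul, one_smul, smul_add]
        abel



theorem fcyf_map_comp {A B C : FcD X} (f : FcHom A B) (g : FcHom B C) (h : FcHom A C)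
    (hh : ∀ m, g.f (f.f m) = h.f m) (n : (fcyCyl A).C) :
    (fcyMap g).f ((fcyMap f).f n) = (fcyMap h).f n := by
  obtain ⟨F, rfl⟩ := fcyMk_surj A n
  rw [fcyMap_mk, fcyMap_mk, fcyMap_mk]
  apply fcyf_mk_congr
  funext k s
  exact hh (F.1 k s)

theorem fcyf_map_id {A : FcD X} (f : FcHom A A) (h : ∀ m, f.f m = m) (n : (fcyCyl A).C) :
    (fcyMap f).f n = n := by
  obtain ⟨F, rfl⟩ := fcyMk_surj A n
  rw [fcyMap_mk]
  apply fcyf_mk_congr
  funext k s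
  exact h (F.1 k s)

theorem fcyf_map_zero {A B : FcD X} (f : FcHom A B) (h : ∀ m, f.f m = 0) (n : (fcyCyl A).C) :
    (fcyMap f).f n = 0 := by
  obtain ⟨F, rfl⟩ := fcyMk_surj A n
  rw [fcyMap_mk, ← map_zero (fcyMk B)]
  apply fcyf_mk_congr
  funext k s
  exact h (F.1 k s)

theorem fcyf_map_add {A B : FcD X} (f g h : FcHom A B) (hh : ∀ m, f.f m + g.f m = h.f m)
    (n : (fcyCyl A).C) : (fcyMap f).f n + (fcyMap g).f n = (fcyMap h).f n := by
  obtain ⟨F, rfl⟩ := fcyMk_surj A n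
  rw [fcyMap_mk, fcyMap_mk, fcyMap_mk, ← map_add]
  apply fcyf_mk_congr
  funext k s
  exact hh (F.1 k s)

/-- an isomorphism from two mutually inverse chain maps -/
theorem fcyf_iso_of_homs {Z : Type} [TopologicalSpace Z] {A B : FcD Z} (θ : FcHom A B)
    (ψ : FcHom B A) (h1 : ∀ b, θ.f (ψ.f b) = b) (h2 : ∀ a, ψ.f (θ.f a) = a) :
    Nonempty (FcIso A B) :=
  fcyf_iso_of θ.f ψ.f h1 h2 θ.loc ψ.loc θ.comm

theorem fcy_prod_iso (A B : FcD X) :
    Nonempty (FcIso (fcyCyl (A.prod B)) ((fcyCyl A).prod (fcyCyl B))) := by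
  refine fcyf_iso_of_homs ((fcyMap (fcbFst A B)).pair (fcyMap (fcbSnd A B)))
    ((fcyMap (fcbInl A B)).copair (fcyMap (fcbInr A B))) ?_ ?_
  · rintro ⟨a, b⟩
    show (((fcyMap (fcbFst A B)).f ((fcyMap (fcbInl A B)).f a + (fcyMap (fcbInr A B)).f b),
      (fcyMap (fcbSnd A B)).f ((fcyMap (fcbInl A B)).f a + (fcyMap (fcbInr A B)).f b)) :
        (fcyCyl A).C × (fcyCyl B).C) = (a, b)
    rw [map_add, map_add,
      fcyf_map_comp (fcbInl A B) (fcbFst A B) (fcId A) (fun _ => rfl),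
      fcyf_map_comp (fcbInr A B) (fcbFst A B) (fcbZero B A) (fun _ => rfl),
      fcyf_map_comp (fcbInl A B) (fcbSnd A B) (fcbZero A B) (fun _ => rfl),
      fcyf_map_comp (fcbInr A B) (fcbSnd A B) (fcId B) (fun _ => rfl),
      fcyf_map_id (fcId A) (fun _ => rfl), fcyf_map_id (fcId B) (fun _ => rfl),
      fcyf_map_zero (fcbZero B A) (fun _ => rfl), fcyf_map_zero (fcbZero A B) (fun _ => rfl),
      add_zero, zero_add]
  · intro n
    show (fcyMap (fcbInl A B)).f ((fcyMap (fcbFst A B)).f n) +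
      (fcyMap (fcbInr A B)).f ((fcyMap (fcbSnd A B)).f n) = n
    rw [fcyf_map_comp (fcbFst A B) (fcbInl A B) ((fcbInl A B).comp (fcbFst A B)) (fun _ => rfl),
      fcyf_map_comp (fcbSnd A B) (fcbInr A B) ((fcbInr A B).comp (fcbSnd A B)) (fun _ => rfl),
      fcyf_map_add _ _ (fcId (A.prod B)) (by
        rintro ⟨a, b⟩
        show ((a, (0 : B.C)) : A.C × B.C) + ((0 : A.C), b) = (a, b)
        simp)]
    exact fcyf_map_id _ (fun _ => rfl) n

theorem fcy_iso_iso {A B : FcD X} (e : FcIso A B) : Nonempty (FcIso (fcyCyl A) (fcyCyl B)) := by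
  refine fcyf_iso_of_homs (fcyMap e.toHom) (fcyMap e.symm.toHom) ?_ ?_
  · intro b
    rw [fcyf_map_comp e.symm.toHom e.toHom (fcId B) (fun m => e.e.apply_symm_apply m)]
    exact fcyf_map_id _ (fun _ => rfl) b
  · intro a
    rw [fcyf_map_comp e.toHom e.symm.toHom (fcId A) (fun m => e.e.symm_apply_apply m)]
    exact fcyf_map_id _ (fun _ => rfl) a

/-! #### typed identity maps of a rescaled object -/

/-- the identity `A<c> → A` -/
def fcyfRescTo {Z : Type} [TopologicalSpace Z] (A : FcD Z) (c : ℝ) : (A.resc c).C →ₗ[ℝ] A.C :=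
  LinearMap.id

/-- the identity `A → A<c>` -/
def fcyfRescOf {Z : Type} [TopologicalSpace Z] (A : FcD Z) (c : ℝ) : A.C →ₗ[ℝ] (A.resc c).C :=
  LinearMap.id

section resc

variable {Z : Type} [TopologicalSpace Z] (A : FcD Z) (c : ℝ)

theorem fcyfResc_to_of (m : A.C) : fcyfRescTo A c (fcyfRescOf A c m) = m := rfl

theorem fcyfResc_of_to (m : (A.resc c).C) : fcyfRescOf A c (fcyfRescTo A c m) = m := rfl

theorem fcyfRescTo_d (m : (A.resc c).C) :
    fcyfRescTo A c ((A.resc c).d m) = c • A.d (fcyfRescTo A c m) := rfl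

theorem fcyfRescOf_d (m : A.C) :
    (A.resc c).d (fcyfRescOf A c m) = fcyfRescOf A c (c • A.d m) := rfl

theorem fcyfRescTo_supp (m : (A.resc c).C) : A.supp (fcyfRescTo A c m) = (A.resc c).supp m := rfl

theorem fcyfRescOf_supp (m : A.C) : (A.resc c).supp (fcyfRescOf A c m) = A.supp m := rfl

end resc

theorem fcyfRescTo_loc (A : FcD X) (c : ℝ) : FcLoc (A.resc c) A (fcyfRescTo A c) :=
  fun _ => subset_rfl

theorem fcyfRescOf_loc (A : FcD X) (c : ℝ) : FcLoc A (A.resc c) (fcyfRescOf A c) :=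
  fun _ => subset_rfl

/-- `F_n ↦ c^n F_n` -/
theorem fcy_resc_iso (A : FcD X) (c : ℝ) (hc : c ≠ 0) :
    Nonempty (FcIso (fcyCyl (A.resc c)) ((fcyCyl A).resc c)) := by
  set o : ℕ → ℝ := fun _ => 1 with ho
  refine fcyf_iso_of (A := fcyCyl (A.resc c)) (B := (fcyCyl A).resc c)
    (fcyfRescOf (fcyCyl A) c ∘ₗ fcyfTwL (fcyfRescTo A c) (fcyfRescTo_loc A c) (fun k => c ^ k))
    (fcyfTwL (fcyfRescOf A c) (fcyfRescOf_loc A c) (fun k => (c ^ k)⁻¹) ∘ₗ fcyfRescTo (fcyCyl A) c)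
    ?_ ?_ ?_ ?_ ?_
  · intro b
    simp only [LinearMap.comp_apply]
    rw [fcyfTwL_comp _ _ _ _ _ _ LinearMap.id (fcyf_id_loc A) o (by
      intro k m
      rw [map_smul, fcyfResc_to_of, smul_smul, mul_inv_cancel₀ (pow_ne_zero k hc)]
      rfl), fcyfTwL_id _ _ _ (fun k m => one_smul _ _), fcyfResc_of_to]
  · intro a
    simp only [LinearMap.comp_apply]
    rw [fcyfResc_to_of, fcyfTwL_comp _ _ _ _ _ _ LinearMap.id (fcyf_id_loc _) o (by
      intro k m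
      rw [map_smul, fcyfResc_of_to, smul_smul, inv_mul_cancel₀ (pow_ne_zero k hc)]
      rfl)]
    exact fcyfTwL_id _ _ _ (fun k m => one_smul _ _) a
  · intro a
    simp only [LinearMap.comp_apply]
    rw [fcyfRescOf_supp]
    exact fcyfTwL_supp _ _ _ a
  · intro b
    simp only [LinearMap.comp_apply]
    rw [← fcyfRescTo_supp]
    exact fcyfTwL_supp _ _ _ _
  · intro n
    simp only [LinearMap.comp_apply]
    rw [fcyfRescOf_d]
    congr 1
    obtain ⟨F, rfl⟩ := fcyMk_surj _ n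
    rw [fcyMk_d, fcyfTwL_mk, fcyfTwL_mk, fcyMk_d, ← map_smul]
    apply fcyf_mk_congr
    funext k s
    show c ^ k • fcyfRescTo A c (fcyDfam (A.resc c) F.1 k s) =
      c • fcyDfam A (fcyfTw (fcyfRescTo A c) (fun k => c ^ k) F.1) k s
    cases k with
    | zero =>
      rw [fcyf_D_zero, fcyf_D_zero, fcyfRescTo_d]
      show c ^ 0 • c • A.d (fcyfRescTo A c (F.1 0 s)) = c • A.d (c ^ 0 • fcyfRescTo A c (F.1 0 s))
      simp
    | succ k =>
      rw [fcyf_D_succ, fcyf_D_succ, fcyfTw_delta, map_add, map_smul, fcyfRescTo_d]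
      show c ^ (k + 1) • (fcyfRescTo A c (fcyDelta (A.resc c) F.1 (k + 1) s) +
          ((-1 : ℝ) ^ (k + 1)) • c • A.d (fcyfRescTo A c (F.1 (k + 1) s))) =
        c • (c ^ k • fcyfRescTo A c (fcyDelta (A.resc c) F.1 (k + 1) s) +
          ((-1 : ℝ) ^ (k + 1)) • A.d (c ^ (k + 1) • fcyfRescTo A c (F.1 (k + 1) s)))
      rw [map_smul]
      module



/-! #### push forward -/

/-- `id × g` -/
def fcyProdMap (g : C(X, Y)) : C(unitInterval × X, unitInterval × Y) :=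
  ContinuousMap.prodMap (ContinuousMap.id unitInterval) g

theorem fcyf_van_union {A : FcD X} {F : FcyFam A} {J J' : Set unitInterval} {W W' : Set X}
    (h : FcyVanS A F J W) (h' : FcyVanS A F J' W') : FcyVanS A F (J ∩ J') (W ∪ W') :=
  fun n s hs => Set.disjoint_union_right.2 ⟨h n s fun i => (hs i).1, h' n s fun i => (hs i).2⟩

theorem fcyf_van_mono {A : FcD X} {F : FcyFam A} {J J' : Set unitInterval} {W W' : Set X}
    (h : FcyVanS A F J W) (hJ : J' ⊆ J) (hW : W' ⊆ W) : FcyVanS A F J' W' :=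
  fun n s hs => Set.disjoint_of_subset_right hW (h n s fun i => hJ (hs i))

theorem fcyf_not_mem_supp {A : FcD X} {F : FcyFam A} {p : unitInterval × X}
    (h : p ∉ fcyFSupp A F) : ∃ J ∈ 𝓝 p.1, ∃ W ∈ 𝓝 p.2, FcyVanS A F J W := not_not.1 h

/-- a family which vanishes at all points of `{t} × S`, `S` compact, vanishes on a rectangle `J × W`, `W ⊇ S` open -/
theorem fcyf_van_compact {A : FcD X} (F : FcyFam A) (t : unitInterval) {S : Set X}
    (hS : IsCompact S) (h : ∀ x ∈ S, (t, x) ∉ fcyFSupp A F) :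
    ∃ J ∈ 𝓝 t, ∃ W, IsOpen W ∧ S ⊆ W ∧ FcyVanS A F J W := by
  refine hS.induction_on (p := fun S => ∃ J ∈ 𝓝 t, ∃ W, IsOpen W ∧ S ⊆ W ∧ FcyVanS A F J W)
    ?_ ?_ ?_ ?_
  · exact ⟨Set.univ, Filter.univ_mem, ∅, isOpen_empty, subset_rfl, fun n s _ => Set.disjoint_empty _⟩
  · rintro s t' hst ⟨J, hJ, W, hW, htW, hv⟩
    exact ⟨J, hJ, W, hW, hst.trans htW, hv⟩
  · rintro s t' ⟨J, hJ, W, hW, hsW, hv⟩ ⟨J', hJ', W', hW', hsW', hv'⟩
    exact ⟨J ∩ J', Filter.inter_mem hJ hJ', W ∪ W', hW.union hW', Set.union_subset_union hsW hsW',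
      fcyf_van_union hv hv'⟩
  · intro x hx
    obtain ⟨J, hJ, W, hW, hv⟩ := fcyf_not_mem_supp (h x hx)
    exact ⟨interior W, mem_nhdsWithin_of_mem_nhds (interior_mem_nhds.2 hW), J, hJ, interior W,
      isOpen_interior, subset_rfl, fcyf_van_mono hv subset_rfl interior_subset⟩

/-- the identity `g_! A → A` -/
def fcyfPushTo {Z Z' : Type} [TopologicalSpace Z] [TopologicalSpace Z'] [T2Space Z'] (g : C(Z, Z'))
    (A : FcD Z) : (A.push g).C →ₗ[ℝ] A.C := LinearMap.id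

/-- the identity `A → g_! A` -/
def fcyfPushOf {Z Z' : Type} [TopologicalSpace Z] [TopologicalSpace Z'] [T2Space Z'] (g : C(Z, Z'))
    (A : FcD Z) : A.C →ₗ[ℝ] (A.push g).C := LinearMap.id

section push

variable {Z Z' : Type} [TopologicalSpace Z] [TopologicalSpace Z'] [T2Space Z'] (g : C(Z, Z'))
  (A : FcD Z)

theorem fcyfPush_to_of (m : A.C) : fcyfPushTo g A (fcyfPushOf g A m) = m := rfl

theorem fcyfPush_of_to (m : (A.push g).C) : fcyfPushOf g A (fcyfPushTo g A m) = m := rfl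

theorem fcyfPushTo_d (m : (A.push g).C) :
    fcyfPushTo g A ((A.push g).d m) = A.d (fcyfPushTo g A m) := rfl

theorem fcyfPushOf_d (m : A.C) : (A.push g).d (fcyfPushOf g A m) = fcyfPushOf g A (A.d m) := rfl

theorem fcyfPushTo_supp (m : (A.push g).C) : (A.push g).supp m = g '' A.supp (fcyfPushTo g A m) := rfl

theorem fcyfPushOf_supp (m : A.C) : (A.push g).supp (fcyfPushOf g A m) = g '' A.supp m := rfl

end push

/-- apply a linear map pointwise (different base spaces) -/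
def fcyfPw [T2Space Y] {A : FcD X} {B : FcD Y} (u : A.C →ₗ[ℝ] B.C) : FcyFam A →ₗ[ℝ] FcyFam B where
  toFun := fun F n s => u (F n s)
  map_add' := fun F G => by
    funext n s
    exact map_add u _ _
  map_smul' := fun c F => by
    funext n s
    exact map_smul u _ _

theorem fcyfPw_D [T2Space Y] {A : FcD X} {B : FcD Y} (u : A.C →ₗ[ℝ] B.C)
    (hu : ∀ m, u (A.d m) = B.d (u m)) (F : FcyFam A) :
    fcyfPw u (fcyDfam A F) = fcyDfam B (fcyfPw u F) := by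
  funext n s
  cases n with
  | zero =>
    show u (fcyDfam A F 0 s) = fcyDfam B (fcyfPw u F) 0 s
    rw [fcyf_D_zero, fcyf_D_zero, hu]
    rfl
  | succ k =>
    show u (fcyDfam A F (k + 1) s) = fcyDfam B (fcyfPw u F) (k + 1) s
    rw [fcyf_D_succ, fcyf_D_succ, map_add, map_smul, hu]
    congr 1
    show u (∑ i : Fin (k + 2), ((-1 : ℝ) ^ (i : ℕ)) • F k (fun j => s (i.succAbove j))) =
      ∑ i : Fin (k + 2), ((-1 : ℝ) ^ (i : ℕ)) • u (F k (fun j => s (i.succAbove j)))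
    rw [map_sum]
    exact Finset.sum_congr rfl fun i _ => map_smul _ _ _

theorem fcyf_push_supp_ge [T2Space Y] (g : C(X, Y)) (A : FcD X) (G : FcyFam (A.push g)) :
    fcyProdMap g '' fcyFSupp A (fcyfPw (fcyfPushTo g A) G) ⊆ fcyFSupp (A.push g) G := by
  rintro _ ⟨⟨t, x⟩, hp, rfl⟩ ⟨J, hJ, W', hW', hv⟩
  apply hp
  refine ⟨J, hJ, g ⁻¹' W', g.continuous.continuousAt.preimage_mem_nhds hW', fun n s hs => ?_⟩
  rw [Set.disjoint_left]
  intro x' hx' hxW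
  have h1 := hv n s hs
  rw [fcyfPushTo_supp, Set.disjoint_left] at h1
  exact h1 ⟨x', hx', rfl⟩ hxW

theorem fcyf_push_supp_le [CompactSpace X] [T2Space Y] (g : C(X, Y)) (A : FcD X) (F : FcyFam A) :
    fcyFSupp (A.push g) (fcyfPw (fcyfPushOf g A) F) ⊆ fcyProdMap g '' fcyFSupp A F := by
  rintro ⟨t, y⟩ hp
  by_contra hcon
  apply hp
  have hS : IsCompact (g ⁻¹' {y}) := (isClosed_singleton.preimage g.continuous).isCompact
  obtain ⟨J, hJ, W, hW, hSW, hv⟩ := fcyf_van_compact F t hS (fun x hx hxF =>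
    hcon ⟨(t, x), hxF, Prod.ext rfl hx⟩)
  have hcl : IsClosed (g '' Wᶜ) := (hW.isClosed_compl.isCompact.image g.continuous).isClosed
  refine ⟨J, hJ, (g '' Wᶜ)ᶜ, hcl.isOpen_compl.mem_nhds ?_, fun n s hs => ?_⟩
  · rintro ⟨x, hxW, hxy⟩
    exact hxW (hSW hxy)
  · show Disjoint ((A.push g).supp (fcyfPushOf g A (F n s))) _
    rw [fcyfPushOf_supp, Set.disjoint_left]
    rintro z ⟨x, hx, rfl⟩ hz
    have hxW : x ∈ W := by
      by_contra h
      exact hz ⟨x, h, rfl⟩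
    exact Set.disjoint_left.1 (hv n s hs) hx hxW

theorem fcyf_push_adm_to [CompactSpace X] [T2Space Y] (g : C(X, Y)) (A : FcD X)
    (G : FcyFam (A.push g)) (hG : G ∈ fcyAdm (A.push g)) : fcyfPw (fcyfPushTo g A) G ∈ fcyAdm A := by
  obtain ⟨-, N, hN⟩ := hG
  refine ⟨⟨Set.univ, isCompact_univ, fun n s => Set.subset_univ _⟩, N, fun n hn => ?_⟩
  funext s
  show fcyfPushTo g A (G n s) = 0
  rw [hN n hn]
  exact map_zero _

theorem fcyf_push_adm_of [T2Space Y] (g : C(X, Y)) (A : FcD X) (F : FcyFam A) (hF : F ∈ fcyAdm A) :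
    fcyfPw (fcyfPushOf g A) F ∈ fcyAdm (A.push g) := by
  obtain ⟨⟨K, hK, hFK⟩, N, hN⟩ := hF
  refine ⟨⟨g '' K, hK.image g.continuous, fun n s => Set.image_mono (hFK n s)⟩, N, fun n hn => ?_⟩
  funext s
  show fcyfPushOf g A (F n s) = 0
  rw [hN n hn]
  exact map_zero _

/-- The same families.  Admissible: `X` is compact.  Supports: `(t, y) ∉ (id × g) (supp F)` iff `F` vanishes at `(t, x)` for all `x ∈ g⁻¹ y`; by compactness of
`g⁻¹ y` it vanishes on `J × W`, `W ⊇ g⁻¹ y` open; `g` is closed, so `W ⊇ g⁻¹ W'` for a neighbourhood `W'` of `y`. -/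
theorem fcy_push_iso [CompactSpace X] [T2Space Y] (g : C(X, Y)) (A : FcD X) :
    Nonempty (FcIso (fcyCyl (A.push g)) ((fcyCyl A).push (fcyProdMap g))) := by
  have n1 : ∀ G ∈ fcyAdm (A.push g), fcyFSupp (A.push g) G = ∅ →
      fcyFSupp A (fcyfPw (fcyfPushTo g A) G) = ∅ := by
    intro G _ h
    have h1 := fcyf_push_supp_ge g A G
    rw [h, Set.subset_empty_iff, Set.image_eq_empty] at h1
    exact h1
  have n2 : ∀ F ∈ fcyAdm A, fcyFSupp A F = ∅ →
      fcyFSupp (A.push g) (fcyfPw (fcyfPushOf g A) F) = ∅ := by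
    intro F _ h
    have h1 := fcyf_push_supp_le g A F
    rw [h, Set.image_empty, Set.subset_empty_iff] at h1
    exact h1
  set θ := fcyfLift (fcyfPw (fcyfPushTo g A)) (fcyf_push_adm_to g A) n1 with hθ
  set ψ := fcyfLift (fcyfPw (fcyfPushOf g A)) (fcyf_push_adm_of g A) n2 with hψ
  refine fcyf_iso_of (A := fcyCyl (A.push g)) (B := (fcyCyl A).push (fcyProdMap g))
    (fcyfPushOf (fcyProdMap g) (fcyCyl A) ∘ₗ θ) (ψ ∘ₗ fcyfPushTo (fcyProdMap g) (fcyCyl A))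
    ?_ ?_ ?_ ?_ ?_
  · intro b
    simp only [LinearMap.comp_apply]
    obtain ⟨F, hF⟩ := fcyMk_surj A (fcyfPushTo (fcyProdMap g) (fcyCyl A) b)
    rw [← hF, hψ, hθ, fcyfLift_mk, fcyfLift_mk]
    have : fcyMk A ⟨fcyfPw (fcyfPushTo g A) (fcyfPw (fcyfPushOf g A) F.1),
        fcyf_push_adm_to g A _ (fcyf_push_adm_of g A F.1 F.2)⟩ = fcyMk A F := fcyf_mk_congr A rfl
    rw [this, hF, fcyfPush_of_to]
  · intro a
    simp only [LinearMap.comp_apply]
    rw [fcyfPush_to_of]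
    obtain ⟨G, rfl⟩ := fcyMk_surj _ a
    rw [hψ, hθ, fcyfLift_mk, fcyfLift_mk]
    exact fcyf_mk_congr _ rfl
  · intro a
    simp only [LinearMap.comp_apply]
    rw [fcyfPushOf_supp]
    obtain ⟨G, rfl⟩ := fcyMk_surj _ a
    rw [hθ, fcyfLift_mk, fcyMk_supp, fcyMk_supp]
    exact fcyf_push_supp_ge g A G.1
  · intro b
    simp only [LinearMap.comp_apply]
    rw [fcyfPushTo_supp]
    obtain ⟨F, hF⟩ := fcyMk_surj A (fcyfPushTo (fcyProdMap g) (fcyCyl A) b)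
    rw [← hF, hψ, fcyfLift_mk, fcyMk_supp, fcyMk_supp]
    exact fcyf_push_supp_le g A F.1
  · intro a
    simp only [LinearMap.comp_apply]
    rw [fcyfPushOf_d]
    congr 1
    obtain ⟨G, rfl⟩ := fcyMk_surj _ a
    rw [hθ, fcyMk_d, fcyfLift_mk, fcyfLift_mk, fcyMk_d]
    exact fcyf_mk_congr A (fcyfPw_D _ (fcyfPushTo_d g A) G.1)

/-! ### 3. The induction -/

/-- **`Cyl` maps `FcThick G` to `FcThick G'`** if it does so on the generators -/
theorem fcy_thick (G : FcD X → Prop) (G' : FcD (unitInterval × X) → Prop)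
    (hG : ∀ A, G A → FcThick G' (fcyCyl A)) (A : FcD X) (h : FcThick G A) :
    FcThick G' (fcyCyl A) := by
  induction h with
  | gen h => exact hG _ h
  | iso e _ ih =>
    obtain ⟨e'⟩ := fcy_iso_iso e
    exact FcThick.iso e' ih
  | acyc h => exact FcThick.acyc (fcy_acyc _ h)
  | @resc A c hc _ ih =>
    obtain ⟨e'⟩ := fcy_resc_iso A c hc
    exact FcThick.iso e'.symm (FcThick.resc c hc ih)
  | cone f _ _ ih1 ih2 =>
    obtain ⟨e'⟩ := fcy_cone_iso f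
    exact FcThick.iso e'.symm (FcThick.cone (fcyMap f) ih1 ih2)
  | cone_src f _ _ ih1 ih2 =>
    obtain ⟨e'⟩ := fcy_cone_iso f
    exact FcThick.cone_src (fcyMap f) ih1 (FcThick.iso e' ih2)
  | cone_tgt f _ _ ih1 ih2 =>
    obtain ⟨e'⟩ := fcy_cone_iso f
    exact FcThick.cone_tgt (fcyMap f) ih1 (FcThick.iso e' ih2)
  | @summand A B _ ih =>
    obtain ⟨e'⟩ := fcy_prod_iso A B
    exact FcThick.summand (FcThick.iso e' ih)

/-- the same for `FcGen` -/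
theorem fcy_gen (G : FcD X → Prop) (G' : FcD (unitInterval × X) → Prop)
    (hG : ∀ A, G A → FcGen G' (fcyCyl A)) (A : FcD X) (h : FcGen G A) : FcGen G' (fcyCyl A) := by
  induction h with
  | gen h => exact hG _ h
  | iso e _ ih =>
    obtain ⟨e'⟩ := fcy_iso_iso e
    exact FcGen.iso e' ih
  | acyc h => exact FcGen.acyc (fcy_acyc _ h)
  | @resc A c hc _ ih =>
    obtain ⟨e'⟩ := fcy_resc_iso A c hc
    exact FcGen.iso e'.symm (FcGen.resc c hc ih)
  | cone f _ _ ih1 ih2 =>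
    obtain ⟨e'⟩ := fcy_cone_iso f
    exact FcGen.iso e'.symm (FcGen.cone (fcyMap f) ih1 ih2)
  | cone_src f _ _ ih1 ih2 =>
    obtain ⟨e'⟩ := fcy_cone_iso f
    exact FcGen.cone_src (fcyMap f) ih1 (FcGen.iso e' ih2)
  | cone_tgt f _ _ ih1 ih2 =>
    obtain ⟨e'⟩ := fcy_cone_iso f
    exact FcGen.cone_tgt (fcyMap f) ih1 (FcGen.iso e' ih2)

/-! ### 4. Restriction to an open subset of `X` -/

/-- `j = fcyMap (fcResIncl C E) : Cyl (C(E)) → Cyl C` is injective and preserves supports (the same families, the same notion of vanishing). -/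
theorem fcy_res_inj (C : FcD X) (E : Set X) (n : (fcyCyl (C.res E)).C) :
    (fcyCyl C).supp ((fcyMap (fcResIncl C E)).f n) = (fcyCyl (C.res E)).supp n := by
  obtain ⟨F, rfl⟩ := fcyMk_surj (C.res E) n
  rw [fcyMap_mk, fcyMk_supp, fcyMk_supp]
  rfl

/-- every element of `(Cyl C)(I × E)` is in the image of `j`.  `n = [F]`, all supports in the compact `K`, `L = pr₂ (supp n) ⊆ E` compact; separate `L` and `K ∖ E` by
disjoint opens `E₁ ⊇ L`, `E₂ ⊇ K ∖ E`; `F' = fcyUry C (univ ×ˢ E₁) F` has values supported in `K ∩ closure E₁ ⊆ E` and `[F'] = [F]`. -/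
theorem fcy_res_surj (C : FcD X) (E : Set X) (hE : IsOpen E) (n : (fcyCyl C).C)
    (hn : (fcyCyl C).supp n ⊆ Set.univ ×ˢ E) :
    ∃ n' : (fcyCyl (C.res E)).C, (fcyMap (fcResIncl C E)).f n' = n := by
  obtain ⟨F, rfl⟩ := fcyMk_surj C n
  rw [fcyMk_supp] at hn
  obtain ⟨⟨K, hK, hFK⟩, N, hN⟩ := F.2
  have hLc : IsCompact (Prod.snd '' fcyFSupp C F.1) := (fcyFSupp_compact C F).image continuous_snd
  have hLE : Prod.snd '' fcyFSupp C F.1 ⊆ E := by
    rintro _ ⟨p, hp, rfl⟩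
    exact (hn hp).2
  have hd : Disjoint (Prod.snd '' fcyFSupp C F.1) (K \ E) :=
    Set.disjoint_left.2 fun x hx hx' => hx'.2 (hLE hx)
  obtain ⟨E₁, E₂, hE₁, hE₂, hs₁, hs₂, hdis⟩ :=
    SeparatedNhds.of_isCompact_isCompact hLc (hK.diff hE) hd
  have hcl : Disjoint (closure E₁) E₂ := hdis.closure_left hE₂
  have hslice : ∀ t : unitInterval, {x | (t, x) ∈ (Set.univ ×ˢ E₁ : Set (unitInterval × X))} = E₁ := by
    intro t
    ext x
    simp
  -- the values of `F'` are supported in `E`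
  have hval : ∀ n s, C.supp (fcyUry C (Set.univ ×ˢ E₁) F.1 n s) ⊆ E := by
    intro n s x hx
    have h1 := (fcyUry_spec C (Set.univ ×ˢ E₁) F.1 n s).1 hx
    rw [hslice] at h1
    by_contra hxE
    exact Set.disjoint_left.1 hcl h1.2 (hs₂ ⟨hFK n s h1.1, hxE⟩)
  have hadm' := fcyUry_adm C (Set.univ ×ˢ E₁) F.1 F.2
  -- `[F'] = [F]`
  have hnull : fcyFSupp C (F.1 - fcyUry C (Set.univ ×ˢ E₁) F.1) = ∅ := by
    rw [Set.eq_empty_iff_forall_notMem]
    intro p hp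
    have h1 := fcyUry_supp' C (Set.univ ×ˢ E₁) F.1 hp
    have hclosed : IsClosed ((Set.univ ×ˢ E₁ : Set (unitInterval × X))ᶜ) :=
      (isOpen_univ.prod hE₁).isClosed_compl
    rw [hclosed.closure_eq] at h1
    exact h1.2 ⟨Set.mem_univ _, hs₁ ⟨p, h1.1, rfl⟩⟩
  have hG : (fun n s => (⟨fcyUry C (Set.univ ×ˢ E₁) F.1 n s, hval n s⟩ : (C.res E).C)) ∈
      fcyAdm (C.res E) := by
    obtain ⟨⟨K', hK', hFK'⟩, N', hN'⟩ := hadm'
    refine ⟨⟨K', hK', fun n s => hFK' n s⟩, N', fun n hn => ?_⟩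
    funext s
    exact Subtype.ext (congrFun (hN' n hn) s)
  refine ⟨fcyMk (C.res E) ⟨_, hG⟩, ?_⟩
  rw [fcyMap_mk]
  have e : fcyMk C ⟨fcyUry C (Set.univ ×ˢ E₁) F.1, hadm'⟩ = fcyMk C F := by
    have h2 : fcyMk C (F - ⟨fcyUry C (Set.univ ×ˢ E₁) F.1, hadm'⟩) = 0 :=
      (fcyMk_eq_zero_iff C _).2 hnull
    rw [map_sub, sub_eq_zero] at h2
    exact h2.symm
  rw [← e]
  exact fcyf_mk_congr C rfl

section fcyg

variable {Z : Type} [TopologicalSpace Z]

theorem fcyg_res_mk (A : FcD Z) (U : Set Z) (m : A.C) (hm : A.supp m ⊆ U) :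
    ∃ a : (A.res U).C, (fcResIncl A U).f a = m := ⟨⟨m, hm⟩, rfl⟩

theorem fcyg_res_inj (A : FcD Z) (U : Set Z) : Function.Injective (fcResIncl A U).f :=
  fun _ _ h => Subtype.ext h

theorem fcyg_res_supp (A : FcD Z) (U : Set Z) (a : (A.res U).C) :
    (A.res U).supp a = A.supp ((fcResIncl A U).f a) := rfl

theorem fcyg_res_sub (A : FcD Z) (U : Set Z) (a : (A.res U).C) :
    A.supp ((fcResIncl A U).f a) ⊆ U := a.2

theorem fcyg_acycAt_empty (A : FcD Z) : A.AcycAt ∅ := by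
  intro m hm _
  have h0 : m = 0 := (A.supp_empty_iff m).1 (Set.subset_empty_iff.1 hm)
  exact ⟨0, by rw [A.supp_zero], by rw [h0, map_zero]⟩

end fcyg

/-- `j` is injective -/
theorem fcyg_j_inj (C : FcD X) (E : Set X) : Function.Injective (fcyMap (fcResIncl C E)).f := by
  rw [← LinearMap.ker_eq_bot, LinearMap.ker_eq_bot']
  intro n hn
  have h := fcy_res_inj C E n
  rw [hn, (fcyCyl C).supp_zero] at h
  exact ((fcyCyl (C.res E)).supp_empty_iff n).1 h.symm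

/-- `ι = j⁻¹` on `(Cyl C)(I × E)` -/
theorem fcyg_iota_exists (C : FcD X) (E : Set X) (hE : IsOpen E) :
    ∃ ι : FcHom ((fcyCyl C).res (Set.univ ×ˢ E)) (fcyCyl (C.res E)),
      ∀ a, (fcyMap (fcResIncl C E)).f (ι.f a) = (fcResIncl (fcyCyl C) (Set.univ ×ˢ E)).f a := by
  have hinj := fcyg_j_inj C E
  have hle : LinearMap.range (fcResIncl (fcyCyl C) (Set.univ ×ˢ E)).f ≤
      LinearMap.range (fcyMap (fcResIncl C E)).f := by
    rintro _ ⟨a, rfl⟩
    obtain ⟨n', h⟩ := fcy_res_surj C E hE _ (fcyg_res_sub (fcyCyl C) (Set.univ ×ˢ E) a)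
    exact ⟨n', h⟩
  obtain ⟨g, key⟩ : ∃ g : ((fcyCyl C).res (Set.univ ×ˢ E)).C →ₗ[ℝ] (fcyCyl (C.res E)).C,
      ∀ a, (fcyMap (fcResIncl C E)).f (g a) = (fcResIncl (fcyCyl C) (Set.univ ×ˢ E)).f a := by
    refine ⟨(LinearEquiv.ofInjective (fcyMap (fcResIncl C E)).f hinj).symm.toLinearMap ∘ₗ
      Submodule.inclusion hle ∘ₗ (fcResIncl (fcyCyl C) (Set.univ ×ˢ E)).f.rangeRestrict,
      fun a => ?_⟩
    have h := (LinearEquiv.ofInjective (fcyMap (fcResIncl C E)).f hinj).apply_symm_apply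
      (Submodule.inclusion hle ((fcResIncl (fcyCyl C) (Set.univ ×ˢ E)).f.rangeRestrict a))
    exact congrArg Subtype.val h
  refine ⟨⟨g, fun a => ?_, fun a => ?_⟩, key⟩
  · rw [← fcy_res_inj, key, fcyg_res_supp]
  · apply hinj
    rw [key, (fcyMap (fcResIncl C E)).comm, key, (fcResIncl (fcyCyl C) (Set.univ ×ˢ E)).comm]

theorem fcyg_prod_inter (E U : Set X) (J : Set unitInterval) :
    (Set.univ ×ˢ E : Set (unitInterval × X)) ∩ J ×ˢ U = J ×ˢ (E ∩ U) := by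
  rw [Set.prod_inter_prod, Set.univ_inter]

/-- the middle rectangles -/
theorem fcyg_res_mid (C : FcD X) (E : Set X) (hE : IsOpen E)
    (ι : FcHom ((fcyCyl C).res (Set.univ ×ˢ E)) (fcyCyl (C.res E)))
    (hι : ∀ a, (fcyMap (fcResIncl C E)).f (ι.f a) = (fcResIncl (fcyCyl C) (Set.univ ×ˢ E)).f a)
    (J : Set unitInterval) (hJ : IsOpen J)
    (hJc : J.OrdConnected) (h0 : (0 : unitInterval) ∉ J) (h1 : (1 : unitInterval) ∉ J)
    (c : unitInterval) (hc : c ∈ J) (U : Set X) (hU : IsOpen U) : ι.QiAt (J ×ˢ U) := by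
  have hinj := fcyg_j_inj C E
  have hrinj := fcyg_res_inj (fcyCyl C) (Set.univ ×ˢ E)
  -- `ι (τ_c ⊗ m) = τ_c ⊗ m`
  have htau : ∀ (m : (C.res E).C) (a : ((fcyCyl C).res (Set.univ ×ˢ E)).C),
      (fcResIncl (fcyCyl C) (Set.univ ×ˢ E)).f a = fcyTau C c ((fcResIncl C E).f m) →
      ι.f a = fcyTau (C.res E) c m := by
    intro m a ha
    apply hinj
    rw [hι, fcyMap_tau, ha]
  have hsub : ∀ m : C.C, C.supp m ⊆ E → (fcyCyl C).supp (fcyTau C c m) ⊆ Set.univ ×ˢ E :=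
    fun m hm => (fcyTau_supp C c m).trans (Set.prod_mono (Set.subset_univ _) hm)
  constructor
  · intro b hb hd
    obtain ⟨m₀, n', hm₀, hdm₀, hn', e⟩ := fcy_mid (C.res E) J hJ hJc h0 h1 c hc U hU b hb hd
    obtain ⟨a, ha⟩ := fcyg_res_mk (fcyCyl C) (Set.univ ×ˢ E) (fcyTau C c ((fcResIncl C E).f m₀))
      (hsub _ (fcyg_res_sub C E m₀))
    refine ⟨a, n', ?_, ?_, hn', ?_⟩
    · rw [fcyg_res_supp, ha]
      exact (fcyTau_supp C c _).trans (Set.prod_mono (Set.singleton_subset_iff.2 hc) hm₀)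
    · apply hrinj
      rw [(fcResIncl (fcyCyl C) (Set.univ ×ˢ E)).comm, ha, fcyTau_d, ← (fcResIncl C E).comm, hdm₀,
        map_zero, map_zero, map_zero, neg_zero]
    · rw [htau m₀ a ha]
      exact e
  · intro a b' ha hda hb' hab
    rw [fcyg_res_supp] at ha
    have ha' : (fcyCyl C).supp ((fcResIncl (fcyCyl C) (Set.univ ×ˢ E)).f a) ⊆ J ×ˢ (U ∩ E) := by
      intro p hp
      exact ⟨(ha hp).1, (ha hp).2, (fcyg_res_sub (fcyCyl C) (Set.univ ×ˢ E) a hp).2⟩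
    have hda' : (fcyCyl C).d ((fcResIncl (fcyCyl C) (Set.univ ×ˢ E)).f a) = 0 := by
      rw [← (fcResIncl (fcyCyl C) (Set.univ ×ˢ E)).comm, hda, map_zero]
    obtain ⟨m₀, n', hm₀, hdm₀, hn', e⟩ :=
      fcy_mid C J hJ hJc h0 h1 c hc (U ∩ E) (hU.inter hE) _ ha' hda'
    have hn'E : (fcyCyl C).supp n' ⊆ Set.univ ×ˢ E :=
      hn'.trans (Set.prod_mono (Set.subset_univ _) Set.inter_subset_right)
    have hn'U : (fcyCyl C).supp n' ⊆ J ×ˢ U :=
      hn'.trans (Set.prod_mono subset_rfl Set.inter_subset_left)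
    obtain ⟨μ₀, hμ₀⟩ := fcyg_res_mk C E m₀ (hm₀.trans Set.inter_subset_right)
    obtain ⟨ν', hν'⟩ := fcyg_res_mk (fcyCyl C) (Set.univ ×ˢ E) n' hn'E
    obtain ⟨α, hα⟩ := fcyg_res_mk (fcyCyl C) (Set.univ ×ˢ E) (fcyTau C c m₀)
      (hsub _ (hm₀.trans Set.inter_subset_right))
    have ea : a = α + ((fcyCyl C).res (Set.univ ×ˢ E)).d ν' := by
      apply hrinj
      rw [map_add, (fcResIncl (fcyCyl C) (Set.univ ×ˢ E)).comm, hα, hν']
      exact e
    have e2 : fcyTau (C.res E) c μ₀ = (fcyCyl (C.res E)).d (b' - ι.f ν') := by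
      rw [map_sub, ← hab, ← ι.comm, ea, map_add, htau μ₀ α (by rw [hα, hμ₀])]
      abel
    obtain ⟨m', hm', e3⟩ := fcy_tau_inj (C.res E) J h0 h1 c hc U hU μ₀
      (by rw [fcyg_res_supp, hμ₀]; exact hm₀.trans Set.inter_subset_left)
      (by apply fcyg_res_inj C E; rw [(fcResIncl C E).comm, hμ₀, hdm₀, map_zero])
      (b' - ι.f ν')
      (((fcyCyl (C.res E)).supp_sub _ _).trans (Set.union_subset hb' ((ι.loc _).trans
        (by rw [fcyg_res_supp, hν']; exact hn'U)))) e2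
    have e4 : m₀ = C.d ((fcResIncl C E).f m') := by
      rw [← (fcResIncl C E).comm, ← e3, hμ₀]
    obtain ⟨a', ha'⟩ := fcyg_res_mk (fcyCyl C) (Set.univ ×ˢ E)
      (n' - fcyTau C c ((fcResIncl C E).f m')) (((fcyCyl C).supp_sub _ _).trans
        (Set.union_subset hn'E (hsub _ (fcyg_res_sub C E m'))))
    refine ⟨a', ?_, ?_⟩
    · rw [fcyg_res_supp, ha']
      refine ((fcyCyl C).supp_sub _ _).trans (Set.union_subset hn'U ?_)
      exact (fcyTau_supp C c _).trans (Set.prod_mono (Set.singleton_subset_iff.2 hc) hm')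
    · apply hrinj
      rw [(fcResIncl (fcyCyl C) (Set.univ ×ˢ E)).comm, ha', map_sub, fcyTau_d, ← e4, e]
      abel

/-- **`(Cyl C)(I × E) → Cyl (C(E))`.**  `ι = j⁻¹` on `(Cyl C)(I × E)` (`fcy_res_inj`, `fcy_res_surj`): linear, preserves supports, chain map.
Acyclic cone: `fcy_acycOn_of_rect` + `fcg_cone_acycAt_iff`.  Rectangle `J × U`: the source is `(Cyl C)(J × (U ∩ E))`, the target `Cyl (C(E)) (J × U)`.
`0 ∈ J` or `1 ∈ J`: both acyclic (`fcy_acyc_half`).  Otherwise: onto by `fcy_mid` for `C.res E` (`τ_c ⊗ m₀` comes from the source);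
injective by `fcy_mid` for `C` and `fcy_tau_inj` for `C.res E`. -/
theorem fcy_res_qi (C : FcD X) (E : Set X) (hE : IsOpen E) :
    ∃ ι : FcHom ((fcyCyl C).res (Set.univ ×ˢ E)) (fcyCyl (C.res E)), (fcCone ι).Acyc := by
  obtain ⟨ι, hι⟩ := fcyg_iota_exists C E hE
  refine ⟨ι, ?_⟩
  have h := fcy_acycOn_of_rect (fcCone ι) Set.univ ?_
  · rwa [Set.univ_prod_univ] at h
  rintro R ⟨J, U, hJ, hJc, h01, hU, -, rfl⟩
  by_cases h0 : (0 : unitInterval) ∈ J
  · have h1 : (1 : unitInterval) ∉ J := fun h1 => h01 ⟨h0, h1⟩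
    have hstar : ∀ t' ∈ J, ∀ t, t' ∈ Set.uIcc (1 : unitInterval) t → t ∈ J := by
      intro t' ht' t ht
      rw [Set.uIcc_of_ge unitInterval.le_one'] at ht
      exact hJc.out h0 ht' ⟨unitInterval.nonneg', ht.1⟩
    refine fcCone_acycAt ι ?_ (fcy_acyc_half (C.res E) 1 J hJ h1 hstar U hU)
    rw [fcf_res_acycAt_iff, fcyg_prod_inter]
    exact fcy_acyc_half C 1 J hJ h1 hstar (E ∩ U) (hE.inter hU)
  · by_cases h1 : (1 : unitInterval) ∈ J
    · have hstar : ∀ t' ∈ J, ∀ t, t' ∈ Set.uIcc (0 : unitInterval) t → t ∈ J := by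
        intro t' ht' t ht
        rw [Set.uIcc_of_le unitInterval.nonneg'] at ht
        exact hJc.out ht' h1 ⟨ht.2, unitInterval.le_one'⟩
      refine fcCone_acycAt ι ?_ (fcy_acyc_half (C.res E) 0 J hJ h0 hstar U hU)
      rw [fcf_res_acycAt_iff, fcyg_prod_inter]
      exact fcy_acyc_half C 0 J hJ h0 hstar (E ∩ U) (hE.inter hU)
    · rcases J.eq_empty_or_nonempty with rfl | ⟨c, hc⟩
      · rw [Set.empty_prod]
        exact fcyg_acycAt_empty _
      · exact (fcg_cone_acycAt_iff ι _).2 (fcyg_res_mid C E hE ι hι J hJ hJc h0 h1 c hc U hU)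

/-! ### 5. The cylinder of a dual -/

/-- the evaluation pairing `A^∨ × A → ℝ` -/
noncomputable def fcyPairDual (A : FcD X) : FcyPair X :=
  fcyPairMk A.dual A 1 (by norm_num) A.toFcObj.dualSub.subtype
    (fun φ m h => FcObj.dual_apply_eq_zero A.toFcObj φ.1 m h.symm)
    (fun φ m => by
      show φ.1 (A.d m) = 1 * φ.1 (A.d m)
      rw [one_mul])

/-- the adjoint of the evaluation pairing is the identity of `A^∨` -/
theorem fcy_pairDual_ad (A : FcD X) : (fcCone (fcyPairDual A).ad).Acyc := by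
  intro U _ _
  rw [fcg_cone_acycAt_iff]
  have hf : ∀ φ : A.dual.C, (fcyPairDual A).ad.f φ = φ := fun φ => rfl
  have hd : ∀ φ : A.dual.C, ((fcyPairDual A).M'.dual.resc (fcyPairDual A).κ).d φ = A.dual.d φ :=
    fun φ => one_smul ℝ (A.dual.d φ)
  refine ⟨fun b hb hdb => ⟨b, 0, hb, ?_, ?_, ?_⟩, fun a b' _ _ hb' h => ⟨b', hb', ?_⟩⟩
  · exact (hd b).symm.trans hdb
  · rw [FcObj.supp_zero]
    exact Set.empty_subset _
  · rw [map_zero, add_zero]
    rfl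
  · exact ((hf a).symm.trans h).trans (hd b')

theorem fcy_pairDual_acyc (A : FcD X) : (fcyPairDual A).S.Acyc := by
  have h := fcy_pair_acycOn (fcyPairDual A) Set.univ (fcy_pairDual_ad A)
  rwa [Set.univ_prod_univ] at h

/-- `(ev_1, ev_0)` -/
noncomputable def fcyxLam (M : FcD X) :
    FcHom (fcyCyl M) ((M.push (fcyInc X 1)).prod (M.push (fcyInc X 0))) where
  f := (fcyEv M 1).f.prod (fcyEv M 0).f
  loc := fun n => Set.union_subset ((fcyEv M 1).loc n) ((fcyEv M 0).loc n)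
  comm := fun n => Prod.ext ((fcyEv M 1).comm n) ((fcyEv M 0).comm n)

theorem fcyx_S_d_inr (P : FcyPair X) (ν : (fcyCyl P.M').dual.C) :
    P.Sd ((0 : (fcyCyl P.M).C), (((0 : P.M.C), (0 : P.M.C)), ν)) =
      ((0 : (fcyCyl P.M).C), (((0 : P.M.C), (0 : P.M.C)), (-P.κ) • (fcyCyl P.M').dual.d ν)) := by
  rw [FcyPair.Sd_apply]
  simp only [map_zero, neg_zero, add_zero, sub_self, smul_zero, zero_sub, neg_smul]

theorem fcyx_sum_aux {V₁ V₂ V₃ : Type} [AddCommGroup V₁] [AddCommGroup V₂] [AddCommGroup V₃]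
    (a : V₁) (b : V₂) (c : V₃) : ((0 : V₁), ((0 : V₂), c)) + (a, (b, (0 : V₃))) = (a, (b, c)) := by
  simp

/-- the extension `0 → (N'^∨, - κ d^∨) → P.S → cone (ev_1, ev_0) → 0` -/
noncomputable def fcyxExt (P : FcyPair X) :
    FcExt ((fcyCyl P.M').dual.resc (-P.κ)) P.S (fcCone (fcyxLam P.M)) where
  i :=
    { f := LinearMap.inr ℝ (fcyCyl P.M).C ((P.M.C × P.M.C) × (fcyCyl P.M').dual.C) ∘ₗ
        LinearMap.inr ℝ (P.M.C × P.M.C) (fcyCyl P.M').dual.C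
      loc := fun ν q hq => by
        have hq' : q ∈ (fcyCyl P.M).supp 0 ∪ (((fun y => ((1 : unitInterval), y)) '' P.M.supp 0 ∪
          (fun y => ((0 : unitInterval), y)) '' P.M.supp 0) ∪ (fcyCyl P.M').dual.supp ν) := hq
        rw [FcObj.supp_zero, FcObj.supp_zero] at hq'
        simp only [Set.image_empty, Set.empty_union] at hq'
        exact hq'
      comm := fun ν => (fcyx_S_d_inr P ν).symm }
  p :=
    { f := (LinearMap.fst ℝ (fcyCyl P.M).C ((P.M.C × P.M.C) × (fcyCyl P.M').dual.C)).prod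
        (LinearMap.fst ℝ (P.M.C × P.M.C) (fcyCyl P.M').dual.C ∘ₗ
          LinearMap.snd ℝ (fcyCyl P.M).C ((P.M.C × P.M.C) × (fcyCyl P.M').dual.C))
      loc := by
        rintro ⟨n, ⟨p₁, p₀⟩, ν⟩ q (hq | hq)
        · exact Or.inl hq
        · exact Or.inr (Or.inl hq)
      comm := by
        rintro ⟨n, ⟨p₁, p₀⟩, ν⟩
        rfl }
  r := LinearMap.snd ℝ (P.M.C × P.M.C) (fcyCyl P.M').dual.C ∘ₗ
          LinearMap.snd ℝ (fcyCyl P.M).C ((P.M.C × P.M.C) × (fcyCyl P.M').dual.C)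
  s := (LinearMap.fst ℝ (fcyCyl P.M).C (P.M.C × P.M.C)).prod
        (LinearMap.inl ℝ (P.M.C × P.M.C) (fcyCyl P.M').dual.C ∘ₗ
          LinearMap.snd ℝ (fcyCyl P.M).C (P.M.C × P.M.C))
  r_loc := by
    rintro ⟨n, ⟨p₁, p₀⟩, ν⟩ q hq
    exact Or.inr (Or.inr hq)
  s_loc := by
    rintro ⟨n, ⟨p₁, p₀⟩⟩ q hq
    have hq' : q ∈ (fcyCyl P.M).supp n ∪ (((fun y => ((1 : unitInterval), y)) '' P.M.supp p₁ ∪
          (fun y => ((0 : unitInterval), y)) '' P.M.supp p₀) ∪ (fcyCyl P.M').dual.supp 0) := hq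
    rw [FcObj.supp_zero, Set.union_empty] at hq'
    exact hq'
  ri := fun _ => rfl
  ps := fun _ => rfl
  sum := by
    intro σ
    exact fcyx_sum_aux σ.1 σ.2.1 σ.2.2

/-- for every pair: `P.S` is an extension of `cone (lam : N → M₁ × M₀)` by `(N'^∨, - κ d^∨)` (coordinate maps) -/
theorem fcy_pair_ext (P : FcyPair X) :
    ∃ lam : FcHom (fcyCyl P.M) ((P.M.push (fcyInc X 1)).prod (P.M.push (fcyInc X 0))),
      Nonempty (FcExt ((fcyCyl P.M').dual.resc (-P.κ)) P.S (fcCone lam)) :=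
  ⟨fcyxLam P.M, ⟨fcyxExt P⟩⟩

/-- **DUAL GENERATORS.**  `S = (fcyPairDual A).S` is acyclic, hence in `T'`; `(Cyl A)^∨ ∈ T'`; `fcb_ext_quot`: `cone lam ∈ T'`; the ends are in `T'` (`fcb_prod_mem`);
`T'.cone_src`. -/
theorem fcy_dual_mem (T' : FcCls (unitInterval × X)) (A : FcD X)
    (h : T'.mem (fcyCyl A)) (h1 : T'.mem (A.dual.push (fcyInc X 1)))
    (h0 : T'.mem (A.dual.push (fcyInc X 0))) : T'.mem (fcyCyl A.dual) := by
  obtain ⟨lam, ⟨e⟩⟩ := fcy_pair_ext (fcyPairDual A)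
  have hS : T'.mem (fcyPairDual A).S := T'.acyc (fcy_pairDual_acyc A)
  have hκ : -(fcyPairDual A).κ ≠ 0 := by
    show -(1 : ℝ) ≠ 0
    norm_num
  have hB : T'.mem ((fcyCyl (fcyPairDual A).M').dual.resc (-(fcyPairDual A).κ)) :=
    T'.resc _ hκ (T'.dual h)
  have hC : T'.mem (fcCone lam) := fcb_ext_quot T' e hS hB
  exact T'.cone_src lam (fcb_prod_mem T' h1 h0) hC

/-- realises the equation lemmas here (unique names) -/
theorem fcy_fun_eqns_cite : True := by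
  have := @fcyfLift.eq_1
  have := @fcyfTw.eq_1
  have := @fcyfTwL.eq_1
  have := @fcyfFst.eq_1
  have := @fcyfSnd.eq_1
  have := @fcyfInl.eq_1
  have := @fcyfInr.eq_1
  have := @fcyfRescTo.eq_1
  have := @fcyfRescOf.eq_1
  have := @fcyfPushTo.eq_1
  have := @fcyfPushOf.eq_1
  have := @fcyfPw.eq_1
  have := @fcyMapFam.eq_1
  have := @fcyMap.eq_1
  have := @fcyProdMap.eq_1
  have := @fcyPairDual.eq_1
  have := @fcyxLam.eq_1
  have := @fcyxExt.eq_1
  trivial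

end Claimed.Agent.R304
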