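/-
Row 304 (S0559, Hilbert-Smith).  Owner/designer: helper154.  LAYER S: THE CUBICAL MODELS `FcKub` (definitions).  Prefix `fck` / `FcKub`.

The generators of the geometric class `T(X)` are `(C.res E).push f` and their duals, `C` a CUBICAL MODEL over the cube `EhCb n = [-1,1]^n`:
  * `asObj (EhCb n)`  (Alexander-Spanier cochains, helper138), and
  * `φ_! (fcyCyl C)`  for a cubical model `C` over `EhCb n`,  `φ = fckPhi n : I × EhCb n ≃ EhCb (n+1)`, `(t, x) ↦ (2 t - 1, x)`.
So the family of the cubical models is closed under the cylinder BY DEFINITION (no Eilenberg-Zilber comparison `Cyl (AS Q) ~ AS (I × Q)` is needed).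
-/
import Claimed.Agent.R304.FcCylDefs
import Claimed.Agent.R304.AsBoxes
import Claimed.Agent.R304.EhDefs

set_option autoImplicit false

namespace Claimed.Agent.R304

open Topology

/-- the affine homeomorphism `[0,1] → [-1,1]` -/
def fckAff : C(unitInterval, Set.Icc (-1 : ℝ) 1) :=
  ⟨fun t => ⟨2 * (t : ℝ) - 1, by
    have h0 := t.2.1
    have h1 := t.2.2
    constructor <;> linarith⟩, by fun_prop⟩

/-- `φ_n : I × [-1,1]^n → [-1,1]^(n+1)`, `(t, x) ↦ (2 t - 1, x)` -/
def fckPhi (n : ℕ) : C(unitInterval × EhCb n, EhCb (n + 1)) :=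
  ⟨fun p => Fin.cons (fckAff p.1) p.2, by
    refine continuous_pi fun i => ?_
    refine Fin.cases ?_ (fun k => ?_) i
    · simp only [Fin.cons_zero]
      exact fckAff.continuous.comp continuous_fst
    · simp only [Fin.cons_succ]
      exact (continuous_apply k).comp continuous_snd⟩

/-- THE CUBICAL MODELS -/
inductive FcKub : (n : ℕ) → FcD (EhCb n) → Prop
  | base (n : ℕ) : FcKub n (asObj (EhCb n))
  | cyl (n : ℕ) (C : FcD (EhCb n)) : FcKub n C → FcKub (n + 1) ((fcyCyl C).push (fckPhi n))

/-- bijective continuous map between compact Hausdorff spaces; inverse `y ↦ ((y 0 + 1) / 2, Fin.tail y)` -/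
theorem fckPhi_homeo (n : ℕ) : IsHomeomorph (fckPhi n) := by
  have hbij : Function.Bijective (fckPhi n) := by
    constructor
    · rintro ⟨t, x⟩ ⟨t', x'⟩ h
      have h0 : fckAff t = fckAff t' := by
        have := congrFun h 0
        simpa [fckPhi] using this
      have h1 : x = x' := by
        funext k
        have := congrFun h k.succ
        simpa [fckPhi] using this
      have h2 : t = t' := by
        have h3 : (2 * (t : ℝ) - 1) = 2 * (t' : ℝ) - 1 := congrArg Subtype.val h0
        exact Subtype.ext (by linarith)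
      rw [h1, h2]
    · intro y
      have hy0 := (y 0).2.1
      have hy1 := (y 0).2.2
      refine ⟨(⟨((y 0 : ℝ) + 1) / 2, by constructor <;> linarith⟩, Fin.tail y), ?_⟩
      funext i
      refine Fin.cases ?_ (fun k => ?_) i
      · apply Subtype.ext
        simp only [fckPhi, fckAff, ContinuousMap.coe_mk, Fin.cons_zero]
        ring
      · simp [fckPhi, Fin.tail]
  exact (isHomeomorph_iff_continuous_bijective).2 ⟨(fckPhi n).continuous, hbij⟩

/-- the intervals of `I` which correspond to the factors of the boxes -/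
def fckIv (α β : ℝ) : Set unitInterval := {t | α < 2 * (t : ℝ) - 1 ∧ 2 * (t : ℝ) - 1 < β}

theorem fckIv_open (α β : ℝ) : IsOpen (fckIv α β) := by
  have h1 : Continuous fun t : unitInterval => 2 * (t : ℝ) - 1 := by fun_prop
  exact (isOpen_lt continuous_const h1).inter (isOpen_lt h1 continuous_const)

theorem fckIv_ordConnected (α β : ℝ) : (fckIv α β).OrdConnected := by
  refine ⟨fun x hx y hy z hz => ?_⟩
  have h1 : (x : ℝ) ≤ z := hz.1
  have h2 : (z : ℝ) ≤ y := hz.2
  have hx1 := hx.1
  have hy2 := hy.2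
  constructor <;> linarith

theorem fckIv_univ : fckIv (-2) 2 = Set.univ := by
  ext t
  have h0 := t.2.1
  have h1 := t.2.2
  simp only [Set.mem_univ, iff_true]
  show (-2 : ℝ) < 2 * (t : ℝ) - 1 ∧ 2 * (t : ℝ) - 1 < 2
  constructor <;> linarith

/-- `φ` maps products of intervals and boxes to boxes -/
theorem fckPhi_box (n : ℕ) (α β : ℝ) (a b : Fin n → ℝ) :
    fckPhi n '' (fckIv α β ×ˢ asBx n a b) = asBx (n + 1) (Fin.cons α a) (Fin.cons β b) := by
  ext y
  constructor
  · rintro ⟨⟨t, x⟩, ⟨ht, hx⟩, rfl⟩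
    intro i
    refine Fin.cases ?_ (fun k => ?_) i
    · have ht' : α < 2 * (t : ℝ) - 1 ∧ 2 * (t : ℝ) - 1 < β := ht
      simpa [fckPhi, fckAff] using ht'
    · simpa [fckPhi] using hx k
  · intro hy
    have hy0 := (y 0).2.1
    have hy1 := (y 0).2.2
    refine ⟨(⟨((y 0 : ℝ) + 1) / 2, by constructor <;> linarith⟩, Fin.tail y), ⟨?_, ?_⟩, ?_⟩
    · have := hy 0
      simp only [Fin.cons_zero] at this
      show α < 2 * (((y 0 : ℝ) + 1) / 2) - 1 ∧ 2 * (((y 0 : ℝ) + 1) / 2) - 1 < β
      constructor <;> linarith [this.1, this.2]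
    · intro k
      have := hy k.succ
      simpa [Fin.tail] using this
    · funext i
      refine Fin.cases ?_ (fun k => ?_) i
      · apply Subtype.ext
        simp only [fckPhi, fckAff, ContinuousMap.coe_mk, Fin.cons_zero]
        ring
      · simp [fckPhi, Fin.tail]

theorem fckPhi_preimage_box (n : ℕ) (a b : Fin (n + 1) → ℝ) :
    fckPhi n ⁻¹' asBx (n + 1) a b = fckIv (a 0) (b 0) ×ˢ asBx n (Fin.tail a) (Fin.tail b) := by
  ext ⟨t, x⟩
  constructor
  · intro h
    refine ⟨?_, fun k => ?_⟩
    · have := h 0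
      show a 0 < 2 * (t : ℝ) - 1 ∧ 2 * (t : ℝ) - 1 < b 0
      simpa [fckPhi, fckAff] using this
    · have := h k.succ
      simpa [fckPhi, Fin.tail] using this
  · rintro ⟨ht, hx⟩ i
    refine Fin.cases ?_ (fun k => ?_) i
    · have ht' : a 0 < 2 * (t : ℝ) - 1 ∧ 2 * (t : ℝ) - 1 < b 0 := ht
      simpa [fckPhi, fckAff] using ht'
    · have := hx k
      simpa [fckPhi, Fin.tail] using this

/-- realises the equation lemmas here (unique names) -/
theorem fck_defs_eqns_cite : True := by
  have := @fckAff.eq_1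
  have := @fckPhi.eq_1
  have := @fckIv.eq_1
  trivial

end Claimed.Agent.R304
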