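/-
Row 304 (S0559, Hilbert-Smith).  Owner/designer: helper154.  LAYER S, package `FcKub`:
FINITENESS OF THE CUBICAL MODELS, and the objects over a point.  Prefix `fck` (and `fcf` for the general lemmas on `FinAt`).

 1. general: finite dimensional homology (`A.FinAt U U`) passes to finite unions (Mayer-Vietoris); a basis criterion for `FT` without interpolation; `FinAt` of `A.res E`, of `g_! A`.
 2. `fcy_finAt_rect`: `H(M(U))` finite dimensional `⟹` `H((fcyCyl M)(J × U))` finite dimensional, `J` any interval which is open in `I`.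
 3. `fck_fin`: `H(C(box))` is finite dimensional for every cubical model `C`.   `fck_FT`, `fck_refl`: `C.res E` has `FT` / is reflexive, `E` a finite union of boxes.
 4. over a point: `FT ⟹` finite dimensional homology (`fcf_pt_fin`); a class over the point which contains a "line" contains all objects with finite dimensional homology (`fcf_pt_mem`).
Estimated 1100 lines.
-/
import Claimed.Agent.R304.FcKubDefs
import Claimed.Agent.R304.FcCylHtp
import Claimed.Agent.R304.IfaceDefs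

set_option autoImplicit false

namespace Claimed.Agent.R304

open Topology

variable {X Y : Type} [TopologicalSpace X] [TopologicalSpace Y]

/-! ### 1. General lemmas -/

theorem fcf_finAt_empty (A : FcD X) : A.FinAt ∅ ∅ :=
  fcf_finAt_of_acycAt A subset_rfl (fcg_acycAt_empty A)

open Classical in
theorem fcf_fin_union_aux [T2Space X] (A : FcD X) (𝔅 : Set (Set X)) (hopen : ∀ B ∈ 𝔅, IsOpen B)
    (hinter : ∀ B ∈ 𝔅, ∀ B' ∈ 𝔅, B ∩ B' ∈ 𝔅) (hfin : ∀ B ∈ 𝔅, A.FinAt B B) (k : ℕ) :
    ∀ S : Finset (Set X), S.card ≤ k → (↑S : Set (Set X)) ⊆ 𝔅 →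
      A.FinAt (⋃₀ (↑S : Set (Set X))) (⋃₀ (↑S : Set (Set X))) := by
  induction k with
  | zero =>
    intro S hS _
    have : S = ∅ := Finset.card_eq_zero.1 (Nat.le_zero.1 hS)
    subst this
    simpa using fcf_finAt_empty A
  | succ k ih =>
    intro S hS hSB
    rcases S.eq_empty_or_nonempty with rfl | ⟨B, hB⟩
    · simpa using fcf_finAt_empty A
    · have hS' : (S.erase B).card ≤ k := by
        rw [Finset.card_erase_of_mem hB]; omega
      have hS'B : (↑(S.erase B) : Set (Set X)) ⊆ 𝔅 := fun C hC =>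
        hSB (Finset.mem_coe.2 (Finset.mem_of_mem_erase (Finset.mem_coe.1 hC)))
      have hBB : B ∈ 𝔅 := hSB (Finset.mem_coe.2 hB)
      have e : ⋃₀ (↑S : Set (Set X)) = ⋃₀ (↑(S.erase B) : Set (Set X)) ∪ B := by
        conv_lhs => rw [← Finset.insert_erase hB]
        rw [Finset.coe_insert, Set.sUnion_insert, Set.union_comm]
      have hU : IsOpen (⋃₀ (↑(S.erase B) : Set (Set X))) :=
        isOpen_sUnion fun C hC => hopen C (hS'B hC)
      have e2 : ⋃₀ (↑(S.erase B) : Set (Set X)) ∩ B =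
          ⋃₀ (↑((S.erase B).image (fun C => C ∩ B)) : Set (Set X)) := by
        rw [Finset.coe_image, Set.sUnion_image, Set.sUnion_eq_biUnion, Set.iUnion₂_inter]
      have h1 : A.FinAt (⋃₀ (↑(S.erase B) : Set (Set X)) ∩ B) (⋃₀ (↑(S.erase B) : Set (Set X)) ∩ B) := by
        rw [e2]
        refine ih _ (Finset.card_image_le.trans hS') ?_
        intro C hC
        rw [Finset.coe_image] at hC
        obtain ⟨C', hC', rfl⟩ := hC
        exact hinter _ (hS'B hC') _ hBB
      rw [e]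
      exact fcf_mv A hU (hopen B hBB) subset_rfl subset_rfl h1 (ih _ hS' hS'B) (hfin B hBB)

/-- induction on the number of sets, for all families at once: `(B_1 ∪ .. ∪ B_k) ∩ B_{k+1}` is a union of `k` members; `fcf_mv` with all three levels equal -/
theorem fcf_fin_union [T2Space X] (A : FcD X) (𝔅 : Set (Set X)) (hopen : ∀ B ∈ 𝔅, IsOpen B)
    (hinter : ∀ B ∈ 𝔅, ∀ B' ∈ 𝔅, B ∩ B' ∈ 𝔅) (hfin : ∀ B ∈ 𝔅, A.FinAt B B) (S : Set (Set X))
    (hS : S.Finite) (hSB : S ⊆ 𝔅) : A.FinAt (⋃₀ S) (⋃₀ S) := by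
  have := fcf_fin_union_aux A 𝔅 hopen hinter hfin hS.toFinset.card hS.toFinset le_rfl
    (by rw [hS.coe_toFinset]; exact hSB)
  rwa [hS.coe_toFinset] at this

/-- `O ⋐ O'`: cover the compact `closure O` by finitely many `B_i ⊆ O'`; `W = ⋃ B_i`; `fcf_fin_union`, `fcf_finAt_mono` -/
theorem fcf_basis_fin [T2Space X] (A : FcD X) (𝔅 : Set (Set X)) (hopen : ∀ B ∈ 𝔅, IsOpen B)
    (hinter : ∀ B ∈ 𝔅, ∀ B' ∈ 𝔅, B ∩ B' ∈ 𝔅)
    (hbasis : ∀ U, IsOpen U → ∀ x ∈ U, ∃ B ∈ 𝔅, x ∈ B ∧ B ⊆ U)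
    (hfin : ∀ B ∈ 𝔅, A.FinAt B B) : A.FT := by
  intro O O' _ hO' hc hOO'
  choose! B hB𝔅 hxB hBO using hbasis O' hO'
  obtain ⟨t, ht, hcov⟩ := hc.elim_nhds_subcover B
    (fun x hx => (hopen _ (hB𝔅 x (hOO' hx))).mem_nhds (hxB x (hOO' hx)))
  have hfinS : (B '' (↑t : Set X)).Finite := (Finset.finite_toSet t).image B
  have hW := fcf_fin_union A 𝔅 hopen hinter hfin (B '' (↑t : Set X)) hfinS (by
    rintro _ ⟨x, hx, rfl⟩
    exact hB𝔅 x (hOO' (ht x hx)))
  refine fcf_finAt_mono A ?_ ?_ hW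
  · refine subset_closure.trans (hcov.trans ?_)
    rw [Set.sUnion_image]
    exact subset_rfl
  · rw [Set.sUnion_image]
    exact Set.iUnion₂_subset fun x hx => hBO x (hOO' (ht x hx))

/-- `(A.res E)(O) = A(E ∩ O)`; transport the finite dimensional space with `Submodule.map` / `comap` of the inclusion -/
theorem fcf_res_finAt (A : FcD X) (E O O' : Set X) (h : A.FinAt (E ∩ O) (E ∩ O')) :
    (A.res E).FinAt O O' := by
  obtain ⟨F, hF, hF'⟩ := h
  refine ⟨F.comap (A.sec E).subtype, ?_, ?_⟩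
  · have hinj : Function.Injective
        ((A.sec E).subtype.restrict (p := F.comap (A.sec E).subtype) (q := F) (fun x hx => hx)) := by
      intro x y hxy
      apply Subtype.ext
      apply Subtype.ext
      exact congrArg (fun z : F => (z : A.C)) hxy
    exact Module.Finite.of_injective _ hinj
  · intro m hm hd
    have hd' : A.d m.1 = 0 := congrArg Subtype.val hd
    obtain ⟨e, he, w, hw, hew⟩ := hF' m.1 (Set.subset_inter m.2 hm) hd'
    have heE : A.supp e ⊆ E := by
      have : e = m.1 - A.d w := by rw [← hew]; abel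
      rw [this]
      refine (A.supp_sub _ _).trans (Set.union_subset m.2 ?_)
      exact (A.d_loc w).trans (hw.trans Set.inter_subset_left)
    refine ⟨⟨e, heE⟩, he, ⟨w, hw.trans Set.inter_subset_left⟩, hw.trans Set.inter_subset_right, ?_⟩
    exact Subtype.ext hew

theorem fcf_push_finAt [T2Space Y] (g : C(X, Y)) (A : FcD X) (O O' : Set Y)
    (h : A.FinAt (g ⁻¹' O) (g ⁻¹' O')) : (A.push g).FinAt O O' := by
  obtain ⟨F, hF, hF'⟩ := h
  refine ⟨F, hF, fun m hm hd => ?_⟩
  obtain ⟨e, he, w, hw, hew⟩ := hF' m (Set.image_subset_iff.1 hm) hd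
  exact ⟨e, he, w, Set.image_subset_iff.2 hw, hew⟩

/-- one dimensional homology is finite dimensional (`E = span {c}`) -/
theorem fcf_finAt_of_gen (A : FcD X) (U : Set X) (c : A.C) (h : AsGenAt A U c) : A.FinAt U U := by
  obtain ⟨-, -, -, h4⟩ := h
  refine ⟨Submodule.span ℝ {c}, inferInstance, fun m hm hd => ?_⟩
  obtain ⟨t, m', hm', e⟩ := h4 m hm hd
  refine ⟨t • c, Submodule.smul_mem _ _ (Submodule.mem_span_singleton_self c), m', hm', ?_⟩
  rw [e]; abel

/-! ### 2. Rectangles -/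


/-- the case `J = univ` -/
theorem fcy_finAt_rect_full [T2Space X] (M : FcD X) (U : Set X) (hU : IsOpen U) (h : M.FinAt U U) :
    (fcyCyl M).FinAt (Set.univ ×ˢ U) (Set.univ ×ˢ U) := by
  obtain ⟨E, hE, hE'⟩ := h
  refine ⟨E.map (fcyTen M (fun _ => 1)), inferInstance, fun n hn hdn => ?_⟩
  obtain ⟨n', n'', hn', hn'', e⟩ := fcy_CL M 0 n (Set.univ ×ˢ U) ∅ (isOpen_univ.prod hU) isOpen_empty
    (by
      rintro p ⟨t', -, hp⟩
      exact ⟨trivial, (hn hp).2⟩)
    (by
      rintro p ⟨t', -, hp⟩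
      rw [hdn, (fcyCyl M).supp_zero] at hp
      exact hp)
  have hn0 : n'' = 0 := ((fcyCyl M).supp_empty_iff n'').1 (Set.subset_empty_iff.1 hn'')
  obtain ⟨e₀, he₀, w, hw, hew⟩ := hE' (fcyEvL M 0 n)
    (fun x hx => (hn (fcyEvL_supp M 0 n x hx)).2)
    (by rw [← fcyEvL_d, hdn, map_zero])
  refine ⟨fcyTen M (fun _ => 1) e₀, Submodule.mem_map_of_mem he₀, n' + fcyTen M (fun _ => 1) w, ?_, ?_⟩
  · refine ((fcyCyl M).supp_add _ _).trans (Set.union_subset hn' ?_)
    exact (fcyTen_supp M _ w).trans (Set.prod_mono (Set.subset_univ _) hw)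
  · rw [map_add, fcyTen_one_d, ← hew, map_sub]
    rw [hn0, add_zero] at e
    rw [← e]
    abel

/-- the case of an interior interval -/
theorem fcy_finAt_rect_mid [T2Space X] (M : FcD X) (J : Set unitInterval) (hJ : IsOpen J)
    (hJc : J.OrdConnected) (h0 : (0 : unitInterval) ∉ J) (h1 : (1 : unitInterval) ∉ J)
    (c : unitInterval) (hc : c ∈ J) (U : Set X) (hU : IsOpen U) (h : M.FinAt U U) :
    (fcyCyl M).FinAt (J ×ˢ U) (J ×ˢ U) := by
  obtain ⟨E, hE, hE'⟩ := h
  refine ⟨E.map (fcyTau M c), inferInstance, fun n hn hdn => ?_⟩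
  obtain ⟨m₀, n', hm₀, hdm₀, hn', e⟩ := fcy_mid M J hJ hJc h0 h1 c hc U hU n hn hdn
  obtain ⟨e₀, he₀, w, hw, hew⟩ := hE' m₀ hm₀ hdm₀
  refine ⟨fcyTau M c e₀, Submodule.mem_map_of_mem he₀, n' - fcyTau M c w, ?_, ?_⟩
  · refine ((fcyCyl M).supp_sub _ _).trans (Set.union_subset hn' ?_)
    exact (fcyTau_supp M c w).trans (Set.prod_mono (Set.singleton_subset_iff.2 hc) hw)
  · rw [map_sub, fcyTau_d, ← hew, map_sub, e]
    abel

theorem fcy_finAt_rect [T2Space X] (M : FcD X) (J : Set unitInterval) (hJ : IsOpen J)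
    (hJc : J.OrdConnected) (U : Set X) (hU : IsOpen U) (h : M.FinAt U U) :
    (fcyCyl M).FinAt (J ×ˢ U) (J ×ˢ U) := by
  by_cases h0 : (0 : unitInterval) ∈ J
  · by_cases h1 : (1 : unitInterval) ∈ J
    · have : J = Set.univ := by
        refine Set.eq_univ_of_forall fun t => ?_
        exact hJc.out h0 h1 ⟨unitInterval.nonneg' , unitInterval.le_one'⟩
      rw [this]
      exact fcy_finAt_rect_full M U hU h
    · refine fcf_finAt_of_acycAt _ subset_rfl (fcy_acyc_half M 1 J hJ h1 ?_ U hU)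
      intro t' ht' t htt
      rw [Set.uIcc_of_ge unitInterval.le_one'] at htt
      exact hJc.out h0 ht' ⟨unitInterval.nonneg', htt.1⟩
  · by_cases h1 : (1 : unitInterval) ∈ J
    · refine fcf_finAt_of_acycAt _ subset_rfl (fcy_acyc_half M 0 J hJ h0 ?_ U hU)
      intro t' ht' t htt
      rw [Set.uIcc_of_le unitInterval.nonneg'] at htt
      exact hJc.out ht' h1 ⟨htt.2, unitInterval.le_one'⟩
    · rcases J.eq_empty_or_nonempty with rfl | ⟨c, hc⟩
      · rw [Set.empty_prod]
        exact fcf_finAt_empty _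
      · exact fcy_finAt_rect_mid M J hJ hJc h0 h1 c hc U hU h

/-! ### 3. Cubical models -/

/-- the base case of `fck_fin` -/
theorem fck_fin_base (n : ℕ) (a b : Fin n → ℝ) :
    (asObj (EhCb n)).FinAt (asBx n a b) (asBx n a b) := by
  by_cases hh : ∃ i₀, (a i₀ < -1 ∧ b i₀ ≤ 1) ∨ (-1 ≤ a i₀ ∧ 1 < b i₀)
  · obtain ⟨i₀, hi₀⟩ := hh
    exact fcf_finAt_of_acycAt _ subset_rfl (as_bx_half n a b i₀ hi₀)
  · by_cases he : ∃ i, b i ≤ a i
    · obtain ⟨i, hi⟩ := he
      have : asBx n a b = ∅ := by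
        rw [Set.eq_empty_iff_forall_notMem]
        intro x hx
        have := hx i
        linarith [this.1, this.2]
      rw [this]
      exact fcf_finAt_empty _
    · obtain ⟨c, hc, -⟩ := as_bx_gen n a b (fun i => by
        have h1 : ¬ ((a i < -1 ∧ b i ≤ 1) ∨ (-1 ≤ a i ∧ 1 < b i)) := fun h => hh ⟨i, h⟩
        have h2 : ¬ b i ≤ a i := fun h => he ⟨i, h⟩
        rw [not_or, not_and, not_and] at h1
        rcases lt_or_ge (a i) (-1) with h | h
        · exact Or.inl ⟨h, not_le.1 (h1.1 h)⟩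
        · exact Or.inr ⟨h, not_le.1 h2, not_lt.1 (h1.2 h)⟩)
      exact fcf_finAt_of_gen _ _ c hc

theorem fck_fin (n : ℕ) (C : FcD (EhCb n)) (hC : FcKub n C) (a b : Fin n → ℝ) :
    C.FinAt (asBx n a b) (asBx n a b) := by
  induction hC with
  | base n => exact fck_fin_base n a b
  | cyl n C _ ih =>
    refine fcf_push_finAt _ _ _ _ ?_
    rw [fckPhi_preimage_box]
    exact fcy_finAt_rect C _ (fckIv_open _ _) (fckIv_ordConnected _ _) _ (as_bx_isOpen _ _ _) (ih _ _)

theorem fck_FT (n : ℕ) (C : FcD (EhCb n)) (hC : FcKub n C) {ι : Type} (s : Finset ι)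
    (a b : ι → Fin n → ℝ) : (C.res (⋃ i ∈ s, asBx n (a i) (b i))).FT := by
  have hopen : ∀ B ∈ {B : Set (EhCb n) | ∃ a' b', B = asBx n a' b'}, IsOpen B := by
    rintro _ ⟨a', b', rfl⟩
    exact as_bx_isOpen n a' b'
  have hinter : ∀ B ∈ {B : Set (EhCb n) | ∃ a' b', B = asBx n a' b'},
      ∀ B' ∈ {B : Set (EhCb n) | ∃ a' b', B = asBx n a' b'},
        B ∩ B' ∈ {B : Set (EhCb n) | ∃ a' b', B = asBx n a' b'} := by
    rintro _ ⟨a', b', rfl⟩ _ ⟨a'', b'', rfl⟩
    exact ⟨_, _, as_bx_inter n a' b' a'' b''⟩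
  refine fcf_basis_fin _ {B | ∃ a' b', B = asBx n a' b'} hopen hinter ?_ ?_
  · intro U hU x hx
    obtain ⟨a', b', h1, h2⟩ := as_bx_basis n U hU x hx
    exact ⟨_, ⟨a', b', rfl⟩, h1, h2⟩
  · rintro _ ⟨a', b', rfl⟩
    refine fcf_res_finAt _ _ _ _ ?_
    have e : (⋃ i ∈ s, asBx n (a i) (b i)) ∩ asBx n a' b' =
        ⋃₀ ((fun i => asBx n (a i) (b i) ∩ asBx n a' b') '' (↑s : Set ι)) := by
      rw [Set.sUnion_image, Set.iUnion₂_inter]
      rfl
    rw [e]
    refine fcf_fin_union C {B | ∃ a' b', B = asBx n a' b'} hopen hinter ?_ _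
      ((Finset.finite_toSet s).image _) ?_
    · rintro _ ⟨a'', b'', rfl⟩
      exact fck_fin n C hC a'' b''
    · rintro _ ⟨i, -, rfl⟩
      exact ⟨_, _, as_bx_inter n _ _ _ _⟩

theorem fck_refl (n : ℕ) (C : FcD (EhCb n)) (hC : FcKub n C) {ι : Type} (s : Finset ι)
    (a b : ι → Fin n → ℝ) : (fcCone (fcEv (C.res (⋃ i ∈ s, asBx n (a i) (b i))))).Acyc :=
  fcf_refl _ (fck_FT n C hC s a b)

/-! ### 4. Objects over a point -/

theorem fcf_pt_fin (A : FcD PUnit.{1}) (h : A.FT) : Module.Finite ℝ A.Hom := by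
  obtain ⟨E, hE, hE'⟩ := (fcf_pt A).1 h
  obtain ⟨E₃, hE₃, h1, h2⟩ := fcf_lin_compl A.cyc (LinearMap.range A.d) E hE (by
    intro m hm
    obtain ⟨e, he, w, -, hew⟩ := hE' m (Set.subset_univ _) hm
    have : m = e + A.d w := by rw [← hew]; abel
    rw [this]
    exact Submodule.add_mem_sup he ⟨w, rfl⟩)
  have hsurj : Function.Surjective (A.bdr.mkQ ∘ₗ Submodule.inclusion h1) := by
    intro q
    obtain ⟨z, rfl⟩ := Submodule.mkQ_surjective _ q
    obtain ⟨e, he, z', hz', hez⟩ := Submodule.mem_sup.1 (h2 z.2)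
    refine ⟨⟨e, he⟩, ?_⟩
    show A.bdr.mkQ _ = A.bdr.mkQ z
    rw [Submodule.mkQ_apply, Submodule.mkQ_apply, Submodule.Quotient.eq]
    show ((Submodule.inclusion h1 ⟨e, he⟩ - z : A.cyc) : A.C) ∈ LinearMap.range A.d
    have : ((Submodule.inclusion h1 ⟨e, he⟩ - z : A.cyc) : A.C) = - z' := by
      show e - z.1 = - z'
      rw [← hez]; abel
    rw [this]
    exact Submodule.neg_mem _ hz'.2
  exact Module.Finite.of_surjective _ hsurj

/-- subsets of the point -/
theorem fcf_pt_set (U : Set PUnit.{1}) : U = ∅ ∨ U = Set.univ := by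
  rcases U.eq_empty_or_nonempty with h | ⟨x, hx⟩
  · exact Or.inl h
  · refine Or.inr (Set.eq_univ_of_forall fun y => ?_)
    cases x; cases y; exact hx

/-- over a point every linear map is local -/
theorem fcf_pt_loc (A B : FcD PUnit.{1}) (f : A.C →ₗ[ℝ] B.C) : FcLoc A B f := by
  intro m
  rcases fcf_pt_set (A.supp m) with h | h
  · rw [(A.supp_empty_iff m).1 h, map_zero, B.supp_zero]
    exact Set.empty_subset _
  · rw [h]
    exact Set.subset_univ _

/-- over a point: all cycles are boundaries `⟹` locally acyclic -/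
theorem fcf_pt_acyc (A : FcD PUnit.{1}) (h : ∀ m, A.d m = 0 → ∃ w, m = A.d w) : A.Acyc := by
  intro U _ _
  rcases fcf_pt_set U with rfl | rfl
  · exact fcg_acycAt_empty A
  · intro m _ hd
    obtain ⟨w, hw⟩ := h m hd
    exact ⟨w, Set.subset_univ _, hw.symm⟩

/-- the induction for `fcf_pt_mem`: the homology is spanned by `k` classes -/
theorem fcf_pt_mem_aux (T : FcCls PUnit.{1}) (L : FcD PUnit.{1}) (hL : T.mem L) (c : L.C)
    (hc : AsGenAt L Set.univ c) (k : ℕ) : ∀ (A : FcD PUnit.{1}) (v : Fin k → A.C),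
      (∀ i, A.d (v i) = 0) →
      (∀ m, A.d m = 0 → ∃ (s : Fin k → ℝ) (w : A.C), m = ∑ i, s i • v i + A.d w) → T.mem A := by
  induction k with
  | zero =>
    intro A v _ hspan
    refine T.acyc (fcf_pt_acyc A fun m hm => ?_)
    obtain ⟨s, w, e⟩ := hspan m hm
    exact ⟨w, by simpa using e⟩
  | succ k ih =>
    intro A v hv hspan
    by_cases hb : ∃ y, v 0 = A.d y
    · -- the first class is superfluous
      obtain ⟨y, hy⟩ := hb
      refine ih A (fun i => v i.succ) (fun i => hv _) (fun m hm => ?_)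
      obtain ⟨s, w, e⟩ := hspan m hm
      refine ⟨fun i => s i.succ, s 0 • y + w, ?_⟩
      rw [e, Fin.sum_univ_succ, hy, map_add, map_smul]
      abel
    · obtain ⟨I, hI1, hI2⟩ := as_genAt_integral L Set.univ c hc
      obtain ⟨-, hdc, -, hgen⟩ := hc
      have hI2' : ∀ m', I (L.d m') = 0 := fun m' => hI2 m' (Set.subset_univ _)
      let f : FcHom L A :=
        { f := I.smulRight (v 0)
          loc := fcf_pt_loc L A _
          comm := fun m => by
            show I (L.d m) • v 0 = A.d (I m • v 0)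
            rw [hI2', zero_smul, map_smul, hv, smul_zero] }
      have hf : ∀ l, f.f l = I l • v 0 := fun _ => rfl
      refine T.cone_tgt f hL (ih (fcCone f) (fun i => ((0 : L.C), v i.succ)) (fun i => ?_) ?_)
      · rw [fcg_cone_d, map_zero, map_zero, hv, neg_zero, add_zero]
        rfl
      · rintro ⟨l, x⟩ hm
        rw [fcg_cone_d] at hm
        have hm' : (-(L.d l), f.f l + A.d x) = ((0 : L.C), (0 : A.C)) := hm
        have hm1 : L.d l = 0 := neg_eq_zero.1 (congrArg Prod.fst hm')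
        have hm2 : f.f l + A.d x = 0 := congrArg Prod.snd hm'
        obtain ⟨t, l', -, hl⟩ := hgen l (Set.subset_univ _) hm1
        have hIl : I l = t := by rw [hl, map_add, map_smul, hI1, hI2']; simp
        have ht : t = 0 := by
          by_contra ht
          apply hb
          refine ⟨-(t⁻¹ • x), ?_⟩
          rw [hf, hIl] at hm2
          have : A.d x = -(t • v 0) := by
            rw [eq_neg_iff_add_eq_zero, add_comm]; exact hm2
          rw [map_neg, map_smul, this, smul_neg, neg_neg, smul_smul, inv_mul_cancel₀ ht, one_smul]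
        have hdx : A.d x = 0 := by
          rw [hf, hIl, ht, zero_smul, zero_add] at hm2
          exact hm2
        obtain ⟨s, w, e⟩ := hspan (x + f.f l') (by
          rw [map_add, hdx, hf, map_smul, hv, smul_zero, add_zero])
        refine ⟨fun i => s i.succ, (s 0 • c - l', w), ?_⟩
        rw [fcg_cone_d]
        show ((l, x) : L.C × A.C) = ∑ i : Fin k, s i.succ • ((0 : L.C), v i.succ) +
          (-L.d (s 0 • c - l'), f.f (s 0 • c - l') + A.d w)
        have hsum : ∑ i : Fin k, s i.succ • ((0 : L.C), v i.succ) =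
            ((0 : L.C), ∑ i : Fin k, s i.succ • v i.succ) := by
          apply Prod.ext
          · rw [Prod.fst_sum]
            simp
          · rw [Prod.snd_sum]
            simp
        rw [hsum]
        apply Prod.ext
        · show l = 0 + -(L.d (s 0 • c - l'))
          rw [map_sub, map_smul, hdc, hl, ht]
          simp
        · show x = ∑ i : Fin k, s i.succ • v i.succ + (f.f (s 0 • c - l') + A.d w)
          rw [Fin.sum_univ_succ] at e
          have hx : x = s 0 • v 0 + ∑ i : Fin k, s i.succ • v i.succ + A.d w - f.f l' := by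
            rw [← e]; abel
          rw [map_sub, map_smul, hf c, hI1, one_smul]
          rw [hx]
          abel

theorem fcf_pt_mem (T : FcCls PUnit.{1}) (L : FcD PUnit.{1}) (hL : T.mem L) (c : L.C)
    (hc : AsGenAt L Set.univ c) (A : FcD PUnit.{1}) (hA : Module.Finite ℝ A.Hom) : T.mem A := by
  obtain ⟨k, q, hq⟩ := Module.Finite.exists_fin (R := ℝ) (M := A.Hom)
  choose v hv using fun i => Submodule.mkQ_surjective A.bdr (q i)
  refine fcf_pt_mem_aux T L hL c hc k A (fun i => (v i).1) (fun i => (v i).2) (fun m hm => ?_)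
  have hmem : A.bdr.mkQ ⟨m, hm⟩ ∈ Submodule.span ℝ (Set.range q) := by rw [hq]; trivial
  obtain ⟨s, hs⟩ := (Submodule.mem_span_range_iff_exists_fun ℝ).1 hmem
  have h1 : A.bdr.mkQ (∑ i, s i • v i) = A.bdr.mkQ ⟨m, hm⟩ := by
    rw [map_sum, ← hs]
    exact Finset.sum_congr rfl fun i _ => by rw [map_smul, hv]
  rw [Submodule.mkQ_apply, Submodule.mkQ_apply, Submodule.Quotient.eq] at h1
  have h2 : ((∑ i, s i • v i - (⟨m, hm⟩ : A.cyc) : A.cyc) : A.C) ∈ LinearMap.range A.d := h1
  obtain ⟨w, hw⟩ := h2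
  refine ⟨s, -w, ?_⟩
  rw [map_neg, hw]
  have : ((∑ i, s i • v i - (⟨m, hm⟩ : A.cyc) : A.cyc) : A.C) = ∑ i, s i • (v i).1 - m := by
    rw [Submodule.coe_sub, Submodule.coe_sum]
    rfl
  rw [this]
  abel

end Claimed.Agent.R304
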