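/-
Row 304 (S0559, Hilbert-Smith).  Owner: helper231.  LAYER S, package `FcModelA`, DEFINITIONS (prefix `fcu`): the classes as terms of `FcCls`.

* `fcuCls0 𝒦 h𝒦 V`   `T0_X(V) = FcGen (FccG 𝒦 V)`          * `fcuCls 𝒦 h𝒦 V`   `Th_X(V) = FcThick (FccG 𝒦 V)`
* `fcuT 𝒦 h𝒦 X`      THE OFFICIAL CLASS `T(X) = Th_X(univ)`
* `fcuTV 𝒦 h𝒦 V I`   `FcGen (cubes in V, members of P_I)`, `P_I = (T X).near I`  (the classes `TV`, `TW` of the field `exc`)
-/
import Claimed.Agent.R304.FcCut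

set_option autoImplicit false

namespace Claimed.Agent.R304

open Topology

variable {X : Type} [TopologicalSpace X] [T2Space X]

/-- `T0_X(V)` -/
def fcuCls0 (𝒦 : (n : ℕ) → FcD (EhCb n) → Prop) (h𝒦 : FccRefl 𝒦) (V : Set X) : FcCls X where
  mem := FcGen (FccG 𝒦 V)
  iso := FcGen.iso
  acyc := FcGen.acyc
  resc := FcGen.resc
  cone := FcGen.cone
  cone_src := FcGen.cone_src
  cone_tgt := FcGen.cone_tgt
  dual := fun h => fcc_T0_dual 𝒦 h𝒦 V _ h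

/-- `Th_X(V)` -/
def fcuCls (𝒦 : (n : ℕ) → FcD (EhCb n) → Prop) (h𝒦 : FccRefl 𝒦) (V : Set X) : FcCls X where
  mem := FcThick (FccG 𝒦 V)
  iso := FcThick.iso
  acyc := FcThick.acyc
  resc := FcThick.resc
  cone := FcThick.cone
  cone_src := FcThick.cone_src
  cone_tgt := FcThick.cone_tgt
  dual := fun h => fcc_Th_dual 𝒦 h𝒦 V _ h

/-- THE OFFICIAL CLASS `T(X)` -/
def fcuT (𝒦 : (n : ℕ) → FcD (EhCb n) → Prop) (h𝒦 : FccRefl 𝒦) (X : Type) [TopologicalSpace X]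
    [T2Space X] : FcCls X := fcuCls 𝒦 h𝒦 Set.univ

/-- the generators of the classes for excision -/
def FcuGV (𝒦 : (n : ℕ) → FcD (EhCb n) → Prop) (h𝒦 : FccRefl 𝒦) (V I : Set X) (A : FcD X) : Prop :=
  FccG 𝒦 V A ∨ ((fcuT 𝒦 h𝒦 X).near I).mem A

/-- the classes for excision -/
def fcuTV (𝒦 : (n : ℕ) → FcD (EhCb n) → Prop) (h𝒦 : FccRefl 𝒦) (V I : Set X) : FcCls X where
  mem := FcGen (FcuGV 𝒦 h𝒦 V I)
  iso := FcGen.iso
  acyc := FcGen.acyc
  resc := FcGen.resc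
  cone := FcGen.cone
  cone_src := FcGen.cone_src
  cone_tgt := FcGen.cone_tgt
  dual := fun {A} h => fcp_gen_dual _ (fun B hB => by
    rcases hB with hB | hB
    · exact fcp_gen_mono (fun D hD => FcGen.gen (Or.inl hD)) _ (fcc_G_dual 𝒦 h𝒦 V B hB)
    · exact FcGen.gen (Or.inr (((fcuT 𝒦 h𝒦 X).near I).dual hB))) A h

/-- realises the equation lemmas here (unique names) -/
theorem fcu_cls_eqns_cite : True := by
  have := @fcuCls0.eq_1
  have := @fcuCls.eq_1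
  have := @fcuT.eq_1
  have := @FcuGV.eq_1
  have := @fcuTV.eq_1
  trivial

end Claimed.Agent.R304
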