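/-
Row 304 (S0559, Hilbert-Smith).  Owner: helper231.  LAYER S, package `FcModelA` (prefix `fcu`):
THE FIELDS `cpt`, `push`, `pushDual`, `exc`, `emb` OF `FcModel` (`IfaceDefs.lean`) for `T X := fcuT 𝒦 h𝒦 X`, VERBATIM
(no local compactness is needed).  `𝒦` arbitrary with `h𝒦 : FccRefl 𝒦`.
-/
import Claimed.Agent.R304.FcCutDefs

set_option autoImplicit false

namespace Claimed.Agent.R304

open Topology

variable (𝒦 : (n : ℕ) → FcD (EhCb n) → Prop) (h𝒦 : FccRefl 𝒦)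

theorem fcu_cpt (X : Type) [TopologicalSpace X] [T2Space X] (A : FcD X) (h : (fcuT 𝒦 h𝒦 X).mem A) :
    ∃ K : Set X, IsCompact K ∧ A.AcycOn Kᶜ := by
  obtain ⟨K, hK, _, hac⟩ := fcc_Th_cpt 𝒦 Set.univ A h
  exact ⟨K, hK, hac⟩

theorem fcu_push {X Y : Type} [TopologicalSpace X] [T2Space X] [TopologicalSpace Y] [T2Space Y]
    (g : C(X, Y)) (A : FcD X) (h : (fcuT 𝒦 h𝒦 X).mem A) : (fcuT 𝒦 h𝒦 Y).mem (A.push g) :=
  fcc_Th_push 𝒦 g (fun _ _ => Set.mem_univ _) A h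

theorem fcu_pushDual {X Y : Type} [TopologicalSpace X] [T2Space X] [TopologicalSpace Y] [T2Space Y]
    (g : C(X, Y)) (A : FcD X) (h : (fcuT 𝒦 h𝒦 X).mem A) : (fcCone (fcPushDual g A)).Acyc := by
  obtain ⟨K, hK, hac⟩ := fcu_cpt 𝒦 h𝒦 X A h
  exact fch_pushDual g A hK hac

section

variable {X : Type} [TopologicalSpace X] [T2Space X]

/-- a member of `P_V` is locally acyclic off a compact subset of `V` (`fcu_cpt`, `fcg_acycOn_union`, `K := K₀ ∖ O`) -/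
theorem fcu_near_cpt (V : Set X) (A : FcD X) (h : ((fcuT 𝒦 h𝒦 X).near V).mem A) : (fcpCpt V).mem A := by
  obtain ⟨hT, O, hO, hVO, hac⟩ := h
  obtain ⟨K₀, hK₀, hac₀⟩ := fcu_cpt 𝒦 h𝒦 X A hT
  refine ⟨K₀ \ O, hK₀.diff hO, fun x hx => by_contra fun hxV => hx.2 (hVO hxV), ?_⟩
  have h1 := fcg_acycOn_union A hO hK₀.isClosed.isOpen_compl hac hac₀
  refine h1.mono ?_
  intro x hx
  by_cases hxO : x ∈ O
  · exact Or.inl hxO
  · exact Or.inr fun hxK => hx ⟨hxK, hxO⟩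

/-- the cubes in `V` are members of `P_V` -/
theorem fcu_G_near (V : Set X) (A : FcD X) (h : FccG 𝒦 V A) : ((fcuT 𝒦 h𝒦 X).near V).mem A := by
  obtain ⟨K, hK, hKV, hac⟩ := fcc_G_cpt 𝒦 V A h
  exact ⟨FcThick.gen (fcc_G_mono 𝒦 (Set.subset_univ _) A h), Kᶜ, hK.isClosed.isOpen_compl,
    Set.compl_subset_compl.2 hKV, hac⟩

theorem fcu_near_mono {V V' : Set X} (hVV' : V ⊆ V') (A : FcD X)
    (h : ((fcuT 𝒦 h𝒦 X).near V).mem A) : ((fcuT 𝒦 h𝒦 X).near V').mem A := by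
  obtain ⟨hT, O, hO, hVO, hac⟩ := h
  exact ⟨hT, O, hO, (Set.compl_subset_compl.2 hVV').trans hVO, hac⟩

theorem fcu_TV_le_near {V I : Set X} (hIV : I ⊆ V) (A : FcD X) (h : (fcuTV 𝒦 h𝒦 V I).mem A) :
    ((fcuT 𝒦 h𝒦 X).near V).mem A := by
  refine fcp_gen_le _ ((fcuT 𝒦 h𝒦 X).near V).pre ?_ A h
  rintro B (hB | hB)
  · exact fcu_G_near 𝒦 h𝒦 V B hB
  · exact fcu_near_mono 𝒦 h𝒦 hIV B hB

theorem fcu_TV_mono {V I V' I' : Set X} (hV : V ⊆ V') (hI : I ⊆ I') (A : FcD X)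
    (h : (fcuTV 𝒦 h𝒦 V I).mem A) : (fcuTV 𝒦 h𝒦 V' I').mem A := by
  refine fcp_gen_mono ?_ A h
  rintro B (hB | hB)
  · exact FcGen.gen (Or.inl (fcc_G_mono 𝒦 hV B hB))
  · exact FcGen.gen (Or.inr (fcu_near_mono 𝒦 h𝒦 hI B hB))

/-- DOUBLING: support theorem + complement -/
theorem fcu_double (V I : Set X) (hV : IsOpen V) (A : FcD X) (h : ((fcuT 𝒦 h𝒦 X).near V).mem A) :
    (fcuTV 𝒦 h𝒦 V I).mem (A.prod (A.resc (-1))) := by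
  obtain ⟨hT, O, hO, hVO, hac⟩ := h
  have h1 := fcu_support 𝒦 V O hV hO hVO A hT hac
  exact fcp_gen_mono (fun D hD => FcGen.gen (Or.inl hD)) _ (fcp_double _ A h1)

omit [T2Space X] in
theorem fcu_cut_mono {L L' R R' : FcPre X} (hL : L.le L') (hR : R.le R') (O₂ : Set X) (M : FcD X)
    (h : FcuCut L R O₂ M) : FcuCut L' R' O₂ M := by
  intro K hK hKO
  obtain ⟨M', x, O, h1, h2, h3, h4, h5⟩ := h K hK hKO
  exact ⟨M', x, O, hL _ h1, h2, h3, h4, hR _ h5⟩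

/-- THE CUT of the field `exc` -/
theorem fcu_exc_cut (U V : Set X) (hU : IsOpen U) (hV : IsOpen V) (M : FcD X)
    (hM : (fcuTV 𝒦 h𝒦 (U ∪ V) U).mem M) :
    ∃ (M' : FcD X) (f : FcHom M' M), (fcuTV 𝒦 h𝒦 V (U ∩ V)).mem M' ∧
      ((fcuT 𝒦 h𝒦 X).near U).mem (fcCone f) := by
  have h := fcu_cut_induction (FcuGV 𝒦 h𝒦 (U ∪ V) U) (fcuTV 𝒦 h𝒦 V (U ∩ V)).pre
    ((fcuT 𝒦 h𝒦 X).near U).pre U
    (fun A hA => by
      obtain ⟨K, hK, _, hac⟩ := fcu_near_cpt 𝒦 h𝒦 V A (fcu_TV_le_near 𝒦 h𝒦 Set.inter_subset_right A hA)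
      exact ⟨K, hK, hac⟩)
    (fun E hE => fcu_near_cpt 𝒦 h𝒦 U E hE)
    (by
      rintro A (hA | hA)
      · refine fcu_cut_mono ?_ ?_ U A (fcu_G_cut 𝒦 (U ∪ V) V U hV hU (by rw [Set.union_comm]) A hA)
        · exact fun B hB => fcp_gen_mono (fun D hD => FcGen.gen (Or.inl hD)) B hB
        · exact fun B hB => fcp_gen_le _ ((fcuT 𝒦 h𝒦 X).near U).pre (fcu_G_near 𝒦 h𝒦 U) B hB
      · intro K _ _
        exact ⟨fcZero X, fcbZero _ _, Set.univ, FcGen.acyc (fcb_zero_acyc X), isOpen_univ,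
          Set.subset_univ _, fcb_zero_acyc X,
          (fcp_cone_from_zero_iff ((fcuT 𝒦 h𝒦 X).near U).pre A).2 hA⟩)
    M hM ∅ isCompact_empty (Set.empty_subset _)
  obtain ⟨M', x, _, hL, _, _, _, hR⟩ := h
  exact ⟨M', x, hL, hR⟩

/-- THE FIELD `exc` -/
theorem fcu_exc (U V : Set X) (hU : IsOpen U) (hV : IsOpen V) : ∃ TV TW : FcCls X,
    ((fcuT 𝒦 h𝒦 X).near (U ∩ V)).le TV ∧ TV.le ((fcuT 𝒦 h𝒦 X).near V) ∧
    ((fcuT 𝒦 h𝒦 X).near U).le TW ∧ TW.le ((fcuT 𝒦 h𝒦 X).near (U ∪ V)) ∧ TV.le TW ∧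
    (∀ A, ((fcuT 𝒦 h𝒦 X).near V).mem A → TV.mem (A.prod (A.resc (-1)))) ∧
    (∀ A, ((fcuT 𝒦 h𝒦 X).near (U ∪ V)).mem A → TW.mem (A.prod (A.resc (-1)))) ∧
    (∀ M, TW.mem M → ∃ (M' : FcD X) (f : FcHom M' M), TV.mem M' ∧
      ((fcuT 𝒦 h𝒦 X).near U).mem (fcCone f)) :=
  ⟨fcuTV 𝒦 h𝒦 V (U ∩ V), fcuTV 𝒦 h𝒦 (U ∪ V) U,
    fun _ hA => FcGen.gen (Or.inr hA),
    fcu_TV_le_near 𝒦 h𝒦 Set.inter_subset_right,
    fun _ hA => FcGen.gen (Or.inr hA),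
    fcu_TV_le_near 𝒦 h𝒦 Set.subset_union_left,
    fcu_TV_mono 𝒦 h𝒦 Set.subset_union_right Set.inter_subset_left,
    fcu_double 𝒦 h𝒦 V (U ∩ V) hV,
    fcu_double 𝒦 h𝒦 (U ∪ V) U (hU.union hV),
    fcu_exc_cut 𝒦 h𝒦 U V hU hV⟩

end

theorem fcu_pullPre_summ {X Y : Type} [TopologicalSpace X] [TopologicalSpace Y] (j : C(Y, X))
    (hj : IsOpenEmbedding j) (P : FcPre Y) (hS : P.Summ) : (P.pullPre j hj).Summ :=
  fun A B h => hS _ _ (P.iso (fcqPullProd j hj A B) h)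

/-- THE FIELD `emb`.  `A ∈ Th(V)` (support theorem) `= FcThick (FccGs 𝒦 V)`; `fcp_thick_le` for `pullPre j (T Y)` and `fcc_Gs_pull`: `A' := j^* A ∈ T(Y)`;
`j_! j^* A ≅ A(range j) → A` has locally acyclic cone (`fch_res_qi`, `C = Oᶜ`). -/
theorem fcu_emb {Y X : Type} [TopologicalSpace Y] [T2Space Y] [TopologicalSpace X] [T2Space X]
    (j : C(Y, X)) (hj : IsOpenEmbedding j) (V : Set X) (hV : IsOpen V) (hVj : V ⊆ Set.range j) (A : FcD X)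
    (hA : ((fcuT 𝒦 h𝒦 X).near V).mem A) :
    ∃ (A' : FcD Y) (f : FcHom (A'.push j) A), (fcuT 𝒦 h𝒦 Y).mem A' ∧ (fcCone f).Acyc := by
  obtain ⟨hT, O, hO, hVO, hac⟩ := hA
  have h1 := fcu_support 𝒦 V O hV hO hVO A hT hac
  have h2 : FcThick (FccGs 𝒦 V) A := (fcc_thick_iff_small 𝒦 V hV A).1 h1
  have h3 : (fcuT 𝒦 h𝒦 Y).mem (A.pull j hj) := by
    refine fcp_thick_le _ ((fccTh 𝒦 Set.univ).pullPre j hj)
      (fcu_pullPre_summ j hj _ (fcp_thick_summ _)) ?_ A h2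
    intro B hB
    obtain ⟨B', hB', ⟨e⟩⟩ := fcc_Gs_pull 𝒦 j hj V hVj B hB
    exact FcThick.iso e (FcThick.gen hB')
  refine ⟨A.pull j hj, (fcResIncl A (Set.range j)).comp (fcqPushPull j hj A).toHom, h3, ?_⟩
  refine fcp_comp_mem (fcpAcyc X) _ _ (fcp_iso_cone_mem (fcpAcyc X) _) ?_
  refine fch_res_qi A hO.isClosed_compl hj.isOpen_range ?_ (by rw [compl_compl]; exact hac)
  intro x hx
  exact hVj (by_contra fun hxV => hx (hVO hxV))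

end Claimed.Agent.R304
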