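/-
Row 304 (S0559, Hilbert-Smith).  Owner/designer: helper154.  LAYER S, package `FcCylMem`:
THE FIELDS `refl`, `cyl`, `pt_fin`, `pt_mem` OF `FcModel` for the official class  `fckT X := fcuT FcKub fck_reflU X`  (helper231's `fcuT`, my cubical models `FcKub`).

 1. `fck_reflU : FccRefl FcKub` (the only hypothesis of helper231's package).
 2. members of `fckT X` have `FT` (`fck_T_FT`), hence `fck_field_refl`.
 3. `fck_cyl_mem : M ∈ fckT X → fcyCyl M ∈ fckT (I × X)`.  By `fcy_thick` it suffices to treat the generators `A = f_! B`, `B = C.res E` or `B = (C.res E)^∨`, `Q = EhCb n`: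
      `Cyl (f_! B) ≅ (id × f)_! Cyl B` (`fcy_push_iso`, `Q` compact), and `fcu_push`; so it suffices that `Cyl B ∈ fckT (I × Q)`:
      (M1) `B = C.res E`: `ι : (Cyl C).res (univ × E) → Cyl (C.res E)` has acyclic cone (`fcy_res_qi`), and
           `(Cyl C).res (univ × E) ≅ ψ_! ((φ_! Cyl C).res (φ (univ × E)))`, `φ = fckPhi n`, `ψ = φ⁻¹`: a generator (`FcKub.cyl`, `fck_phi_U`).
      (M2) `B = (C.res E)^∨`: `fcy_dual_mem` with `A = C.res E`: `Cyl A ∈ T'` by (M1), `(i_s)_! A^∨` is a generator.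
 4. `fck_field_cyl`, `fck_field_pt_fin`, `fck_field_pt_mem`.
Estimated 500 lines.
-/
import Claimed.Agent.R304.FcCylFun
import Claimed.Agent.R304.FcCylDat
import Claimed.Agent.R304.FcKub
import Claimed.Agent.R304.FcModelA

set_option autoImplicit false

namespace Claimed.Agent.R304

open Topology

/-! ### 1. The hypothesis of helper231's package -/

theorem fck_U_iUnion {n : ℕ} {E : Set (EhCb n)} (h : FccU n E) :
    ∃ s : Finset ((Fin n → ℝ) × (Fin n → ℝ)), E = ⋃ p ∈ s, asBx n p.1 p.2 := by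
  classical
  induction h with
  | empty => exact ⟨∅, by simp⟩
  | box a b => exact ⟨{(a, b)}, by simp⟩
  | union _ _ ih ih' =>
    obtain ⟨s, rfl⟩ := ih
    obtain ⟨s', rfl⟩ := ih'
    exact ⟨s ∪ s', by rw [Finset.set_biUnion_union]⟩

theorem fck_FTU {n : ℕ} {C : FcD (EhCb n)} {E : Set (EhCb n)} (hC : FcKub n C) (hE : FccU n E) :
    (C.res E).FT := by
  obtain ⟨s, rfl⟩ := fck_U_iUnion hE
  exact fck_FT n C hC s Prod.fst Prod.snd

theorem fck_reflU : FccRefl FcKub := fun _ _ _ hC hE => fcf_refl _ (fck_FTU hC hE)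

/-- THE OFFICIAL CLASS -/
def fckT (X : Type) [TopologicalSpace X] [T2Space X] : FcCls X := fcuT FcKub fck_reflU X

theorem fckT_mem_iff {X : Type} [TopologicalSpace X] [T2Space X] (A : FcD X) :
    (fckT X).mem A ↔ FcThick (FccG FcKub Set.univ) A := Iff.rfl

/-! ### 2. Finiteness, reflexivity -/

/-- on a compact space every object is acyclic off a compact set -/
theorem fck_CS_of_compact {Q : Type} [TopologicalSpace Q] [CompactSpace Q] (B : FcD Q) :
    B.AcycOn (Set.univ : Set Q)ᶜ := by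
  intro U _ hU m hm _
  have h0 : B.supp m = ∅ := by
    apply Set.subset_empty_iff.1
    intro x hx
    exact (hU (hm hx)) trivial
  exact ⟨0, by rw [B.supp_zero]; exact Set.empty_subset _, by
    rw [map_zero]; exact ((B.supp_empty_iff m).1 h0).symm⟩

theorem fck_G_FT {X : Type} [TopologicalSpace X] [T2Space X] (A : FcD X)
    (h : FccG FcKub Set.univ A) : A.FT := by
  obtain ⟨n, C, E, f, hC, hE, _, hA⟩ := h
  rcases hA with rfl | rfl
  · exact fcf_push f _ (fck_FTU hC hE) Set.univ isCompact_univ (fck_CS_of_compact _)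
  · exact fcf_push f _ (fcf_dual _ (fck_FTU hC hE)) Set.univ isCompact_univ (fck_CS_of_compact _)

theorem fck_T_FT {X : Type} [TopologicalSpace X] [T2Space X] [LocallyCompactSpace X] (A : FcD X)
    (h : (fckT X).mem A) : A.FT :=
  fcf_thick _ fck_G_FT A h

/-- **field `refl`** -/
theorem fck_field_refl (X : Type) [TopologicalSpace X] [T2Space X] [LocallyCompactSpace X] :
    (fckT X).Refl := fun A h => fcf_refl A (fck_T_FT A h)

/-! ### 3. The cylinder stays in the class -/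

/-- induction over `FccU`: `Set.prod_union`, `Set.image_union`, `fckPhi_box` with `fckIv (-2) 2 = univ` -/
theorem fck_phi_U {n : ℕ} {E : Set (EhCb n)} (h : FccU n E) :
    FccU (n + 1) (fckPhi n '' (Set.univ ×ˢ E)) := by
  induction h with
  | empty =>
    rw [Set.prod_empty, Set.image_empty]
    exact FccU.empty
  | box a b =>
    rw [← fckIv_univ, fckPhi_box]
    exact FccU.box _ _
  | union _ _ ih ih' =>
    rw [Set.prod_union, Set.image_union]
    exact FccU.union ih ih'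

/-- the inverse of `fckPhi n` -/
theorem fck_psi_exists (n : ℕ) : ∃ ψ : C(EhCb (n + 1), unitInterval × EhCb n),
    (∀ p, ψ (fckPhi n p) = p) ∧ ∀ y, fckPhi n (ψ y) = y := by
  let e := (fckPhi_homeo n).homeomorph
  refine ⟨⟨e.symm, e.symm.continuous⟩, fun p => ?_, fun y => ?_⟩
  · exact e.symm_apply_apply p
  · exact e.apply_symm_apply y

/-- transport of a restriction along a homeomorphism.  Same elements: `φ '' supp m ⊆ φ '' W ↔ supp m ⊆ W` (`φ` injective); `ψ '' (φ '' S) = S`. -/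
theorem fck_homeo_res_iso {X Y : Type} [TopologicalSpace X] [T2Space X] [TopologicalSpace Y]
    [T2Space Y] (φ : C(X, Y)) (ψ : C(Y, X)) (h : ∀ x, ψ (φ x) = x) (A : FcD X) (W : Set X) :
    Nonempty (FcIso (((A.push φ).res (φ '' W)).push ψ) (A.res W)) := by
  have hinj : Function.Injective φ := fun x y hxy => by rw [← h x, ← h y, hxy]
  have hiff : ∀ m : A.C, (φ '' A.supp m ⊆ φ '' W) ↔ A.supp m ⊆ W := fun m =>
    Set.image_subset_image_iff hinj
  have himg : ∀ S : Set X, ψ '' (φ '' S) = S := fun S => by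
    rw [Set.image_image]
    simp only [h, Set.image_id']
  let e : ((A.push φ).sec (φ '' W)) ≃ₗ[ℝ] (A.sec W) :=
    { toFun := fun m => ⟨m.1, (hiff m.1).1 m.2⟩
      invFun := fun m => ⟨m.1, (hiff m.1).2 m.2⟩
      map_add' := fun _ _ => rfl
      map_smul' := fun _ _ => rfl
      left_inv := fun _ => rfl
      right_inv := fun _ => rfl }
  exact ⟨⟨e, fun m => (himg _).symm, fun m => rfl⟩⟩

/-- (M1) -/
theorem fck_cyl_res_mem {n : ℕ} {C : FcD (EhCb n)} {E : Set (EhCb n)} (hC : FcKub n C)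
    (hE : FccU n E) : (fckT (unitInterval × EhCb n)).mem (fcyCyl (C.res E)) := by
  obtain ⟨ι, hι⟩ := fcy_res_qi C E (fcc_U_isOpen hE)
  obtain ⟨ψ, hψ, _⟩ := fck_psi_exists n
  obtain ⟨e⟩ := fck_homeo_res_iso (fckPhi n) ψ hψ (fcyCyl C) (Set.univ ×ˢ E)
  have hgen : (fckT (unitInterval × EhCb n)).mem
      ((((fcyCyl C).push (fckPhi n)).res (fckPhi n '' (Set.univ ×ˢ E))).push ψ) :=
    FcThick.gen ⟨n + 1, _, _, ψ, FcKub.cyl n C hC, fck_phi_U hE, Set.subset_univ _, Or.inl rfl⟩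
  exact (fckT _).cone_tgt ι ((fckT _).iso e hgen) ((fckT _).acyc hι)

/-- (M2) -/
theorem fck_cyl_dual_mem {n : ℕ} {C : FcD (EhCb n)} {E : Set (EhCb n)} (hC : FcKub n C)
    (hE : FccU n E) : (fckT (unitInterval × EhCb n)).mem (fcyCyl (C.res E).dual) :=
  fcy_dual_mem _ _ (fck_cyl_res_mem hC hE)
    (FcThick.gen ⟨n, C, E, fcyInc _ 1, hC, hE, Set.subset_univ _, Or.inr rfl⟩)
    (FcThick.gen ⟨n, C, E, fcyInc _ 0, hC, hE, Set.subset_univ _, Or.inr rfl⟩)

/-- the generators -/
theorem fck_cyl_gen {X : Type} [TopologicalSpace X] [T2Space X] (A : FcD X)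
    (h : FccG FcKub Set.univ A) : FcThick (FccG FcKub Set.univ) (fcyCyl A) := by
  obtain ⟨n, C, E, f, hC, hE, _, hA⟩ := h
  rcases hA with rfl | rfl
  · obtain ⟨e⟩ := fcy_push_iso f (C.res E)
    exact FcThick.iso e.symm (fcu_push FcKub fck_reflU (fcyProdMap f) _ (fck_cyl_res_mem hC hE))
  · obtain ⟨e⟩ := fcy_push_iso f (C.res E).dual
    exact FcThick.iso e.symm (fcu_push FcKub fck_reflU (fcyProdMap f) _ (fck_cyl_dual_mem hC hE))

/-- **`M ∈ T(X) ⟹ Cyl M ∈ T(I × X)`** -/
theorem fck_cyl_mem {X : Type} [TopologicalSpace X] [T2Space X] (M : FcD X)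
    (h : (fckT X).mem M) : (fckT (unitInterval × X)).mem (fcyCyl M) :=
  fcy_thick _ _ fck_cyl_gen M h

/-! ### 4. The fields -/

/-- **field `cyl`** -/
theorem fck_field_cyl (X : Type) [TopologicalSpace X] [T2Space X] (t : ZMod 4) (x : WtForm X t)
    (hx : (fckT X).mem x.M) :
    ∃ D : WtDat ((x.push (fcSlice X 1)).sum (x.push (fcSlice X 0)).neg),
      (fckT (unitInterval × X)).mem D.N ∧
      (∀ O : Set X, IsOpen O → x.M.AcycOn O → D.N.AcycOn (Set.univ ×ˢ O)) ∧
      (∀ O : Set X, IsOpen O → (fcCone x.ad).AcycOn O → D.S.M.AcycOn (Set.univ ×ˢ O)) :=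
  ⟨fcyDat x, fck_cyl_mem x.M hx, fun O _ h => fcy_acycOn x.M O h,
    fun O _ h => fcy_S_acycOn x O h⟩

/-- **field `pt_fin`** -/
theorem fck_field_pt_fin (A : FcD PUnit.{1}) (h : (fckT PUnit.{1}).mem A) :
    Module.Finite ℝ A.Hom := fcf_pt_fin A (fck_T_FT A h)

/-- the line: `asObj (EhCb 0)` pushed to the point.  `as_bx_gen 0` (no coordinates), `as_bx_univ`; the elements, supports (empty or not) and differentials are the same. -/
theorem fck_line : ∃ (L : FcD PUnit.{1}) (c : L.C), (fckT PUnit.{1}).mem L ∧ AsGenAt L Set.univ c := by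
  obtain ⟨_, h2, h3, h4⟩ := as_bx_cube 0
  let f : C(EhCb 0, PUnit.{1}) := ⟨fun _ => PUnit.unit, continuous_const⟩
  let c₀ : ((asObj (EhCb 0)).sec Set.univ) := ⟨asObjOne (EhCb 0), Set.subset_univ _⟩
  refine ⟨((asObj (EhCb 0)).res Set.univ).push f, c₀,
    FcThick.gen ⟨0, asObj (EhCb 0), Set.univ, f, FcKub.base 0, fcc_U_univ 0, Set.subset_univ _, Or.inl rfl⟩,
    Set.subset_univ _, Subtype.ext h2, fun m' _ hm' => ?_, fun m _ hm => ?_⟩
  · exact h3 (m' : (asObj (EhCb 0)).sec Set.univ).1 (Set.subset_univ _) (congrArg Subtype.val hm')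
  · obtain ⟨t, m', _, hm'⟩ := h4 (m : (asObj (EhCb 0)).sec Set.univ).1 (Set.subset_univ _)
      (congrArg Subtype.val hm)
    exact ⟨t, (⟨m', Set.subset_univ _⟩ : (asObj (EhCb 0)).sec Set.univ), Set.subset_univ _, Subtype.ext hm'⟩

/-- **field `pt_mem`** -/
theorem fck_field_pt_mem (A : FcD PUnit.{1}) (h : Module.Finite ℝ A.Hom) :
    (fckT PUnit.{1}).mem A := by
  obtain ⟨L, c, hL, hc⟩ := fck_line
  exact fcf_pt_mem _ L hL c hc A h

/-- realises the equation lemmas here (unique names) -/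
theorem fck_mem_eqns_cite : True := by
  have := @fckT.eq_1
  trivial

end Claimed.Agent.R304
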