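/-
Row 304 (S0559, Hilbert-Smith).  Owner: helper27.  PACKAGE WtS: THE STRUCTURE OF THE SURGERY `S = S(N,lam,h)` (prefix `wts`).

`S = N × (M × N^∨)`, `D (n,p,ν) = (-d n, lam n + d p, h n + k b p (lam ·) - k ν ∘ d)`.
* `wts_S_d`, `wts_S_b`, `wts_S_supp`, `wts_bd_b`, `wts_bd_d`: the definitions, unfolded on triples / pairs (all `rfl`)
* `wtsR D = {(p,ν)} = Tw(M, N^∨<-k>, k lam^∨ ad)`
* the four extensions   (a) `wtsExtA : R → S → N<-1>`      (b) `wtsExtB : N^∨<-k> → S → cone(lam)`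
                        (c) `wtsExtC : N^∨<-k> → R → M`    (d) `fcbExtCone D.lam : M → cone(lam) → N<-1>`
* `wtsW D : R → cone(lam)^∨<k>`, `(p,ν) ↦ ((n',p') ↦ ν n' + b p p')`       (`ad_S` on the subobjects of (a), (b)^∨)
* `wtsV D : cone(lam) → R^∨<k>`, `(n,p) ↦ ((p',ν') ↦ b p p' + e ν' n)`      (`ad_S` on the quotients of (b), (a)^∨)
* `wtsExtI  : cone(wtsW) → cone(ad_S) → cone(e ev_N)`,   `wtsExtII : cone(1) → cone(wtsW) → cone(ad_x)`
-/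
import Claimed.Agent.R304.WtDefs

set_option autoImplicit false

namespace Claimed.Agent.R304

open Topology

variable {X : Type} [TopologicalSpace X] [T2Space X] {t : ZMod 4}

theorem wtK_ne_zero (t : ZMod 4) : wtK t ≠ 0 := fun h => by
  have := wtK_sq t
  rw [h] at this
  norm_num at this

theorem wtE_ne_zero (t : ZMod 4) : wtE t ≠ 0 := fun h => by
  have := wtE_sq t
  rw [h] at this
  norm_num at this

section api

variable {x : WtForm X t} (D : WtDat x)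

theorem wts_S_d (n : D.N.C) (p : x.M.C) (ν : D.N.dual.C) :
    D.S.M.d ((n, p, ν) : D.N.C × (x.M.C × D.N.dual.C)) =
      ((-(D.N.d n), D.lam.f n + x.M.d p,
        fcCurry D.h D.h_loc n + wtK t • (fcTr D.lam).f (fcCurry x.b x.loc p) - wtK t • D.N.dual.d ν) :
        D.N.C × (x.M.C × D.N.dual.C)) := rfl

theorem wts_S_b (n n' : D.N.C) (p p' : x.M.C) (ν ν' : D.N.dual.C) :
    D.S.b ((n, p, ν) : D.N.C × (x.M.C × D.N.dual.C)) ((n', p', ν') : D.N.C × (x.M.C × D.N.dual.C)) =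
      fcAp ν n' + x.b p p' + wtE t * fcAp ν' n := rfl

theorem wts_S_supp (n : D.N.C) (p : x.M.C) (ν : D.N.dual.C) :
    D.S.M.supp ((n, p, ν) : D.N.C × (x.M.C × D.N.dual.C)) =
      D.N.supp n ∪ (x.M.supp p ∪ D.N.dual.supp ν) := rfl

theorem wts_ad_ap (x : WtForm X t) (m m' : x.M.C) : fcAp (A := x.M) (x.ad.f m) m' = x.b m m' := rfl

theorem wts_bd_b (x : WtForm X t) (t' : ZMod 4) (ht : t' + 1 = t) (m m' : x.M.C) (μ μ' : x.M.dual.C) :
    (x.bd t' ht).b ((m, μ) : x.M.C × x.M.dual.C) ((m', μ') : x.M.C × x.M.dual.C) =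
      fcAp μ m' + wtE t' * fcAp μ' m := rfl

theorem wts_bd_d (x : WtForm X t) (t' : ZMod 4) (ht : t' + 1 = t) (m : x.M.C) (μ : x.M.dual.C) :
    (x.bd t' ht).M.d ((m, μ) : x.M.C × x.M.dual.C) =
      ((-(x.M.d m), fcCurry x.b x.loc m + wtK t • x.M.dual.d μ) : x.M.C × x.M.dual.C) := rfl

/-- the twisting map of `R`: `p ↦ k b p (lam ·)` -/
def wtsRho : x.M.C →ₗ[ℝ] (D.N.dual.resc (-(wtK t))).C :=
  (wtK t • ((fcTr D.lam).f ∘ₗ fcCurry x.b x.loc) : x.M.C →ₗ[ℝ] D.N.dual.C)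

theorem wtsRho_ap (p : x.M.C) (n : D.N.C) :
    fcAp (A := D.N) (wtsRho D p) n = wtK t * x.b p (D.lam.f n) := rfl

theorem wtsRho_loc : FcLoc x.M (D.N.dual.resc (-(wtK t))) (wtsRho D) := fun p =>
  (D.N.dual.supp_smul _ _).trans (((fcTr D.lam).loc _).trans (fck_curry_loc x.b x.loc p))

theorem wtsRho_anti (p : x.M.C) :
    wtsRho D (x.M.d p) + (D.N.dual.resc (-(wtK t))).d (wtsRho D p) = 0 := by
  apply fck_dual_ext (A := D.N)
  intro n
  show wtK t * x.b (x.M.d p) (D.lam.f n) + (-(wtK t)) * (wtK t * x.b p (D.lam.f (D.N.d n))) = 0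
  rw [x.adj, D.lam.comm]
  ring

/-- the subobject `R = {(p,ν)}` of `S` -/
def wtsR : FcD X := fckTw x.M (D.N.dual.resc (-(wtK t))) (wtsRho D) (wtsRho_loc D) (wtsRho_anti D)

theorem wtsR_d (p : x.M.C) (ν : D.N.dual.C) :
    (wtsR D).d ((p, ν) : x.M.C × D.N.dual.C) =
      ((x.M.d p, wtK t • (fcTr D.lam).f (fcCurry x.b x.loc p) + (-(wtK t)) • D.N.dual.d ν) :
        x.M.C × D.N.dual.C) := rfl

/-- (c) `N^∨<-k> → R → M` -/
def wtsExtC : FcExt (D.N.dual.resc (-(wtK t))) (wtsR D) x.M :=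
  fckExtTw (wtsRho D) (wtsRho_loc D) (wtsRho_anti D)

/-- (a) `R → S → N<-1>` -/
def wtsExtA : FcExt (wtsR D) D.S.M (D.N.resc (-1)) where
  i := ⟨LinearMap.inr ℝ D.N.C (x.M.C × D.N.dual.C),
    fun (m : x.M.C × D.N.dual.C) => fck_loc_inr D.N.toFcObj (x.M.toFcObj.prod D.N.dual.toFcObj) m,
    fun (m : x.M.C × D.N.dual.C) => by
      obtain ⟨p, ν⟩ := m
      show ((0, x.M.d p, wtK t • (fcTr D.lam).f (fcCurry x.b x.loc p) + (-(wtK t)) • D.N.dual.d ν) :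
          D.N.C × (x.M.C × D.N.dual.C)) =
        (-(D.N.d 0), D.lam.f 0 + x.M.d p,
          fcCurry D.h D.h_loc 0 + wtK t • (fcTr D.lam).f (fcCurry x.b x.loc p) - wtK t • D.N.dual.d ν)
      rw [map_zero, map_zero, map_zero, neg_zero, zero_add, zero_add, neg_smul, ← sub_eq_add_neg]⟩
  p := ⟨LinearMap.fst ℝ D.N.C (x.M.C × D.N.dual.C),
    fun (m : D.N.C × (x.M.C × D.N.dual.C)) =>
      fck_loc_fst D.N.toFcObj (x.M.toFcObj.prod D.N.dual.toFcObj) m,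
    fun (m : D.N.C × (x.M.C × D.N.dual.C)) => by
      show -(D.N.d m.1) = (-1 : ℝ) • D.N.d m.1
      rw [neg_one_smul]⟩
  r := LinearMap.snd ℝ D.N.C (x.M.C × D.N.dual.C)
  s := LinearMap.inl ℝ D.N.C (x.M.C × D.N.dual.C)
  r_loc := fun (m : D.N.C × (x.M.C × D.N.dual.C)) =>
      fck_loc_snd D.N.toFcObj (x.M.toFcObj.prod D.N.dual.toFcObj) m
  s_loc := fun (m : D.N.C) => fck_loc_inl D.N.toFcObj (x.M.toFcObj.prod D.N.dual.toFcObj) m
  ri := fun _ => rfl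
  ps := fun _ => rfl
  sum := fun (m : D.N.C × (x.M.C × D.N.dual.C)) => by
    show ((0 + m.1, m.2 + 0) : D.N.C × (x.M.C × D.N.dual.C)) = m
    rw [zero_add, add_zero]

/-- (b) `N^∨<-k> → S → cone(lam)` -/
def wtsExtB : FcExt (D.N.dual.resc (-(wtK t))) D.S.M (fcCone D.lam) where
  i := ⟨LinearMap.inr ℝ D.N.C (x.M.C × D.N.dual.C) ∘ₗ LinearMap.inr ℝ x.M.C D.N.dual.C,
    fun (ν : D.N.dual.C) => by
      show D.N.supp 0 ∪ (x.M.supp 0 ∪ D.N.dual.supp ν) ⊆ D.N.dual.supp ν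
      rw [D.N.supp_zero, x.M.supp_zero, Set.empty_union, Set.empty_union],
    fun (ν : D.N.dual.C) => by
      show ((0, 0, (-(wtK t)) • D.N.dual.d ν) : D.N.C × (x.M.C × D.N.dual.C)) =
        (-(D.N.d 0), D.lam.f 0 + x.M.d 0,
          fcCurry D.h D.h_loc 0 + wtK t • (fcTr D.lam).f (fcCurry x.b x.loc 0) - wtK t • D.N.dual.d ν)
      simp⟩
  p := ⟨(LinearMap.fst ℝ D.N.C (x.M.C × D.N.dual.C)).prod
      (LinearMap.fst ℝ x.M.C D.N.dual.C ∘ₗ LinearMap.snd ℝ D.N.C (x.M.C × D.N.dual.C)),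
    fun (m : D.N.C × (x.M.C × D.N.dual.C)) => by
      show D.N.supp m.1 ∪ x.M.supp m.2.1 ⊆ D.N.supp m.1 ∪ (x.M.supp m.2.1 ∪ D.N.dual.supp m.2.2)
      exact Set.union_subset_union subset_rfl Set.subset_union_left,
    fun (m : D.N.C × (x.M.C × D.N.dual.C)) => rfl⟩
  r := LinearMap.snd ℝ x.M.C D.N.dual.C ∘ₗ LinearMap.snd ℝ D.N.C (x.M.C × D.N.dual.C)
  s := (LinearMap.fst ℝ D.N.C x.M.C).prod
      (LinearMap.inl ℝ x.M.C D.N.dual.C ∘ₗ LinearMap.snd ℝ D.N.C x.M.C)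
  r_loc := fun (m : D.N.C × (x.M.C × D.N.dual.C)) => by
    show D.N.dual.supp m.2.2 ⊆ D.N.supp m.1 ∪ (x.M.supp m.2.1 ∪ D.N.dual.supp m.2.2)
    exact Set.subset_union_right.trans Set.subset_union_right
  s_loc := fun (m : D.N.C × x.M.C) => by
    show D.N.supp m.1 ∪ (x.M.supp m.2 ∪ D.N.dual.supp 0) ⊆ D.N.supp m.1 ∪ x.M.supp m.2
    rw [D.N.dual.supp_zero, Set.union_empty]
  ri := fun _ => rfl
  ps := fun _ => rfl
  sum := fun (m : D.N.C × (x.M.C × D.N.dual.C)) => by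
    show ((0 + m.1, 0 + m.2.1, m.2.2 + 0) : D.N.C × (x.M.C × D.N.dual.C)) = m
    rw [zero_add, zero_add, add_zero]

theorem wts_R_mem (T : FcCls X) (hM : T.mem x.M) (hN : T.mem D.N) : T.mem (wtsR D) :=
  fcb_ext_mem T (wtsExtC D) hM (T.resc _ (neg_ne_zero.2 (wtK_ne_zero t)) (T.dual hN))

theorem wts_S_mem (T : FcCls X) (hM : T.mem x.M) (hN : T.mem D.N) : T.mem D.S.M :=
  fcb_ext_mem T (wtsExtA D) (T.resc _ (by norm_num) hN) (wts_R_mem D T hM hN)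

/-- `ad_S` maps `R` into `cone(lam)^∨` -/
theorem wts_filt_W (m : (wtsR D).C) :
    ((wtsExtB D).dual.resc (wtK t)).p.f (D.S.ad.f ((wtsExtA D).i.f m)) = 0 := by
  have key : ∀ (p : x.M.C) (ν ν' : D.N.dual.C),
      fcAp ν (0 : D.N.C) + x.b p 0 + wtE t * fcAp ν' (0 : D.N.C) = 0 := by
    intro p ν ν'
    rw [fcAp_map_zero, fcAp_map_zero, map_zero]
    simp
  apply fck_dual_ext (A := D.N.dual.resc (-(wtK t)))
  intro ν'
  exact key (m : x.M.C × D.N.dual.C).1 (m : x.M.C × D.N.dual.C).2 ν'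

/-- `W : R → cone(lam)^∨<k>`, `(p,ν) ↦ ((n',p') ↦ ν n' + b p p')` -/
def wtsW : FcHom (wtsR D) ((fcCone D.lam).dual.resc (wtK t)) :=
  FcExt.subMap (wtsExtA D) ((wtsExtB D).dual.resc (wtK t)) D.S.ad (wts_filt_W D)

theorem wtsW_ap (p p' : x.M.C) (ν : D.N.dual.C) (n' : D.N.C) :
    fcAp (A := fcCone D.lam) ((wtsW D).f ((p, ν) : x.M.C × D.N.dual.C)) ((n', p') : D.N.C × x.M.C) =
      fcAp ν n' + x.b p p' := by
  show fcAp ν n' + x.b p p' + wtE t * fcAp (0 : D.N.dual.C) (0 : D.N.C) = _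
  rw [fcAp_zero]; ring

/-- `ad_S` maps `N^∨` into `(N<-1>)^∨` -/
theorem wts_filt_V (ν : (D.N.dual.resc (-(wtK t))).C) :
    ((wtsExtA D).dual.resc (wtK t)).p.f (D.S.ad.f ((wtsExtB D).i.f ν)) = 0 := by
  have key : ∀ (p : x.M.C) (ν ν' : D.N.dual.C),
      fcAp ν (0 : D.N.C) + x.b 0 p + wtE t * fcAp ν' (0 : D.N.C) = 0 := by
    intro p ν ν'
    rw [fcAp_map_zero, fcAp_map_zero, map_zero]
    simp
  apply fck_dual_ext (A := wtsR D)
  intro m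
  exact key (m : x.M.C × D.N.dual.C).1 ν (m : x.M.C × D.N.dual.C).2

/-- `V : cone(lam) → R^∨<k>`, `(n,p) ↦ ((p',ν') ↦ b p p' + e ν' n)` -/
def wtsV : FcHom (fcCone D.lam) ((wtsR D).dual.resc (wtK t)) :=
  FcExt.quotMap (wtsExtB D) ((wtsExtA D).dual.resc (wtK t)) D.S.ad (wts_filt_V D)

theorem wtsV_ap (p p' : x.M.C) (n : D.N.C) (ν' : D.N.dual.C) :
    fcAp (A := wtsR D) ((wtsV D).f ((n, p) : D.N.C × x.M.C)) ((p', ν') : x.M.C × D.N.dual.C) =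
      x.b p p' + wtE t * fcAp ν' n := by
  show fcAp (0 : D.N.dual.C) (0 : D.N.C) + x.b p p' + wtE t * fcAp ν' n = _
  rw [fcAp_zero]; ring

end api

section pieces

variable (P : FcCls X) {N : FcD X} {k : ℝ}

/-- the graded piece "`1`": `N^∨<-k> → (N<-1>)^∨<k>` -/
theorem wts_one_mem (hk : k ≠ 0) (g : FcHom (N.dual.resc (-k)) ((N.resc (-1)).dual.resc k))
    (hg : ∀ (ν : N.dual.C) (n : N.C), fcAp (A := N) (g.f ν) n = fcAp ν n) : P.mem (fcCone g) := by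
  refine (fck_cone_congr P (fcId N.dual) g (LinearEquiv.refl ℝ N.dual.C) (LinearEquiv.refl ℝ N.dual.C)
    (fun _ => rfl) (fun _ => rfl) (-k) 1 (neg_ne_zero.2 hk) one_ne_zero (fun _ => rfl)
    (fun (ν : N.dual.C) => ?_) (fun (ν : N.dual.C) => ?_)).2 (fcb_cone_id_mem P _)
  · apply fck_dual_ext (A := N)
    intro n
    show k * fcAp ν ((-1 : ℝ) • N.d n) = (-k) * fcAp ν (N.d n)
    rw [fcAp_map_smul]; ring
  · apply fck_dual_ext (A := N)
    intro n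
    show fcAp (A := N) (g.f ν) n = 1 * fcAp ν n
    rw [hg, one_mul]

/-- the graded piece "`e ev`": `N<-1> → (N^∨<-k>)^∨<k>`, `k² = 1` -/
theorem wts_ev_mem (hN : (fcCone (fcEv N)).Acyc) (hk : k * k = 1) {e : ℝ} (he : e ≠ 0)
    (g : FcHom (N.resc (-1)) ((N.dual.resc (-k)).dual.resc k))
    (hg : ∀ (n : N.C) (ν : N.dual.C), fcAp (A := N.dual) (g.f n) ν = e * fcAp ν n) :
    P.mem (fcCone g) := by
  refine fck_ev_congr P hN g (LinearEquiv.refl ℝ N.C) (LinearEquiv.refl ℝ N.dual.dual.C)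
    (fun _ => rfl) (fun _ => rfl) (-1) e (by norm_num) he (fun _ => rfl)
    (fun (ξ : N.dual.dual.C) => ?_) (fun (n : N.C) => ?_)
  · apply fck_dual_ext (A := N.dual)
    intro ν
    show k * fcAp ξ ((-k) • N.dual.d ν) = (-1) * fcAp ξ (N.dual.d ν)
    rw [fcAp_map_smul]
    linear_combination (-(fcAp ξ (N.dual.d ν))) * hk
  · apply fck_dual_ext (A := N.dual)
    intro ν
    exact hg n ν

end pieces

section adS

variable {x : WtForm X t} (D : WtDat x) (P : FcCls X)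

/-- `cone(W) → cone(ad_S) → cone(e ev_N)` -/
def wtsExtI : FcExt (fcCone (wtsW D)) (fcCone D.S.ad)
    (fcCone (FcExt.quotMap (wtsExtA D) ((wtsExtB D).dual.resc (wtK t)) D.S.ad (wts_filt_W D))) :=
  (FcExt.filtHom (wtsExtA D) ((wtsExtB D).dual.resc (wtK t)) D.S.ad (wts_filt_W D)).cone

theorem wts_adS_iff (hN : (fcCone (fcEv D.N)).Acyc) :
    P.mem (fcCone D.S.ad) ↔ P.mem (fcCone (wtsW D)) := by
  have h : P.mem (fcCone (FcExt.quotMap (wtsExtA D) ((wtsExtB D).dual.resc (wtK t)) D.S.ad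
      (wts_filt_W D))) := by
    refine wts_ev_mem P hN (wtK_sq t) (wtE_ne_zero t) _ (fun n ν => ?_)
    show fcAp (0 : D.N.dual.C) (0 : D.N.C) + x.b 0 0 + wtE t * fcAp ν n = wtE t * fcAp ν n
    rw [fcAp_zero, map_zero]
    simp
  exact ⟨fun h1 => fcb_ext_sub P (wtsExtI D) h1 h, fun h1 => fcb_ext_mem P (wtsExtI D) h h1⟩

/-- `W` maps `N^∨` into `(N<-1>)^∨` -/
theorem wts_filt_W2 (ν : (D.N.dual.resc (-(wtK t))).C) :
    ((fcbExtCone D.lam).dual.resc (wtK t)).p.f ((wtsW D).f ((wtsExtC D).i.f ν)) = 0 := by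
  apply fck_dual_ext (A := x.M)
  intro p'
  have h := wtsW_ap D 0 p' ν 0
  have h0 : fcAp (A := D.N) ν (0 : D.N.C) = 0 := fcAp_map_zero (A := D.N) ν
  rw [h0, map_zero, LinearMap.zero_apply, add_zero] at h
  exact h

theorem wts_W2_quot : FcExt.quotMap (wtsExtC D) ((fcbExtCone D.lam).dual.resc (wtK t)) (wtsW D)
    (wts_filt_W2 D) = x.ad := by
  apply FcHom.ext'
  intro p
  apply fck_dual_ext (A := x.M)
  intro p'
  have h := wtsW_ap D p p' 0 0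
  rw [fcAp_zero, zero_add] at h
  exact h

/-- `cone(1) → cone(W) → cone(ad_x)` -/
def wtsExtII : FcExt
    (fcCone (FcExt.subMap (wtsExtC D) ((fcbExtCone D.lam).dual.resc (wtK t)) (wtsW D) (wts_filt_W2 D)))
    (fcCone (wtsW D)) (fcCone x.ad) :=
  (FcExt.filtHom' (wtsExtC D) ((fcbExtCone D.lam).dual.resc (wtK t)) (wtsW D)
    (FcExt.subMap (wtsExtC D) ((fcbExtCone D.lam).dual.resc (wtK t)) (wtsW D) (wts_filt_W2 D)) x.ad
    (fun b => (((fcbExtCone D.lam).dual.resc (wtK t)).eq_i_of_p (wts_filt_W2 D b)).symm)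
    (fun a => congrArg (fun g : FcHom x.M (x.M.dual.resc (wtK t)) => g.f a) (wts_W2_quot D))).cone

theorem wts_W_iff : P.mem (fcCone (wtsW D)) ↔ P.mem (fcCone x.ad) := by
  have h : P.mem (fcCone (FcExt.subMap (wtsExtC D) ((fcbExtCone D.lam).dual.resc (wtK t)) (wtsW D)
      (wts_filt_W2 D))) := by
    refine wts_one_mem P (wtK_ne_zero t) _ (fun ν n => ?_)
    have h := wtsW_ap D 0 0 ν n
    rw [map_zero, add_zero] at h
    exact h
  exact ⟨fun h1 => fcb_ext_quot P (wtsExtII D) h1 h, fun h1 => fcb_ext_mem P (wtsExtII D) h1 h⟩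

/-- (F1), the essential part -/
theorem wts_adS_iff' (hN : (fcCone (fcEv D.N)).Acyc) :
    P.mem (fcCone D.S.ad) ↔ P.mem (fcCone x.ad) :=
  (wts_adS_iff D P hN).trans (wts_W_iff D P)

/-- `V` maps `M` into `M^∨` -/
theorem wts_filt_V2 (p : x.M.C) :
    ((wtsExtC D).dual.resc (wtK t)).p.f ((wtsV D).f ((fcbExtCone D.lam).i.f p)) = 0 := by
  apply fck_dual_ext (A := D.N.dual.resc (-(wtK t)))
  intro ν'
  have h := wtsV_ap D p 0 0 ν'
  have h0 : fcAp (A := D.N) ν' (0 : D.N.C) = 0 := fcAp_map_zero (A := D.N) ν'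
  rw [h0, map_zero, mul_zero, add_zero] at h
  exact h

/-- `V : cone(lam) → R^∨<k>` is a `P`-equivalence -/
theorem wts_V_mem (hN : (fcCone (fcEv D.N)).Acyc) (hx : P.mem (fcCone x.ad)) :
    P.mem (fcCone (wtsV D)) := by
  refine fck_mem_cone_filt P (fcbExtCone D.lam) ((wtsExtC D).dual.resc (wtK t)) (wtsV D) x.ad
    (FcExt.quotMap (fcbExtCone D.lam) ((wtsExtC D).dual.resc (wtK t)) (wtsV D) (wts_filt_V2 D))
    (fun p => ?_) (fun _ => rfl) hx ?_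
  · apply fck_dual_ext (A := wtsR D)
    intro (m : x.M.C × D.N.dual.C)
    obtain ⟨p', ν'⟩ := m
    have h := wtsV_ap D p p' 0 ν'
    rw [fcAp_map_zero, mul_zero, add_zero] at h
    exact h
  · refine wts_ev_mem P hN (wtK_sq t) (wtE_ne_zero t) _ (fun n ν => ?_)
    have h := wtsV_ap D 0 0 n ν
    rw [map_zero, zero_add] at h
    exact h

end adS

/-! ### Lemma L (the Lagrangian lemma) -/

section lemmaL

variable {z : WtForm X t} (D : WtDat z) {Q : FcD X} (σ : FcExt D.N z.M Q)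

/-- `θ q = k ζ (s q) (lam ·) - h (τ q) ·` as a linear map -/
def wtsThetaL : Q.C →ₗ[ℝ] D.N.dual.C :=
  wtK t • ((fcTr D.lam).f ∘ₗ fcCurry z.b z.loc ∘ₗ σ.s) - fcCurry D.h D.h_loc ∘ₗ σ.tau

theorem wtsThetaL_ap (q : Q.C) (n : D.N.C) :
    fcAp (wtsThetaL D σ q) n = wtK t * z.b (σ.s q) (D.lam.f n) - D.h (σ.tau q) n := rfl

/-- `θ : Q<-1> → N^∨<-k>` -/
def wtsTheta (hσ : ∀ n, σ.i.f n = D.lam.f n) : FcHom (Q.resc (-1)) (D.N.dual.resc (-(wtK t))) where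
  f := wtsThetaL (Q := Q) D σ
  loc := fun (q : Q.C) => by
    refine (D.N.dual.supp_sub _ _).trans (Set.union_subset ?_ ?_)
    · exact (D.N.dual.supp_smul _ _).trans (((fcTr D.lam).loc _).trans
        ((fck_curry_loc z.b z.loc _).trans (σ.s_loc q)))
    · exact (fck_curry_loc D.h D.h_loc _).trans (σ.tauHom.loc q)
  comm := fun (q : Q.C) => by
    apply fck_dual_ext (A := D.N)
    intro n
    show fcAp (wtsThetaL D σ ((-1 : ℝ) • Q.d q)) n = (-(wtK t)) * fcAp (wtsThetaL D σ q) (D.N.d n)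
    rw [wtsThetaL_ap, wtsThetaL_ap]
    have h1 : σ.s (Q.d q) = z.M.d (σ.s q) - D.lam.f (σ.tau q) := by
      rw [σ.d_s q, hσ]; abel
    have h2 : σ.tau (Q.d q) = -(D.N.d (σ.tau q)) := eq_neg_of_add_eq_zero_left (σ.tau_anti q)
    rw [map_smul σ.s, map_smul σ.tau, h1, h2]
    simp only [map_sub, map_neg, map_smul, LinearMap.sub_apply, LinearMap.neg_apply,
      LinearMap.smul_apply, smul_eq_mul]
    rw [z.adj, D.h_eq, D.lam.comm]
    linear_combination (D.h (D.N.d (σ.tau q)) n) * wtK_sq t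

theorem wtsTheta_ap (hσ : ∀ n, σ.i.f n = D.lam.f n) (q : Q.C) (n : D.N.C) :
    fcAp (A := D.N) ((wtsTheta D σ hσ).f q) n = wtK t * z.b (σ.s q) (D.lam.f n) - D.h (σ.tau q) n := rfl

/-- the projection `π (n, z, ν) = (p z, ν - h (r z) ·)` -/
def wtsPiL : (D.N.C × (z.M.C × D.N.dual.C)) →ₗ[ℝ] (Q.C × D.N.dual.C) :=
  (σ.p.f ∘ₗ LinearMap.fst ℝ _ _ ∘ₗ LinearMap.snd ℝ _ _).prod
    (LinearMap.snd ℝ _ _ ∘ₗ LinearMap.snd ℝ _ _
      - fcCurry D.h D.h_loc ∘ₗ σ.r ∘ₗ LinearMap.fst ℝ _ _ ∘ₗ LinearMap.snd ℝ _ _)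

theorem wtsPiL_apply (n : D.N.C) (m : z.M.C) (ν : D.N.dual.C) :
    wtsPiL D σ (n, m, ν) = (σ.p.f m, ν - fcCurry D.h D.h_loc (σ.r m)) := rfl

theorem wts_piL_comm (hσ : ∀ n, σ.i.f n = D.lam.f n) (n : D.N.C) (m : z.M.C) (ν : D.N.dual.C) :
    wtsPiL D σ (-(D.N.d n), D.lam.f n + z.M.d m,
      fcCurry D.h D.h_loc n + wtK t • (fcTr D.lam).f (fcCurry z.b z.loc m) - wtK t • D.N.dual.d ν) =
    (-((-1 : ℝ) • Q.d (σ.p.f m)),
      wtsThetaL D σ (σ.p.f m) + (-(wtK t)) • D.N.dual.d (ν - fcCurry D.h D.h_loc (σ.r m))) := by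
  rw [wtsPiL_apply]
  have hr : σ.r (D.lam.f n + z.M.d m) = n + (D.N.d (σ.r m) + σ.tau (σ.p.f m)) := by
    conv_lhs => rw [← σ.sum m]
    rw [map_add, map_add, map_add, ← hσ, σ.ri, ← σ.i.comm, σ.ri]
    rfl
  refine Prod.ext ?_ ?_
  · show σ.p.f (D.lam.f n + z.M.d m) = -((-1 : ℝ) • Q.d (σ.p.f m))
    rw [map_add, ← hσ, σ.pi, σ.p.comm]
    simp
  · apply fck_dual_ext
    intro n'
    show (D.h n n' + wtK t * z.b m (D.lam.f n') - wtK t * fcAp ν (D.N.d n'))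
        - D.h (σ.r (D.lam.f n + z.M.d m)) n' =
      (wtK t * z.b (σ.s (σ.p.f m)) (D.lam.f n') - D.h (σ.tau (σ.p.f m)) n')
        + (-(wtK t)) * (fcAp ν (D.N.d n') - D.h (σ.r m) (D.N.d n'))
    rw [hr]
    have hm : z.b m (D.lam.f n') = z.b (D.lam.f (σ.r m)) (D.lam.f n') + z.b (σ.s (σ.p.f m)) (D.lam.f n') := by
      conv_lhs => rw [← σ.sum m]
      rw [map_add, LinearMap.add_apply, hσ]
    rw [hm, D.h_eq]
    simp only [map_add, LinearMap.add_apply]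
    linear_combination (D.h (D.N.d (σ.r m)) n') * wtK_sq t

/-- LEMMA L: `cone(1_N) → S → cone(θ)` -/
def wtsExtL (hσ : ∀ n, σ.i.f n = D.lam.f n) :
    FcExt (fcCone (fcId D.N)) D.S.M (fcCone (wtsTheta D σ hσ)) where
  i := ⟨(LinearMap.fst ℝ D.N.C D.N.C).prod
      ((D.lam.f ∘ₗ LinearMap.snd ℝ D.N.C D.N.C).prod (fcCurry D.h D.h_loc ∘ₗ LinearMap.snd ℝ D.N.C D.N.C)),
    fun (m : D.N.C × D.N.C) => by
      show D.N.supp m.1 ∪ (z.M.supp (D.lam.f m.2) ∪ D.N.dual.supp (fcCurry D.h D.h_loc m.2)) ⊆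
        D.N.supp m.1 ∪ D.N.supp m.2
      exact Set.union_subset_union subset_rfl
        (Set.union_subset (D.lam.loc _) (fck_curry_loc D.h D.h_loc _)),
    fun (m : D.N.C × D.N.C) => by
      obtain ⟨n, n₁⟩ := m
      show ((-(D.N.d n), D.lam.f (n + D.N.d n₁), fcCurry D.h D.h_loc (n + D.N.d n₁)) :
          D.N.C × (z.M.C × D.N.dual.C)) =
        (-(D.N.d n), D.lam.f n + z.M.d (D.lam.f n₁),
          fcCurry D.h D.h_loc n + wtK t • (fcTr D.lam).f (fcCurry z.b z.loc (D.lam.f n₁))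
            - wtK t • D.N.dual.d (fcCurry D.h D.h_loc n₁))
      refine Prod.ext rfl (Prod.ext ?_ ?_)
      · show D.lam.f (n + D.N.d n₁) = D.lam.f n + z.M.d (D.lam.f n₁)
        rw [map_add, D.lam.comm]
      · apply fck_dual_ext
        intro n'
        show D.h (n + D.N.d n₁) n' = D.h n n' + wtK t * z.b (D.lam.f n₁) (D.lam.f n')
          - wtK t * D.h n₁ (D.N.d n')
        rw [D.h_eq, map_add, LinearMap.add_apply]
        linear_combination (-(D.h (D.N.d n₁) n')) * wtK_sq t⟩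
  p := ⟨wtsPiL (Q := Q) D σ,
    fun (m : D.N.C × (z.M.C × D.N.dual.C)) => by
      show Q.supp (σ.p.f m.2.1) ∪ D.N.dual.supp (m.2.2 - fcCurry D.h D.h_loc (σ.r m.2.1)) ⊆
        D.N.supp m.1 ∪ (z.M.supp m.2.1 ∪ D.N.dual.supp m.2.2)
      refine Set.Subset.trans ?_ Set.subset_union_right
      refine Set.union_subset ((σ.p.loc _).trans Set.subset_union_left) ?_
      refine (D.N.dual.supp_sub _ _).trans (Set.union_subset Set.subset_union_right ?_)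
      exact ((fck_curry_loc D.h D.h_loc _).trans (σ.r_loc _)).trans Set.subset_union_left,
    fun (m : D.N.C × (z.M.C × D.N.dual.C)) => wts_piL_comm D σ hσ m.1 m.2.1 m.2.2⟩
  r := (LinearMap.fst ℝ D.N.C (z.M.C × D.N.dual.C)).prod
      (σ.r ∘ₗ LinearMap.fst ℝ z.M.C D.N.dual.C ∘ₗ LinearMap.snd ℝ D.N.C (z.M.C × D.N.dual.C))
  s := (0 : Q.C × D.N.dual.C →ₗ[ℝ] D.N.C).prod
      ((σ.s ∘ₗ LinearMap.fst ℝ Q.C D.N.dual.C).prod (LinearMap.snd ℝ Q.C D.N.dual.C))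
  r_loc := fun (m : D.N.C × (z.M.C × D.N.dual.C)) => by
    show D.N.supp m.1 ∪ D.N.supp (σ.r m.2.1) ⊆ D.N.supp m.1 ∪ (z.M.supp m.2.1 ∪ D.N.dual.supp m.2.2)
    exact Set.union_subset_union subset_rfl ((σ.r_loc _).trans Set.subset_union_left)
  s_loc := fun (m : Q.C × D.N.dual.C) => by
    show D.N.supp 0 ∪ (z.M.supp (σ.s m.1) ∪ D.N.dual.supp m.2) ⊆ Q.supp m.1 ∪ D.N.dual.supp m.2
    rw [D.N.supp_zero, Set.empty_union]
    exact Set.union_subset_union (σ.s_loc _) subset_rfl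
  ri := fun (m : D.N.C × D.N.C) => by
    show ((m.1, σ.r (D.lam.f m.2)) : D.N.C × D.N.C) = m
    rw [← hσ, σ.ri]
  ps := fun (m : Q.C × D.N.dual.C) => by
    show ((σ.p.f (σ.s m.1), m.2 - fcCurry D.h D.h_loc (σ.r (σ.s m.1))) : Q.C × D.N.dual.C) = m
    rw [σ.ps, σ.rs, map_zero, sub_zero]
  sum := fun (m : D.N.C × (z.M.C × D.N.dual.C)) => by
    obtain ⟨n, m, ν⟩ := m
    show ((n + 0, D.lam.f (σ.r m) + σ.s (σ.p.f m),
      fcCurry D.h D.h_loc (σ.r m) + (ν - fcCurry D.h D.h_loc (σ.r m))) :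
        D.N.C × (z.M.C × D.N.dual.C)) = (n, m, ν)
    rw [← hσ, σ.sum, add_zero, add_sub_cancel]

/-- LEMMA L -/
theorem wts_L_iff (P : FcCls X) (hσ : ∀ n, σ.i.f n = D.lam.f n) :
    P.mem D.S.M ↔ P.mem (fcCone (wtsTheta D σ hσ)) :=
  ⟨fun h => fcb_ext_quot P (wtsExtL D σ hσ) h (fcb_cone_id_mem P _),
    fun h => fcb_ext_mem P (wtsExtL D σ hσ) h (fcb_cone_id_mem P _)⟩

end lemmaL

/-- realises the equation lemmas here (unique names) -/
theorem wts_eqns_cite : True := by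
  have := @wtsRho.eq_1
  have := @wtsR.eq_1
  have := @wtsExtC.eq_1
  have := @wtsExtA.eq_1
  have := @wtsExtB.eq_1
  have := @wtsW.eq_1
  have := @wtsV.eq_1
  have := @wtsExtI.eq_1
  have := @wtsExtII.eq_1
  have := @wtsThetaL.eq_1
  have := @wtsTheta.eq_1
  have := @wtsPiL.eq_1
  have := @wtsExtL.eq_1
  trivial

end Claimed.Agent.R304
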