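/-
Row 304 (S0559, Hilbert-Smith).  Owner: helper248 (statements), helper27 (proofs).  PACKAGE WtCalc: ELEMENTARY MOVES.
All formulas: CbNotes.lean, blocks 1-3.  `T P : FcCls X` are arbitrary classes (no inclusion between them is assumed).

* `wt_in_iso`, `wt_nc_iso`     transport along an isometric isomorphism (carry the datum over; `S` changes by an `FcIso`).
* `wt_in_zero/neg/sum`         `cone(ad)` of a sum is the sum of the cones via `(A × B)^∨ = A^∨ × B^∨`; of `-x`: `(m,μ) ↦ (m,-μ)`.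
* `wt_nc_neg`                  datum `(N, lam, -h)`, iso `ν ↦ -ν`.
* `wt_nc_sum`                  direct sum of the data.
* `wt_nc_of_mem`  (G1a)        `N = 0`, `S ≅ M`.
* `wt_redL`       (Lemma L)    the reduction `π (n,(q,n₁),ν) = (q, ν - h n₁)`, split onto, kernel `cone(1_N)`.
* `wt_nc_diag`    (G1b)        `N = M`, diagonal, `h = 0`; `S ≅ cone(1) ⊕ cone(ad)<-1>`.
* `wt_rel_of_isom`(G1c)        `N = M₁`, graph, `h = 0`; `S ≅ cone(1) ⊕ Tw(M₂, M₁^∨, -k f^∨ ad₂)`.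
* `wt_in_S`       (F1)         `ad_S` is filtered with graded pieces `1, ad, e • ev`.
PROVED (helper27): no gaps in this file.
-/
import Claimed.Agent.R304.WtS

set_option autoImplicit false

namespace Claimed.Agent.R304

open Topology

variable {X : Type} [TopologicalSpace X] [T2Space X] {t : ZMod 4}

/-- an isometric isomorphism of forms -/
structure WtIso (x y : WtForm X t) where
  /-- the isomorphism of differential objects -/
  e : FcIso x.M y.M
  isom : ∀ a c, y.b (e.e a) (e.e c) = x.b a c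

theorem wt_in_iso (T P : FcCls X) {x y : WtForm X t} (e : WtIso x y) (hx : x.In T P) : y.In T P := by
  refine ⟨T.iso e.e hx.1, (fck_cone_congr P x.ad y.ad e.e.e e.e.dual'.e e.e.supp_eq e.e.dual'.supp_eq
    1 1 one_ne_zero one_ne_zero (fun a => ?_) (fun (μ : x.M.dual.C) => ?_) (fun a => ?_)).2 hx.2⟩
  · rw [one_smul, e.e.comm]
  · show wtK t • y.M.dual.d (e.e.dual'.e μ) = (1 : ℝ) • e.e.dual'.e (wtK t • x.M.dual.d μ)
    rw [one_smul, map_smul, e.e.dual'.comm]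
  · apply fck_dual_ext (A := y.M)
    intro m
    show y.b (e.e.e a) m = 1 * x.b a (e.e.e.symm m)
    rw [one_mul, ← e.isom, LinearEquiv.apply_symm_apply]

/-- transport of a datum along an isometric isomorphism -/
def wtcDatIso {x y : WtForm X t} (e : WtIso x y) (D : WtDat x) : WtDat y where
  N := D.N
  lam := e.e.toHom.comp D.lam
  h := D.h
  h_loc := D.h_loc
  h_symm := D.h_symm
  h_eq := fun n n' => by
    show y.b (e.e.e (D.lam.f n)) (e.e.e (D.lam.f n')) = _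
    rw [e.isom, D.h_eq]

/-- the surgeries are isomorphic -/
def wtcDatIsoS {x y : WtForm X t} (e : WtIso x y) (D : WtDat x) : FcIso D.S.M (wtcDatIso e D).S.M where
  e := (LinearEquiv.refl ℝ D.N.C).prodCongr (e.e.e.prodCongr (LinearEquiv.refl ℝ D.N.dual.C))
  supp_eq := fun (m : D.N.C × (x.M.C × D.N.dual.C)) => by
    show D.N.supp m.1 ∪ (y.M.supp (e.e.e m.2.1) ∪ D.N.dual.supp m.2.2) =
      D.N.supp m.1 ∪ (x.M.supp m.2.1 ∪ D.N.dual.supp m.2.2)
    rw [e.e.supp_eq]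
  comm := fun (m : D.N.C × (x.M.C × D.N.dual.C)) => by
    obtain ⟨n, p, ν⟩ := m
    refine Prod.ext rfl (Prod.ext ?_ ?_)
    · show e.e.e (D.lam.f n + x.M.d p) = e.e.e (D.lam.f n) + y.M.d (e.e.e p)
      rw [map_add, e.e.comm]
    · apply fck_dual_ext (A := D.N)
      intro n'
      show D.h n n' + wtK t * x.b p (D.lam.f n') - wtK t * fcAp ν (D.N.d n') =
        D.h n n' + wtK t * y.b (e.e.e p) (e.e.e (D.lam.f n')) - wtK t * fcAp ν (D.N.d n')
      rw [e.isom]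

theorem wt_nc_iso (T P : FcCls X) {x y : WtForm X t} (e : WtIso x y) (hx : WtNC T P x) : WtNC T P y := by
  obtain ⟨D, hN, hS⟩ := hx
  exact ⟨wtcDatIso e D, hN, P.iso (wtcDatIsoS e D) hS⟩

theorem wtc_dual_zero (φ : (fcZero X).dual.C) : φ = 0 := by
  apply fck_dual_ext
  intro m
  exact fcAp_map_zero φ

theorem wt_in_zero (T P : FcCls X) : (wtFormZero X t).In T P := by
  refine ⟨T.acyc (fcb_zero_acyc X), P.acyc (fck_acyc_of_subsingleton _ ?_)⟩
  intro (m : PUnit × (fcZero X).dual.C)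
  exact Prod.ext rfl (wtc_dual_zero m.2)

theorem wt_in_neg (T P : FcCls X) {x : WtForm X t} (hx : x.In T P) : x.neg.In T P := by
  refine ⟨hx.1, (fck_cone_congr P x.ad x.neg.ad (LinearEquiv.refl ℝ x.M.C)
    (LinearEquiv.refl ℝ x.M.dual.C) (fun _ => rfl) (fun _ => rfl)
    1 (-1) one_ne_zero (by norm_num) (fun (a : x.M.C) => ?_) (fun (μ : x.M.dual.C) => ?_)
    (fun (a : x.M.C) => ?_)).2 hx.2⟩
  · show x.M.d a = (1 : ℝ) • x.M.d a
    rw [one_smul]
  · show wtK t • x.M.dual.d μ = (1 : ℝ) • (wtK t • x.M.dual.d μ)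
    rw [one_smul]
  · apply fck_dual_ext (A := x.M)
    intro m
    show -(x.b a m) = (-1) * x.b a m
    ring

theorem wt_in_sum (T P : FcCls X) {x y : WtForm X t} (hx : x.In T P) (hy : y.In T P) :
    (x.sum y).In T P := by
  refine ⟨fcb_prod_mem T hx.1 hy.1, fck_mem_cone_filt P (fcbExtProd x.M y.M)
    ((fcbExtProd' x.M y.M).dual.resc (wtK t)) (x.sum y).ad y.ad x.ad (fun b => ?_) (fun a => ?_)
    hy.2 hx.2⟩
  · apply fck_dual_ext (A := x.M.prod y.M)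
    intro (m : x.M.C × y.M.C)
    show x.b 0 m.1 + y.b b m.2 = y.b b m.2
    rw [map_zero, LinearMap.zero_apply, zero_add]
  · apply fck_dual_ext (A := x.M)
    intro a'
    show x.b a a' + y.b 0 0 = x.b a a'
    rw [map_zero, add_zero]

/-- the opposite datum -/
def wtcDatNeg {x : WtForm X t} (D : WtDat x) : WtDat x.neg where
  N := D.N
  lam := D.lam
  h := -D.h
  h_loc := fun n n' h => by simp [D.h_loc n n' h]
  h_symm := fun n n' => by simp [D.h_symm n n']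
  h_eq := fun n n' => by
    show -(x.b (D.lam.f n) (D.lam.f n')) = -(D.h n (D.N.d n')) + wtK t * (-(D.h (D.N.d n) n'))
    rw [D.h_eq]; ring

/-- the surgeries are isomorphic: `ν ↦ -ν` -/
def wtcDatNegS {x : WtForm X t} (D : WtDat x) : FcIso D.S.M (wtcDatNeg D).S.M where
  e := (LinearEquiv.refl ℝ D.N.C).prodCongr
    ((LinearEquiv.refl ℝ x.M.C).prodCongr (LinearEquiv.neg ℝ (M := D.N.dual.C)))
  supp_eq := fun (m : D.N.C × (x.M.C × D.N.dual.C)) => by
    show D.N.supp m.1 ∪ (x.M.supp m.2.1 ∪ D.N.dual.supp (-m.2.2)) =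
      D.N.supp m.1 ∪ (x.M.supp m.2.1 ∪ D.N.dual.supp m.2.2)
    rw [fcb_supp_neg_eq D.N.dual.toFcObj]
  comm := fun (m : D.N.C × (x.M.C × D.N.dual.C)) => by
    obtain ⟨n, p, ν⟩ := m
    refine Prod.ext rfl (Prod.ext rfl ?_)
    apply fck_dual_ext (A := D.N)
    intro n'
    show -(D.h n n' + wtK t * x.b p (D.lam.f n') - wtK t * fcAp ν (D.N.d n')) =
      -(D.h n n') + wtK t * (-(x.b p (D.lam.f n'))) - wtK t * (-(fcAp ν (D.N.d n')))
    ring

theorem wt_nc_neg (T P : FcCls X) {x : WtForm X t} (hx : WtNC T P x) : WtNC T P x.neg := by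
  obtain ⟨D, hN, hS⟩ := hx
  exact ⟨wtcDatNeg D, hN, P.iso (wtcDatNegS D) hS⟩

/-- the direct sum of two data -/
def wtcDatSum {x y : WtForm X t} (D : WtDat x) (D' : WtDat y) : WtDat (x.sum y) where
  N := D.N.prod D'.N
  lam := D.lam.prodMap D'.lam
  h := D.h.compl₁₂ (LinearMap.fst ℝ D.N.C D'.N.C) (LinearMap.fst ℝ D.N.C D'.N.C) +
        D'.h.compl₁₂ (LinearMap.snd ℝ D.N.C D'.N.C) (LinearMap.snd ℝ D.N.C D'.N.C)
  h_loc := fun (a c : D.N.C × D'.N.C) h => by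
    have h' : Disjoint (D.N.supp a.1 ∪ D'.N.supp a.2) (D.N.supp c.1 ∪ D'.N.supp c.2) := h
    show D.h a.1 c.1 + D'.h a.2 c.2 = 0
    rw [D.h_loc a.1 c.1 (Set.disjoint_of_subset Set.subset_union_left Set.subset_union_left h'),
      D'.h_loc a.2 c.2 (Set.disjoint_of_subset Set.subset_union_right Set.subset_union_right h'),
      add_zero]
  h_symm := fun (a c : D.N.C × D'.N.C) => by
    show D.h c.1 a.1 + D'.h c.2 a.2 = wtK t * wtE t * (D.h a.1 c.1 + D'.h a.2 c.2)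
    rw [D.h_symm, D'.h_symm]; ring
  h_eq := fun (a c : D.N.C × D'.N.C) => by
    show x.b (D.lam.f a.1) (D.lam.f c.1) + y.b (D'.lam.f a.2) (D'.lam.f c.2) =
      (D.h a.1 (D.N.d c.1) + D'.h a.2 (D'.N.d c.2)) +
        wtK t * (D.h (D.N.d a.1) c.1 + D'.h (D'.N.d a.2) c.2)
    rw [D.h_eq, D'.h_eq]; ring

section sumExt

variable {x y : WtForm X t} (D : WtDat x) (D' : WtDat y)

/-- the transposes of the four structure maps of `N × N'` -/
abbrev wtcTFst : D.N.dual.C →ₗ[ℝ] (D.N.prod D'.N).dual.C :=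
  fcTrLin (LinearMap.fst ℝ D.N.C D'.N.C) (fck_loc_fst D.N.toFcObj D'.N.toFcObj)

/-- transpose of `snd` -/
abbrev wtcTSnd : D'.N.dual.C →ₗ[ℝ] (D.N.prod D'.N).dual.C :=
  fcTrLin (LinearMap.snd ℝ D.N.C D'.N.C) (fck_loc_snd D.N.toFcObj D'.N.toFcObj)

/-- transpose of `inl` -/
abbrev wtcTInl : (D.N.prod D'.N).dual.C →ₗ[ℝ] D.N.dual.C :=
  fcTrLin (LinearMap.inl ℝ D.N.C D'.N.C) (fck_loc_inl D.N.toFcObj D'.N.toFcObj)

/-- transpose of `inr` -/
abbrev wtcTInr : (D.N.prod D'.N).dual.C →ₗ[ℝ] D'.N.dual.C :=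
  fcTrLin (LinearMap.inr ℝ D.N.C D'.N.C) (fck_loc_inr D.N.toFcObj D'.N.toFcObj)

/-- `S' → S(D ⊕ D') → S` -/
def wtcSumExt : FcExt D'.S.M (wtcDatSum D D').S.M D.S.M where
  i := ⟨(LinearMap.inr ℝ D.N.C D'.N.C ∘ₗ LinearMap.fst ℝ D'.N.C (y.M.C × D'.N.dual.C)).prod
      ((LinearMap.inr ℝ x.M.C y.M.C ∘ₗ LinearMap.fst ℝ y.M.C D'.N.dual.C ∘ₗ
          LinearMap.snd ℝ D'.N.C (y.M.C × D'.N.dual.C)).prod
        (wtcTSnd D D' ∘ₗ LinearMap.snd ℝ y.M.C D'.N.dual.C ∘ₗ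
          LinearMap.snd ℝ D'.N.C (y.M.C × D'.N.dual.C))),
    fun (m : D'.N.C × (y.M.C × D'.N.dual.C)) => by
      show (D.N.supp 0 ∪ D'.N.supp m.1) ∪ ((x.M.supp 0 ∪ y.M.supp m.2.1) ∪
        (D.N.prod D'.N).dual.supp (wtcTSnd D D' m.2.2)) ⊆
        D'.N.supp m.1 ∪ (y.M.supp m.2.1 ∪ D'.N.dual.supp m.2.2)
      rw [D.N.supp_zero, x.M.supp_zero, Set.empty_union, Set.empty_union]
      exact Set.union_subset_union subset_rfl (Set.union_subset_union subset_rfl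
        (FcObj.dualSupp_comp _ (fck_loc_snd D.N.toFcObj D'.N.toFcObj) m.2.2.1)),
    fun (m : D'.N.C × (y.M.C × D'.N.dual.C)) => by
      obtain ⟨n, p, ν⟩ := m
      refine Prod.ext ?_ (Prod.ext ?_ ?_)
      · show ((0, -(D'.N.d n)) : D.N.C × D'.N.C) = -(D.N.d 0, D'.N.d n)
        rw [map_zero]; simp
      · show ((0, D'.lam.f n + y.M.d p) : x.M.C × y.M.C) =
          (D.lam.f 0 + x.M.d 0, D'.lam.f n + y.M.d p)
        rw [map_zero, map_zero, add_zero]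
      · apply fck_dual_ext (A := D.N.prod D'.N)
        intro (n' : D.N.C × D'.N.C)
        show D'.h n n'.2 + wtK t * y.b p (D'.lam.f n'.2) - wtK t * fcAp ν (D'.N.d n'.2) =
          (D.h 0 n'.1 + D'.h n n'.2) + wtK t * (x.b 0 (D.lam.f n'.1) + y.b p (D'.lam.f n'.2))
            - wtK t * fcAp ν (D'.N.d n'.2)
        rw [map_zero, map_zero, LinearMap.zero_apply, LinearMap.zero_apply]
        ring⟩
  p := ⟨(LinearMap.fst ℝ D.N.C D'.N.C ∘ₗ
        LinearMap.fst ℝ (D.N.C × D'.N.C) ((x.M.C × y.M.C) × (D.N.prod D'.N).dual.C)).prod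
      ((LinearMap.fst ℝ x.M.C y.M.C ∘ₗ LinearMap.fst ℝ (x.M.C × y.M.C) (D.N.prod D'.N).dual.C ∘ₗ
          LinearMap.snd ℝ (D.N.C × D'.N.C) ((x.M.C × y.M.C) × (D.N.prod D'.N).dual.C)).prod
        (wtcTInl D D' ∘ₗ LinearMap.snd ℝ (x.M.C × y.M.C) (D.N.prod D'.N).dual.C ∘ₗ
          LinearMap.snd ℝ (D.N.C × D'.N.C) ((x.M.C × y.M.C) × (D.N.prod D'.N).dual.C))),
    fun (m : (D.N.C × D'.N.C) × ((x.M.C × y.M.C) × (D.N.prod D'.N).dual.C)) => by
      show D.N.supp m.1.1 ∪ (x.M.supp m.2.1.1 ∪ D.N.dual.supp (wtcTInl D D' m.2.2)) ⊆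
        (D.N.supp m.1.1 ∪ D'.N.supp m.1.2) ∪ ((x.M.supp m.2.1.1 ∪ y.M.supp m.2.1.2) ∪
          (D.N.prod D'.N).dual.supp m.2.2)
      exact Set.union_subset_union Set.subset_union_left (Set.union_subset_union
        Set.subset_union_left (FcObj.dualSupp_comp _ (fck_loc_inl D.N.toFcObj D'.N.toFcObj) m.2.2.1)),
    fun (m : (D.N.C × D'.N.C) × ((x.M.C × y.M.C) × (D.N.prod D'.N).dual.C)) => by
      obtain ⟨⟨n, n₂⟩, ⟨p, p₂⟩, ν⟩ := m
      refine Prod.ext rfl (Prod.ext rfl ?_)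
      apply fck_dual_ext (A := D.N)
      intro n'
      show (D.h n n' + D'.h n₂ 0) + wtK t * (x.b p (D.lam.f n') + y.b p₂ (D'.lam.f 0))
          - wtK t * fcAp ν ((D.N.d n', D'.N.d 0) : D.N.C × D'.N.C) =
        D.h n n' + wtK t * x.b p (D.lam.f n') - wtK t * fcAp ν ((D.N.d n', 0) : D.N.C × D'.N.C)
      rw [map_zero, map_zero, map_zero, map_zero]
      ring⟩
  r := (LinearMap.snd ℝ D.N.C D'.N.C ∘ₗ
        LinearMap.fst ℝ (D.N.C × D'.N.C) ((x.M.C × y.M.C) × (D.N.prod D'.N).dual.C)).prod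
      ((LinearMap.snd ℝ x.M.C y.M.C ∘ₗ LinearMap.fst ℝ (x.M.C × y.M.C) (D.N.prod D'.N).dual.C ∘ₗ
          LinearMap.snd ℝ (D.N.C × D'.N.C) ((x.M.C × y.M.C) × (D.N.prod D'.N).dual.C)).prod
        (wtcTInr D D' ∘ₗ LinearMap.snd ℝ (x.M.C × y.M.C) (D.N.prod D'.N).dual.C ∘ₗ
          LinearMap.snd ℝ (D.N.C × D'.N.C) ((x.M.C × y.M.C) × (D.N.prod D'.N).dual.C)))
  s := (LinearMap.inl ℝ D.N.C D'.N.C ∘ₗ LinearMap.fst ℝ D.N.C (x.M.C × D.N.dual.C)).prod
      ((LinearMap.inl ℝ x.M.C y.M.C ∘ₗ LinearMap.fst ℝ x.M.C D.N.dual.C ∘ₗ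
          LinearMap.snd ℝ D.N.C (x.M.C × D.N.dual.C)).prod
        (wtcTFst D D' ∘ₗ LinearMap.snd ℝ x.M.C D.N.dual.C ∘ₗ
          LinearMap.snd ℝ D.N.C (x.M.C × D.N.dual.C)))
  r_loc := fun (m : (D.N.C × D'.N.C) × ((x.M.C × y.M.C) × (D.N.prod D'.N).dual.C)) => by
    show D'.N.supp m.1.2 ∪ (y.M.supp m.2.1.2 ∪ D'.N.dual.supp (wtcTInr D D' m.2.2)) ⊆
      (D.N.supp m.1.1 ∪ D'.N.supp m.1.2) ∪ ((x.M.supp m.2.1.1 ∪ y.M.supp m.2.1.2) ∪
        (D.N.prod D'.N).dual.supp m.2.2)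
    exact Set.union_subset_union Set.subset_union_right (Set.union_subset_union
      Set.subset_union_right (FcObj.dualSupp_comp _ (fck_loc_inr D.N.toFcObj D'.N.toFcObj) m.2.2.1))
  s_loc := fun (m : D.N.C × (x.M.C × D.N.dual.C)) => by
    show (D.N.supp m.1 ∪ D'.N.supp 0) ∪ ((x.M.supp m.2.1 ∪ y.M.supp 0) ∪
      (D.N.prod D'.N).dual.supp (wtcTFst D D' m.2.2)) ⊆
      D.N.supp m.1 ∪ (x.M.supp m.2.1 ∪ D.N.dual.supp m.2.2)
    rw [D'.N.supp_zero, y.M.supp_zero, Set.union_empty, Set.union_empty]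
    exact Set.union_subset_union subset_rfl (Set.union_subset_union subset_rfl
      (FcObj.dualSupp_comp _ (fck_loc_fst D.N.toFcObj D'.N.toFcObj) m.2.2.1))
  ri := fun (m : D'.N.C × (y.M.C × D'.N.dual.C)) => rfl
  ps := fun (m : D.N.C × (x.M.C × D.N.dual.C)) => rfl
  sum := fun (m : (D.N.C × D'.N.C) × ((x.M.C × y.M.C) × (D.N.prod D'.N).dual.C)) => by
    obtain ⟨⟨n, n₂⟩, ⟨p, p₂⟩, ν⟩ := m
    refine Prod.ext ?_ (Prod.ext ?_ ?_)
    · show ((0 + n, n₂ + 0) : D.N.C × D'.N.C) = (n, n₂)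
      rw [zero_add, add_zero]
    · show ((0 + p, p₂ + 0) : x.M.C × y.M.C) = (p, p₂)
      rw [zero_add, add_zero]
    · apply fck_dual_ext (A := D.N.prod D'.N)
      intro (n' : D.N.C × D'.N.C)
      show fcAp ν ((0, n'.2) : D.N.C × D'.N.C) + fcAp ν ((n'.1, 0) : D.N.C × D'.N.C) = fcAp ν n'
      have h := fcAp_map_add (A := D.N.prod D'.N) ν ((0, n'.2) : D.N.C × D'.N.C)
        ((n'.1, 0) : D.N.C × D'.N.C)
      rw [← h]
      congr 1
      show ((0 + n'.1, n'.2 + 0) : D.N.C × D'.N.C) = n'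
      rw [zero_add, add_zero]

end sumExt

theorem wt_nc_sum (T P : FcCls X) {x y : WtForm X t} (hx : WtNC T P x) (hy : WtNC T P y) :
    WtNC T P (x.sum y) := by
  obtain ⟨D, hN, hS⟩ := hx
  obtain ⟨D', hN', hS'⟩ := hy
  exact ⟨wtcDatSum D D', fcb_prod_mem T hN hN', fcb_ext_mem P (wtcSumExt D D') hS hS'⟩

/-- the trivial datum -/
def wtcDatZero (x : WtForm X t) : WtDat x where
  N := fcZero X
  lam := fcbZero _ _
  h := 0
  h_loc := fun _ _ _ => rfl
  h_symm := fun _ _ => by simp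
  h_eq := fun _ _ => by
    show x.b 0 0 = (0 : ℝ) + wtK t * 0
    rw [map_zero]; simp

/-- the surgery along the trivial datum does nothing -/
def wtcDatZeroS (x : WtForm X t) : FcIso x.M (wtcDatZero x).S.M :=
  fckIsoOfLoc (A := x.M) (B := (wtcDatZero x).S.M)
    (LinearEquiv.ofLinearMap
      (LinearMap.inr ℝ PUnit (x.M.C × (fcZero X).dual.C) ∘ₗ LinearMap.inl ℝ x.M.C (fcZero X).dual.C)
      (LinearMap.fst ℝ x.M.C (fcZero X).dual.C ∘ₗ LinearMap.snd ℝ PUnit (x.M.C × (fcZero X).dual.C))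
      (by
        apply LinearMap.ext
        rintro ⟨u, p, ν⟩
        exact Prod.ext rfl (Prod.ext rfl (wtc_dual_zero ν).symm))
      (by apply LinearMap.ext; intro p; rfl))
    (fun p => by
      show (∅ : Set X) ∪ (x.M.supp p ∪ (fcZero X).dual.supp 0) ⊆ x.M.supp p
      rw [(fcZero X).dual.supp_zero, Set.union_empty, Set.empty_union])
    (fun (m : PUnit × (x.M.C × (fcZero X).dual.C)) =>
      Set.subset_union_left.trans Set.subset_union_right)
    (fun p => Prod.ext rfl (Prod.ext (by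
      show x.M.d p = 0 + x.M.d p
      rw [zero_add]) ((wtc_dual_zero _).trans (wtc_dual_zero _).symm)))

/-- (G1a) a form on an object of `P` is null-cobordant -/
theorem wt_nc_of_mem (T P : FcCls X) {x : WtForm X t} (hx : P.mem x.M) : WtNC T P x :=
  ⟨wtcDatZero x, T.acyc (fcb_zero_acyc X), P.iso (wtcDatZeroS x) hx⟩

/-- change of the quotient of an extension along an isomorphism -/
def FcExt.ofIsoQuot {B E A A' : FcD X} (σ : FcExt B E A) (u : FcIso A A') : FcExt B E A' where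
  i := σ.i
  p := u.toHom.comp σ.p
  r := σ.r
  s := σ.s ∘ₗ u.e.symm.toLinearMap
  r_loc := σ.r_loc
  s_loc := fun a => (σ.s_loc _).trans (u.symm.supp_eq a).subset
  ri := σ.ri
  ps := fun a => by
    show u.e (σ.p.f (σ.s (u.e.symm a))) = a
    rw [σ.ps, LinearEquiv.apply_symm_apply]
  sum := fun x => by
    show σ.i.f (σ.r x) + σ.s (u.e.symm (u.e (σ.p.f x))) = x
    rw [LinearEquiv.symm_apply_apply, σ.sum]

/-- (Lemma L) if `lam` is the inclusion of the subobject `N` of `Z = Tw(Q, N, τ)`, the surgery reduces to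
`Tw(Q, N^∨<-k>, θ)`, `θ q = k • ζ (q,0) (lam ·) - h (τ q) ·`. -/
theorem wt_redL {z : WtForm X t} (D : WtDat z) (Q : FcD X) (τ : FcHom (Q.resc (-1)) D.N)
    (e : FcIso (fcCone τ) z.M) (he : ∀ n : D.N.C, e.e ((0 : Q.C), n) = D.lam.f n) :
    ∃ θ : FcHom (Q.resc (-1)) (D.N.dual.resc (-(wtK t))),
      (∀ (q : Q.C) (n : D.N.C), fcAp (A := D.N) (θ.f q) n =
          wtK t * z.b (e.e (q, (0 : D.N.C))) (D.lam.f n) - D.h (τ.f q) n) ∧
      ∀ P : FcCls X, (P.mem D.S.M ↔ P.mem (fcCone θ)) := by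
  refine ⟨wtsTheta D (((fcbExtCone τ).ofIso e).ofIsoQuot (fcbRescNegNeg Q)) he, fun q n => ?_,
    fun P => wts_L_iff D _ P he⟩
  refine (wtsTheta_ap D (((fcbExtCone τ).ofIso e).ofIsoQuot (fcbRescNegNeg Q)) he q n).trans ?_
  have h : (((fcbExtCone τ).ofIso e).ofIsoQuot (fcbRescNegNeg Q)).tau q = τ.f q := by
    obtain ⟨w, hw⟩ : ∃ w : (fcCone τ).C, w = ((q, 0) : Q.C × D.N.C) := ⟨_, rfl⟩
    have h1 : e.e.symm (z.M.d (e.e w)) = (fcCone τ).d w := by
      rw [← e.comm, LinearEquiv.symm_apply_apply]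
    have h2 : ((fcCone τ).d w : Q.C × D.N.C).2 = τ.f q := by
      rw [hw]
      show τ.f q + D.N.d 0 = τ.f q
      rw [map_zero, add_zero]
    rw [← h2, ← h1, hw]
    rfl
  rw [h]
  rfl

/-- the graph extension `M₁ → M₁ × M₂ → M₂` of a chain map -/
def wtcExtGraph {A B : FcD X} (f : FcHom A B) : FcExt A (A.prod B) B where
  i := FcHom.pair (fcId A) f
  p := ⟨LinearMap.snd ℝ A.C B.C - f.f ∘ₗ LinearMap.fst ℝ A.C B.C,
    fun (m : A.C × B.C) => (B.supp_sub _ _).trans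
      (Set.union_subset Set.subset_union_right ((f.loc _).trans Set.subset_union_left)),
    fun (m : A.C × B.C) => by
      show B.d m.2 - f.f (A.d m.1) = B.d (m.2 - f.f m.1)
      rw [map_sub, f.comm]⟩
  r := LinearMap.fst ℝ A.C B.C
  s := LinearMap.inr ℝ A.C B.C
  r_loc := fck_loc_fst _ _
  s_loc := fck_loc_inr _ _
  ri := fun _ => rfl
  ps := fun b => by
    show b - f.f 0 = b
    rw [map_zero, sub_zero]
  sum := fun (m : A.C × B.C) => by
    show ((m.1 + 0, f.f m.1 + (m.2 - f.f m.1)) : A.C × B.C) = m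
    rw [add_zero, add_sub_cancel]

/-- the graph datum of an isometric chain map -/
def wtcGraphDat {x y : WtForm X t} (f : WtIsom x y) : WtDat (x.sum y.neg) where
  N := x.M
  lam := FcHom.pair (fcId x.M) f.f
  h := 0
  h_loc := fun _ _ _ => rfl
  h_symm := fun _ _ => by simp
  h_eq := fun n n' => by
    show x.b n n' + -(y.b (f.f.f n) (f.f.f n')) = _
    rw [f.isom]
    simp

/-- (G1c) an isometric `P`-equivalence gives cobordant forms -/
theorem wt_rel_of_isom (T P : FcCls X) {x y : WtForm X t} (f : WtIsom x y) (hf : P.mem (fcCone f.f))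
    (hx : x.In T P) (hy : y.In T P) : WtRel T P x y := by
  refine ⟨wtcGraphDat f, hx.1, ?_⟩
  rw [wts_L_iff (wtcGraphDat f) (wtcExtGraph f.f) P (fun _ => rfl)]
  have h1 : P.mem (fcCone (((fcTr f.f).resc (wtK t)).comp y.ad)) :=
    fcb_comp_mem P _ _ hy.2 ((fcb_cone_resc_iff P _ (wtK_ne_zero t)).2 (fck_eqv_tr P _ hf))
  refine (fck_cone_congr P (((fcTr f.f).resc (wtK t)).comp y.ad)
    (wtsTheta (wtcGraphDat f) (wtcExtGraph f.f) (fun _ => rfl)) (LinearEquiv.refl ℝ y.M.C)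
    (LinearEquiv.refl ℝ x.M.dual.C) (fun _ => rfl) (fun _ => rfl) (-1) (-(wtK t)) (by norm_num)
    (neg_ne_zero.2 (wtK_ne_zero t)) (fun _ => rfl) (fun (μ : x.M.dual.C) => ?_)
    (fun (q : y.M.C) => ?_)).2 h1
  · show (-(wtK t)) • x.M.dual.d μ = (-1 : ℝ) • (wtK t • x.M.dual.d μ)
    rw [smul_smul]; congr 1; ring
  · apply fck_dual_ext (A := x.M)
    intro n
    show wtK t * (x.b 0 n + -(y.b q (f.f.f n))) - (0 : ℝ) = (-(wtK t)) * y.b q (f.f.f n)
    rw [map_zero, LinearMap.zero_apply]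
    ring

/-- (G1b) `x ⊥ -x` is null-cobordant -/
theorem wt_nc_diag (T P : FcCls X) {x : WtForm X t} (hx : x.In T P) : WtNC T P (x.sum x.neg) :=
  wt_rel_of_isom T P ⟨fcId x.M, fun _ _ => rfl⟩ (fcb_cone_id_mem P _) hx hx

/-- isometric isomorphisms give cobordant forms -/
theorem wt_rel_of_iso (T P : FcCls X) {x y : WtForm X t} (e : WtIso x y) (hx : x.In T P) :
    WtRel T P x y :=
  wt_rel_of_isom T P ⟨e.e.toHom, e.isom⟩ (fcb_iso_cone_mem P e.e) hx (wt_in_iso T P e hx)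

/-- (F1) the result of a surgery along an object of `T` is again a form in `(T; P)` -/
theorem wt_in_S (T P : FcCls X) (hT : T.Refl) {x : WtForm X t} (hx : x.In T P) (D : WtDat x)
    (hN : T.mem D.N) : D.S.In T P :=
  ⟨wts_S_mem D T hx.1 hN, (wts_adS_iff' D P (hT _ hN)).2 hx.2⟩

/-- realises the equation lemmas here (unique names) -/
theorem wtc_eqns_cite : True := by
  have := @wtcDatIso.eq_1
  have := @wtcDatIsoS.eq_1
  have := @wtcDatNeg.eq_1
  have := @wtcDatNegS.eq_1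
  have := @wtcDatSum.eq_1
  have := @wtcTFst.eq_1
  have := @wtcTSnd.eq_1
  have := @wtcTInl.eq_1
  have := @wtcTInr.eq_1
  have := @wtcSumExt.eq_1
  have := @wtcDatZero.eq_1
  have := @wtcDatZeroS.eq_1
  have := @FcExt.ofIsoQuot.eq_1
  have := @wtcExtGraph.eq_1
  have := @wtcGraphDat.eq_1
  trivial

end Claimed.Agent.R304
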