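/-
Row 304 (S0559, Hilbert-Smith).  Owner: helper27.  PACKAGE WtIsoLib: isometric isomorphisms of forms (prefix `wti`/`WtIso.`).
`WtIso.refl/symm/trans/sumMap/negMap`, `wtIsoSwap`, `wtIsoAssoc`, `wtIsoNegSum`, `wtIsoNegNeg`, `wtIsoZeroSum`, `wtIsoSumZero`,
`wtIsoMid4` (`(a+b)+(c+d) ≅ (a+c)+(b+d)`).
-/
import Claimed.Agent.R304.WtCalc

set_option autoImplicit false

namespace Claimed.Agent.R304

open Topology

variable {X : Type} [TopologicalSpace X] [T2Space X] {t : ZMod 4}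

/-- identity -/
def WtIso.refl (x : WtForm X t) : WtIso x x := ⟨FcIso.refl x.M, fun _ _ => rfl⟩

/-- inverse -/
def WtIso.symm {x y : WtForm X t} (e : WtIso x y) : WtIso y x :=
  ⟨e.e.symm, fun a c => by
    have h := e.isom (e.e.e.symm a) (e.e.e.symm c)
    rw [LinearEquiv.apply_symm_apply, LinearEquiv.apply_symm_apply] at h
    exact h.symm⟩

/-- composition -/
def WtIso.trans {x y z : WtForm X t} (e : WtIso x y) (e' : WtIso y z) : WtIso x z :=
  ⟨e.e.trans e'.e, fun a c => (e'.isom _ _).trans (e.isom a c)⟩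

/-- product of isomorphisms of differential objects -/
def FcIso.prodMap {A B A' B' : FcD X} (e : FcIso A A') (e' : FcIso B B') : FcIso (A.prod B) (A'.prod B') where
  e := e.e.prodCongr e'.e
  supp_eq := fun (m : A.C × B.C) => by
    show A'.supp (e.e m.1) ∪ B'.supp (e'.e m.2) = A.supp m.1 ∪ B.supp m.2
    rw [e.supp_eq, e'.supp_eq]
  comm := fun (m : A.C × B.C) => by
    show ((e.e (A.d m.1), e'.e (B.d m.2)) : A'.C × B'.C) = (A'.d (e.e m.1), B'.d (e'.e m.2))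
    rw [e.comm, e'.comm]

/-- orthogonal sum of isometric isomorphisms -/
def WtIso.sumMap {x x' y y' : WtForm X t} (e : WtIso x x') (e' : WtIso y y') :
    WtIso (x.sum y) (x'.sum y') :=
  ⟨e.e.prodMap e'.e, fun (a c : x.M.C × y.M.C) => by
    show x'.b (e.e.e a.1) (e.e.e c.1) + y'.b (e'.e.e a.2) (e'.e.e c.2) = x.b a.1 c.1 + y.b a.2 c.2
    rw [e.isom, e'.isom]⟩

/-- the opposite of an isometric isomorphism -/
def WtIso.negMap {x y : WtForm X t} (e : WtIso x y) : WtIso x.neg y.neg :=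
  ⟨e.e, fun (a c : x.M.C) => congrArg (fun r : ℝ => -r) (e.isom a c)⟩

/-- the swap of the factors -/
def fcIsoSwap (A B : FcD X) : FcIso (A.prod B) (B.prod A) where
  e := LinearEquiv.prodComm ℝ A.C B.C
  supp_eq := fun (_ : A.C × B.C) => Set.union_comm _ _
  comm := fun _ => rfl

/-- associativity of the product -/
def fcIsoAssoc (A B C : FcD X) : FcIso ((A.prod B).prod C) (A.prod (B.prod C)) where
  e := LinearEquiv.prodAssoc ℝ A.C B.C C.C
  supp_eq := fun (_ : (A.C × B.C) × C.C) => (Set.union_assoc _ _ _).symm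
  comm := fun _ => rfl

/-- `x ⊥ y ≅ y ⊥ x` -/
def wtIsoSwap (x y : WtForm X t) : WtIso (x.sum y) (y.sum x) :=
  ⟨fcIsoSwap x.M y.M, fun (a c : x.M.C × y.M.C) => by
    show y.b a.2 c.2 + x.b a.1 c.1 = x.b a.1 c.1 + y.b a.2 c.2
    ring⟩

/-- `(x ⊥ y) ⊥ z ≅ x ⊥ (y ⊥ z)` -/
def wtIsoAssoc (x y z : WtForm X t) : WtIso ((x.sum y).sum z) (x.sum (y.sum z)) :=
  ⟨fcIsoAssoc x.M y.M z.M, fun (a c : (x.M.C × y.M.C) × z.M.C) => by
    show x.b a.1.1 c.1.1 + (y.b a.1.2 c.1.2 + z.b a.2 c.2) = x.b a.1.1 c.1.1 + y.b a.1.2 c.1.2 + z.b a.2 c.2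
    ring⟩

/-- `-(x ⊥ y) ≅ -x ⊥ -y` -/
def wtIsoNegSum (x y : WtForm X t) : WtIso (x.sum y).neg (x.neg.sum y.neg) :=
  ⟨FcIso.refl _, fun (a c : x.M.C × y.M.C) => by
    show -(x.b a.1 c.1) + -(y.b a.2 c.2) = -(x.b a.1 c.1 + y.b a.2 c.2)
    ring⟩

/-- `-(-x) ≅ x` -/
def wtIsoNegNeg (x : WtForm X t) : WtIso x.neg.neg x :=
  ⟨FcIso.refl _, fun a c => by
    show x.b a c = -(-(x.b a c))
    ring⟩

/-- `0 × A ≅ A` -/
def fcIsoZeroProd (A : FcD X) : FcIso ((fcZero X).prod A) A :=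
  fckIsoOfLoc (A := (fcZero X).prod A) (B := A)
    (LinearEquiv.ofLinearMap (LinearMap.snd ℝ PUnit A.C) (LinearMap.inr ℝ PUnit A.C)
      (by apply LinearMap.ext; intro a; rfl) (by apply LinearMap.ext; rintro ⟨u, a⟩; rfl))
    (fun (m : PUnit × A.C) => Set.subset_union_right)
    (fun a => (fck_loc_inr (fcZero X).toFcObj A.toFcObj a))
    (fun _ => rfl)

/-- `0 ⊥ x ≅ x` -/
def wtIsoZeroSum (x : WtForm X t) : WtIso ((wtFormZero X t).sum x) x :=
  ⟨fcIsoZeroProd x.M, fun (a c : PUnit × x.M.C) => by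
    show x.b a.2 c.2 = 0 + x.b a.2 c.2
    ring⟩

/-- `x ⊥ 0 ≅ x` -/
def wtIsoSumZero (x : WtForm X t) : WtIso (x.sum (wtFormZero X t)) x :=
  (wtIsoSwap _ _).trans (wtIsoZeroSum x)

/-- `-0 ≅ 0` -/
def wtIsoNegZero (X : Type) [TopologicalSpace X] [T2Space X] (t : ZMod 4) :
    WtIso (wtFormZero X t).neg (wtFormZero X t) :=
  ⟨FcIso.refl _, fun _ _ => by
    show (0 : ℝ) = -0
    ring⟩

/-- `(a ⊥ b) ⊥ (c ⊥ d) ≅ (a ⊥ c) ⊥ (b ⊥ d)` -/
def wtIsoMid4 (a b c d : WtForm X t) : WtIso ((a.sum b).sum (c.sum d)) ((a.sum c).sum (b.sum d)) :=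
  (wtIsoAssoc a b (c.sum d)).trans
    (((WtIso.refl a).sumMap ((wtIsoAssoc b c d).symm.trans
      (((wtIsoSwap b c).sumMap (WtIso.refl d)).trans (wtIsoAssoc c b d)))).trans
      (wtIsoAssoc a c (b.sum d)).symm)

/-- realises the equation lemmas here (unique names) -/
theorem wt_isoLib_eqns_cite : True := by
  have := @WtIso.refl.eq_1
  have := @WtIso.symm.eq_1
  have := @WtIso.trans.eq_1
  have := @FcIso.prodMap.eq_1
  have := @WtIso.sumMap.eq_1
  have := @WtIso.negMap.eq_1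
  have := @fcIsoSwap.eq_1
  have := @fcIsoAssoc.eq_1
  have := @wtIsoSwap.eq_1
  have := @wtIsoAssoc.eq_1
  have := @wtIsoNegSum.eq_1
  have := @wtIsoNegNeg.eq_1
  have := @fcIsoZeroProd.eq_1
  have := @wtIsoZeroSum.eq_1
  have := @wtIsoSumZero.eq_1
  have := @wtIsoNegZero.eq_1
  have := @wtIsoMid4.eq_1
  trivial

end Claimed.Agent.R304
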