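/-
Row 304 (S0559, Hilbert-Smith).  Owner: helper248 (statements), helper27 (proofs).  PACKAGE WtGlue: GLUING = TRANSITIVITY.
Formulas: CbNotes.lean, block 4.

`wt_glue`:  `u = (A,a)`, `y = (Y,φ) ∈ Forms(T;P)`, `w = (C,c)`.  Data `(N₁,(α₁,η₁),h₁)` on `u ⊥ -y`, `(N₂,(η₂,γ₂),h₂)` on `y ⊥ w`.
   `N = N₁ × N₂ × Y`,  `D (n₁,n₂,y) = (d n₁, d n₂, η₁ n₁ - η₂ n₂ - d y)`   (in `T`: iterated cone of `N₁, N₂, Y`),
   `lam (n₁,n₂,y) = (α₁ n₁, γ₂ n₂)`,  `σ n = η₁ n₁ + η₂ n₂`,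
   `h = h₁ + h₂ + (k/2) (φ y (σ n') + k e φ y' (σ n))`.
   `Θ : S₁ ⊕ S₂ → S(N,lam,h)`: identity on `n₁,n₂,a,c,ν₁,ν₂`, `(y₁,y₂) ↦ (y₂ - y₁, (1/2) φ (y₁+y₂) ·)`; a chain map, filtered
   (`{ν} ⊆ {ν, (y₁+y₂)/2} ⊆ all`) with graded pieces `1, ad_y, 1`; so `cone Θ ∈ P` and `S ∈ P`.
The rest are formal consequences (with `WtCalc`).   PROVED (helper27): no gaps in this file.
-/
import Claimed.Agent.R304.WtIsoLib

set_option autoImplicit false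
set_option linter.unusedSectionVars false

namespace Claimed.Agent.R304

open Topology

variable {X : Type} [TopologicalSpace X] [T2Space X] {t : ZMod 4}

theorem wtK_cases (t : ZMod 4) : wtK t = 1 ∨ wtK t = -1 := by
  unfold wtK; split_ifs <;> simp

theorem wtE_cases (t : ZMod 4) : wtE t = 1 ∨ wtE t = -1 := by
  unfold wtE; split_ifs <;> simp

/-! ### the glued datum -/

section glue

variable {u y w : WtForm X t} (D1 : WtDat (u.sum y.neg)) (D2 : WtDat (y.sum w))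

/-- `α₁ : N₁ → A` -/
def wtgA1 : FcHom D1.N u.M := (fcbFst u.M y.M).comp D1.lam

/-- `η₁ : N₁ → Y` -/
def wtgE1 : FcHom D1.N y.M := (fcbSnd u.M y.M).comp D1.lam

/-- `η₂ : N₂ → Y` -/
def wtgE2 : FcHom D2.N y.M := (fcbFst y.M w.M).comp D2.lam

/-- `γ₂ : N₂ → C` -/
def wtgC2 : FcHom D2.N w.M := (fcbSnd y.M w.M).comp D2.lam

theorem wtg_eq1 (n n' : D1.N.C) :
    u.b ((wtgA1 D1).f n) ((wtgA1 D1).f n') - y.b ((wtgE1 D1).f n) ((wtgE1 D1).f n') =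
      D1.h n (D1.N.d n') + wtK t * D1.h (D1.N.d n) n' := by
  have h : u.b ((wtgA1 D1).f n) ((wtgA1 D1).f n') + -(y.b ((wtgE1 D1).f n) ((wtgE1 D1).f n')) = _ :=
    D1.h_eq n n'
  rw [← h]; ring

theorem wtg_eq2 (n n' : D2.N.C) :
    y.b ((wtgE2 D2).f n) ((wtgE2 D2).f n') + w.b ((wtgC2 D2).f n) ((wtgC2 D2).f n') =
      D2.h n (D2.N.d n') + wtK t * D2.h (D2.N.d n) n' := D2.h_eq n n'

/-- `τ (n₁,n₂) = η₁ n₁ - η₂ n₂` -/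
def wtgTau : (D1.N.prod D2.N).C →ₗ[ℝ] (y.M.resc (-1)).C :=
  ((wtgE1 D1).f ∘ₗ LinearMap.fst ℝ D1.N.C D2.N.C - (wtgE2 D2).f ∘ₗ LinearMap.snd ℝ D1.N.C D2.N.C :
    D1.N.C × D2.N.C →ₗ[ℝ] y.M.C)

/-- `σ (n₁,n₂) = η₁ n₁ + η₂ n₂` -/
def wtgSig : D1.N.C × D2.N.C →ₗ[ℝ] y.M.C :=
  (wtgE1 D1).f ∘ₗ LinearMap.fst ℝ D1.N.C D2.N.C + (wtgE2 D2).f ∘ₗ LinearMap.snd ℝ D1.N.C D2.N.C

theorem wtgSig_apply (n : D1.N.C × D2.N.C) :
    wtgSig D1 D2 n = (wtgE1 D1).f n.1 + (wtgE2 D2).f n.2 := rfl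

theorem wtgSig_loc (n : D1.N.C × D2.N.C) : y.M.supp (wtgSig D1 D2 n) ⊆ D1.N.supp n.1 ∪ D2.N.supp n.2 :=
  (y.M.supp_add _ _).trans (Set.union_subset_union ((wtgE1 D1).loc _) ((wtgE2 D2).loc _))

theorem wtgTau_loc : FcLoc (D1.N.prod D2.N) (y.M.resc (-1)) (wtgTau D1 D2) :=
  fun (_ : D1.N.C × D2.N.C) =>
    (y.M.supp_sub _ _).trans (Set.union_subset_union ((wtgE1 D1).loc _) ((wtgE2 D2).loc _))

theorem wtgTau_anti (n : (D1.N.prod D2.N).C) :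
    wtgTau D1 D2 ((D1.N.prod D2.N).d n) + (y.M.resc (-1)).d (wtgTau D1 D2 n) = 0 := by
  obtain ⟨n₁, n₂⟩ := (n : D1.N.C × D2.N.C)
  show ((wtgE1 D1).f (D1.N.d n₁) - (wtgE2 D2).f (D2.N.d n₂)) +
    (-1 : ℝ) • y.M.d ((wtgE1 D1).f n₁ - (wtgE2 D2).f n₂) = 0
  rw [(wtgE1 D1).comm, (wtgE2 D2).comm, map_sub]
  simp

/-- `N = (N₁ × N₂) × Y`, `D ((n₁,n₂),y) = ((d n₁, d n₂), η₁ n₁ - η₂ n₂ - d y)` -/
def wtgN : FcD X :=
  fckTw (D1.N.prod D2.N) (y.M.resc (-1)) (wtgTau D1 D2) (wtgTau_loc D1 D2) (wtgTau_anti D1 D2)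

theorem wtgN_d (n₁ : D1.N.C) (n₂ : D2.N.C) (m : y.M.C) :
    (wtgN D1 D2).d (((n₁, n₂), m) : (D1.N.C × D2.N.C) × y.M.C) =
      (((D1.N.d n₁, D2.N.d n₂), ((wtgE1 D1).f n₁ - (wtgE2 D2).f n₂) + (-1 : ℝ) • y.M.d m) :
        (D1.N.C × D2.N.C) × y.M.C) := rfl

theorem wtgN_mem (T : FcCls X) (h1 : T.mem D1.N) (h2 : T.mem D2.N) (hy : T.mem y.M) :
    T.mem (wtgN D1 D2) :=
  fck_mem_tw T _ _ _ (fcb_prod_mem T h1 h2) (T.resc _ (by norm_num) hy)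

/-- `lam ((n₁,n₂),y) = (α₁ n₁, γ₂ n₂)` -/
def wtgLam : FcHom (wtgN D1 D2) (u.sum w).M where
  f := ((wtgA1 D1).f ∘ₗ LinearMap.fst ℝ D1.N.C D2.N.C ∘ₗ LinearMap.fst ℝ (D1.N.C × D2.N.C) y.M.C).prod
    ((wtgC2 D2).f ∘ₗ LinearMap.snd ℝ D1.N.C D2.N.C ∘ₗ LinearMap.fst ℝ (D1.N.C × D2.N.C) y.M.C)
  loc := fun (n : (D1.N.C × D2.N.C) × y.M.C) => by
    show u.M.supp ((wtgA1 D1).f n.1.1) ∪ w.M.supp ((wtgC2 D2).f n.1.2) ⊆
      (D1.N.supp n.1.1 ∪ D2.N.supp n.1.2) ∪ y.M.supp n.2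
    exact (Set.union_subset_union ((wtgA1 D1).loc _) ((wtgC2 D2).loc _)).trans Set.subset_union_left
  comm := fun (n : (D1.N.C × D2.N.C) × y.M.C) => by
    show (((wtgA1 D1).f (D1.N.d n.1.1), (wtgC2 D2).f (D2.N.d n.1.2)) : u.M.C × w.M.C) =
      (u.M.d ((wtgA1 D1).f n.1.1), w.M.d ((wtgC2 D2).f n.1.2))
    rw [(wtgA1 D1).comm, (wtgC2 D2).comm]

/-- the mixed term `φ (y, σ n')` -/
def wtgMix : ((D1.N.C × D2.N.C) × y.M.C) →ₗ[ℝ] ((D1.N.C × D2.N.C) × y.M.C) →ₗ[ℝ] ℝ :=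
  y.b.compl₁₂ (LinearMap.snd ℝ (D1.N.C × D2.N.C) y.M.C)
    (wtgSig D1 D2 ∘ₗ LinearMap.fst ℝ (D1.N.C × D2.N.C) y.M.C)

/-- `h = h₁ + h₂ + (k/2) (φ (y, σ n') + k e φ (y', σ n))` -/
noncomputable def wtgH : ((D1.N.C × D2.N.C) × y.M.C) →ₗ[ℝ] ((D1.N.C × D2.N.C) × y.M.C) →ₗ[ℝ] ℝ :=
  D1.h.compl₁₂ (LinearMap.fst ℝ D1.N.C D2.N.C ∘ₗ LinearMap.fst ℝ (D1.N.C × D2.N.C) y.M.C)
      (LinearMap.fst ℝ D1.N.C D2.N.C ∘ₗ LinearMap.fst ℝ (D1.N.C × D2.N.C) y.M.C)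
    + D2.h.compl₁₂ (LinearMap.snd ℝ D1.N.C D2.N.C ∘ₗ LinearMap.fst ℝ (D1.N.C × D2.N.C) y.M.C)
      (LinearMap.snd ℝ D1.N.C D2.N.C ∘ₗ LinearMap.fst ℝ (D1.N.C × D2.N.C) y.M.C)
    + (wtK t / 2) • (wtgMix D1 D2 + (wtK t * wtE t) • (wtgMix D1 D2).flip)

theorem wtgH_apply (n n' : (D1.N.C × D2.N.C) × y.M.C) :
    wtgH D1 D2 n n' = D1.h n.1.1 n'.1.1 + D2.h n.1.2 n'.1.2 +
      (wtK t / 2) * (y.b n.2 (wtgSig D1 D2 n'.1) + (wtK t * wtE t) * y.b n'.2 (wtgSig D1 D2 n.1)) := rfl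

/-- the glued datum -/
noncomputable def wtgDat : WtDat (u.sum w) where
  N := wtgN D1 D2
  lam := wtgLam D1 D2
  h := wtgH D1 D2
  h_loc := fun (n n' : (D1.N.C × D2.N.C) × y.M.C) h => by
    have h' : Disjoint ((D1.N.supp n.1.1 ∪ D2.N.supp n.1.2) ∪ y.M.supp n.2)
      ((D1.N.supp n'.1.1 ∪ D2.N.supp n'.1.2) ∪ y.M.supp n'.2) := h
    show D1.h n.1.1 n'.1.1 + D2.h n.1.2 n'.1.2 +
      (wtK t / 2) * (y.b n.2 (wtgSig D1 D2 n'.1) + (wtK t * wtE t) * y.b n'.2 (wtgSig D1 D2 n.1)) = 0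
    rw [D1.h_loc _ _ (Set.disjoint_of_subset (Set.subset_union_left.trans Set.subset_union_left)
        (Set.subset_union_left.trans Set.subset_union_left) h'),
      D2.h_loc _ _ (Set.disjoint_of_subset (Set.subset_union_right.trans Set.subset_union_left)
        (Set.subset_union_right.trans Set.subset_union_left) h'),
      y.loc _ _ (Set.disjoint_of_subset Set.subset_union_right
        ((wtgSig_loc D1 D2 n'.1).trans Set.subset_union_left) h'),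
      y.loc _ _ (Set.disjoint_of_subset ((wtgSig_loc D1 D2 n.1).trans Set.subset_union_left)
        Set.subset_union_right h').symm]
    ring
  h_symm := fun (n n' : (D1.N.C × D2.N.C) × y.M.C) => by
    show D1.h n'.1.1 n.1.1 + D2.h n'.1.2 n.1.2 +
      (wtK t / 2) * (y.b n'.2 (wtgSig D1 D2 n.1) + (wtK t * wtE t) * y.b n.2 (wtgSig D1 D2 n'.1)) =
      wtK t * wtE t * (D1.h n.1.1 n'.1.1 + D2.h n.1.2 n'.1.2 +
      (wtK t / 2) * (y.b n.2 (wtgSig D1 D2 n'.1) + (wtK t * wtE t) * y.b n'.2 (wtgSig D1 D2 n.1)))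
    rw [D1.h_symm n.1.1, D2.h_symm n.1.2]
    linear_combination (wtK t / 2 * wtE t * wtE t * y.b n'.2 (wtgSig D1 D2 n.1)) * (- wtK_sq t)
      + (wtK t / 2 * y.b n'.2 (wtgSig D1 D2 n.1)) * (- wtE_sq t)
  h_eq := fun (n n' : (D1.N.C × D2.N.C) × y.M.C) => by
    obtain ⟨⟨n₁, n₂⟩, m⟩ := n
    obtain ⟨⟨n₁', n₂'⟩, m'⟩ := n'
    show u.b ((wtgA1 D1).f n₁) ((wtgA1 D1).f n₁') + w.b ((wtgC2 D2).f n₂) ((wtgC2 D2).f n₂') =
      wtgH D1 D2 ((n₁, n₂), m) ((D1.N.d n₁', D2.N.d n₂'),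
          ((wtgE1 D1).f n₁' - (wtgE2 D2).f n₂') + (-1 : ℝ) • y.M.d m')
        + wtK t * wtgH D1 D2 ((D1.N.d n₁, D2.N.d n₂),
          ((wtgE1 D1).f n₁ - (wtgE2 D2).f n₂) + (-1 : ℝ) • y.M.d m) ((n₁', n₂'), m')
    rw [wtgH_apply, wtgH_apply]
    simp only [wtgSig_apply, (wtgE1 D1).comm, (wtgE2 D2).comm, map_add, map_sub, map_smul,
      LinearMap.add_apply, LinearMap.sub_apply, LinearMap.smul_apply, smul_eq_mul]
    have e1 := wtg_eq1 D1 n₁ n₁'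
    have e2 := wtg_eq2 D2 n₂ n₂'
    rw [y.adj m', y.adj m', y.adj m, y.adj m, y.symm ((wtgE1 D1).f n₁) ((wtgE1 D1).f n₁'),
      y.symm ((wtgE1 D1).f n₁) ((wtgE2 D2).f n₂'), y.symm ((wtgE2 D2).f n₂) ((wtgE1 D1).f n₁'),
      y.symm ((wtgE2 D2).f n₂) ((wtgE2 D2).f n₂')]
    rcases wtK_cases t with hk | hk <;> rcases wtE_cases t with he | he <;>
      simp only [hk, he] at e1 e2 ⊢ <;> linear_combination e1 + e2

/-! ### the chain map `Θ : S₁ ⊕ S₂ → S` -/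

/-- transpose of `((n₁,n₂),y) ↦ n₁` -/
def wtgT1 : D1.N.dual.C →ₗ[ℝ] (wtgN D1 D2).dual.C :=
  fcTrLin (A := (wtgN D1 D2).toFcObj) (B := D1.N.toFcObj)
    (LinearMap.fst ℝ D1.N.C D2.N.C ∘ₗ LinearMap.fst ℝ (D1.N.C × D2.N.C) y.M.C)
    (fun (_ : (D1.N.C × D2.N.C) × y.M.C) => Set.subset_union_left.trans Set.subset_union_left)

/-- transpose of `((n₁,n₂),y) ↦ n₂` -/
def wtgT2 : D2.N.dual.C →ₗ[ℝ] (wtgN D1 D2).dual.C :=
  fcTrLin (A := (wtgN D1 D2).toFcObj) (B := D2.N.toFcObj)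
    (LinearMap.snd ℝ D1.N.C D2.N.C ∘ₗ LinearMap.fst ℝ (D1.N.C × D2.N.C) y.M.C)
    (fun (_ : (D1.N.C × D2.N.C) × y.M.C) => Set.subset_union_right.trans Set.subset_union_left)

/-- transpose of `((n₁,n₂),y) ↦ y` -/
def wtgT3 : y.M.dual.C →ₗ[ℝ] (wtgN D1 D2).dual.C :=
  fcTrLin (A := (wtgN D1 D2).toFcObj) (B := y.M.toFcObj)
    (LinearMap.snd ℝ (D1.N.C × D2.N.C) y.M.C)
    (fun (_ : (D1.N.C × D2.N.C) × y.M.C) => Set.subset_union_right)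

theorem wtgT1_loc (ν : D1.N.dual.C) : (wtgN D1 D2).dual.supp (wtgT1 D1 D2 ν) ⊆ D1.N.dual.supp ν :=
  FcObj.dualSupp_comp (A := (wtgN D1 D2).toFcObj) (B := D1.N.toFcObj) _
    (fun (_ : (D1.N.C × D2.N.C) × y.M.C) => Set.subset_union_left.trans Set.subset_union_left) ν.1

theorem wtgT2_loc (ν : D2.N.dual.C) : (wtgN D1 D2).dual.supp (wtgT2 D1 D2 ν) ⊆ D2.N.dual.supp ν :=
  FcObj.dualSupp_comp (A := (wtgN D1 D2).toFcObj) (B := D2.N.toFcObj) _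
    (fun (_ : (D1.N.C × D2.N.C) × y.M.C) => Set.subset_union_right.trans Set.subset_union_left) ν.1

theorem wtgT3_loc (μ : y.M.dual.C) : (wtgN D1 D2).dual.supp (wtgT3 D1 D2 μ) ⊆ y.M.dual.supp μ :=
  FcObj.dualSupp_comp (A := (wtgN D1 D2).toFcObj) (B := y.M.toFcObj) _
    (fun (_ : (D1.N.C × D2.N.C) × y.M.C) => Set.subset_union_right) μ.1

/-- the third component of `Θ` -/
noncomputable def wtgXi : D1.N.dual.C × D2.N.dual.C × y.M.C →ₗ[ℝ] (wtgN D1 D2).dual.C :=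
  wtgT1 D1 D2 ∘ₗ LinearMap.fst ℝ _ _ + wtgT2 D1 D2 ∘ₗ LinearMap.fst ℝ _ _ ∘ₗ LinearMap.snd ℝ _ _
    + (1 / 2 : ℝ) • (wtgT3 D1 D2 ∘ₗ fcCurry y.b y.loc ∘ₗ LinearMap.snd ℝ _ _ ∘ₗ LinearMap.snd ℝ _ _)

theorem wtgXi_ap (ν₁ : D1.N.dual.C) (ν₂ : D2.N.dual.C) (m : y.M.C) (n₁ : D1.N.C) (n₂ : D2.N.C)
    (m' : y.M.C) :
    fcAp (A := wtgN D1 D2) (wtgXi D1 D2 (ν₁, ν₂, m)) (((n₁, n₂), m') : (D1.N.C × D2.N.C) × y.M.C) =
      fcAp ν₁ n₁ + fcAp ν₂ n₂ + (1 / 2) * y.b m m' := rfl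

theorem wtgXi_loc (ν₁ : D1.N.dual.C) (ν₂ : D2.N.dual.C) (m : y.M.C) :
    (wtgN D1 D2).dual.supp (wtgXi D1 D2 (ν₁, ν₂, m)) ⊆
      (D1.N.dual.supp ν₁ ∪ D2.N.dual.supp ν₂) ∪ y.M.supp m := by
  refine ((wtgN D1 D2).dual.supp_add _ _).trans (Set.union_subset_union
    (((wtgN D1 D2).dual.supp_add _ _).trans (Set.union_subset_union (wtgT1_loc D1 D2 _)
      (wtgT2_loc D1 D2 _))) ?_)
  exact ((wtgN D1 D2).dual.supp_smul _ _).trans ((wtgT3_loc D1 D2 _).trans (fck_curry_loc y.b y.loc m))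

/-- `Θ` as a linear map -/
noncomputable def wtgThL :
    (D1.N.C × ((u.M.C × y.M.C) × D1.N.dual.C)) × (D2.N.C × ((y.M.C × w.M.C) × D2.N.dual.C)) →ₗ[ℝ]
      ((D1.N.C × D2.N.C) × y.M.C) × ((u.M.C × w.M.C) × (wtgN D1 D2).dual.C) where
  toFun s := (((s.1.1, s.2.1), s.2.2.1.1 - s.1.2.1.2), ((s.1.2.1.1, s.2.2.1.2),
    wtgXi D1 D2 (s.1.2.2, s.2.2.2, s.1.2.1.2 + s.2.2.1.1)))
  map_add' a b := by
    refine Prod.ext (Prod.ext rfl ?_) (Prod.ext rfl ?_)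
    · show (a.2.2.1.1 + b.2.2.1.1) - (a.1.2.1.2 + b.1.2.1.2) =
        (a.2.2.1.1 - a.1.2.1.2) + (b.2.2.1.1 - b.1.2.1.2)
      abel
    · show wtgXi D1 D2 (a.1.2.2 + b.1.2.2, a.2.2.2 + b.2.2.2,
          (a.1.2.1.2 + b.1.2.1.2) + (a.2.2.1.1 + b.2.2.1.1)) =
        wtgXi D1 D2 (a.1.2.2, a.2.2.2, a.1.2.1.2 + a.2.2.1.1) +
          wtgXi D1 D2 (b.1.2.2, b.2.2.2, b.1.2.1.2 + b.2.2.1.1)
      rw [← map_add]
      congr 1
      refine Prod.ext rfl (Prod.ext rfl ?_)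
      show (a.1.2.1.2 + b.1.2.1.2) + (a.2.2.1.1 + b.2.2.1.1) =
        (a.1.2.1.2 + a.2.2.1.1) + (b.1.2.1.2 + b.2.2.1.1)
      abel
  map_smul' c a := by
    refine Prod.ext (Prod.ext rfl ?_) (Prod.ext rfl ?_)
    · show c • a.2.2.1.1 - c • a.1.2.1.2 = c • (a.2.2.1.1 - a.1.2.1.2)
      rw [smul_sub]
    · show wtgXi D1 D2 (c • a.1.2.2, c • a.2.2.2, c • a.1.2.1.2 + c • a.2.2.1.1) =
        c • wtgXi D1 D2 (a.1.2.2, a.2.2.2, a.1.2.1.2 + a.2.2.1.1)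
      rw [← map_smul]
      congr 1
      refine Prod.ext rfl (Prod.ext rfl ?_)
      show c • a.1.2.1.2 + c • a.2.2.1.1 = c • (a.1.2.1.2 + a.2.2.1.1)
      rw [smul_add]

theorem wtgThL_apply (n₁ : D1.N.C) (a : u.M.C) (y₁ : y.M.C) (ν₁ : D1.N.dual.C) (n₂ : D2.N.C)
    (y₂ : y.M.C) (c : w.M.C) (ν₂ : D2.N.dual.C) :
    wtgThL D1 D2 ((n₁, (a, y₁), ν₁), (n₂, (y₂, c), ν₂)) =
      (((n₁, n₂), y₂ - y₁), ((a, c), wtgXi D1 D2 (ν₁, ν₂, y₁ + y₂))) := rfl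

/-- `Θ : S₁ ⊕ S₂ → S` -/
noncomputable def wtgTh : FcHom (D1.S.M.prod D2.S.M) (wtgDat D1 D2).S.M where
  f := wtgThL D1 D2
  loc := fun (s : (D1.N.C × ((u.M.C × y.M.C) × D1.N.dual.C)) ×
      (D2.N.C × ((y.M.C × w.M.C) × D2.N.dual.C))) => by
    obtain ⟨⟨n₁, ⟨a, y₁⟩, ν₁⟩, ⟨n₂, ⟨y₂, c⟩, ν₂⟩⟩ := s
    show ((D1.N.supp n₁ ∪ D2.N.supp n₂) ∪ y.M.supp (y₂ - y₁)) ∪ ((u.M.supp a ∪ w.M.supp c) ∪
        (wtgN D1 D2).dual.supp (wtgXi D1 D2 (ν₁, ν₂, y₁ + y₂))) ⊆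
      (D1.N.supp n₁ ∪ ((u.M.supp a ∪ y.M.supp y₁) ∪ D1.N.dual.supp ν₁)) ∪
        (D2.N.supp n₂ ∪ ((y.M.supp y₂ ∪ w.M.supp c) ∪ D2.N.dual.supp ν₂))
    have h1 := y.M.supp_sub y₂ y₁
    have h2 := (wtgXi_loc D1 D2 ν₁ ν₂ (y₁ + y₂))
    have h3 := y.M.supp_add y₁ y₂
    intro z hz
    simp only [Set.mem_union] at hz ⊢
    rcases hz with (((hz | hz) | hz) | ((hz | hz) | hz))
    · tauto
    · tauto
    · have := h1 hz
      simp only [Set.mem_union] at this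
      tauto
    · tauto
    · tauto
    · have := h2 hz
      simp only [Set.mem_union] at this
      rcases this with ((h | h) | h)
      · tauto
      · tauto
      · have := h3 h
        simp only [Set.mem_union] at this
        tauto
  comm := fun (s : (D1.N.C × ((u.M.C × y.M.C) × D1.N.dual.C)) ×
      (D2.N.C × ((y.M.C × w.M.C) × D2.N.dual.C))) => by
    obtain ⟨⟨n₁, ⟨a, y₁⟩, ν₁⟩, ⟨n₂, ⟨y₂, c⟩, ν₂⟩⟩ := s
    refine Prod.ext (Prod.ext rfl ?_) (Prod.ext rfl ?_)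
    · show ((wtgE2 D2).f n₂ + y.M.d y₂) - ((wtgE1 D1).f n₁ + y.M.d y₁) =
        -(((wtgE1 D1).f n₁ - (wtgE2 D2).f n₂) + (-1 : ℝ) • y.M.d (y₂ - y₁))
      rw [map_sub, neg_one_smul]
      abel
    · apply fck_dual_ext (A := wtgN D1 D2)
      intro (n' : (D1.N.C × D2.N.C) × y.M.C)
      obtain ⟨⟨n₁', n₂'⟩, m'⟩ := n'
      show (D1.h n₁ n₁' + wtK t * (u.b a ((wtgA1 D1).f n₁') + -(y.b y₁ ((wtgE1 D1).f n₁')))
            - wtK t * fcAp ν₁ (D1.N.d n₁'))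
          + (D2.h n₂ n₂' + wtK t * (y.b y₂ ((wtgE2 D2).f n₂') + w.b c ((wtgC2 D2).f n₂'))
            - wtK t * fcAp ν₂ (D2.N.d n₂'))
          + (1 / 2) * y.b (((wtgE1 D1).f n₁ + y.M.d y₁) + ((wtgE2 D2).f n₂ + y.M.d y₂)) m' =
        wtgH D1 D2 ((n₁, n₂), y₂ - y₁) ((n₁', n₂'), m')
          + wtK t * (u.b a ((wtgA1 D1).f n₁') + w.b c ((wtgC2 D2).f n₂'))
          - wtK t * (fcAp ν₁ (D1.N.d n₁') + fcAp ν₂ (D2.N.d n₂')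
            + (1 / 2) * y.b (y₁ + y₂) (((wtgE1 D1).f n₁' - (wtgE2 D2).f n₂') + (-1 : ℝ) • y.M.d m'))
      rw [wtgH_apply]
      simp only [wtgSig_apply, map_add, map_sub, map_smul, LinearMap.add_apply, LinearMap.sub_apply,
        smul_eq_mul]
      rw [y.adj y₁, y.adj y₂, y.symm ((wtgE1 D1).f n₁) m', y.symm ((wtgE2 D2).f n₂) m']
      rcases wtK_cases t with hk | hk <;> rcases wtE_cases t with he | he <;>
        simp only [hk, he] <;> ring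

/-! ### the filtration of the source -/

/-- the twisting map of `F₂`: `m ↦ (-k φ m (η₁ ·), k φ m (η₂ ·))` -/
def wtgRho : y.M.C →ₗ[ℝ] ((D1.N.dual.resc (-(wtK t))).prod (D2.N.dual.resc (-(wtK t)))).C :=
  ((((-(wtK t)) • ((fcTr (wtgE1 D1)).f ∘ₗ fcCurry y.b y.loc)).prod
    (wtK t • ((fcTr (wtgE2 D2)).f ∘ₗ fcCurry y.b y.loc))) : y.M.C →ₗ[ℝ] D1.N.dual.C × D2.N.dual.C)

theorem wtgRho_loc : FcLoc y.M ((D1.N.dual.resc (-(wtK t))).prod (D2.N.dual.resc (-(wtK t))))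
    (wtgRho D1 D2) := fun m =>
  Set.union_subset
    ((D1.N.dual.supp_smul _ _).trans (((fcTr (wtgE1 D1)).loc _).trans (fck_curry_loc y.b y.loc m)))
    ((D2.N.dual.supp_smul _ _).trans (((fcTr (wtgE2 D2)).loc _).trans (fck_curry_loc y.b y.loc m)))

theorem wtgRho_anti (m : y.M.C) : wtgRho D1 D2 (y.M.d m) +
    ((D1.N.dual.resc (-(wtK t))).prod (D2.N.dual.resc (-(wtK t)))).d (wtgRho D1 D2 m) = 0 := by
  refine Prod.ext ?_ ?_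
  · apply fck_dual_ext (A := D1.N)
    intro n
    show (-(wtK t)) * y.b (y.M.d m) ((wtgE1 D1).f n) +
      (-(wtK t)) * ((-(wtK t)) * y.b m ((wtgE1 D1).f (D1.N.d n))) = 0
    rw [y.adj, (wtgE1 D1).comm]; ring
  · apply fck_dual_ext (A := D2.N)
    intro n
    show wtK t * y.b (y.M.d m) ((wtgE2 D2).f n) +
      (-(wtK t)) * (wtK t * y.b m ((wtgE2 D2).f (D2.N.d n))) = 0
    rw [y.adj, (wtgE2 D2).comm]; ring

/-- `F₂ = {(ȳ,(ν₁,ν₂))}` -/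
def wtgF : FcD X :=
  fckTw y.M ((D1.N.dual.resc (-(wtK t))).prod (D2.N.dual.resc (-(wtK t)))) (wtgRho D1 D2)
    (wtgRho_loc D1 D2) (wtgRho_anti D1 D2)

/-- the inclusion `F₂ → S₁ ⊕ S₂` -/
def wtgFi : FcHom (wtgF D1 D2) (D1.S.M.prod D2.S.M) where
  f :=
    { toFun := fun (b : y.M.C × (D1.N.dual.C × D2.N.dual.C)) =>
        (((0, ((0, b.1), b.2.1)), (0, ((b.1, 0), b.2.2))) :
          (D1.N.C × ((u.M.C × y.M.C) × D1.N.dual.C)) × (D2.N.C × ((y.M.C × w.M.C) × D2.N.dual.C)))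
      map_add' := fun (a b : y.M.C × (D1.N.dual.C × D2.N.dual.C)) => by
        refine Prod.ext (Prod.ext ?_ (Prod.ext (Prod.ext ?_ rfl) rfl))
          (Prod.ext ?_ (Prod.ext (Prod.ext rfl ?_) rfl))
        · exact (add_zero (0 : D1.N.C)).symm
        · exact (add_zero (0 : u.M.C)).symm
        · exact (add_zero (0 : D2.N.C)).symm
        · exact (add_zero (0 : w.M.C)).symm
      map_smul' := fun c (a : y.M.C × (D1.N.dual.C × D2.N.dual.C)) => by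
        refine Prod.ext (Prod.ext ?_ (Prod.ext (Prod.ext ?_ rfl) rfl))
          (Prod.ext ?_ (Prod.ext (Prod.ext rfl ?_) rfl))
        · exact (smul_zero c).symm
        · exact (smul_zero c).symm
        · exact (smul_zero c).symm
        · exact (smul_zero c).symm }
  loc := fun (b : y.M.C × (D1.N.dual.C × D2.N.dual.C)) => by
    show (D1.N.supp 0 ∪ ((u.M.supp 0 ∪ y.M.supp b.1) ∪ D1.N.dual.supp b.2.1)) ∪
        (D2.N.supp 0 ∪ ((y.M.supp b.1 ∪ w.M.supp 0) ∪ D2.N.dual.supp b.2.2)) ⊆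
      y.M.supp b.1 ∪ (D1.N.dual.supp b.2.1 ∪ D2.N.dual.supp b.2.2)
    rw [D1.N.supp_zero, D2.N.supp_zero, u.M.supp_zero, w.M.supp_zero]
    intro z hz
    simp only [Set.mem_union, Set.mem_empty_iff_false, false_or, or_false] at hz ⊢
    tauto
  comm := fun (b : y.M.C × (D1.N.dual.C × D2.N.dual.C)) => by
    obtain ⟨m, ν₁, ν₂⟩ := b
    refine Prod.ext (Prod.ext ?_ (Prod.ext (Prod.ext ?_ ?_) ?_))
      (Prod.ext ?_ (Prod.ext (Prod.ext ?_ ?_) ?_))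
    · show (0 : D1.N.C) = -(D1.N.d 0)
      rw [map_zero, neg_zero]
    · show (0 : u.M.C) = (wtgA1 D1).f 0 + u.M.d 0
      rw [map_zero, map_zero, add_zero]
    · show y.M.d m = (wtgE1 D1).f 0 + y.M.d m
      rw [map_zero, zero_add]
    · apply fck_dual_ext (A := D1.N)
      intro n
      show (-(wtK t)) * y.b m ((wtgE1 D1).f n) + (-(wtK t)) * fcAp ν₁ (D1.N.d n) =
        D1.h 0 n + wtK t * (u.b 0 ((wtgA1 D1).f n) + -(y.b m ((wtgE1 D1).f n)))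
          - wtK t * fcAp ν₁ (D1.N.d n)
      rw [map_zero, map_zero, LinearMap.zero_apply, LinearMap.zero_apply]
      ring
    · show (0 : D2.N.C) = -(D2.N.d 0)
      rw [map_zero, neg_zero]
    · show y.M.d m = (wtgE2 D2).f 0 + y.M.d m
      rw [map_zero, zero_add]
    · show (0 : w.M.C) = (wtgC2 D2).f 0 + w.M.d 0
      rw [map_zero, map_zero, add_zero]
    · apply fck_dual_ext (A := D2.N)
      intro n
      show wtK t * y.b m ((wtgE2 D2).f n) + (-(wtK t)) * fcAp ν₂ (D2.N.d n) =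
        D2.h 0 n + wtK t * (y.b m ((wtgE2 D2).f n) + w.b 0 ((wtgC2 D2).f n))
          - wtK t * fcAp ν₂ (D2.N.d n)
      rw [map_zero, map_zero, LinearMap.zero_apply, LinearMap.zero_apply]
      ring

/-- the retraction `S₁ ⊕ S₂ → F₂` -/
noncomputable def wtgFr :
    (D1.N.C × ((u.M.C × y.M.C) × D1.N.dual.C)) × (D2.N.C × ((y.M.C × w.M.C) × D2.N.dual.C)) →ₗ[ℝ]
      y.M.C × (D1.N.dual.C × D2.N.dual.C) :=
  LinearMap.prod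
    ((1 / 2 : ℝ) • (LinearMap.snd ℝ _ _ ∘ₗ LinearMap.fst ℝ _ _ ∘ₗ LinearMap.snd ℝ _ _ ∘ₗ LinearMap.fst ℝ _ _
      + LinearMap.fst ℝ _ _ ∘ₗ LinearMap.fst ℝ _ _ ∘ₗ LinearMap.snd ℝ _ _ ∘ₗ LinearMap.snd ℝ _ _))
    (LinearMap.prod (LinearMap.snd ℝ _ _ ∘ₗ LinearMap.snd ℝ _ _ ∘ₗ LinearMap.fst ℝ _ _)
      (LinearMap.snd ℝ _ _ ∘ₗ LinearMap.snd ℝ _ _ ∘ₗ LinearMap.snd ℝ _ _))

theorem wtgFr_apply (n₁ : D1.N.C) (a : u.M.C) (y₁ : y.M.C) (ν₁ : D1.N.dual.C) (n₂ : D2.N.C)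
    (y₂ : y.M.C) (c : w.M.C) (ν₂ : D2.N.dual.C) :
    wtgFr D1 D2 ((n₁, (a, y₁), ν₁), (n₂, (y₂, c), ν₂)) = ((1 / 2 : ℝ) • (y₁ + y₂), (ν₁, ν₂)) := rfl

/-- the section `cone(lam) → S₁ ⊕ S₂` -/
noncomputable def wtgFs : ((D1.N.C × D2.N.C) × y.M.C) × (u.M.C × w.M.C) →ₗ[ℝ]
    (D1.N.C × ((u.M.C × y.M.C) × D1.N.dual.C)) × (D2.N.C × ((y.M.C × w.M.C) × D2.N.dual.C)) :=
  LinearMap.prod
    (LinearMap.prod (LinearMap.fst ℝ _ _ ∘ₗ LinearMap.fst ℝ _ _ ∘ₗ LinearMap.fst ℝ _ _)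
      (LinearMap.prod (LinearMap.prod (LinearMap.fst ℝ _ _ ∘ₗ LinearMap.snd ℝ _ _)
        ((-(1 / 2) : ℝ) • (LinearMap.snd ℝ _ _ ∘ₗ LinearMap.fst ℝ _ _))) 0))
    (LinearMap.prod (LinearMap.snd ℝ _ _ ∘ₗ LinearMap.fst ℝ _ _ ∘ₗ LinearMap.fst ℝ _ _)
      (LinearMap.prod (LinearMap.prod ((1 / 2 : ℝ) • (LinearMap.snd ℝ _ _ ∘ₗ LinearMap.fst ℝ _ _))
        (LinearMap.snd ℝ _ _ ∘ₗ LinearMap.snd ℝ _ _)) 0))

theorem wtgFs_apply (n₁ : D1.N.C) (n₂ : D2.N.C) (m : y.M.C) (a : u.M.C) (c : w.M.C) :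
    wtgFs D1 D2 (((n₁, n₂), m), (a, c)) =
      ((n₁, (a, (-(1 / 2) : ℝ) • m), 0), (n₂, ((1 / 2 : ℝ) • m, c), 0)) := rfl

theorem wtg_half_add (m : y.M.C) : (1 / 2 : ℝ) • (m + m) = m := by
  rw [← two_smul ℝ m, smul_smul]; norm_num

/-- `F₂ → S₁ ⊕ S₂ → cone(lam)` -/
noncomputable def wtgExt : FcExt (wtgF D1 D2) (D1.S.M.prod D2.S.M) (fcCone (wtgDat D1 D2).lam) where
  i := wtgFi D1 D2
  p := (wtsExtB (wtgDat D1 D2)).p.comp (wtgTh D1 D2)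
  r := wtgFr D1 D2
  s := wtgFs D1 D2
  r_loc := fun (s : (D1.N.C × ((u.M.C × y.M.C) × D1.N.dual.C)) ×
      (D2.N.C × ((y.M.C × w.M.C) × D2.N.dual.C))) => by
    obtain ⟨⟨n₁, ⟨a, y₁⟩, ν₁⟩, ⟨n₂, ⟨y₂, c⟩, ν₂⟩⟩ := s
    show y.M.supp ((1 / 2 : ℝ) • (y₁ + y₂)) ∪ (D1.N.dual.supp ν₁ ∪ D2.N.dual.supp ν₂) ⊆
      (D1.N.supp n₁ ∪ ((u.M.supp a ∪ y.M.supp y₁) ∪ D1.N.dual.supp ν₁)) ∪
        (D2.N.supp n₂ ∪ ((y.M.supp y₂ ∪ w.M.supp c) ∪ D2.N.dual.supp ν₂))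
    have h1 := (y.M.supp_smul (1 / 2 : ℝ) (y₁ + y₂)).trans (y.M.supp_add y₁ y₂)
    intro z hz
    simp only [Set.mem_union] at hz ⊢
    rcases hz with hz | hz
    · have := h1 hz
      simp only [Set.mem_union] at this
      tauto
    · tauto
  s_loc := fun (q : ((D1.N.C × D2.N.C) × y.M.C) × (u.M.C × w.M.C)) => by
    obtain ⟨⟨⟨n₁, n₂⟩, m⟩, ⟨a, c⟩⟩ := q
    show (D1.N.supp n₁ ∪ ((u.M.supp a ∪ y.M.supp ((-(1 / 2) : ℝ) • m)) ∪ D1.N.dual.supp 0)) ∪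
        (D2.N.supp n₂ ∪ ((y.M.supp ((1 / 2 : ℝ) • m) ∪ w.M.supp c) ∪ D2.N.dual.supp 0)) ⊆
      ((D1.N.supp n₁ ∪ D2.N.supp n₂) ∪ y.M.supp m) ∪ (u.M.supp a ∪ w.M.supp c)
    rw [D1.N.dual.supp_zero, D2.N.dual.supp_zero]
    have h1 := y.M.supp_smul (-(1 / 2) : ℝ) m
    have h2 := y.M.supp_smul (1 / 2 : ℝ) m
    intro z hz
    simp only [Set.mem_union, Set.mem_empty_iff_false, or_false] at hz ⊢
    rcases hz with (hz | (hz | hz)) | (hz | (hz | hz))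
    · tauto
    · tauto
    · have := h1 hz
      tauto
    · tauto
    · have := h2 hz
      tauto
    · tauto
  ri := fun (b : y.M.C × (D1.N.dual.C × D2.N.dual.C)) => by
    obtain ⟨m, ν₁, ν₂⟩ := b
    show (((1 / 2 : ℝ) • (m + m), (ν₁, ν₂)) : y.M.C × (D1.N.dual.C × D2.N.dual.C)) = (m, ν₁, ν₂)
    rw [wtg_half_add]
  ps := fun (q : ((D1.N.C × D2.N.C) × y.M.C) × (u.M.C × w.M.C)) => by
    obtain ⟨⟨⟨n₁, n₂⟩, m⟩, ⟨a, c⟩⟩ := q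
    show ((((n₁, n₂), (1 / 2 : ℝ) • m - (-(1 / 2) : ℝ) • m), (a, c)) :
      ((D1.N.C × D2.N.C) × y.M.C) × (u.M.C × w.M.C)) = (((n₁, n₂), m), (a, c))
    have : (1 / 2 : ℝ) • m - (-(1 / 2) : ℝ) • m = m := by
      rw [← sub_smul]; norm_num
    rw [this]
  sum := fun (s : (D1.N.C × ((u.M.C × y.M.C) × D1.N.dual.C)) ×
      (D2.N.C × ((y.M.C × w.M.C) × D2.N.dual.C))) => by
    obtain ⟨⟨n₁, ⟨a, y₁⟩, ν₁⟩, ⟨n₂, ⟨y₂, c⟩, ν₂⟩⟩ := s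
    show ((((0 : D1.N.C) + n₁, ((0 : u.M.C) + a, (1 / 2 : ℝ) • (y₁ + y₂) + (-(1 / 2) : ℝ) • (y₂ - y₁)),
        ν₁ + 0), ((0 : D2.N.C) + n₂, ((1 / 2 : ℝ) • (y₁ + y₂) + (1 / 2 : ℝ) • (y₂ - y₁), (0 : w.M.C) + c),
        ν₂ + 0)) : (D1.N.C × ((u.M.C × y.M.C) × D1.N.dual.C)) ×
          (D2.N.C × ((y.M.C × w.M.C) × D2.N.dual.C))) = ((n₁, (a, y₁), ν₁), (n₂, (y₂, c), ν₂))
    have e1 : (1 / 2 : ℝ) • (y₁ + y₂) + (-(1 / 2) : ℝ) • (y₂ - y₁) = y₁ := by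
      rw [smul_add, smul_sub, neg_smul, neg_smul]
      have := wtg_half_add y₁
      rw [smul_add] at this
      conv_rhs => rw [← this]
      abel
    have e2 : (1 / 2 : ℝ) • (y₁ + y₂) + (1 / 2 : ℝ) • (y₂ - y₁) = y₂ := by
      rw [smul_add, smul_sub]
      have := wtg_half_add y₂
      rw [smul_add] at this
      conv_rhs => rw [← this]
      abel
    rw [e1, e2, zero_add, zero_add, zero_add, zero_add, add_zero, add_zero]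

/-! ### `Θ` is a `P`-equivalence -/

/-- `Θ₂ : F₂ → N^∨<-k>` -/
noncomputable def wtgTh2 : FcHom (wtgF D1 D2) ((wtgN D1 D2).dual.resc (-(wtK t))) :=
  FcExt.subMap (wtgExt D1 D2) (wtsExtB (wtgDat D1 D2)) (wtgTh D1 D2) (wtgExt D1 D2).pi

theorem wtgTh2_ap (m : y.M.C) (ν₁ : D1.N.dual.C) (ν₂ : D2.N.dual.C) (n₁ : D1.N.C) (n₂ : D2.N.C)
    (m' : y.M.C) :
    fcAp (A := wtgN D1 D2) ((wtgTh2 D1 D2).f ((m, (ν₁, ν₂)) : y.M.C × (D1.N.dual.C × D2.N.dual.C)))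
      (((n₁, n₂), m') : (D1.N.C × D2.N.C) × y.M.C) =
      fcAp ν₁ n₁ + fcAp ν₂ n₂ + (1 / 2) * y.b (m + m) m' := rfl

/-- the extension `(N₁ × N₂)^∨<-k> → N^∨<-k> → (Y<-1>)^∨<-k>` -/
def wtgExtN : FcExt ((D1.N.prod D2.N).dual.resc (-(wtK t))) ((wtgN D1 D2).dual.resc (-(wtK t)))
    ((y.M.resc (-1)).dual.resc (-(wtK t))) :=
  ((fckExtTw (wtgTau D1 D2) (wtgTau_loc D1 D2) (wtgTau_anti D1 D2)).dual).resc (-(wtK t))

/-- the extension `N₁^∨<-k> × N₂^∨<-k> → F₂ → Y` -/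
def wtgExtF : FcExt ((D1.N.dual.resc (-(wtK t))).prod (D2.N.dual.resc (-(wtK t)))) (wtgF D1 D2) y.M :=
  fckExtTw (wtgRho D1 D2) (wtgRho_loc D1 D2) (wtgRho_anti D1 D2)

theorem wtg_filt2 (b : ((D1.N.dual.resc (-(wtK t))).prod (D2.N.dual.resc (-(wtK t)))).C) :
    (wtgExtN D1 D2).p.f ((wtgTh2 D1 D2).f ((wtgExtF D1 D2).i.f b)) = 0 := by
  have key : ∀ (ν₁ : D1.N.dual.C) (ν₂ : D2.N.dual.C) (m' : y.M.C),
      fcAp ν₁ (0 : D1.N.C) + fcAp ν₂ (0 : D2.N.C) + (1 / 2) * y.b ((0 : y.M.C) + 0) m' = 0 := by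
    intro ν₁ ν₂ m'
    rw [fcAp_map_zero, fcAp_map_zero, add_zero (0 : y.M.C), map_zero, LinearMap.zero_apply]
    ring
  apply fck_dual_ext (A := y.M.resc (-1))
  intro m'
  exact key (b : D1.N.dual.C × D2.N.dual.C).1 (b : D1.N.dual.C × D2.N.dual.C).2 m'

theorem wtg_Th2_mem (P : FcCls X) (hy : P.mem (fcCone y.ad)) : P.mem (fcCone (wtgTh2 D1 D2)) := by
  refine fcb_extHom_mem P (FcExt.filtHom (wtgExtF D1 D2) (wtgExtN D1 D2) (wtgTh2 D1 D2)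
    (wtg_filt2 D1 D2)) ?_ ?_
  · -- the piece `N₁^∨ × N₂^∨ → (N₁ × N₂)^∨` is an isomorphism
    refine P.acyc (fck_cone_acyc_of_inv _ (fckDualProd D1.N.toFcObj D2.N.toFcObj).toLinearMap
      (fun ξ => (fckDualProd_supp D1.N.toFcObj D2.N.toFcObj ξ).subset) ?_ ?_)
    · intro (a : D1.N.dual.C × D2.N.dual.C)
      obtain ⟨ν₁, ν₂⟩ := a
      refine Prod.ext ?_ ?_
      · apply fck_dual_ext (A := D1.N)
        intro n₁
        show fcAp ν₁ n₁ + fcAp ν₂ (0 : D2.N.C) + (1 / 2) * y.b ((0 : y.M.C) + 0) 0 = fcAp ν₁ n₁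
        rw [fcAp_map_zero, map_zero]; ring
      · apply fck_dual_ext (A := D2.N)
        intro n₂
        show fcAp ν₁ (0 : D1.N.C) + fcAp ν₂ n₂ + (1 / 2) * y.b ((0 : y.M.C) + 0) 0 = fcAp ν₂ n₂
        rw [fcAp_map_zero, map_zero]; ring
    · intro (ξ : (D1.N.prod D2.N).dual.C)
      apply fck_dual_ext (A := D1.N.prod D2.N)
      intro (n : D1.N.C × D2.N.C)
      show fcAp ξ ((n.1, 0) : D1.N.C × D2.N.C) + fcAp ξ ((0, n.2) : D1.N.C × D2.N.C)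
        + (1 / 2) * y.b ((0 : y.M.C) + 0) 0 = fcAp ξ n
      have h := fcAp_map_add (A := D1.N.prod D2.N) ξ ((n.1, 0) : D1.N.C × D2.N.C)
        ((0, n.2) : D1.N.C × D2.N.C)
      rw [← h, map_zero, mul_zero, add_zero]
      congr 1
      show ((n.1 + 0, 0 + n.2) : D1.N.C × D2.N.C) = n
      rw [zero_add, add_zero]
  · -- the piece `Y → (Y<-1>)^∨<-k>` is `ad_y`
    refine (fck_cone_congr P y.ad (FcExt.filtHom (wtgExtF D1 D2) (wtgExtN D1 D2) (wtgTh2 D1 D2)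
      (wtg_filt2 D1 D2)).fA (LinearEquiv.refl ℝ y.M.C) (LinearEquiv.refl ℝ y.M.dual.C)
      (fun _ => rfl) (fun _ => rfl) 1 1 one_ne_zero one_ne_zero (fun (m : y.M.C) => ?_)
      (fun (μ : y.M.dual.C) => ?_) (fun (m : y.M.C) => ?_)).2 hy
    · show y.M.d m = (1 : ℝ) • y.M.d m
      rw [one_smul]
    · apply fck_dual_ext (A := y.M)
      intro m'
      show (-(wtK t)) * fcAp μ ((-1 : ℝ) • y.M.d m') = 1 * (wtK t * fcAp μ (y.M.d m'))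
      rw [fcAp_map_smul]; ring
    · apply fck_dual_ext (A := y.M)
      intro m'
      show fcAp (0 : D1.N.dual.C) (0 : D1.N.C) + fcAp (0 : D2.N.dual.C) (0 : D2.N.C)
        + (1 / 2) * y.b (m + m) m' = 1 * y.b m m'
      rw [fcAp_zero, fcAp_zero, map_add, LinearMap.add_apply]; ring

theorem wtg_Th_mem (P : FcCls X) (hy : P.mem (fcCone y.ad)) : P.mem (fcCone (wtgTh D1 D2)) := by
  refine fcb_extHom_mem P (FcExt.filtHom (wtgExt D1 D2) (wtsExtB (wtgDat D1 D2)) (wtgTh D1 D2)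
    (wtgExt D1 D2).pi) (wtg_Th2_mem D1 D2 P hy) ?_
  have h : (FcExt.filtHom (wtgExt D1 D2) (wtsExtB (wtgDat D1 D2)) (wtgTh D1 D2)
      (wtgExt D1 D2).pi).fA = fcId _ := FcHom.ext' (fun q => (wtgExt D1 D2).ps q)
  rw [h]
  exact fcb_cone_id_mem P _

end glue

/-- (G2) gluing of null-cobordisms along a common form `y` -/
theorem wt_glue (T P : FcCls X) {u y w : WtForm X t} (hy : y.In T P)
    (h1 : WtNC T P (u.sum y.neg)) (h2 : WtNC T P (y.sum w)) : WtNC T P (u.sum w) := by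
  obtain ⟨D1, hN1, hS1⟩ := h1
  obtain ⟨D2, hN2, hS2⟩ := h2
  exact ⟨wtgDat D1 D2, wtgN_mem D1 D2 T hN1 hN2 hy.1,
    P.cone_tgt (wtgTh D1 D2) (fcb_prod_mem P hS1 hS2) (wtg_Th_mem D1 D2 P hy.2)⟩

theorem wt_rel_refl (T P : FcCls X) {x : WtForm X t} (hx : x.In T P) : WtRel T P x x :=
  wt_nc_diag T P hx

theorem wt_rel_symm (T P : FcCls X) {x y : WtForm X t} (h : WtRel T P x y) : WtRel T P y x :=
  wt_nc_iso T P ((wtIsoNegSum x y.neg).trans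
    (((WtIso.refl x.neg).sumMap (wtIsoNegNeg y)).trans (wtIsoSwap x.neg y))) (wt_nc_neg T P h)

theorem wt_rel_trans (T P : FcCls X) {x y z : WtForm X t} (hy : y.In T P)
    (h1 : WtRel T P x y) (h2 : WtRel T P y z) : WtRel T P x z :=
  wt_glue T P hy h1 h2

theorem wt_rel_sum (T P : FcCls X) {x x' y y' : WtForm X t}
    (h1 : WtRel T P x x') (h2 : WtRel T P y y') : WtRel T P (x.sum y) (x'.sum y') :=
  wt_nc_iso T P ((wtIsoMid4 x x'.neg y y'.neg).trans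
    ((WtIso.refl (x.sum y)).sumMap (wtIsoNegSum x' y').symm)) (wt_nc_sum T P h1 h2)

theorem wt_rel_neg (T P : FcCls X) {x x' : WtForm X t} (h1 : WtRel T P x x') :
    WtRel T P x.neg x'.neg :=
  wt_nc_iso T P (wtIsoNegSum x x'.neg) (wt_nc_neg T P h1)

/-- `[x] = 0` iff `x` is null-cobordant -/
theorem wt_rel_zero_iff (T P : FcCls X) {x : WtForm X t} :
    WtRel T P x (wtFormZero X t) ↔ WtNC T P x :=
  ⟨fun h => wt_nc_iso T P (((WtIso.refl x).sumMap (wtIsoNegZero X t)).trans (wtIsoSumZero x)) h,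
    fun h => wt_nc_iso T P (((WtIso.refl x).sumMap (wtIsoNegZero X t)).trans (wtIsoSumZero x)).symm h⟩

/-- null-cobordism only depends on the cobordism class -/
theorem wt_nc_of_rel (T P : FcCls X) {x y : WtForm X t} (hx : x.In T P) (h : WtRel T P x y)
    (hnc : WtNC T P x) : WtNC T P y := by
  have h1 : WtNC T P ((wtFormZero X t).sum x.neg) :=
    wt_nc_iso T P (wtIsoZeroSum x.neg).symm (wt_nc_neg T P hnc)
  have h2 : WtNC T P ((wtFormZero X t).sum y.neg) := wt_glue T P hx h1 h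
  exact wt_nc_iso T P (wtIsoNegNeg y) (wt_nc_neg T P (wt_nc_iso T P (wtIsoZeroSum y.neg) h2))

theorem wt_rel_sum_comm (T P : FcCls X) {x y : WtForm X t} (hx : x.In T P) (hy : y.In T P) :
    WtRel T P (x.sum y) (y.sum x) :=
  wt_rel_of_iso T P (wtIsoSwap x y) (wt_in_sum T P hx hy)

theorem wt_rel_sum_assoc (T P : FcCls X) {x y z : WtForm X t} (hx : x.In T P) (hy : y.In T P)
    (hz : z.In T P) : WtRel T P ((x.sum y).sum z) (x.sum (y.sum z)) :=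
  wt_rel_of_iso T P (wtIsoAssoc x y z) (wt_in_sum T P (wt_in_sum T P hx hy) hz)

theorem wt_rel_zero_sum (T P : FcCls X) {x : WtForm X t} (hx : x.In T P) :
    WtRel T P ((wtFormZero X t).sum x) x :=
  wt_rel_of_iso T P (wtIsoZeroSum x) (wt_in_sum T P (wt_in_zero T P) hx)

theorem wt_rel_neg_sum (T P : FcCls X) {x : WtForm X t} (hx : x.In T P) :
    WtRel T P (x.neg.sum x) (wtFormZero X t) :=
  (wt_rel_zero_iff T P).2 (wt_nc_iso T P (wtIsoSwap x x.neg) (wt_nc_diag T P hx))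

/-- realises the equation lemmas here (unique names) -/
theorem wtg_eqns_cite : True := by
  have := @wtgA1.eq_1
  have := @wtgE1.eq_1
  have := @wtgE2.eq_1
  have := @wtgC2.eq_1
  have := @wtgTau.eq_1
  have := @wtgSig.eq_1
  have := @wtgN.eq_1
  have := @wtgLam.eq_1
  have := @wtgMix.eq_1
  have := @wtgH.eq_1
  have := @wtgDat.eq_1
  have := @wtgT1.eq_1
  have := @wtgT2.eq_1
  have := @wtgT3.eq_1
  have := @wtgXi.eq_1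
  have := @wtgThL.eq_1
  have := @wtgTh.eq_1
  have := @wtgRho.eq_1
  have := @wtgF.eq_1
  have := @wtgFi.eq_1
  have := @wtgFr.eq_1
  have := @wtgFs.eq_1
  have := @wtgExt.eq_1
  have := @wtgTh2.eq_1
  have := @wtgExtN.eq_1
  have := @wtgExtF.eq_1
  trivial

end Claimed.Agent.R304
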