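/-
Row 304 (S0559, Hilbert-Smith).  Owner: helper248 (statements), helper27 (proofs).  PACKAGE WtBd: SURGERY INVARIANCE AND THE BOUNDARY.
Formulas: CbNotes.lean, blocks 5 and 6.

* `wt_surgery` (F2): `x ~ S(N,lam,h)`.  Datum on `x ⊥ -S`: `G = {(p,ν)} ⊆ S` (subcomplex `D (p,ν) = (d p, k b p (lam ·) - k ν ∘ d)`),
     `Lam (p,ν) = (p,(0,p,ν))`, `h_G = 0`.  Lemma L (`wt_redL`) with `Q = cone(lam)` (coordinates `n`, `r = p₂ - p₁`):
     `θ (n,r) = -k (b r ·, e ev n)`, filtered with graded pieces `ad`, `ev`.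
* `wt_bd_in`: `ad` of `bd x` is `[[0,1],[e' ev,0]]`: graded pieces `1`, `ev`.
* `wt_bd_nc` (F4): `V = N × M^∨ × N^∨`, `D (n,μ,ν) = (-d n, b (lam n) · + k μ ∘ d, h n + k μ ∘ lam - k ν ∘ d)`; `(1,ad,1) : S → V` shows `V ∈ P`;
     `lam_V (n,μ,ν) = (lam n, μ)`, `h_V (v,v') = - ν n' - e ν' n`; `S(V,lam_V,h_V)` is the cone of a filtered map with graded pieces
     `-1, 1, k'e' ev_M, -e ev_N`, hence locally acyclic.
* `wt_bd_sum`, `wt_bd_neg`: explicit isometric isomorphisms (`(m,μ) ↦ (m,-μ)` for `neg`).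
PROVED (helper27): F4 is proved by the ROOF  bd S <- cone(W) -> bd x  of isometric NN-equivalences (WtS.lean: wtsExtI, wtsExtII) and the
Lagrangian S^v of bd S (S in P), not by the object V.  No gaps in this file.
-/
import Claimed.Agent.R304.WtGlue

set_option autoImplicit false

namespace Claimed.Agent.R304

open Topology

variable {X : Type} [TopologicalSpace X] [T2Space X] {t : ZMod 4}

/-! ### (F2) -/

section surgery

variable {x : WtForm X t} (D : WtDat x)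

/-- the trace of the surgery: the datum `(R, (p,ν) ↦ (p,(0,p,ν)), 0)` on `x ⊥ -S` -/
def wtbTraceDat : WtDat (x.sum D.S.neg) where
  N := wtsR D
  lam := FcHom.pair (wtsExtC D).p (wtsExtA D).i
  h := 0
  h_loc := fun _ _ _ => rfl
  h_symm := fun _ _ => by simp
  h_eq := fun (r r' : x.M.C × D.N.dual.C) => by
    show x.b r.1 r'.1 + -(fcAp r.2 (0 : D.N.C) + x.b r.1 r'.1 + wtE t * fcAp r'.2 (0 : D.N.C)) =
      (0 : ℝ) + wtK t * 0
    rw [fcAp_map_zero, fcAp_map_zero]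
    ring

/-- `R → M × S → cone(lam)`, `(p₁,(n,p₂,ν)) ↦ (n, p₂ - p₁)` -/
def wtbTraceExt : FcExt (wtsR D) (x.M.prod D.S.M) (fcCone D.lam) where
  i := FcHom.pair (wtsExtC D).p (wtsExtA D).i
  p := ⟨((LinearMap.fst ℝ D.N.C (x.M.C × D.N.dual.C)) ∘ₗ
        LinearMap.snd ℝ x.M.C (D.N.C × (x.M.C × D.N.dual.C))).prod
      (LinearMap.fst ℝ x.M.C D.N.dual.C ∘ₗ LinearMap.snd ℝ D.N.C (x.M.C × D.N.dual.C) ∘ₗ
        LinearMap.snd ℝ x.M.C (D.N.C × (x.M.C × D.N.dual.C))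
        - LinearMap.fst ℝ x.M.C (D.N.C × (x.M.C × D.N.dual.C))),
    fun (m : x.M.C × (D.N.C × (x.M.C × D.N.dual.C))) => by
      show D.N.supp m.2.1 ∪ x.M.supp (m.2.2.1 - m.1) ⊆
        x.M.supp m.1 ∪ (D.N.supp m.2.1 ∪ (x.M.supp m.2.2.1 ∪ D.N.dual.supp m.2.2.2))
      intro z hz
      rcases hz with hz | hz
      · exact Or.inr (Or.inl hz)
      · rcases x.M.supp_sub _ _ hz with h | h
        · exact Or.inr (Or.inr (Or.inl h))
        · exact Or.inl h,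
    fun (m : x.M.C × (D.N.C × (x.M.C × D.N.dual.C))) => by
      show ((-(D.N.d m.2.1), (D.lam.f m.2.1 + x.M.d m.2.2.1) - x.M.d m.1) : D.N.C × x.M.C) =
        (-(D.N.d m.2.1), D.lam.f m.2.1 + x.M.d (m.2.2.1 - m.1))
      rw [map_sub, add_sub_assoc]⟩
  r := (LinearMap.fst ℝ x.M.C (D.N.C × (x.M.C × D.N.dual.C))).prod
      (LinearMap.snd ℝ x.M.C D.N.dual.C ∘ₗ LinearMap.snd ℝ D.N.C (x.M.C × D.N.dual.C) ∘ₗ
        LinearMap.snd ℝ x.M.C (D.N.C × (x.M.C × D.N.dual.C)))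
  s := LinearMap.inr ℝ x.M.C (D.N.C × (x.M.C × D.N.dual.C)) ∘ₗ (wtsExtB D).s
  r_loc := fun (m : x.M.C × (D.N.C × (x.M.C × D.N.dual.C))) => by
    show x.M.supp m.1 ∪ D.N.dual.supp m.2.2.2 ⊆
      x.M.supp m.1 ∪ (D.N.supp m.2.1 ∪ (x.M.supp m.2.2.1 ∪ D.N.dual.supp m.2.2.2))
    exact Set.union_subset_union subset_rfl
      (Set.subset_union_right.trans Set.subset_union_right)
  s_loc := fun m => (fck_loc_inr x.M.toFcObj D.S.M.toFcObj _).trans ((wtsExtB D).s_loc m)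
  ri := fun _ => rfl
  ps := fun (m : D.N.C × x.M.C) => by
    show ((m.1, m.2 - 0) : D.N.C × x.M.C) = m
    rw [sub_zero]
  sum := fun (m : x.M.C × (D.N.C × (x.M.C × D.N.dual.C))) => by
    obtain ⟨p₁, n, p₂, ν⟩ := m
    show ((p₁ + 0, 0 + n, p₁ + (p₂ - p₁), ν + 0) : x.M.C × (D.N.C × (x.M.C × D.N.dual.C))) =
      (p₁, n, p₂, ν)
    rw [add_zero, zero_add, add_zero, add_sub_cancel]

end surgery

/-- (F2) surgery does not change the cobordism class -/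
theorem wt_surgery (T P : FcCls X) (hT : T.Refl) {x : WtForm X t} (hx : x.In T P) (D : WtDat x)
    (hN : T.mem D.N) : WtRel T P x D.S := by
  refine ⟨wtbTraceDat D, wts_R_mem D T hx.1 hN, ?_⟩
  rw [wts_L_iff (wtbTraceDat D) (wtbTraceExt D) P (fun _ => rfl)]
  refine (fck_cone_congr P (wtsV D) (wtsTheta (wtbTraceDat D) (wtbTraceExt D) (fun _ => rfl))
    (LinearEquiv.refl ℝ (fcCone D.lam).C) (LinearEquiv.refl ℝ (wtsR D).dual.C) (fun _ => rfl)
    (fun _ => rfl) (-1) (-(wtK t)) (by norm_num) (neg_ne_zero.2 (wtK_ne_zero t)) (fun _ => rfl)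
    (fun (μ : (wtsR D).dual.C) => ?_) (fun (q : D.N.C × x.M.C) => ?_)).2
    (wts_V_mem D P (hT _ hN) hx.2)
  · show (-(wtK t)) • (wtsR D).dual.d μ = (-1 : ℝ) • (wtK t • (wtsR D).dual.d μ)
    rw [smul_smul]; congr 1; ring
  · apply fck_dual_ext (A := wtsR D)
    intro (r : x.M.C × D.N.dual.C)
    obtain ⟨n, p⟩ := q
    obtain ⟨p', ν'⟩ := r
    have h := wtsV_ap D p p' n ν'
    show wtK t * (x.b 0 p' + -(fcAp (0 : D.N.dual.C) (0 : D.N.C) + x.b p p' + wtE t * fcAp ν' n)) - (0 : ℝ)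
      = (-(wtK t)) * fcAp (A := wtsR D) ((wtsV D).f ((n, p) : D.N.C × x.M.C)) ((p', ν') : x.M.C × D.N.dual.C)
    rw [h, map_zero, LinearMap.zero_apply, fcAp_zero]
    ring

/-! ### the boundary is a nonsingular form -/

section pieces

variable (P : FcCls X) {N : FcD X} {k₁ k₂ : ℝ}

/-- the graded piece "`1`": `N^∨<k₁> → (N<-1>)^∨<k₂>`, `k₁ = -k₂` -/
theorem wtb_one_mem (hk : k₂ ≠ 0) (h12 : k₁ = -k₂) (g : FcHom (N.dual.resc k₁) ((N.resc (-1)).dual.resc k₂))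
    (hg : ∀ (ν : N.dual.C) (n : N.C), fcAp (A := N) (g.f ν) n = fcAp ν n) : P.mem (fcCone g) := by
  subst h12
  exact wts_one_mem P hk g hg

/-- the graded piece "`e ev`": `N<-1> → (N^∨<k₁>)^∨<k₂>`, `k₁ k₂ = -1` -/
theorem wtb_ev_mem (hN : (fcCone (fcEv N)).Acyc) (hk : k₁ * k₂ = -1) {e : ℝ} (he : e ≠ 0)
    (g : FcHom (N.resc (-1)) ((N.dual.resc k₁).dual.resc k₂))
    (hg : ∀ (n : N.C) (ν : N.dual.C), fcAp (A := N.dual) (g.f n) ν = e * fcAp ν n) :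
    P.mem (fcCone g) := by
  refine fck_ev_congr P hN g (LinearEquiv.refl ℝ N.C) (LinearEquiv.refl ℝ N.dual.dual.C)
    (fun _ => rfl) (fun _ => rfl) (-1) e (by norm_num) he (fun _ => rfl)
    (fun (ξ : N.dual.dual.C) => ?_) (fun (n : N.C) => ?_)
  · apply fck_dual_ext (A := N.dual)
    intro ν
    show k₂ * fcAp ξ (k₁ • N.dual.d ν) = (-1) * fcAp ξ (N.dual.d ν)
    rw [fcAp_map_smul]
    linear_combination (fcAp ξ (N.dual.d ν)) * hk
  · apply fck_dual_ext (A := N.dual)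
    intro ν
    exact hg n ν

end pieces

theorem wtb_KK {t t' : ZMod 4} (ht : t' + 1 = t) : wtK t * wtK t' = -1 := by
  rw [wtK_pred ht]
  linear_combination (-1 : ℝ) * wtK_sq t

/-- `ad` of the boundary maps `M^∨` into `(M<-1>)^∨` -/
theorem wtb_filt_bd (x : WtForm X t) (t' : ZMod 4) (ht : t' + 1 = t) (μ : (x.M.dual.resc (wtK t)).C) :
    ((fcbExtCone x.ad).dual.resc (wtK t')).p.f ((x.bd t' ht).ad.f ((fcbExtCone x.ad).i.f μ)) = 0 := by
  have key : ∀ (μ μ' : x.M.dual.C), fcAp μ (0 : x.M.C) + wtE t' * fcAp μ' (0 : x.M.C) = 0 := by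
    intro μ μ'
    rw [fcAp_map_zero, fcAp_map_zero]
    simp
  apply fck_dual_ext (A := x.M.dual.resc (wtK t))
  intro μ'
  exact key μ μ'

/-- the adjoint of the boundary is an `N0`-equivalence for every class `N0` -/
theorem wtb_bd_ad_mem (N0 : FcCls X) (x : WtForm X t) (hM : (fcCone (fcEv x.M)).Acyc) (t' : ZMod 4)
    (ht : t' + 1 = t) : N0.mem (fcCone (x.bd t' ht).ad) := by
  refine fcb_extHom_mem N0 (FcExt.filtHom (fcbExtCone x.ad) ((fcbExtCone x.ad).dual.resc (wtK t'))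
    (x.bd t' ht).ad (wtb_filt_bd x t' ht)) ?_ ?_
  · refine wtb_one_mem N0 (wtK_ne_zero t') (by rw [wtK_pred ht, neg_neg]) _ (fun μ m => ?_)
    show fcAp μ m + wtE t' * fcAp (0 : x.M.dual.C) (0 : x.M.C) = fcAp μ m
    rw [fcAp_zero]; ring
  · refine wtb_ev_mem N0 hM (wtb_KK ht) (wtE_ne_zero t') _ (fun m μ => ?_)
    show fcAp (0 : x.M.dual.C) (0 : x.M.C) + wtE t' * fcAp μ m = wtE t' * fcAp μ m
    rw [fcAp_zero]; ring

/-- the boundary of a form in `(T;P)` is a form in `(P;N0)` for every class `N0` -/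
theorem wt_bd_in (T P N0 : FcCls X) (hT : T.Refl) {x : WtForm X t} (hx : x.In T P) (t' : ZMod 4)
    (ht : t' + 1 = t) : (x.bd t' ht).In P N0 :=
  ⟨hx.2, wtb_bd_ad_mem N0 x (hT _ hx.1) t' ht⟩

/-! ### the Lagrangian `M^∨` of the boundary -/

/-- the datum `(M^∨<k>, inclusion, 0)` on `bd x` -/
def wtbLagDat (x : WtForm X t) (t' : ZMod 4) (ht : t' + 1 = t) : WtDat (x.bd t' ht) where
  N := x.M.dual.resc (wtK t)
  lam := fcbConeIn x.ad
  h := 0
  h_loc := fun _ _ _ => rfl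
  h_symm := fun _ _ => by simp
  h_eq := fun (μ μ' : x.M.dual.C) => by
    show fcAp μ (0 : x.M.C) + wtE t' * fcAp μ' (0 : x.M.C) = (0 : ℝ) + wtK t' * 0
    rw [fcAp_map_zero, fcAp_map_zero]
    ring

/-- `bd x` is null-cobordant in `(T';N0)` as soon as `M ∈ T'` (and `M` is reflexive) -/
theorem wtb_bd_nc_of_mem (T' N0 : FcCls X) (x : WtForm X t) (hM : (fcCone (fcEv x.M)).Acyc)
    (hT' : T'.mem x.M) (t' : ZMod 4) (ht : t' + 1 = t) : WtNC T' N0 (x.bd t' ht) := by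
  refine ⟨wtbLagDat x t' ht, T'.resc _ (wtK_ne_zero t) (T'.dual hT'), ?_⟩
  rw [wts_L_iff (wtbLagDat x t' ht) (fcbExtCone x.ad) N0 (fun _ => rfl)]
  refine fck_ev_congr N0 hM (wtsTheta (wtbLagDat x t' ht) (fcbExtCone x.ad) (fun _ => rfl))
    (LinearEquiv.refl ℝ x.M.C) (LinearEquiv.refl ℝ x.M.dual.dual.C)
    (fun _ => rfl) (fun _ => rfl) 1 (wtK t' * wtE t') one_ne_zero
    (mul_ne_zero (wtK_ne_zero t') (wtE_ne_zero t')) (fun (m : x.M.C) => ?_)
    (fun (ξ : x.M.dual.dual.C) => ?_) (fun (m : x.M.C) => ?_)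
  · show (-1 : ℝ) • ((-1 : ℝ) • x.M.d m) = (1 : ℝ) • x.M.d m
    rw [smul_smul]; norm_num
  · apply fck_dual_ext (A := x.M.dual)
    intro μ
    show (-(wtK t')) * fcAp ξ (wtK t • x.M.dual.d μ) = 1 * fcAp ξ (x.M.dual.d μ)
    rw [fcAp_map_smul]
    linear_combination (-(fcAp ξ (x.M.dual.d μ))) * wtb_KK ht
  · apply fck_dual_ext (A := x.M.dual)
    intro μ
    show wtK t' * (fcAp (0 : x.M.dual.C) (0 : x.M.C) + wtE t' * fcAp μ m) - (0 : ℝ) =
      (wtK t' * wtE t') * fcAp μ m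
    rw [fcAp_zero]; ring

/-! ### pull-back of forms -/

/-- the pull-back of a form along a chain map -/
def wtbPull (y : WtForm X t) {A : FcD X} (f : FcHom A y.M) : WtForm X t where
  M := A
  b := y.b.compl₁₂ f.f f.f
  loc := fun a c h => y.loc _ _ (Set.disjoint_of_subset (f.loc a) (f.loc c) h)
  symm := fun a c => y.symm _ _
  adj := fun a c => by
    show y.b (f.f (A.d a)) (f.f c) = wtK t * y.b (f.f a) (f.f (A.d c))
    rw [f.comm, f.comm, y.adj]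

/-- the tautological isometry -/
def wtbPullIsom (y : WtForm X t) {A : FcD X} (f : FcHom A y.M) : WtIsom (wtbPull y f) y := ⟨f, fun _ _ => rfl⟩

/-- if `f : w → y` is an isometric `N0`-equivalence and `y` is nonsingular modulo `N0`, so is `w` -/
theorem wtb_ad_of_isom (N0 : FcCls X) {w y : WtForm X t} (f : WtIsom w y) (hf : N0.mem (fcCone f.f))
    (hy : N0.mem (fcCone y.ad)) : N0.mem (fcCone w.ad) := by
  have h : w.ad = (((fcTr f.f).resc (wtK t)).comp y.ad).comp f.f := by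
    apply FcHom.ext'
    intro a
    apply fck_dual_ext (A := w.M)
    intro c
    exact (f.isom a c).symm
  rw [h]
  exact fcb_comp_mem N0 _ _ hf (fcb_comp_mem N0 _ _ hy
    ((fcb_cone_resc_iff N0 _ (wtK_ne_zero t)).2 (fck_eqv_tr N0 _ hf)))

/-! ### (F4) the roof `bd S ← W → bd x` -/

section roof

variable {x : WtForm X t} (D : WtDat x) (t' : ZMod 4) (ht : t' + 1 = t)

/-- the form on `cone(W)` -/
def wtbRoof : WtForm X t' := wtbPull (D.S.bd t' ht) (wtsExtI D).i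

/-- the second leg of the roof -/
def wtbRoofIsom : WtIsom (wtbRoof D t' ht) (x.bd t' ht) := ⟨(wtsExtII D).p, fun _ _ => rfl⟩

end roof

/-- (F4) the boundary of a null-cobordant form is null-cobordant -/
theorem wt_bd_nc (T P N0 : FcCls X) (hT : T.Refl) {x : WtForm X t} (hx : x.In T P)
    (hnc : WtNC T P x) (t' : ZMod 4) (ht : t' + 1 = t) : WtNC P N0 (x.bd t' ht) := by
  obtain ⟨D, hN, hS⟩ := hnc
  have hSin : D.S.In T P := wt_in_S T P hT hx D hN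
  have hbS : (D.S.bd t' ht).In P N0 := wt_bd_in T P N0 hT hSin t' ht
  have hbx : (x.bd t' ht).In P N0 := wt_bd_in T P N0 hT hx t' ht
  -- the two legs are `N0`-equivalences
  have h1 : N0.mem (fcCone (wtsExtI D).i) := by
    rw [fcb_ext_i_mem_iff]
    refine wts_ev_mem N0 (hT _ hN) (wtK_sq t) (wtE_ne_zero t) _ (fun n ν => ?_)
    show fcAp (0 : D.N.dual.C) (0 : D.N.C) + x.b 0 0 + wtE t * fcAp ν n = wtE t * fcAp ν n
    rw [fcAp_zero, map_zero]
    simp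
  have h2 : N0.mem (fcCone (wtsExtII D).p) := by
    rw [fcb_ext_p_mem_iff]
    refine wts_one_mem N0 (wtK_ne_zero t) _ (fun ν n => ?_)
    have h := wtsW_ap D 0 0 ν n
    rw [map_zero, add_zero] at h
    exact h
  have hw : (wtbRoof D t' ht).In P N0 :=
    ⟨(wts_W_iff D P).2 hx.2, wtb_ad_of_isom N0 (wtbRoofIsom D t' ht) h2 hbx.2⟩
  have r1 : WtRel P N0 (wtbRoof D t' ht) (D.S.bd t' ht) :=
    wt_rel_of_isom P N0 (wtbPullIsom (D.S.bd t' ht) (wtsExtI D).i) h1 hw hbS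
  have r2 : WtRel P N0 (wtbRoof D t' ht) (x.bd t' ht) :=
    wt_rel_of_isom P N0 (wtbRoofIsom D t' ht) h2 hw hbx
  have n1 : WtNC P N0 (D.S.bd t' ht) := wtb_bd_nc_of_mem P N0 D.S (hT _ hSin.1) hS t' ht
  exact wt_nc_of_rel P N0 hw r2 (wt_nc_of_rel P N0 hbS (wt_rel_symm P N0 r1) n1)

/-! ### additivity of the boundary -/

/-- `cone(ad_{x ⊥ y}) ≅ cone(ad_x) × cone(ad_y)` -/
def wtbBdSumIso (x y : WtForm X t) : FcIso (fcCone (x.sum y).ad) ((fcCone x.ad).prod (fcCone y.ad)) where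
  e := ((LinearEquiv.refl ℝ (x.M.C × y.M.C)).prodCongr (fckDualProd x.M.toFcObj y.M.toFcObj)).trans
    (LinearEquiv.prodProdProdComm ℝ x.M.C y.M.C x.M.dual.C y.M.dual.C)
  supp_eq := fun (m : (x.M.C × y.M.C) × (x.M.prod y.M).dual.C) => by
    have h := fckDualProd_supp x.M.toFcObj y.M.toFcObj m.2
    show (x.M.supp m.1.1 ∪ x.M.dual.supp (fckDualProd x.M.toFcObj y.M.toFcObj m.2).1) ∪
        (y.M.supp m.1.2 ∪ y.M.dual.supp (fckDualProd x.M.toFcObj y.M.toFcObj m.2).2) =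
      (x.M.supp m.1.1 ∪ y.M.supp m.1.2) ∪ (x.M.prod y.M).dual.supp m.2
    rw [Set.union_union_union_comm]
    exact congrArg (fun S => (x.M.supp m.1.1 ∪ y.M.supp m.1.2) ∪ S) h
  comm := fun (m : (x.M.C × y.M.C) × (x.M.prod y.M).dual.C) => by
    obtain ⟨⟨a, b⟩, ξ⟩ := m
    refine Prod.ext (Prod.ext rfl ?_) (Prod.ext rfl ?_)
    · apply fck_dual_ext (A := x.M)
      intro a'
      show (x.b a a' + y.b b 0) + wtK t * fcAp ξ ((x.M.d a', y.M.d 0) : x.M.C × y.M.C) =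
        x.b a a' + wtK t * fcAp ξ ((x.M.d a', 0) : x.M.C × y.M.C)
      rw [map_zero, map_zero, add_zero]
    · apply fck_dual_ext (A := y.M)
      intro b'
      show (x.b a 0 + y.b b b') + wtK t * fcAp ξ ((x.M.d 0, y.M.d b') : x.M.C × y.M.C) =
        y.b b b' + wtK t * fcAp ξ ((0, y.M.d b') : x.M.C × y.M.C)
      rw [map_zero, map_zero, zero_add]

theorem wt_bd_sum (x y : WtForm X t) (t' : ZMod 4) (ht : t' + 1 = t) :
    Nonempty (WtIso ((x.sum y).bd t' ht) ((x.bd t' ht).sum (y.bd t' ht))) := by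
  refine ⟨⟨wtbBdSumIso x y, fun (u v : (x.M.C × y.M.C) × (x.M.prod y.M).dual.C) => ?_⟩⟩
  obtain ⟨⟨a, b⟩, ξ⟩ := u
  obtain ⟨⟨a', b'⟩, ξ'⟩ := v
  show (fcAp ξ ((a', 0) : x.M.C × y.M.C) + wtE t' * fcAp ξ' ((a, 0) : x.M.C × y.M.C)) +
      (fcAp ξ ((0, b') : x.M.C × y.M.C) + wtE t' * fcAp ξ' ((0, b) : x.M.C × y.M.C)) =
    fcAp ξ ((a', b') : x.M.C × y.M.C) + wtE t' * fcAp ξ' ((a, b) : x.M.C × y.M.C)
  have h1 : fcAp ξ ((a', b') : x.M.C × y.M.C) =
      fcAp ξ ((a', 0) : x.M.C × y.M.C) + fcAp ξ ((0, b') : x.M.C × y.M.C) := by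
    have h := fcAp_map_add (A := x.M.prod y.M) ξ ((a', 0) : x.M.C × y.M.C) ((0, b') : x.M.C × y.M.C)
    rw [← h]
    congr 1
    show ((a', b') : x.M.C × y.M.C) = (a' + 0, 0 + b')
    rw [add_zero, zero_add]
  have h2 : fcAp ξ' ((a, b) : x.M.C × y.M.C) =
      fcAp ξ' ((a, 0) : x.M.C × y.M.C) + fcAp ξ' ((0, b) : x.M.C × y.M.C) := by
    have h := fcAp_map_add (A := x.M.prod y.M) ξ' ((a, 0) : x.M.C × y.M.C) ((0, b) : x.M.C × y.M.C)
    rw [← h]
    congr 1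
    show ((a, b) : x.M.C × y.M.C) = (a + 0, 0 + b)
    rw [add_zero, zero_add]
  rw [h1, h2]
  ring

/-- `cone(ad_{-x}) ≅ cone(ad_x)`, `(m,μ) ↦ (m,-μ)` -/
def wtbBdNegIso (x : WtForm X t) : FcIso (fcCone x.neg.ad) (fcCone x.ad) where
  e := (LinearEquiv.refl ℝ x.M.C).prodCongr (LinearEquiv.neg ℝ (M := x.M.dual.C))
  supp_eq := fun (m : x.M.C × x.M.dual.C) =>
    congrArg (fun S => x.M.supp m.1 ∪ S) (fcb_supp_neg_eq x.M.dual.toFcObj m.2)
  comm := fun (m : x.M.C × x.M.dual.C) => by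
    obtain ⟨a, μ⟩ := m
    refine Prod.ext rfl ?_
    apply fck_dual_ext (A := x.M)
    intro a'
    show -(-(x.b a a') + wtK t * fcAp μ (x.M.d a')) = x.b a a' + wtK t * (-(fcAp μ (x.M.d a')))
    ring

theorem wt_bd_neg (x : WtForm X t) (t' : ZMod 4) (ht : t' + 1 = t) :
    Nonempty (WtIso (x.neg.bd t' ht) (x.bd t' ht).neg) := by
  refine ⟨⟨wtbBdNegIso x, fun (u v : x.M.C × x.M.dual.C) => ?_⟩⟩
  show -(-(fcAp u.2 v.1) + wtE t' * (-(fcAp v.2 u.1))) = fcAp u.2 v.1 + wtE t' * fcAp v.2 u.1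
  ring

/-- the boundary respects cobordism -/
theorem wt_bd_rel (T P N0 : FcCls X) (hT : T.Refl) {x y : WtForm X t} (hx : x.In T P) (hy : y.In T P)
    (h : WtRel T P x y) (t' : ZMod 4) (ht : t' + 1 = t) :
    WtRel P N0 (x.bd t' ht) (y.bd t' ht) := by
  have h1 : WtNC P N0 ((x.sum y.neg).bd t' ht) :=
    wt_bd_nc T P N0 hT (wt_in_sum T P hx (wt_in_neg T P hy)) h t' ht
  obtain ⟨e1⟩ := wt_bd_sum x y.neg t' ht
  obtain ⟨e2⟩ := wt_bd_neg y t' ht
  exact wt_nc_iso P N0 (e1.trans ((WtIso.refl _).sumMap e2)) h1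

/-- realises the equation lemmas here (unique names) -/
theorem wtb_eqns_cite : True := by
  have := @wtbTraceDat.eq_1
  have := @wtbTraceExt.eq_1
  have := @wtbLagDat.eq_1
  have := @wtbPull.eq_1
  have := @wtbPullIsom.eq_1
  have := @wtbRoof.eq_1
  have := @wtbRoofIsom.eq_1
  have := @wtbBdSumIso.eq_1
  have := @wtbBdNegIso.eq_1
  trivial

end Claimed.Agent.R304
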