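/-
Row 304 (S0559, Hilbert-Smith).  Owner: helper248.  DEFINITIONS: the cobordism groups `WtH T P t = h^t(T;P)`, the maps induced by
inclusions of classes, the boundary map.   (No sorry here: everything is reduced to WtCalc, WtGlue, WtBd.)
-/
import Claimed.Agent.R304.WtGlue
import Claimed.Agent.R304.WtBd

set_option autoImplicit false

namespace Claimed.Agent.R304

open Topology

variable {X : Type} [TopologicalSpace X] [T2Space X]

theorem fcZero_acyc (X : Type) [TopologicalSpace X] : (fcZero X).Acyc := by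
  intro U _ _ m _ _
  exact ⟨m, by simp [fcZero], rfl⟩

/-- the forms in `(T; P)` of type `t` -/
def WtOb (T P : FcCls X) (t : ZMod 4) : Type 1 := {x : WtForm X t // x.In T P}

/-- cobordism as a setoid -/
def wtSetoid (T P : FcCls X) (t : ZMod 4) : Setoid (WtOb T P t) where
  r x y := WtRel T P x.1 y.1
  iseqv :=
    { refl := fun x => wt_rel_refl T P x.2
      symm := fun h => wt_rel_symm T P h
      trans := fun {_ y _} h1 h2 => wt_rel_trans T P y.2 h1 h2 }

/-- the cobordism group `h^t(T;P)` -/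
def WtH (T P : FcCls X) (t : ZMod 4) : Type 1 := Quotient (wtSetoid T P t)

/-- the class of a form -/
def wtMk (T P : FcCls X) {t : ZMod 4} (x : WtForm X t) (hx : x.In T P) : WtH T P t :=
  Quotient.mk (wtSetoid T P t) ⟨x, hx⟩

/-- addition -/
def wtAdd (T P : FcCls X) (t : ZMod 4) : WtH T P t → WtH T P t → WtH T P t :=
  Quotient.map₂ (sa := wtSetoid T P t) (sb := wtSetoid T P t) (sc := wtSetoid T P t)
    (fun x y => ⟨x.1.sum y.1, wt_in_sum T P x.2 y.2⟩)
    (fun _ _ h1 _ _ h2 => wt_rel_sum T P h1 h2)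

/-- negation -/
def wtNeg (T P : FcCls X) (t : ZMod 4) : WtH T P t → WtH T P t :=
  Quotient.map (sa := wtSetoid T P t) (sb := wtSetoid T P t)
    (fun x => ⟨x.1.neg, wt_in_neg T P x.2⟩) (fun _ _ h => wt_rel_neg T P h)

/-- addition as an instance -/
instance wtHAdd (T P : FcCls X) (t : ZMod 4) : Add (WtH T P t) := ⟨wtAdd T P t⟩

/-- zero as an instance -/
instance wtHZero (T P : FcCls X) (t : ZMod 4) : Zero (WtH T P t) :=
  ⟨wtMk T P (wtFormZero X t) (wt_in_zero T P)⟩

/-- negation as an instance -/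
instance wtHNeg (T P : FcCls X) (t : ZMod 4) : Neg (WtH T P t) := ⟨wtNeg T P t⟩

/-- the group structure -/
instance wtHGrp (T P : FcCls X) (t : ZMod 4) : AddCommGroup (WtH T P t) :=
  { AddGroup.ofLeftAxioms (G := WtH T P t)
      (by
        rintro ⟨a⟩ ⟨b⟩ ⟨c⟩
        exact Quotient.sound (s := wtSetoid T P t) (wt_rel_sum_assoc T P a.2 b.2 c.2))
      (by
        rintro ⟨a⟩
        exact Quotient.sound (s := wtSetoid T P t) (wt_rel_zero_sum T P a.2))
      (by
        rintro ⟨a⟩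
        exact Quotient.sound (s := wtSetoid T P t) (wt_rel_neg_sum T P a.2)) with
    add_comm := by
      rintro ⟨a⟩ ⟨b⟩
      exact Quotient.sound (s := wtSetoid T P t) (wt_rel_sum_comm T P a.2 b.2) }

theorem wtMk_add (T P : FcCls X) {t : ZMod 4} (x y : WtForm X t) (hx : x.In T P) (hy : y.In T P) :
    wtMk T P x hx + wtMk T P y hy = wtMk T P (x.sum y) (wt_in_sum T P hx hy) := rfl

theorem wtMk_neg (T P : FcCls X) {t : ZMod 4} (x : WtForm X t) (hx : x.In T P) :
    - wtMk T P x hx = wtMk T P x.neg (wt_in_neg T P hx) := rfl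

theorem wtMk_zero (T P : FcCls X) (t : ZMod 4) :
    (0 : WtH T P t) = wtMk T P (wtFormZero X t) (wt_in_zero T P) := rfl

theorem wtMk_eq_iff (T P : FcCls X) {t : ZMod 4} (x y : WtForm X t) (hx : x.In T P) (hy : y.In T P) :
    wtMk T P x hx = wtMk T P y hy ↔ WtRel T P x y :=
  ⟨fun h => Quotient.exact (s := wtSetoid T P t) h, fun h => Quotient.sound (s := wtSetoid T P t) h⟩

theorem wtMk_eq_zero_iff (T P : FcCls X) {t : ZMod 4} (x : WtForm X t) (hx : x.In T P) :
    wtMk T P x hx = 0 ↔ WtNC T P x :=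
  (wtMk_eq_iff T P x _ hx _).trans (wt_rel_zero_iff T P)

theorem wtMk_surj (T P : FcCls X) {t : ZMod 4} (a : WtH T P t) :
    ∃ (x : WtForm X t) (hx : x.In T P), a = wtMk T P x hx := by
  obtain ⟨x⟩ := a
  exact ⟨x.1, x.2, rfl⟩

theorem wt_in_mono {T P T' P' : FcCls X} (hT : T.le T') (hP : P.le P') {t : ZMod 4} {x : WtForm X t}
    (hx : x.In T P) : x.In T' P' := ⟨hT _ hx.1, hP _ hx.2⟩

theorem wt_nc_mono {T P T' P' : FcCls X} (hT : T.le T') (hP : P.le P') {t : ZMod 4} {x : WtForm X t}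
    (hx : WtNC T P x) : WtNC T' P' x := by
  obtain ⟨D, h1, h2⟩ := hx
  exact ⟨D, hT _ h1, hP _ h2⟩

/-- the map induced by inclusions of classes -/
def wtInc {T P T' P' : FcCls X} (hT : T.le T') (hP : P.le P') (t : ZMod 4) : WtH T P t →+ WtH T' P' t where
  toFun := Quotient.map (sa := wtSetoid T P t) (sb := wtSetoid T' P' t)
    (fun x => ⟨x.1, wt_in_mono hT hP x.2⟩) (fun _ _ h => wt_nc_mono hT hP h)
  map_zero' := rfl
  map_add' := by
    rintro ⟨a⟩ ⟨b⟩
    rfl

theorem wtInc_mk {T P T' P' : FcCls X} (hT : T.le T') (hP : P.le P') {t : ZMod 4} (x : WtForm X t)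
    (hx : x.In T P) : wtInc hT hP t (wtMk T P x hx) = wtMk T' P' x (wt_in_mono hT hP hx) := rfl

/-- the boundary map `h^t(T;P) → h^{t-1}(P;N0)` -/
def wtBd (T P N0 : FcCls X) (hT : T.Refl) (t t' : ZMod 4) (ht : t' + 1 = t) : WtH T P t →+ WtH P N0 t' where
  toFun := Quotient.map (sa := wtSetoid T P t) (sb := wtSetoid P N0 t')
    (fun x => ⟨x.1.bd t' ht, wt_bd_in T P N0 hT x.2 t' ht⟩)
    (fun x y h => wt_bd_rel T P N0 hT x.2 y.2 h t' ht)
  map_zero' := by
    refine (wtMk_eq_zero_iff P N0 _ _).2 ?_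
    exact wt_bd_nc T P N0 hT (wt_in_zero T P) (wt_nc_of_mem T P (P.acyc (fcZero_acyc X))) t' ht
  map_add' := by
    rintro ⟨a⟩ ⟨b⟩
    obtain ⟨e⟩ := wt_bd_sum a.1 b.1 t' ht
    exact Quotient.sound (s := wtSetoid P N0 t')
      (wt_rel_of_iso P N0 e (wt_bd_in T P N0 hT (wt_in_sum T P a.2 b.2) t' ht))

theorem wtBd_mk (T P N0 : FcCls X) (hT : T.Refl) {t t' : ZMod 4} (ht : t' + 1 = t) (x : WtForm X t)
    (hx : x.In T P) :
    wtBd T P N0 hT t t' ht (wtMk T P x hx) = wtMk P N0 (x.bd t' ht) (wt_bd_in T P N0 hT hx t' ht) := rfl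

/-- realises the equation lemmas here (unique names) -/
theorem wt_grp_defs_eqns_cite : True := by
  have := @WtOb.eq_1
  have := @wtSetoid.eq_1
  have := @WtH.eq_1
  have := @wtMk.eq_1
  have := @wtAdd.eq_1
  have := @wtNeg.eq_1
  have := @wtInc.eq_1
  have := @wtBd.eq_1
  trivial

end Claimed.Agent.R304
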