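/-
Row 304 (S0559, Hilbert-Smith).  Owner: helper248.  DEFINITIONS: hyperbolic forms, pull back of forms and data along chain maps.
-/
import Claimed.Agent.R304.WtGrpDefs

set_option autoImplicit false

namespace Claimed.Agent.R304

open Topology

variable {X : Type} [TopologicalSpace X] [T2Space X] {t : ZMod 4}

/-- the bilinear form of the hyperbolic form: `Ψ ((l,μ),(l',μ')) = μ l' + e μ' l` -/
def wtHypb (L : FcD X) (t : ZMod 4) :
    (L.C × L.dual.C) →ₗ[ℝ] (L.C × L.dual.C) →ₗ[ℝ] ℝ :=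
  LinearMap.mk₂ ℝ (fun u v => fcAp u.2 v.1 + wtE t * fcAp v.2 u.1)
    (fun u u' v => by
      show fcAp (u.2 + u'.2) v.1 + wtE t * fcAp v.2 (u.1 + u'.1) = _
      rw [fcAp_add, fcAp_map_add]; ring)
    (fun c u v => by
      show fcAp (c • u.2) v.1 + wtE t * fcAp v.2 (c • u.1) = _
      rw [fcAp_smul, fcAp_map_smul, smul_eq_mul]; ring)
    (fun u v v' => by
      show fcAp u.2 (v.1 + v'.1) + wtE t * fcAp (v.2 + v'.2) u.1 = _
      rw [fcAp_add, fcAp_map_add]; ring)
    (fun c u v => by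
      show fcAp u.2 (c • v.1) + wtE t * fcAp (c • v.2) u.1 = _
      rw [fcAp_smul, fcAp_map_smul, smul_eq_mul]; ring)

/-- the hyperbolic form `H(L)` of type `t` on `L ⊕ L^∨<k>` -/
def wtHyp (L : FcD X) (t : ZMod 4) : WtForm X t where
  M := L.prod (L.dual.resc (wtK t))
  b := wtHypb L t
  loc := fun (u v : L.C × L.dual.C) h => by
    have h' : Disjoint (L.supp u.1 ∪ L.dual.supp u.2) (L.supp v.1 ∪ L.dual.supp v.2) := h
    show fcAp u.2 v.1 + wtE t * fcAp v.2 u.1 = 0
    rw [fcAp_eq_zero u.2 v.1 (Set.disjoint_of_subset Set.subset_union_right Set.subset_union_left h'),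
      fcAp_eq_zero v.2 u.1 (Set.disjoint_of_subset Set.subset_union_left Set.subset_union_right h').symm]
    simp
  symm := fun (u v : L.C × L.dual.C) => by
    show fcAp v.2 u.1 + wtE t * fcAp u.2 v.1 = wtE t * (fcAp u.2 v.1 + wtE t * fcAp v.2 u.1)
    linear_combination (-(fcAp v.2 u.1)) * wtE_sq t
  adj := fun (u v : L.C × L.dual.C) => by
    obtain ⟨l, μ⟩ := u
    obtain ⟨l', μ'⟩ := v
    show wtK t * fcAp μ (L.d l') + wtE t * fcAp μ' (L.d l) =
      wtK t * (fcAp μ (L.d l') + wtE t * (wtK t * fcAp μ' (L.d l)))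
    linear_combination (-(wtE t * fcAp μ' (L.d l))) * wtK_sq t

/-- pull back of a form along a local chain map -/
def WtForm.pull (x : WtForm X t) {A : FcD X} (f : FcHom A x.M) : WtForm X t where
  M := A
  b := x.b.compl₁₂ f.f f.f
  loc := fun m n h => x.loc _ _ (Set.disjoint_of_subset (f.loc m) (f.loc n) h)
  symm := fun a c => x.symm _ _
  adj := fun a c => by
    show x.b (f.f (A.d a)) (f.f c) = wtK t * x.b (f.f a) (f.f (A.d c))
    rw [f.comm, f.comm, x.adj]

/-- the tautological isometric chain map `f^* x → x` -/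
def WtForm.pullIsom (x : WtForm X t) {A : FcD X} (f : FcHom A x.M) : WtIsom (x.pull f) x :=
  ⟨f, fun _ _ => rfl⟩

/-- pull back of a datum along a local chain map `N' → N` -/
def WtDat.pull {x : WtForm X t} (D : WtDat x) {N' : FcD X} (f : FcHom N' D.N) : WtDat x where
  N := N'
  lam := D.lam.comp f
  h := D.h.compl₁₂ f.f f.f
  h_loc := fun m n h => D.h_loc _ _ (Set.disjoint_of_subset (f.loc m) (f.loc n) h)
  h_symm := fun n n' => D.h_symm _ _
  h_eq := fun n n' => by
    show x.b (D.lam.f (f.f n)) (D.lam.f (f.f n')) =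
      D.h (f.f n) (f.f (N'.d n')) + wtK t * D.h (f.f (N'.d n)) (f.f n')
    rw [f.comm, f.comm, D.h_eq]

/-- realises the equation lemmas here (unique names) -/
theorem wt_hyp_defs_eqns_cite : True := by
  have := @wtHypb.eq_1
  have := @wtHyp.eq_1
  have := @WtForm.pull.eq_1
  have := @WtForm.pullIsom.eq_1
  have := @WtDat.pull.eq_1
  trivial

end Claimed.Agent.R304
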