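/-
Row 304 (S0559, Hilbert-Smith).  Owner: helper248 (statements), helper27 (proofs).  PACKAGE WtLes: THE EXACT TRIANGLE.
Formulas: CbNotes.lean, block 7.     `N0 ≤ P ≤ T`, `T` reflexive.
     i : h(P;N0) → h(T;N0),   j : h(T;N0) → h(T;P),   bd : h^t(T;P) → h^{t-1}(P;N0).

* `wt_exact_mid` (at `h(T;N0)`):  `j i = 0` by G1a.  (G7) if `x` is NC in `(T;P)` by `(N,lam,h)` then `S ∈ Forms(P;N0)` (`wt_in_S` for `(T;N0)` + `S.M ∈ P`)
     and `x ~ S` in `h(T;N0)` (`wt_surgery`).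
* `wt_exact_rel` (at `h(T;P)`):  `bd j = 0` by G1a (the object of `bd x` is `cone(ad) ∈ N0`).
     (G5) `bd x` NC in `(P;N0)` by `(La, l = (l₁,l₂), kk)`:  `M⁺ = M × La`, `D (m,l) = (d m + l₁ l, d l)`,
     `b⁺ ((m,l),(m',l')) = b m m' - e l₂(l')(m) - l₂(l)(m') + kk l l'`;  `M → M⁺` isometric with cone `~ La ∈ P`;
     `cone(ad⁺) ≅ S(La,l,kk)` by `(m,l,ω_M,ω_La) ↦ (l,(-m,-ω_M),ω_La)`.
* `wt_exact_sub` (at `h(P;N0)`): `i bd = 0`: datum `N = {(0,μ)} = M^∨<k> ⊆ cone(ad)`, `h = 0`, Lemma L, `θ = k'e' ev`.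
     (G6) `c = (C,ψ)` NC in `(T;N0)` by `(N,lam,h)`:  `M = cone(lam)<-1>`, `D (n,c) = (d n, - lam n - d c)`,
     `s ((n,c),(n',c')) = h n n' + (k'/2) ψ c (lam n') + (1/2) ψ (lam n) c'` (type `t = t'+1`);
     `f c = (0,c;0,-(1/2) ψ c ·)` is a chain map `C → bd (M,s)` with `f^*Ψ = -ψ`, the quotient is the object `V(N,lam,h)` of `wt_bd_nc`, in `N0`.
     So `bd (-(M,s)) ~ c`.
PROVED (helper27): no gaps in this file.  (G6) is proved with the extension  S -> cone(ad_s) -> C^v<k'>  (i (n,p,nu) = ((n,p), nu + (1/2) psi p),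
q ((n,p),Om) = Om|C - (1/2) psi p), q o f = - ad_psi, so the object V is not needed.
-/
import Claimed.Agent.R304.WtGrpDefs

set_option autoImplicit false
set_option linter.unusedSectionVars false

namespace Claimed.Agent.R304

open Topology

variable {X : Type} [TopologicalSpace X] [T2Space X]

theorem FcCls.le_refl' (T : FcCls X) : T.le T := fun _ h => h

/-- exactness of `h(P;N0) → h(T;N0) → h(T;P)` -/
theorem wt_exact_mid (T P N0 : FcCls X) (hT : T.Refl) (hPT : P.le T) (hNP : N0.le P) (t : ZMod 4) :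
    Function.Exact (wtInc hPT N0.le_refl' t) (wtInc T.le_refl' hNP t) := by
  intro a
  obtain ⟨x, hx, rfl⟩ := wtMk_surj T N0 a
  rw [wtInc_mk, wtMk_eq_zero_iff]
  constructor
  · rintro ⟨D, hN, hS⟩
    have hSin : D.S.In T N0 := wt_in_S T N0 hT hx D hN
    have hSP : D.S.In P N0 := ⟨hS, hSin.2⟩
    refine ⟨wtMk P N0 D.S hSP, ?_⟩
    rw [wtInc_mk, wtMk_eq_iff]
    exact wt_rel_symm T N0 (wt_surgery T N0 hT hx D hN)
  · rintro ⟨b, hb⟩
    obtain ⟨z, hz, rfl⟩ := wtMk_surj P N0 b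
    rw [wtInc_mk, wtMk_eq_iff] at hb
    have h1 : WtNC T P z := wt_nc_of_mem T P hz.1
    exact wt_nc_of_rel T P (wt_in_mono hPT hNP hz) (wt_nc_mono T.le_refl' hNP hb) h1

/-! ### (G5) -/

section G5

variable {t t' : ZMod 4} {ht : t' + 1 = t} {x : WtForm X t} (L : WtDat (x.bd t' ht))

/-- `l₁ : La → M` -/
def wtlL1 : L.N.C →ₗ[ℝ] x.M.C :=
  LinearMap.fst ℝ x.M.C x.M.dual.C ∘ₗ (L.lam.f : L.N.C →ₗ[ℝ] x.M.C × x.M.dual.C)

/-- `l₂ : La → M^∨` -/
def wtlL2 : L.N.C →ₗ[ℝ] x.M.dual.C :=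
  LinearMap.snd ℝ x.M.C x.M.dual.C ∘ₗ (L.lam.f : L.N.C →ₗ[ℝ] x.M.C × x.M.dual.C)

theorem wtlL1_loc : FcLoc L.N x.M (wtlL1 L) := fun l => Set.subset_union_left.trans (L.lam.loc l)

theorem wtlL2_loc (l : L.N.C) : x.M.dual.supp (wtlL2 L l) ⊆ L.N.supp l :=
  Set.subset_union_right.trans (L.lam.loc l)

theorem wtlL1_d (l : L.N.C) : wtlL1 L (L.N.d l) = -(x.M.d (wtlL1 L l)) :=
  congrArg Prod.fst (L.lam.comm l)

theorem wtlL2_d (l : L.N.C) (m : x.M.C) :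
    fcAp (wtlL2 L (L.N.d l)) m = x.b (wtlL1 L l) m + wtK t * fcAp (wtlL2 L l) (x.M.d m) :=
  congrArg (fun μ : x.M.dual.C => fcAp μ m) (congrArg Prod.snd (L.lam.comm l))

theorem wtl_kk_eq (l l' : L.N.C) :
    fcAp (wtlL2 L l) (wtlL1 L l') + wtE t' * fcAp (wtlL2 L l') (wtlL1 L l) =
      L.h l (L.N.d l') + wtK t' * L.h (L.N.d l) l' := L.h_eq l l'

theorem wtlL1_anti (l : L.N.C) : wtlL1 L (L.N.d l) + x.M.d (wtlL1 L l) = 0 := by
  rw [wtlL1_d]; simp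

/-- `M⁺ = La × M`, `D (l,m) = (d l, l₁ l + d m)` -/
def wtlMp : FcD X := fckTw L.N x.M (wtlL1 L) (wtlL1_loc L) (wtlL1_anti L)

/-- the pairing `((l,m),(l',m')) ↦ l₂(l)(m')` -/
def wtlPair : (L.N.C × x.M.C) →ₗ[ℝ] (L.N.C × x.M.C) →ₗ[ℝ] ℝ :=
  (fckPair x.M).compl₁₂ (wtlL2 L ∘ₗ LinearMap.fst ℝ L.N.C x.M.C) (LinearMap.snd ℝ L.N.C x.M.C)

/-- `b⁺ ((l,m),(l',m')) = b m m' - e l₂(l')(m) - l₂(l)(m') + kk l l'` -/
def wtlBp : (L.N.C × x.M.C) →ₗ[ℝ] (L.N.C × x.M.C) →ₗ[ℝ] ℝ :=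
  x.b.compl₁₂ (LinearMap.snd ℝ L.N.C x.M.C) (LinearMap.snd ℝ L.N.C x.M.C)
    - wtE t • (wtlPair L).flip - wtlPair L
    + L.h.compl₁₂ (LinearMap.fst ℝ L.N.C x.M.C) (LinearMap.fst ℝ L.N.C x.M.C)

theorem wtlBp_apply (l l' : L.N.C) (m m' : x.M.C) :
    wtlBp L (l, m) (l', m') =
      x.b m m' - wtE t * fcAp (wtlL2 L l') m - fcAp (wtlL2 L l) m' + L.h l l' := rfl

/-- the form `x⁺` -/
def wtlXp : WtForm X t where
  M := wtlMp L
  b := wtlBp L
  loc := fun (v v' : L.N.C × x.M.C) h => by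
    obtain ⟨l, m⟩ := v
    obtain ⟨l', m'⟩ := v'
    have h' : Disjoint (L.N.supp l ∪ x.M.supp m) (L.N.supp l' ∪ x.M.supp m') := h
    show x.b m m' - wtE t * fcAp (wtlL2 L l') m - fcAp (wtlL2 L l) m' + L.h l l' = 0
    rw [x.loc m m' (Set.disjoint_of_subset Set.subset_union_right Set.subset_union_right h'),
      L.h_loc l l' (Set.disjoint_of_subset Set.subset_union_left Set.subset_union_left h'),
      fcAp_eq_zero (wtlL2 L l') m (Set.disjoint_of_subset Set.subset_union_right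
        ((wtlL2_loc L l').trans Set.subset_union_left) h').symm,
      fcAp_eq_zero (wtlL2 L l) m' (Set.disjoint_of_subset
        ((wtlL2_loc L l).trans Set.subset_union_left) Set.subset_union_right h')]
    ring
  symm := fun (v v' : L.N.C × x.M.C) => by
    obtain ⟨l, m⟩ := v
    obtain ⟨l', m'⟩ := v'
    show x.b m' m - wtE t * fcAp (wtlL2 L l) m' - fcAp (wtlL2 L l') m + L.h l' l =
      wtE t * (x.b m m' - wtE t * fcAp (wtlL2 L l') m - fcAp (wtlL2 L l) m' + L.h l l')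
    rw [x.symm m m', L.h_symm l l', wtK_pred ht, wtE_pred ht]
    rcases wtK_cases t with hk | hk <;> rcases wtE_cases t with he | he <;>
      simp only [hk, he] <;> ring
  adj := fun (v v' : L.N.C × x.M.C) => by
    obtain ⟨l, m⟩ := v
    obtain ⟨l', m'⟩ := v'
    show x.b (wtlL1 L l + x.M.d m) m' - wtE t * fcAp (wtlL2 L l') (wtlL1 L l + x.M.d m)
        - fcAp (wtlL2 L (L.N.d l)) m' + L.h (L.N.d l) l' =
      wtK t * (x.b m (wtlL1 L l' + x.M.d m') - wtE t * fcAp (wtlL2 L (L.N.d l')) m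
        - fcAp (wtlL2 L l) (wtlL1 L l' + x.M.d m') + L.h l (L.N.d l'))
    have e1 := wtl_kk_eq L l l'
    rw [wtK_pred ht, wtE_pred ht] at e1
    rw [wtlL2_d, wtlL2_d, map_add, map_add, LinearMap.add_apply, fcAp_map_add, fcAp_map_add,
      x.adj m m', x.symm m (wtlL1 L l')]
    rcases wtK_cases t with hk | hk <;> rcases wtE_cases t with he | he <;>
      simp only [hk, he] at e1 ⊢ <;> first | linear_combination e1 | linear_combination -e1

/-- transpose of `inl : La → M⁺` -/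
def wtlTInl : (wtlMp L).dual.C →ₗ[ℝ] L.N.dual.C :=
  fcTrLin (A := L.N.toFcObj) (B := (wtlMp L).toFcObj) (LinearMap.inl ℝ L.N.C x.M.C)
    (fck_loc_inl L.N.toFcObj x.M.toFcObj)

/-- transpose of `inr : M → M⁺` -/
def wtlTInr : (wtlMp L).dual.C →ₗ[ℝ] x.M.dual.C :=
  fcTrLin (A := x.M.toFcObj) (B := (wtlMp L).toFcObj) (LinearMap.inr ℝ L.N.C x.M.C)
    (fck_loc_inr L.N.toFcObj x.M.toFcObj)

/-- transpose of `fst : M⁺ → La` -/
def wtlTFst : L.N.dual.C →ₗ[ℝ] (wtlMp L).dual.C :=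
  fcTrLin (A := (wtlMp L).toFcObj) (B := L.N.toFcObj) (LinearMap.fst ℝ L.N.C x.M.C)
    (fck_loc_fst L.N.toFcObj x.M.toFcObj)

/-- transpose of `snd : M⁺ → M` -/
def wtlTSnd : x.M.dual.C →ₗ[ℝ] (wtlMp L).dual.C :=
  fcTrLin (A := (wtlMp L).toFcObj) (B := x.M.toFcObj) (LinearMap.snd ℝ L.N.C x.M.C)
    (fck_loc_snd L.N.toFcObj x.M.toFcObj)

theorem wtl_split (Ω : (wtlMp L).dual.C) (l : L.N.C) (m : x.M.C) :
    fcAp (A := wtlMp L) Ω ((l, m) : L.N.C × x.M.C) =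
      fcAp (A := wtlMp L) Ω ((l, 0) : L.N.C × x.M.C) + fcAp (A := wtlMp L) Ω ((0, m) : L.N.C × x.M.C) := by
  have h := fcAp_map_add (A := wtlMp L) Ω ((l, 0) : L.N.C × x.M.C) ((0, m) : L.N.C × x.M.C)
  rw [← h]
  congr 1
  show ((l, m) : L.N.C × x.M.C) = (l + 0, 0 + m)
  rw [add_zero, zero_add]

/-- `cone(ad⁺) ≅ S(La,l,kk)`, `((l,m),Ω) ↦ (l,((-m,-Ω|M),Ω|La))` -/
def wtlIso : FcIso (fcCone (wtlXp L).ad) L.S.M :=
  fckIsoOfLoc (A := fcCone (wtlXp L).ad) (B := L.S.M)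
    (LinearEquiv.ofLinearMap
      (LinearMap.prod (LinearMap.fst ℝ _ _ ∘ₗ LinearMap.fst ℝ _ _)
        (LinearMap.prod (LinearMap.prod (-(LinearMap.snd ℝ _ _ ∘ₗ LinearMap.fst ℝ _ _))
          (-(wtlTInr L ∘ₗ LinearMap.snd ℝ _ _))) (wtlTInl L ∘ₗ LinearMap.snd ℝ _ _)) :
        (L.N.C × x.M.C) × (wtlMp L).dual.C →ₗ[ℝ] L.N.C × ((x.M.C × x.M.dual.C) × L.N.dual.C))
      (LinearMap.prod (LinearMap.prod (LinearMap.fst ℝ _ _)
          (-(LinearMap.fst ℝ _ _ ∘ₗ LinearMap.fst ℝ _ _ ∘ₗ LinearMap.snd ℝ _ _)))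
        (wtlTFst L ∘ₗ LinearMap.snd ℝ _ _ ∘ₗ LinearMap.snd ℝ _ _
          - wtlTSnd L ∘ₗ LinearMap.snd ℝ _ _ ∘ₗ LinearMap.fst ℝ _ _ ∘ₗ LinearMap.snd ℝ _ _) :
        L.N.C × ((x.M.C × x.M.dual.C) × L.N.dual.C) →ₗ[ℝ] (L.N.C × x.M.C) × (wtlMp L).dual.C)
      (by
        apply LinearMap.ext
        intro (v : L.N.C × ((x.M.C × x.M.dual.C) × L.N.dual.C))
        obtain ⟨l, ⟨m, μ⟩, ω⟩ := v
        refine Prod.ext rfl (Prod.ext (Prod.ext ?_ ?_) ?_)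
        · show -(-m) = m
          rw [neg_neg]
        · apply fck_dual_ext (A := x.M)
          intro m'
          show -(fcAp ω (0 : L.N.C) - fcAp μ m') = fcAp μ m'
          rw [fcAp_map_zero]; ring
        · apply fck_dual_ext (A := L.N)
          intro l'
          show fcAp ω l' - fcAp μ (0 : x.M.C) = fcAp ω l'
          rw [fcAp_map_zero]; ring)
      (by
        apply LinearMap.ext
        rintro ⟨⟨l, m⟩, Ω⟩
        refine Prod.ext (Prod.ext rfl ?_) ?_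
        · show -(-m) = m
          rw [neg_neg]
        · apply fck_dual_ext (A := wtlMp L)
          intro (v : L.N.C × x.M.C)
          obtain ⟨l', m'⟩ := v
          show fcAp (A := wtlMp L) Ω ((l', 0) : L.N.C × x.M.C)
            - (-(fcAp (A := wtlMp L) Ω ((0, m') : L.N.C × x.M.C))) = fcAp (A := wtlMp L) Ω (l', m')
          rw [wtl_split L Ω l' m']; ring))
    (fun (v : (L.N.C × x.M.C) × (wtlMp L).dual.C) => by
      obtain ⟨⟨l, m⟩, Ω⟩ := v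
      show L.N.supp l ∪ ((x.M.supp (-m) ∪ x.M.dual.supp (-(wtlTInr L Ω))) ∪ L.N.dual.supp (wtlTInl L Ω)) ⊆
        (L.N.supp l ∪ x.M.supp m) ∪ (wtlMp L).dual.supp Ω
      have h1 := x.M.supp_neg m
      have h2 : x.M.dual.supp (-(wtlTInr L Ω)) ⊆ (wtlMp L).dual.supp Ω :=
        (x.M.dual.supp_neg _).trans (FcObj.dualSupp_comp (A := x.M.toFcObj) (B := (wtlMp L).toFcObj) _
          (fck_loc_inr L.N.toFcObj x.M.toFcObj) Ω.1)
      have h3 : L.N.dual.supp (wtlTInl L Ω) ⊆ (wtlMp L).dual.supp Ω :=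
        FcObj.dualSupp_comp (A := L.N.toFcObj) (B := (wtlMp L).toFcObj) _
          (fck_loc_inl L.N.toFcObj x.M.toFcObj) Ω.1
      intro z hz
      simp only [Set.mem_union] at hz ⊢
      rcases hz with hz | ((hz | hz) | hz)
      · tauto
      · have := h1 hz
        tauto
      · have := h2 hz
        tauto
      · have := h3 hz
        tauto)
    (fun (v : L.N.C × ((x.M.C × x.M.dual.C) × L.N.dual.C)) => by
      obtain ⟨l, ⟨m, μ⟩, ω⟩ := v
      show (L.N.supp l ∪ x.M.supp (-m)) ∪ (wtlMp L).dual.supp (wtlTFst L ω - wtlTSnd L μ) ⊆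
        L.N.supp l ∪ ((x.M.supp m ∪ x.M.dual.supp μ) ∪ L.N.dual.supp ω)
      have h1 := x.M.supp_neg m
      have h2 : (wtlMp L).dual.supp (wtlTFst L ω - wtlTSnd L μ) ⊆ L.N.dual.supp ω ∪ x.M.dual.supp μ :=
        ((wtlMp L).dual.supp_sub _ _).trans (Set.union_subset_union
          (FcObj.dualSupp_comp (A := (wtlMp L).toFcObj) (B := L.N.toFcObj) _
            (fck_loc_fst L.N.toFcObj x.M.toFcObj) ω.1)
          (FcObj.dualSupp_comp (A := (wtlMp L).toFcObj) (B := x.M.toFcObj) _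
            (fck_loc_snd L.N.toFcObj x.M.toFcObj) μ.1))
      intro z hz
      simp only [Set.mem_union] at hz ⊢
      rcases hz with (hz | hz) | hz
      · tauto
      · have := h1 hz
        tauto
      · have := h2 hz
        simp only [Set.mem_union] at this
        tauto)
    (fun (v : (L.N.C × x.M.C) × (wtlMp L).dual.C) => by
      obtain ⟨⟨l, m⟩, Ω⟩ := v
      refine Prod.ext rfl (Prod.ext (Prod.ext ?_ ?_) ?_)
      · show -(-(wtlL1 L l + x.M.d m)) = wtlL1 L l + -(x.M.d (-m))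
        rw [map_neg]; abel
      · apply fck_dual_ext (A := x.M)
        intro m'
        show -((x.b m m' - wtE t * fcAp (wtlL2 L 0) m - fcAp (wtlL2 L l) m' + L.h l 0)
            + wtK t * fcAp (A := wtlMp L) Ω ((L.N.d 0, wtlL1 L 0 + x.M.d m') : L.N.C × x.M.C)) =
          fcAp (wtlL2 L l) m' + (x.b (-m) m'
            + wtK t * (-(fcAp (A := wtlMp L) Ω ((0, x.M.d m') : L.N.C × x.M.C))))
        rw [map_zero, map_zero, map_zero, map_zero, fcAp_zero, zero_add, map_neg, LinearMap.neg_apply]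
        ring
      · apply fck_dual_ext (A := L.N)
        intro l'
        show (x.b m 0 - wtE t * fcAp (wtlL2 L l') m - fcAp (wtlL2 L l) (0 : x.M.C) + L.h l l')
            + wtK t * fcAp (A := wtlMp L) Ω ((L.N.d l', wtlL1 L l' + x.M.d 0) : L.N.C × x.M.C) =
          L.h l l' + wtK t' * (-(fcAp (A := wtlMp L) Ω ((0, wtlL1 L l') : L.N.C × x.M.C))
              + wtE t' * fcAp (wtlL2 L l') (-m))
            - wtK t' * fcAp (A := wtlMp L) Ω ((L.N.d l', 0) : L.N.C × x.M.C)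
        rw [map_zero, map_zero, fcAp_map_zero, add_zero, fcAp_map_neg,
          wtl_split L Ω (L.N.d l') (wtlL1 L l'), wtK_pred ht, wtE_pred ht]
        rcases wtK_cases t with hk | hk <;> rcases wtE_cases t with he | he <;>
          simp only [hk, he] <;> ring)

/-- the isometric inclusion `x → x⁺` -/
def wtlIncl : WtIsom x (wtlXp L) :=
  ⟨(fckExtTw (wtlL1 L) (wtlL1_loc L) (wtlL1_anti L)).i, fun m m' => by
    show x.b m m' - wtE t * fcAp (wtlL2 L 0) m - fcAp (wtlL2 L 0) m' + L.h 0 0 = x.b m m'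
    rw [map_zero, map_zero, fcAp_zero, fcAp_zero]
    ring⟩

end G5

/-- (G5) a form whose boundary is null-cobordant is cobordant to a form which is nonsingular modulo `N0` -/
theorem wtl_G5 (T P N0 : FcCls X) (hPT : P.le T) (hNP : N0.le P) {t t' : ZMod 4} (ht : t' + 1 = t)
    {x : WtForm X t} (hx : x.In T P) (h : WtNC P N0 (x.bd t' ht)) :
    ∃ z : WtForm X t, z.In T N0 ∧ WtRel T P z x := by
  obtain ⟨L, hL, hS⟩ := h
  have hz : (wtlXp L).In T N0 :=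
    ⟨fck_mem_tw T (wtlL1 L) (wtlL1_loc L) (wtlL1_anti L) (hPT _ hL) hx.1, N0.iso (wtlIso L).symm hS⟩
  refine ⟨wtlXp L, hz, wt_rel_symm T P (wt_rel_of_isom T P (wtlIncl L) ?_ hx
    (wt_in_mono T.le_refl' hNP hz))⟩
  exact (fcb_ext_i_mem_iff P (fckExtTw (wtlL1 L) (wtlL1_loc L) (wtlL1_anti L))).2 hL

/-- exactness of `h(T;N0) → h(T;P) → h(P;N0)` -/
theorem wt_exact_rel (T P N0 : FcCls X) (hT : T.Refl) (hPT : P.le T) (hNP : N0.le P) (t t' : ZMod 4)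
    (ht : t' + 1 = t) :
    Function.Exact (wtInc T.le_refl' hNP t) (wtBd T P N0 hT t t' ht) := by
  intro a
  obtain ⟨x, hx, rfl⟩ := wtMk_surj T P a
  rw [wtBd_mk, wtMk_eq_zero_iff]
  constructor
  · intro h
    obtain ⟨z, hz, hzx⟩ := wtl_G5 T P N0 hPT hNP ht hx h
    refine ⟨wtMk T N0 z hz, ?_⟩
    rw [wtInc_mk, wtMk_eq_iff]
    exact hzx
  · rintro ⟨b, hb⟩
    obtain ⟨z, hz, rfl⟩ := wtMk_surj T N0 b
    rw [wtInc_mk, wtMk_eq_iff] at hb
    have h1 : WtNC P N0 (z.bd t' ht) := wt_nc_of_mem P N0 hz.2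
    have hzP : z.In T P := wt_in_mono T.le_refl' hNP hz
    exact wt_nc_of_rel P N0 (wt_bd_in T P N0 hT hzP t' ht) (wt_bd_rel T P N0 hT hzP hx hb t' ht) h1

/-! ### (G6) -/

section G6

variable {t t' : ZMod 4} (ht : t' + 1 = t) {c : WtForm X t'} (D : WtDat c)

/-- `s ((n,p),(n',p')) = h n n' + (k'/2) ψ p (lam n') + (1/2) ψ (lam n) p'` -/
noncomputable def wtlSb : (D.N.C × c.M.C) →ₗ[ℝ] (D.N.C × c.M.C) →ₗ[ℝ] ℝ :=
  D.h.compl₁₂ (LinearMap.fst ℝ D.N.C c.M.C) (LinearMap.fst ℝ D.N.C c.M.C)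
    + (wtK t' / 2) • c.b.compl₁₂ (LinearMap.snd ℝ D.N.C c.M.C) (D.lam.f ∘ₗ LinearMap.fst ℝ D.N.C c.M.C)
    + (1 / 2 : ℝ) • c.b.compl₁₂ (D.lam.f ∘ₗ LinearMap.fst ℝ D.N.C c.M.C) (LinearMap.snd ℝ D.N.C c.M.C)

theorem wtlSb_apply (n n' : D.N.C) (p p' : c.M.C) :
    wtlSb D (n, p) (n', p') =
      D.h n n' + (wtK t' / 2) * c.b p (D.lam.f n') + (1 / 2) * c.b (D.lam.f n) p' := rfl

include ht in
/-- the form `(cone(lam)<-1>, s)` of type `t = t' + 1` -/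
noncomputable def wtlZ : WtForm X t where
  M := (fcCone D.lam).resc (-1)
  b := wtlSb D
  loc := fun (v v' : D.N.C × c.M.C) h => by
    obtain ⟨n, p⟩ := v
    obtain ⟨n', p'⟩ := v'
    have h' : Disjoint (D.N.supp n ∪ c.M.supp p) (D.N.supp n' ∪ c.M.supp p') := h
    show D.h n n' + (wtK t' / 2) * c.b p (D.lam.f n') + (1 / 2) * c.b (D.lam.f n) p' = 0
    rw [D.h_loc n n' (Set.disjoint_of_subset Set.subset_union_left Set.subset_union_left h'),
      c.loc p (D.lam.f n') (Set.disjoint_of_subset Set.subset_union_right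
        ((D.lam.loc n').trans Set.subset_union_left) h'),
      c.loc (D.lam.f n) p' (Set.disjoint_of_subset ((D.lam.loc n).trans Set.subset_union_left)
        Set.subset_union_right h')]
    ring
  symm := fun (v v' : D.N.C × c.M.C) => by
    obtain ⟨n, p⟩ := v
    obtain ⟨n', p'⟩ := v'
    show D.h n' n + (wtK t' / 2) * c.b p' (D.lam.f n) + (1 / 2) * c.b (D.lam.f n') p =
      wtE t * (D.h n n' + (wtK t' / 2) * c.b p (D.lam.f n') + (1 / 2) * c.b (D.lam.f n) p')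
    rw [D.h_symm n n', c.symm (D.lam.f n) p', c.symm p (D.lam.f n'), wtK_pred ht, wtE_pred ht]
    rcases wtK_cases t with hk | hk <;> rcases wtE_cases t with he | he <;>
      simp only [hk, he] <;> ring
  adj := fun (v v' : D.N.C × c.M.C) => by
    obtain ⟨n, p⟩ := v
    obtain ⟨n', p'⟩ := v'
    show wtlSb D ((-1 : ℝ) • ((-(D.N.d n), D.lam.f n + c.M.d p) : D.N.C × c.M.C)) (n', p') =
      wtK t * wtlSb D (n, p) ((-1 : ℝ) • ((-(D.N.d n'), D.lam.f n' + c.M.d p') : D.N.C × c.M.C))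
    rw [map_smul, map_smul, LinearMap.smul_apply, wtlSb_apply, wtlSb_apply]
    have e1 := D.h_eq n n'
    simp only [map_add, map_neg, LinearMap.add_apply, LinearMap.neg_apply, smul_eq_mul, D.lam.comm]
    rw [c.adj p, c.adj (D.lam.f n) p', e1, wtK_pred ht]
    rcases wtK_cases t with hk | hk <;> simp only [hk] <;> ring

/-- the underlying object `M = cone(lam)<-1>` -/
abbrev wtlM : FcD X := (fcCone D.lam).resc (-1)

/-- transpose of `inl : N → M` -/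
def wtlUInl : (wtlM D).dual.C →ₗ[ℝ] D.N.dual.C :=
  fcTrLin (A := D.N.toFcObj) (B := (wtlM D).toFcObj) (LinearMap.inl ℝ D.N.C c.M.C)
    (fck_loc_inl D.N.toFcObj c.M.toFcObj)

/-- transpose of `inr : C → M` -/
def wtlUInr : (wtlM D).dual.C →ₗ[ℝ] c.M.dual.C :=
  fcTrLin (A := c.M.toFcObj) (B := (wtlM D).toFcObj) (LinearMap.inr ℝ D.N.C c.M.C)
    (fck_loc_inr D.N.toFcObj c.M.toFcObj)

/-- transpose of `fst : M → N` -/
def wtlUFst : D.N.dual.C →ₗ[ℝ] (wtlM D).dual.C :=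
  fcTrLin (A := (wtlM D).toFcObj) (B := D.N.toFcObj) (LinearMap.fst ℝ D.N.C c.M.C)
    (fck_loc_fst D.N.toFcObj c.M.toFcObj)

/-- transpose of `snd : M → C` -/
def wtlUSnd : c.M.dual.C →ₗ[ℝ] (wtlM D).dual.C :=
  fcTrLin (A := (wtlM D).toFcObj) (B := c.M.toFcObj) (LinearMap.snd ℝ D.N.C c.M.C)
    (fck_loc_snd D.N.toFcObj c.M.toFcObj)

theorem wtlUInl_loc (Ω : (wtlM D).dual.C) : D.N.dual.supp (wtlUInl D Ω) ⊆ (wtlM D).dual.supp Ω :=
  FcObj.dualSupp_comp (A := D.N.toFcObj) (B := (wtlM D).toFcObj) _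
    (fck_loc_inl D.N.toFcObj c.M.toFcObj) Ω.1

theorem wtlUInr_loc (Ω : (wtlM D).dual.C) : c.M.dual.supp (wtlUInr D Ω) ⊆ (wtlM D).dual.supp Ω :=
  FcObj.dualSupp_comp (A := c.M.toFcObj) (B := (wtlM D).toFcObj) _
    (fck_loc_inr D.N.toFcObj c.M.toFcObj) Ω.1

theorem wtlUFst_loc (ν : D.N.dual.C) : (wtlM D).dual.supp (wtlUFst D ν) ⊆ D.N.dual.supp ν :=
  FcObj.dualSupp_comp (A := (wtlM D).toFcObj) (B := D.N.toFcObj) _
    (fck_loc_fst D.N.toFcObj c.M.toFcObj) ν.1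

theorem wtlUSnd_loc (γ : c.M.dual.C) : (wtlM D).dual.supp (wtlUSnd D γ) ⊆ c.M.dual.supp γ :=
  FcObj.dualSupp_comp (A := (wtlM D).toFcObj) (B := c.M.toFcObj) _
    (fck_loc_snd D.N.toFcObj c.M.toFcObj) γ.1

theorem wtl_splitU (Ω : (wtlM D).dual.C) (n : D.N.C) (p : c.M.C) :
    fcAp (A := wtlM D) Ω ((n, p) : D.N.C × c.M.C) =
      fcAp (A := wtlM D) Ω ((n, 0) : D.N.C × c.M.C) + fcAp (A := wtlM D) Ω ((0, p) : D.N.C × c.M.C) := by
  have h := fcAp_map_add (A := wtlM D) Ω ((n, 0) : D.N.C × c.M.C) ((0, p) : D.N.C × c.M.C)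
  rw [← h]
  congr 1
  show ((n, p) : D.N.C × c.M.C) = (n + 0, 0 + p)
  rw [add_zero, zero_add]

/-- `S → cone(ad_s) → C^∨<k'>` -/
noncomputable def wtlExt : FcExt D.S.M (fcCone (wtlZ ht D).ad) (c.M.dual.resc (wtK t')) where
  i := ⟨(LinearMap.prod (LinearMap.prod (LinearMap.fst ℝ _ _) (LinearMap.fst ℝ _ _ ∘ₗ LinearMap.snd ℝ _ _))
      (wtlUFst D ∘ₗ LinearMap.snd ℝ _ _ ∘ₗ LinearMap.snd ℝ _ _
        + (1 / 2 : ℝ) • (wtlUSnd D ∘ₗ fcCurry c.b c.loc ∘ₗ LinearMap.fst ℝ _ _ ∘ₗ LinearMap.snd ℝ _ _)) :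
      D.N.C × (c.M.C × D.N.dual.C) →ₗ[ℝ] (D.N.C × c.M.C) × (wtlM D).dual.C),
    fun (v : D.N.C × (c.M.C × D.N.dual.C)) => by
      obtain ⟨n, p, ν⟩ := v
      show (D.N.supp n ∪ c.M.supp p) ∪ (wtlM D).dual.supp (wtlUFst D ν
          + (1 / 2 : ℝ) • wtlUSnd D (fcCurry c.b c.loc p)) ⊆
        D.N.supp n ∪ (c.M.supp p ∪ D.N.dual.supp ν)
      have h1 : (wtlM D).dual.supp (wtlUFst D ν + (1 / 2 : ℝ) • wtlUSnd D (fcCurry c.b c.loc p)) ⊆
          D.N.dual.supp ν ∪ c.M.supp p :=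
        ((wtlM D).dual.supp_add _ _).trans (Set.union_subset_union (wtlUFst_loc D ν)
          (((wtlM D).dual.supp_smul _ _).trans ((wtlUSnd_loc D _).trans (fck_curry_loc c.b c.loc p))))
      intro z hz
      simp only [Set.mem_union] at hz ⊢
      rcases hz with (hz | hz) | hz
      · tauto
      · tauto
      · have := h1 hz
        simp only [Set.mem_union] at this
        tauto,
    fun (v : D.N.C × (c.M.C × D.N.dual.C)) => by
      obtain ⟨n, p, ν⟩ := v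
      refine Prod.ext ?_ ?_
      · show ((-(D.N.d n), D.lam.f n + c.M.d p) : D.N.C × c.M.C) =
          -((-1 : ℝ) • ((-(D.N.d n), D.lam.f n + c.M.d p) : D.N.C × c.M.C))
        rw [neg_one_smul, neg_neg]
      · apply fck_dual_ext (A := wtlM D)
        intro (v' : D.N.C × c.M.C)
        obtain ⟨n', p'⟩ := v'
        show (D.h n n' + wtK t' * c.b p (D.lam.f n') - wtK t' * fcAp ν (D.N.d n'))
            + (1 / 2) * c.b (D.lam.f n + c.M.d p) p' =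
          (D.h n n' + (wtK t' / 2) * c.b p (D.lam.f n') + (1 / 2) * c.b (D.lam.f n) p')
            + wtK t * (fcAp ν ((-1 : ℝ) • (-(D.N.d n')))
              + (1 / 2) * c.b p ((-1 : ℝ) • (D.lam.f n' + c.M.d p')))
        rw [map_add, LinearMap.add_apply, c.adj p p', fcAp_map_smul, fcAp_map_neg, map_smul, map_add,
          wtK_pred ht, smul_eq_mul]
        rcases wtK_cases t with hk | hk <;> simp only [hk] <;> ring⟩
  p := ⟨(wtlUInr D ∘ₗ LinearMap.snd ℝ _ _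
        - (1 / 2 : ℝ) • (fcCurry c.b c.loc ∘ₗ LinearMap.snd ℝ _ _ ∘ₗ LinearMap.fst ℝ _ _) :
      (D.N.C × c.M.C) × (wtlM D).dual.C →ₗ[ℝ] c.M.dual.C),
    fun (v : (D.N.C × c.M.C) × (wtlM D).dual.C) => by
      obtain ⟨⟨n, p⟩, Ω⟩ := v
      show c.M.dual.supp (wtlUInr D Ω - (1 / 2 : ℝ) • fcCurry c.b c.loc p) ⊆
        (D.N.supp n ∪ c.M.supp p) ∪ (wtlM D).dual.supp Ω
      refine (c.M.dual.supp_sub _ _).trans (Set.union_subset
        ((wtlUInr_loc D Ω).trans Set.subset_union_right) ?_)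
      exact ((c.M.dual.supp_smul _ _).trans (fck_curry_loc c.b c.loc p)).trans
        (Set.subset_union_right.trans Set.subset_union_left),
    fun (v : (D.N.C × c.M.C) × (wtlM D).dual.C) => by
      obtain ⟨⟨n, p⟩, Ω⟩ := v
      apply fck_dual_ext (A := c.M)
      intro p'
      show ((D.h n 0 + (wtK t' / 2) * c.b p (D.lam.f 0) + (1 / 2) * c.b (D.lam.f n) p')
            + wtK t * fcAp (A := wtlM D) Ω ((-1 : ℝ) • ((-(D.N.d 0), D.lam.f 0 + c.M.d p') : D.N.C × c.M.C)))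
          - (1 / 2) * c.b (-((-1 : ℝ) • (D.lam.f n + c.M.d p))) p' =
        wtK t' * (fcAp (A := wtlM D) Ω ((0, c.M.d p') : D.N.C × c.M.C) - (1 / 2) * c.b p (c.M.d p'))
      have e0 : fcAp (A := wtlM D) Ω
          ((-1 : ℝ) • ((-(D.N.d 0), D.lam.f 0 + c.M.d p') : D.N.C × c.M.C)) =
          -(fcAp (A := wtlM D) Ω ((0, c.M.d p') : D.N.C × c.M.C)) := by
        rw [map_zero, map_zero, neg_zero, zero_add]
        exact (fcAp_map_smul (A := wtlM D) Ω (-1) _).trans (by ring)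
      have e1 : -((-1 : ℝ) • (D.lam.f n + c.M.d p)) = D.lam.f n + c.M.d p := by
        rw [neg_one_smul, neg_neg]
      rw [e0, e1]
      simp only [map_zero, map_add, LinearMap.add_apply]
      rw [c.adj p p', wtK_pred ht]
      rcases wtK_cases t with hk | hk <;> simp only [hk] <;> ring⟩
  r := (LinearMap.prod (LinearMap.fst ℝ _ _ ∘ₗ LinearMap.fst ℝ _ _)
      (LinearMap.prod (LinearMap.snd ℝ _ _ ∘ₗ LinearMap.fst ℝ _ _) (wtlUInl D ∘ₗ LinearMap.snd ℝ _ _)) :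
      (D.N.C × c.M.C) × (wtlM D).dual.C →ₗ[ℝ] D.N.C × (c.M.C × D.N.dual.C))
  s := (LinearMap.prod 0 (wtlUSnd D) : c.M.dual.C →ₗ[ℝ] (D.N.C × c.M.C) × (wtlM D).dual.C)
  r_loc := fun (v : (D.N.C × c.M.C) × (wtlM D).dual.C) => by
    obtain ⟨⟨n, p⟩, Ω⟩ := v
    show D.N.supp n ∪ (c.M.supp p ∪ D.N.dual.supp (wtlUInl D Ω)) ⊆
      (D.N.supp n ∪ c.M.supp p) ∪ (wtlM D).dual.supp Ω
    have h1 := wtlUInl_loc D Ω
    intro z hz
    simp only [Set.mem_union] at hz ⊢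
    rcases hz with hz | hz | hz
    · tauto
    · tauto
    · have := h1 hz
      tauto
  s_loc := fun (γ : c.M.dual.C) => by
    show (D.N.supp 0 ∪ c.M.supp 0) ∪ (wtlM D).dual.supp (wtlUSnd D γ) ⊆ c.M.dual.supp γ
    rw [D.N.supp_zero, c.M.supp_zero, Set.empty_union, Set.empty_union]
    exact wtlUSnd_loc D γ
  ri := fun (v : D.N.C × (c.M.C × D.N.dual.C)) => by
    obtain ⟨n, p, ν⟩ := v
    refine Prod.ext rfl (Prod.ext rfl ?_)
    apply fck_dual_ext (A := D.N)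
    intro n'
    show fcAp ν n' + (1 / 2) * c.b p 0 = fcAp ν n'
    rw [map_zero]; ring
  ps := fun (γ : c.M.dual.C) => by
    apply fck_dual_ext (A := c.M)
    intro p'
    show fcAp γ p' - (1 / 2) * c.b 0 p' = fcAp γ p'
    rw [map_zero, LinearMap.zero_apply]; ring
  sum := fun (v : (D.N.C × c.M.C) × (wtlM D).dual.C) => by
    obtain ⟨⟨n, p⟩, Ω⟩ := v
    refine Prod.ext (Prod.ext ?_ ?_) ?_
    · show n + 0 = n
      rw [add_zero]
    · show p + 0 = p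
      rw [add_zero]
    · apply fck_dual_ext (A := wtlM D)
      intro (v' : D.N.C × c.M.C)
      obtain ⟨n', p'⟩ := v'
      show (fcAp (A := wtlM D) Ω ((n', 0) : D.N.C × c.M.C) + (1 / 2) * c.b p p')
          + (fcAp (A := wtlM D) Ω ((0, p') : D.N.C × c.M.C) - (1 / 2) * c.b p p') =
        fcAp (A := wtlM D) Ω ((n', p') : D.N.C × c.M.C)
      rw [wtl_splitU D Ω n' p']; ring

/-- `f : C → cone(ad_s)`, `p ↦ ((0,p), -(1/2) ψ p ·)` -/
noncomputable def wtlF : FcHom c.M (fcCone (wtlZ ht D).ad) where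
  f := (LinearMap.prod (LinearMap.inr ℝ D.N.C c.M.C)
      ((-(1 / 2) : ℝ) • (wtlUSnd D ∘ₗ fcCurry c.b c.loc)) :
      c.M.C →ₗ[ℝ] (D.N.C × c.M.C) × (wtlM D).dual.C)
  loc := fun p => by
    show (D.N.supp 0 ∪ c.M.supp p) ∪ (wtlM D).dual.supp ((-(1 / 2) : ℝ) • wtlUSnd D (fcCurry c.b c.loc p)) ⊆
      c.M.supp p
    rw [D.N.supp_zero, Set.empty_union]
    exact Set.union_subset subset_rfl (((wtlM D).dual.supp_smul _ _).trans
      ((wtlUSnd_loc D _).trans (fck_curry_loc c.b c.loc p)))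
  comm := fun p => by
    refine Prod.ext ?_ ?_
    · show ((0, c.M.d p) : D.N.C × c.M.C) =
        -((-1 : ℝ) • ((-(D.N.d 0), D.lam.f 0 + c.M.d p) : D.N.C × c.M.C))
      rw [neg_one_smul, neg_neg, map_zero, map_zero, neg_zero, zero_add]
    · apply fck_dual_ext (A := wtlM D)
      intro (v' : D.N.C × c.M.C)
      obtain ⟨n', p'⟩ := v'
      show (-(1 / 2)) * c.b (c.M.d p) p' =
        (D.h 0 n' + (wtK t' / 2) * c.b p (D.lam.f n') + (1 / 2) * c.b (D.lam.f 0) p')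
          + wtK t * ((-(1 / 2)) * c.b p ((-1 : ℝ) • (D.lam.f n' + c.M.d p')))
      simp only [map_zero, map_add, map_smul, LinearMap.zero_apply, smul_eq_mul]
      rw [c.adj p p', wtK_pred ht]
      rcases wtK_cases t with hk | hk <;> simp only [hk] <;> ring

/-- `f` is an isometry `-c → bd (M,s)` -/
noncomputable def wtlFIsom : WtIsom c.neg ((wtlZ ht D).bd t' ht) :=
  ⟨wtlF ht D, fun (p p' : c.M.C) => by
    show (-(1 / 2)) * c.b p p' + wtE t' * ((-(1 / 2)) * c.b p' p) = -(c.b p p')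
    rw [c.symm p p']
    linear_combination (-(1 / 2) * c.b p p') * wtE_sq t'⟩

theorem wtl_F_mem (N0 : FcCls X) (hc : N0.mem (fcCone c.ad)) (hS : N0.mem D.S.M) :
    N0.mem (fcCone (wtlF ht D)) := by
  refine fcb_comp_left N0 (wtlF ht D) (wtlExt ht D).p ((fcb_ext_p_mem_iff N0 (wtlExt ht D)).2 hS) ?_
  refine (fck_cone_congr N0 c.ad ((wtlExt ht D).p.comp (wtlF ht D)) (LinearEquiv.refl ℝ c.M.C)
    (LinearEquiv.refl ℝ c.M.dual.C) (fun _ => rfl) (fun _ => rfl) 1 (-1) one_ne_zero (by norm_num)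
    (fun (p : c.M.C) => ?_) (fun (γ : c.M.dual.C) => ?_) (fun (p : c.M.C) => ?_)).2 hc
  · show c.M.d p = (1 : ℝ) • c.M.d p
    rw [one_smul]
  · show wtK t' • c.M.dual.d γ = (1 : ℝ) • (wtK t' • c.M.dual.d γ)
    rw [one_smul]
  · apply fck_dual_ext (A := c.M)
    intro p'
    show (-(1 / 2)) * c.b p p' - (1 / 2) * c.b p p' = (-1) * c.b p p'
    ring

end G6

/-- (G6) a form in `(P;N0)` which is null-cobordant in `(T;N0)` is a boundary -/
theorem wtl_G6 (T P N0 : FcCls X) (hT : T.Refl) (hPT : P.le T) (hNP : N0.le P) {t t' : ZMod 4}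
    (ht : t' + 1 = t) {c : WtForm X t'} (hc : c.In P N0) (h : WtNC T N0 c) :
    ∃ z : WtForm X t, ∃ _ : z.In T P, WtRel P N0 (z.bd t' ht) c := by
  obtain ⟨D, hN, hS⟩ := h
  have hz0 : (wtlZ ht D).In T P :=
    ⟨T.resc _ (by norm_num) (T.cone D.lam hN (hPT _ hc.1)),
      fcb_ext_mem P (wtlExt ht D) (P.resc _ (wtK_ne_zero t') (P.dual hc.1)) (hNP _ hS)⟩
  have hb0 : ((wtlZ ht D).bd t' ht).In P N0 := wt_bd_in T P N0 hT hz0 t' ht
  have r1 : WtRel P N0 c.neg ((wtlZ ht D).bd t' ht) :=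
    wt_rel_of_isom P N0 (wtlFIsom ht D) (wtl_F_mem ht D N0 hc.2 hS) (wt_in_neg P N0 hc) hb0
  have r2 : WtRel P N0 c.neg.neg ((wtlZ ht D).bd t' ht).neg := wt_rel_neg P N0 r1
  obtain ⟨e⟩ := wt_bd_neg (wtlZ ht D) t' ht
  have hzn : (wtlZ ht D).neg.In T P := wt_in_neg T P hz0
  have r3 : WtRel P N0 ((wtlZ ht D).neg.bd t' ht) ((wtlZ ht D).bd t' ht).neg :=
    wt_rel_of_iso P N0 e (wt_bd_in T P N0 hT hzn t' ht)
  have r4 : WtRel P N0 c.neg.neg c :=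
    wt_rel_of_iso P N0 (wtIsoNegNeg c) (wt_in_neg P N0 (wt_in_neg P N0 hc))
  refine ⟨(wtlZ ht D).neg, hzn, ?_⟩
  exact wt_rel_trans P N0 (wt_in_neg P N0 hb0) r3
    (wt_rel_trans P N0 (wt_in_neg P N0 (wt_in_neg P N0 hc)) (wt_rel_symm P N0 r2) r4)

/-- exactness of `h(T;P) → h(P;N0) → h(T;N0)` -/
theorem wt_exact_sub (T P N0 : FcCls X) (hT : T.Refl) (hPT : P.le T) (hNP : N0.le P) (t t' : ZMod 4)
    (ht : t' + 1 = t) :
    Function.Exact (wtBd T P N0 hT t t' ht) (wtInc hPT N0.le_refl' t') := by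
  intro a
  obtain ⟨c, hc, rfl⟩ := wtMk_surj P N0 a
  rw [wtInc_mk, wtMk_eq_zero_iff]
  constructor
  · intro h
    obtain ⟨z, hz, hzc⟩ := wtl_G6 T P N0 hT hPT hNP ht hc h
    refine ⟨wtMk T P z hz, ?_⟩
    rw [wtBd_mk, wtMk_eq_iff]
    exact hzc
  · rintro ⟨b, hb⟩
    obtain ⟨z, hz, rfl⟩ := wtMk_surj T P b
    rw [wtBd_mk, wtMk_eq_iff] at hb
    have h1 : WtNC T N0 (z.bd t' ht) := wtb_bd_nc_of_mem T N0 z (hT _ hz.1) hz.1 t' ht
    exact wt_nc_of_rel T N0 (wt_in_mono hPT N0.le_refl' (wt_bd_in T P N0 hT hz t' ht))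
      (wt_nc_mono hPT N0.le_refl' hb) h1

/-- the boundary commutes with inclusions of classes -/
theorem wt_bd_inc {T P N0 T' P' N0' : FcCls X} (hT : T.Refl) (hT' : T'.Refl) (h1 : T.le T') (h2 : P.le P')
    (h3 : N0.le N0') (t t' : ZMod 4) (ht : t' + 1 = t) (a : WtH T P t) :
    wtInc h2 h3 t' (wtBd T P N0 hT t t' ht a) = wtBd T' P' N0' hT' t t' ht (wtInc h1 h2 t a) := by
  obtain ⟨x⟩ := a
  rfl

/-- realises the equation lemmas here (unique names) -/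
theorem wtl_eqns_cite : True := by
  have := @wtlL1.eq_1
  have := @wtlL2.eq_1
  have := @wtlMp.eq_1
  have := @wtlPair.eq_1
  have := @wtlBp.eq_1
  have := @wtlXp.eq_1
  have := @wtlTInl.eq_1
  have := @wtlTInr.eq_1
  have := @wtlTFst.eq_1
  have := @wtlTSnd.eq_1
  have := @wtlIso.eq_1
  have := @wtlIncl.eq_1
  have := @wtlSb.eq_1
  have := @wtlZ.eq_1
  have := @wtlM.eq_1
  have := @wtlUInl.eq_1
  have := @wtlUInr.eq_1
  have := @wtlUFst.eq_1
  have := @wtlUSnd.eq_1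
  have := @wtlExt.eq_1
  have := @wtlF.eq_1
  have := @wtlFIsom.eq_1
  trivial

end Claimed.Agent.R304
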