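/-
Row 304 (S0559, Hilbert-Smith).  Owner: helper248.  PACKAGE WtCof: HYPERBOLIC FORMS, COFINALITY, ABSTRACT EXCISION.
Formulas: CbNotes.lean, blocks 9 and 10.

* `wt_hyp_in`   : `ad` of `H(L)` is `[[0,1],[e ev,0]]`.
* `wt_hyp_nc`   : datum `N = L`, inclusion, `h = 0`; Lemma L (`wt_redL`) with `Q = L^∨<k>`, `τ = 0`, `θ μ = k μ` (an isomorphism): no reflexivity needed.
* `wt_hyp_nc'`  : datum `N = L^∨<k>`; `θ l = k e ev l`.   (stated as existence of a datum with prescribed `N`, needed in `wt_cof_ker`)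
* `wt_cof_coker`: `2[q] = [q ⊥ q ⊥ H(M<-1>)]`; the object is `(M ⊕ M<-1>) ⊕ (M ⊕ M^∨<-k>)`; `ad ⊕ 1 : M ⊕ M^∨<-k> → (M ⊕ M<-1>)^∨<k>` has cone in `P ≤ T0`.
* `wt_cof_ker`  : `y = (A,α) ∈ Forms(T0;P)` NC in `(T;P)` by `(N,lam,h)`; `z = N ⊕ N<-1> ∈ T0`; `y ⊥ y ⊥ H(z)` has the datum
                  `L = N ⊕ N ⊕ N^∨<k> ⊕ N<-1>` with `S(L) ∈ P`;  `L ∈ T0`: `cone(lam ⊕ 0 : z → A ⊕ A<-1>) = cone(lam) ⊕ N ⊕ A<-1>`, so `cone(lam) ⊕ N ∈ T0`;
                  `S = cone(θ : cone(lam)<-1> → N^∨<-k>) ∈ P ≤ T0`, so `cone(θ ⊕ 1) ∈ T0`, `N^∨<-k> ⊕ N<-1> ∈ T0`, `N^∨<k> ⊕ N ∈ T0`.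
* `wt_pull_in`, `wt_pull_S` : `ad_{f^*x} = f^∨ ad_x f`;  `S'' = N' × A × N^∨` maps to `S(N)` by `(f,1,1)` and to `S(N')` by `(1,1,f^∨)`.
* `wt_exc_bij`  : onto: `(M', f^* b)` + G1c; injective: pull the datum back along a cut of `N`.
* `wt_dd_exists`: pure algebra: `g b := 4 • a` where `f a = 2 • b`.
Estimated 1500 lines.
PROVED (helper83): no gaps in this file.  `wt_cof_ker` is proved by a shorter route: `N × N^∨<k> ∈ T0` (`wtf_star_mem`), so
`H(N) ∈ Forms(T0;P)`, `[y] + [H(N)] = 0` (datum `N ⊕ N^∨<k>`), `2 [H(N)] = 0` (mixed Lagrangian `N ⊕ N^∨<k>`).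
`wt_pull_S`: `S = cone(tau : N → R)`, `tau' = (1,f^∨) ∘ tau ∘ f`.
-/
import Claimed.Agent.R304.WtHypDefs
import Claimed.Agent.R304.WtLes

set_option autoImplicit false

namespace Claimed.Agent.R304

open Topology

variable {X : Type} [TopologicalSpace X] [T2Space X] {t : ZMod 4}

/-! ### helpers (prefix `wtf`) -/

theorem wtHyp_b (L : FcD X) (t : ZMod 4) (l l' : L.C) (μ μ' : L.dual.C) :
    (wtHyp L t).b ((l, μ) : L.C × L.dual.C) ((l', μ') : L.C × L.dual.C) =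
      fcAp μ l' + wtE t * fcAp μ' l := rfl

/-- the graded piece "`e ev`", general rescalings -/
theorem wtf_ev_mem (P : FcCls X) {N N' : FcD X} (hN : (fcCone (fcEv N)).Acyc) {a b c e : ℝ}
    (hc : c ≠ 0) (hab : b * a = c) (he : e ≠ 0) (u : N.C ≃ₗ[ℝ] N'.C)
    (hu : ∀ n, N'.supp (u n) = N.supp n) (hud : ∀ n, N'.d (u n) = c • u (N.d n))
    (g : FcHom N' ((N.dual.resc a).dual.resc b))
    (hg : ∀ (n : N.C) (ν : N.dual.C), fcAp (A := N.dual) (g.f (u n)) ν = e * fcAp ν n) :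
    P.mem (fcCone g) := by
  refine fck_ev_congr P hN g u (LinearEquiv.refl ℝ N.dual.dual.C)
    hu (fun _ => rfl) c e hc he hud
    (fun (ξ : N.dual.dual.C) => ?_) (fun (n : N.C) => ?_)
  · apply fck_dual_ext (A := N.dual)
    intro ν
    show b * fcAp ξ (a • N.dual.d ν) = c * fcAp ξ (N.dual.d ν)
    rw [fcAp_map_smul, ← hab]
    ring
  · apply fck_dual_ext (A := N.dual)
    intro ν
    exact hg n ν

/-- the graded piece "`c' • 1`" on a dual, general rescalings -/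
theorem wtf_one_mem (P : FcCls X) {N A' B' : FcD X} {c c' : ℝ} (hc : c ≠ 0) (hc' : c' ≠ 0)
    (u : N.C ≃ₗ[ℝ] A'.C) (v : N.C ≃ₗ[ℝ] B'.C)
    (hu : ∀ n, A'.supp (u n) = N.supp n) (hv : ∀ n, B'.supp (v n) = N.supp n)
    (hud : ∀ n, A'.d (u n) = c • u (N.d n)) (hvd : ∀ n, B'.d (v n) = c • v (N.d n))
    (g : FcHom A' B') (hg : ∀ n, g.f (u n) = c' • v n) : P.mem (fcCone g) :=
  (fck_cone_congr P (fcId N) g u v hu hv c c' hc hc' hud hvd hg).2 (fcb_cone_id_mem P _)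

theorem wt_hyp_in (T N0 : FcCls X) (hT : T.Refl) {L : FcD X} (hL : T.mem L) : (wtHyp L t).In T N0 := by
  refine ⟨fcb_prod_mem T hL (T.resc _ (wtK_ne_zero t) (T.dual hL)), ?_⟩
  have hfilt : ∀ b, ((fcbExtProd L (L.dual.resc (wtK t))).dual.resc (wtK t)).p.f
      ((wtHyp L t).ad.f ((fcbExtProd L (L.dual.resc (wtK t))).i.f b)) = 0 := by
    intro (μ : L.dual.C)
    apply fck_dual_ext (A := L.dual.resc (wtK t))
    intro (μ' : L.dual.C)
    show fcAp μ (0 : L.C) + wtE t * fcAp μ' (0 : L.C) = 0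
    rw [fcAp_map_zero, fcAp_map_zero]
    ring
  refine fck_mem_cone_filt N0 (fcbExtProd L (L.dual.resc (wtK t)))
    ((fcbExtProd L (L.dual.resc (wtK t))).dual.resc (wtK t)) (wtHyp L t).ad
    (fcId (L.dual.resc (wtK t)))
    (FcExt.quotMap (fcbExtProd L (L.dual.resc (wtK t)))
      ((fcbExtProd L (L.dual.resc (wtK t))).dual.resc (wtK t)) (wtHyp L t).ad hfilt)
    (fun (μ : L.dual.C) => ?_) (fun _ => rfl) (fcb_cone_id_mem N0 _) ?_
  · apply fck_dual_ext (A := L.prod (L.dual.resc (wtK t)))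
    intro (m : L.C × L.dual.C)
    show fcAp μ m.1 + wtE t * fcAp m.2 (0 : L.C) = fcAp μ m.1
    rw [fcAp_map_zero]
    ring
  · refine wtf_ev_mem N0 (hT _ hL) (a := wtK t) (b := wtK t) (c := 1) (e := wtE t) one_ne_zero
      (wtK_sq t) (wtE_ne_zero t) (LinearEquiv.refl ℝ L.C) (fun _ => rfl)
      (fun n => (one_smul ℝ _).symm) _ (fun n ν => ?_)
    show fcAp (0 : L.dual.C) (0 : L.C) + wtE t * fcAp ν n = wtE t * fcAp ν n
    rw [fcAp_zero]
    ring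


/-- the Lagrangian `L` of `H(L)` -/
def wtfDatL (L : FcD X) (t : ZMod 4) : WtDat (wtHyp L t) where
  N := L
  lam := fcbInl L (L.dual.resc (wtK t))
  h := 0
  h_loc := fun _ _ _ => rfl
  h_symm := fun _ _ => by simp
  h_eq := fun n n' => by
    show fcAp (0 : L.dual.C) n' + wtE t * fcAp (0 : L.dual.C) n = (0 : ℝ) + wtK t * 0
    rw [fcAp_zero, fcAp_zero]
    ring

/-- the Lagrangian `L^∨<k>` of `H(L)` -/
def wtfDatD (L : FcD X) (t : ZMod 4) : WtDat (wtHyp L t) where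
  N := L.dual.resc (wtK t)
  lam := fcbInr L (L.dual.resc (wtK t))
  h := 0
  h_loc := fun _ _ _ => rfl
  h_symm := fun _ _ => by simp
  h_eq := fun (n n' : L.dual.C) => by
    show fcAp n (0 : L.C) + wtE t * fcAp n' (0 : L.C) = (0 : ℝ) + wtK t * 0
    rw [fcAp_map_zero, fcAp_map_zero]
    ring

theorem wtf_datL_S (P : FcCls X) (L : FcD X) (t : ZMod 4) : P.mem (wtfDatL L t).S.M := by
  rw [wts_L_iff (wtfDatL L t) (fcbExtProd' L (L.dual.resc (wtK t))) P (fun _ => rfl)]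
  refine wtf_one_mem P (N := L.dual) (A' := (L.dual.resc (wtK t)).resc (-1))
    (B' := L.dual.resc (-(wtK t))) (c := -(wtK t)) (c' := wtK t) (neg_ne_zero.2 (wtK_ne_zero t))
    (wtK_ne_zero t) (LinearEquiv.refl ℝ L.dual.C) (LinearEquiv.refl ℝ L.dual.C) (fun _ => rfl)
    (fun _ => rfl) (fun (μ : L.dual.C) => ?_) (fun _ => rfl) _ (fun (μ : L.dual.C) => ?_)
  · show (-1 : ℝ) • (wtK t • L.dual.d μ) = (-(wtK t)) • L.dual.d μ
    rw [smul_smul]
    congr 1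
    ring
  · apply fck_dual_ext (A := L)
    intro n
    show wtK t * (fcAp μ n + wtE t * fcAp (0 : L.dual.C) (0 : L.C)) - (0 : ℝ) = wtK t * fcAp μ n
    rw [fcAp_zero]
    ring

theorem wtf_datD_S (P : FcCls X) {L : FcD X} (hL : (fcCone (fcEv L)).Acyc) (t : ZMod 4) :
    P.mem (wtfDatD L t).S.M := by
  rw [wts_L_iff (wtfDatD L t) (fcbExtProd L (L.dual.resc (wtK t))) P (fun _ => rfl)]
  refine wtf_ev_mem P hL (N' := L.resc (-1)) (a := wtK t) (b := -(wtK t)) (c := -1) (e := wtK t * wtE t) (by norm_num)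
    (by linear_combination (-1 : ℝ) * wtK_sq t) (mul_ne_zero (wtK_ne_zero t) (wtE_ne_zero t))
    (LinearEquiv.refl ℝ L.C) (fun _ => rfl) (fun _ => rfl) _ (fun n ν => ?_)
  show wtK t * (fcAp (0 : L.dual.C) (0 : L.C) + wtE t * fcAp ν n) - (0 : ℝ) = wtK t * wtE t * fcAp ν n
  rw [fcAp_zero]
  ring

theorem wt_hyp_nc (T N0 : FcCls X) {L : FcD X} (hL : T.mem L) : WtNC T N0 (wtHyp L t) :=
  ⟨wtfDatL L t, hL, wtf_datL_S N0 L t⟩

theorem wt_hyp_nc' (N0 : FcCls X) {L : FcD X} (hL : (fcCone (fcEv L)).Acyc) :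
    ∃ D : WtDat (wtHyp L t), Nonempty (FcIso D.N (L.dual.resc (wtK t))) ∧ N0.mem D.S.M :=
  ⟨wtfDatD L t, ⟨FcIso.refl _⟩, wtf_datD_S N0 hL t⟩


/-- `(A × B) × (C × D) ≅ (A × C) × (B × D)` -/
def wtfMid4 (A B C D : FcD X) : FcIso ((A.prod B).prod (C.prod D)) ((A.prod C).prod (B.prod D)) :=
  (fcIsoAssoc A B (C.prod D)).trans
    (((FcIso.refl A).prodMap ((fcIsoAssoc B C D).symm.trans
      (((fcIsoSwap B C).prodMap (FcIso.refl D)).trans (fcIsoAssoc C B D)))).trans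
      (fcIsoAssoc A C (B.prod D)).symm)

/-- `(A × B)^∨<k> ≅ A^∨<k> × B^∨<k>` -/
def wtfDualProdResc (A B : FcD X) (k : ℝ) :
    FcIso ((A.prod B).dual.resc k) ((A.dual.resc k).prod (B.dual.resc k)) where
  e := fckDualProd A.toFcObj B.toFcObj
  supp_eq := fckDualProd_supp A.toFcObj B.toFcObj
  comm := fun (ξ : (A.prod B).dual.C) => by
    refine Prod.ext ?_ ?_
    · apply fck_dual_ext (A := A)
      intro a
      show k * fcAp ξ ((A.d a, B.d 0) : A.C × B.C) = k * fcAp ξ ((A.d a, 0) : A.C × B.C)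
      rw [map_zero]
    · apply fck_dual_ext (A := B)
      intro b
      show k * fcAp ξ ((A.d 0, B.d b) : A.C × B.C) = k * fcAp ξ ((0, B.d b) : A.C × B.C)
      rw [map_zero]

theorem wtf_prodMap_mem (P : FcCls X) {A A' B B' : FcD X} (f : FcHom A A') (g : FcHom B B')
    (hf : P.mem (fcCone f)) (hg : P.mem (fcCone g)) : P.mem (fcCone (f.prodMap g)) :=
  fck_mem_cone_filt P (fcbExtProd A B) (fcbExtProd A' B') (f.prodMap g) g f
    (fun b => by
      show ((f.f 0, g.f b) : A'.C × B'.C) = (0, g.f b)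
      rw [map_zero])
    (fun _ => rfl) hg hf

theorem wtInc_inc {T1 P1 T2 P2 T3 P3 : FcCls X} (h12 : T1.le T2) (k12 : P1.le P2) (h23 : T2.le T3)
    (k23 : P2.le P3) (h13 : T1.le T3) (k13 : P1.le P3) (t : ZMod 4) (a : WtH T1 P1 t) :
    wtInc h23 k23 t (wtInc h12 k12 t a) = wtInc h13 k13 t a := by
  obtain ⟨x⟩ := a
  rfl

/-- cofinality, cokernel -/
theorem wt_cof_coker (T0 T P : FcCls X) (hT : T.Refl) (h0 : T0.le T) (hP : P.le T0)
    (hd : ∀ A, T.mem A → T0.mem (A.prod (A.resc (-1)))) (t : ZMod 4) (a : WtH T P t) :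
    ∃ b : WtH T0 P t, wtInc h0 P.le_refl' t b = 2 • a := by
  obtain ⟨q, hq, rfl⟩ := wtMk_surj T P a
  have hM1 : T.mem (q.M.resc (-1)) := T.resc _ (by norm_num) hq.1
  have hH : (wtHyp (q.M.resc (-1)) t).In T P := wt_hyp_in T P hT hM1
  have hy : ((q.sum q).sum (wtHyp (q.M.resc (-1)) t)).In T P :=
    wt_in_sum T P (wt_in_sum T P hq hq) hH
  have h1 : T0.mem (q.M.prod (q.M.resc (-1))) := hd _ hq.1
  have h3 : T0.mem ((q.M.dual.resc (wtK t)).prod ((q.M.resc (-1)).dual.resc (wtK t))) :=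
    T0.iso (wtfDualProdResc q.M (q.M.resc (-1)) (wtK t)) (T0.resc _ (wtK_ne_zero t) (T0.dual h1))
  have h4 : T0.mem (q.M.prod ((q.M.resc (-1)).dual.resc (wtK t))) :=
    T0.cone_src (q.ad.prodMap (fcId ((q.M.resc (-1)).dual.resc (wtK t)))) h3
      (hP _ (wtf_prodMap_mem P _ _ hq.2 (fcb_cone_id_mem P _)))
  have h6 : T0.mem ((q.sum q).sum (wtHyp (q.M.resc (-1)) t)).M :=
    T0.iso (wtfMid4 _ _ _ _) (fcb_prod_mem T0 h1 h4)
  have hy0 : ((q.sum q).sum (wtHyp (q.M.resc (-1)) t)).In T0 P := ⟨h6, hy.2⟩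
  refine ⟨wtMk T0 P ((q.sum q).sum (wtHyp (q.M.resc (-1)) t)) hy0, ?_⟩
  rw [wtInc_mk, two_nsmul]
  have e1 : wtMk T P ((q.sum q).sum (wtHyp (q.M.resc (-1)) t)) hy =
      (wtMk T P q hq + wtMk T P q hq) + wtMk T P (wtHyp (q.M.resc (-1)) t) hH := rfl
  have e2 : wtMk T P (wtHyp (q.M.resc (-1)) t) hH = 0 :=
    (wtMk_eq_zero_iff T P _ _).2 (wt_hyp_nc T P hM1)
  rw [e2, add_zero] at e1
  exact e1


/-- the product of two extensions -/
def wtfExtProd {B E A B' E' A' : FcD X} (e : FcExt B E A) (e' : FcExt B' E' A') :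
    FcExt (B.prod B') (E.prod E') (A.prod A') where
  i := e.i.prodMap e'.i
  p := e.p.prodMap e'.p
  r := e.r.prodMap e'.r
  s := e.s.prodMap e'.s
  r_loc := fun m => Set.union_subset_union (e.r_loc m.1) (e'.r_loc m.2)
  s_loc := fun m => Set.union_subset_union (e.s_loc m.1) (e'.s_loc m.2)
  ri := fun b => Prod.ext (e.ri b.1) (e'.ri b.2)
  ps := fun a => Prod.ext (e.ps a.1) (e'.ps a.2)
  sum := fun x => Prod.ext (e.sum x.1) (e'.sum x.2)

/-- `cone(lam ∘ pr₁ : N × N<-1> → A) ≅ cone(lam) × N` -/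
def wtfConeFst {N A : FcD X} (lam : FcHom N A) :
    FcIso (fcCone (lam.comp (fcbFst N (N.resc (-1))))) ((fcCone lam).prod N) where
  e := LinearEquiv.ofLinearMap
    (((LinearMap.fst ℝ N.C N.C ∘ₗ LinearMap.fst ℝ (N.C × N.C) A.C).prod
        (LinearMap.snd ℝ (N.C × N.C) A.C)).prod
      (LinearMap.snd ℝ N.C N.C ∘ₗ LinearMap.fst ℝ (N.C × N.C) A.C))
    (((LinearMap.fst ℝ N.C A.C ∘ₗ LinearMap.fst ℝ (N.C × A.C) N.C).prod
        (LinearMap.snd ℝ (N.C × A.C) N.C)).prod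
      (LinearMap.snd ℝ N.C A.C ∘ₗ LinearMap.fst ℝ (N.C × A.C) N.C))
    (by apply LinearMap.ext; rintro ⟨⟨n, a⟩, n'⟩; rfl)
    (by apply LinearMap.ext; rintro ⟨⟨n, n'⟩, a⟩; rfl)
  supp_eq := fun (m : (N.C × N.C) × A.C) => by
    show (N.supp m.1.1 ∪ A.supp m.2) ∪ N.supp m.1.2 = (N.supp m.1.1 ∪ N.supp m.1.2) ∪ A.supp m.2
    exact Set.union_right_comm _ _ _
  comm := fun (m : (N.C × N.C) × A.C) => by
    obtain ⟨⟨n, n'⟩, a⟩ := m
    show (((-(N.d n), lam.f n + A.d a), -((-1 : ℝ) • N.d n')) : (N.C × A.C) × N.C) =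
      ((-(N.d n), lam.f n + A.d a), N.d n')
    rw [neg_one_smul, neg_neg]

/-- `(N^∨<-k> × N<-1>)<-1> ≅ N × N^∨<k>` -/
def wtfStar (N : FcD X) (k : ℝ) :
    FcIso (((N.dual.resc (-k)).prod (N.resc (-1))).resc (-1)) (N.prod (N.dual.resc k)) where
  e := LinearEquiv.prodComm ℝ N.dual.C N.C
  supp_eq := fun (_ : N.dual.C × N.C) => Set.union_comm _ _
  comm := fun (m : N.dual.C × N.C) => by
    obtain ⟨ν, n⟩ := m
    show (((-1 : ℝ) • ((-1 : ℝ) • N.d n), (-1 : ℝ) • ((-k) • N.dual.d ν)) : N.C × N.dual.C) =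
      (N.d n, k • N.dual.d ν)
    rw [smul_smul, smul_smul]
    norm_num

/-- the key membership of the cofinality argument: `N × N^∨<k> ∈ T0` -/
theorem wtf_star_mem (T0 T P : FcCls X) (hP : P.le T0)
    (hd : ∀ A, T.mem A → T0.mem (A.prod (A.resc (-1)))) {y : WtForm X t} (hy : T0.mem y.M)
    (D : WtDat y) (hN : T.mem D.N) (hS : P.mem D.S.M) :
    T0.mem (D.N.prod (D.N.dual.resc (wtK t))) := by
  have h1 : T0.mem ((fcCone D.lam).prod D.N) :=
    T0.iso (wtfConeFst D.lam) (T0.cone _ (hd _ hN) hy)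
  have h2 : T0.mem ((fcCone D.lam).prod ((D.N.resc (-1)).resc (-1))) :=
    T0.iso ((FcIso.refl _).prodMap (fcbRescNegNeg D.N).symm) h1
  have h3 : T0.mem (D.S.M.prod (fcCone (fcId (D.N.resc (-1))))) :=
    fcb_prod_mem T0 (hP _ hS) (fcb_cone_id_mem T0 _)
  have h4 : T0.mem ((D.N.dual.resc (-(wtK t))).prod (D.N.resc (-1))) :=
    fcb_ext_sub T0 (wtfExtProd (wtsExtB D) (fcbExtCone (fcId (D.N.resc (-1))))) h3 h2
  exact T0.iso (wtfStar D.N (wtK t)) (T0.resc _ (by norm_num) h4)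

/-- cofinality, kernel -/
theorem wt_cof_ker (T0 T P : FcCls X) (hT : T.Refl) (h0 : T0.le T) (hP : P.le T0)
    (hd : ∀ A, T.mem A → T0.mem (A.prod (A.resc (-1)))) (t : ZMod 4) (b : WtH T0 P t)
    (hb : wtInc h0 P.le_refl' t b = 0) : 2 • b = 0 := by
  obtain ⟨y, hy, rfl⟩ := wtMk_surj T0 P b
  rw [wtInc_mk, wtMk_eq_zero_iff] at hb
  obtain ⟨D, hN, hS⟩ := hb
  have hst : T0.mem (D.N.prod (D.N.dual.resc (wtK t))) := wtf_star_mem T0 T P hP hd hy.1 D hN hS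
  have hH : (wtHyp D.N t).In T0 P := ⟨hst, (wt_hyp_in T P hT hN).2⟩
  -- `[y] + [H] = 0`
  have e1 : wtMk T0 P y hy + wtMk T0 P (wtHyp D.N t) hH = 0 := by
    rw [wtMk_add, wtMk_eq_zero_iff]
    exact ⟨wtcDatSum D (wtfDatD D.N t), hst,
      fcb_ext_mem P (wtcSumExt D (wtfDatD D.N t)) hS (wtf_datD_S P (hT _ hN) t)⟩
  -- `[H] + [H] = 0`
  have e2 : wtMk T0 P (wtHyp D.N t) hH + wtMk T0 P (wtHyp D.N t) hH = 0 := by
    rw [wtMk_add, wtMk_eq_zero_iff]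
    exact ⟨wtcDatSum (wtfDatL D.N t) (wtfDatD D.N t), hst,
      fcb_ext_mem P (wtcSumExt (wtfDatL D.N t) (wtfDatD D.N t)) (wtf_datL_S P D.N t)
        (wtf_datD_S P (hT _ hN) t)⟩
  have e3 : wtMk T0 P y hy = - wtMk T0 P (wtHyp D.N t) hH := eq_neg_of_add_eq_zero_left e1
  rw [two_nsmul, e3, ← neg_add, e2, neg_zero]


/-- the pull back of a form in `(T;P)` along a `P`-equivalence from an object of `T` -/
theorem wt_pull_in (T P : FcCls X) {x : WtForm X t} (hx : x.In T P) {A : FcD X} (f : FcHom A x.M)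
    (hA : T.mem A) (hf : P.mem (fcCone f)) : (x.pull f).In T P := by
  refine ⟨hA, ?_⟩
  have e : (x.pull f).ad = ((fcTr f).resc (wtK t)).comp (x.ad.comp f) := by
    apply FcHom.ext'
    intro a
    rfl
  rw [e]
  exact fcb_comp_mem P _ _ (fcb_comp_mem P _ _ hf hx.2)
    ((fcb_cone_resc_iff P _ (wtK_ne_zero t)).2 (fck_eqv_tr P _ hf))

/-- `R(D) → R(f^* D)`, `(p, ν) ↦ (p, ν ∘ f)` -/
def wtfRho {x : WtForm X t} (D : WtDat x) {N' : FcD X} (f : FcHom N' D.N) :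
    FcHom (wtsR D) (wtsR (D.pull f)) where
  f := (LinearMap.id : x.M.C →ₗ[ℝ] x.M.C).prodMap (fcTr f).f
  loc := fun (m : x.M.C × D.N.dual.C) => Set.union_subset_union subset_rfl ((fcTr f).loc m.2)
  comm := fun (m : x.M.C × D.N.dual.C) => by
    obtain ⟨p, ν⟩ := m
    refine Prod.ext rfl ?_
    apply fck_dual_ext (A := N')
    intro n'
    show wtK t * x.b p (D.lam.f (f.f n')) + (-(wtK t)) * fcAp ν (D.N.d (f.f n')) =
      wtK t * x.b p (D.lam.f (f.f n')) + (-(wtK t)) * fcAp ν (f.f (N'.d n'))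
    rw [f.comm]

theorem wtf_rho_mem (P : FcCls X) {x : WtForm X t} (D : WtDat x) {N' : FcD X} (f : FcHom N' D.N)
    (hf : P.mem (fcCone f)) : P.mem (fcCone (wtfRho D f)) :=
  fck_mem_cone_filt P (wtsExtC D) (wtsExtC (D.pull f)) (wtfRho D f)
    ((fcTr f).resc (-(wtK t))) (fcId x.M)
    (fun (_ : D.N.dual.C) => rfl) (fun _ => rfl)
    ((fcb_cone_resc_iff P _ (neg_ne_zero.2 (wtK_ne_zero t))).2 (fck_eqv_tr P _ hf))
    (fcb_cone_id_mem P _)

/-- the surgery along a pulled back datum -/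
theorem wt_pull_S (P : FcCls X) {x : WtForm X t} (D : WtDat x) {N' : FcD X} (f : FcHom N' D.N)
    (hf : P.mem (fcCone f)) (hS : P.mem D.S.M) : P.mem (D.pull f).S.M := by
  have h1 : P.mem (fcCone (wtsExtA D).tauHom) := P.iso (wtsExtA D).isoCone hS
  have h2 : P.mem (fcCone ((f.resc (-1)).resc (-1))) :=
    (fcb_cone_resc_iff P _ (by norm_num)).2 ((fcb_cone_resc_iff P _ (by norm_num)).2 hf)
  have e : (wtsExtA (D.pull f)).tauHom =
      (wtfRho D f).comp ((wtsExtA D).tauHom.comp ((f.resc (-1)).resc (-1))) := by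
    apply FcHom.ext'
    intro (n : N'.C)
    refine Prod.ext ?_ ?_
    · show D.lam.f (f.f n) + x.M.d 0 = D.lam.f (f.f n) + x.M.d 0
      rfl
    · apply fck_dual_ext (A := N')
      intro n'
      rfl
  refine P.iso (wtsExtA (D.pull f)).isoCone.symm ?_
  rw [e]
  exact fcb_comp_mem P _ _ (fcb_comp_mem P _ _ h2 h1) (wtf_rho_mem P D f hf)


/-- abstract excision -/
theorem wt_exc_bij (TV TW PI PU : FcCls X) (h1 : TV.le TW) (h2 : PI.le PU)
    (hcut : ∀ M, TW.mem M → ∃ (M' : FcD X) (f : FcHom M' M), TV.mem M' ∧ PU.mem (fcCone f))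
    (hint : ∀ C, TV.mem C → PU.mem C → PI.mem C) (t : ZMod 4) :
    Function.Bijective (wtInc h1 h2 t) := by
  constructor
  · rw [injective_iff_map_eq_zero]
    intro b hb
    obtain ⟨y, hy, rfl⟩ := wtMk_surj TV PI b
    rw [wtInc_mk, wtMk_eq_zero_iff] at hb
    obtain ⟨D, hN, hS⟩ := hb
    obtain ⟨N', f, hN', hf⟩ := hcut _ hN
    rw [wtMk_eq_zero_iff]
    exact ⟨D.pull f, hN', hint _ (wts_S_mem (D.pull f) TV hy.1 hN') (wt_pull_S PU D f hf hS)⟩
  · intro a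
    obtain ⟨x, hx, rfl⟩ := wtMk_surj TW PU a
    obtain ⟨M', f, hM', hf⟩ := hcut _ hx.1
    have hp : (x.pull f).In TW PU := wt_pull_in TW PU hx f (h1 _ hM') hf
    have hp' : (x.pull f).In TV PI :=
      ⟨hM', hint _ (TV.cone _ hM' (TV.resc _ (wtK_ne_zero t) (TV.dual hM'))) hp.2⟩
    refine ⟨wtMk TV PI (x.pull f) hp', ?_⟩
    rw [wtInc_mk, wtMk_eq_iff]
    exact wt_rel_of_isom TW PU (x.pullIsom f) hf hp hx

theorem wtf_refl_mono {T0 T : FcCls X} (h : T0.le T) (hT : T.Refl) : T0.Refl :=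
  fun A hA => hT A (h A hA)

/-- excision for the thick classes up to torsion: cokernel -/
theorem wt_exc_coker (PV PW PI PU TV TW : FcCls X) (hW : PW.Refl)
    (hVW : PV.le PW) (hIU : PI.le PU) (hTV : TV.le PV) (hTW : TW.le PW) (hTVW : TV.le TW)
    (hITV : PI.le TV) (hUTW : PU.le TW)
    (hdW : ∀ A, PW.mem A → TW.mem (A.prod (A.resc (-1))))
    (hcut : ∀ M, TW.mem M → ∃ (M' : FcD X) (f : FcHom M' M), TV.mem M' ∧ PU.mem (fcCone f))
    (hint : ∀ C, TV.mem C → PU.mem C → PI.mem C) (t : ZMod 4) (a : WtH PW PU t) :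
    ∃ b : WtH PV PI t, wtInc hVW hIU t b = 2 • a := by
  obtain ⟨b1, hb1⟩ := wt_cof_coker TW PW PU hW hTW hUTW hdW t a
  obtain ⟨b2, hb2⟩ := (wt_exc_bij TV TW PI PU hTVW hIU hcut hint t).2 b1
  refine ⟨wtInc hTV PI.le_refl' t b2, ?_⟩
  rw [← hb1, ← hb2, wtInc_inc hTV PI.le_refl' hVW hIU (fun A h => hVW A (hTV A h)) hIU,
    wtInc_inc hTVW hIU hTW PU.le_refl' (fun A h => hVW A (hTV A h)) hIU]

/-- excision for the thick classes up to torsion: kernel -/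
theorem wt_exc_ker (PV PW PI PU TV TW : FcCls X) (hW : PW.Refl)
    (hVW : PV.le PW) (hIU : PI.le PU) (hTV : TV.le PV) (hTW : TW.le PW) (hTVW : TV.le TW)
    (hITV : PI.le TV) (hUTW : PU.le TW)
    (hdV : ∀ A, PV.mem A → TV.mem (A.prod (A.resc (-1))))
    (hdW : ∀ A, PW.mem A → TW.mem (A.prod (A.resc (-1))))
    (hcut : ∀ M, TW.mem M → ∃ (M' : FcD X) (f : FcHom M' M), TV.mem M' ∧ PU.mem (fcCone f))
    (hint : ∀ C, TV.mem C → PU.mem C → PI.mem C) (t : ZMod 4) (b : WtH PV PI t)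
    (hb : wtInc hVW hIU t b = 0) : 4 • b = 0 := by
  obtain ⟨c, hc⟩ := wt_cof_coker TV PV PI (wtf_refl_mono hVW hW) hTV hITV hdV t b
  have h1 : wtInc hTW PU.le_refl' t (wtInc hTVW hIU t c) = 0 := by
    rw [wtInc_inc hTVW hIU hTW PU.le_refl' (fun A h => hVW A (hTV A h)) hIU,
      ← wtInc_inc hTV PI.le_refl' hVW hIU (fun A h => hVW A (hTV A h)) hIU, hc, map_nsmul, hb,
      smul_zero]
  have h2 : 2 • wtInc hTVW hIU t c = 0 := wt_cof_ker TW PW PU hW hTW hUTW hdW t _ h1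
  have h3 : 2 • c = 0 := by
    apply (wt_exc_bij TV TW PI PU hTVW hIU hcut hint t).1
    rw [map_nsmul, h2, map_zero]
  have h4 : (4 : ℕ) • b = 2 • (2 • b) := by
    rw [smul_smul]
    norm_num
  rw [h4, ← hc, ← map_nsmul, h3, map_zero]

/-- a homomorphism with kernel killed by `4` and cokernel killed by `2` has an inverse up to `8` -/
theorem wt_dd_exists {A B : Type 1} [AddCommGroup A] [AddCommGroup B] (f : A →+ B)
    (hk : ∀ a, f a = 0 → 4 • a = 0) (hc : ∀ b, ∃ a, f a = 2 • b) :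
    ∃ g : B →+ A, (∀ b, f (g b) = 8 • b) ∧ ∀ a, g (f a) = 8 • a := by
  choose s hs using hc
  have key : ∀ a a' : A, f a = f a' → 4 • a = 4 • a' := by
    intro a a' h
    have := hk (a - a') (by rw [map_sub, h, sub_self])
    rw [smul_sub, sub_eq_zero] at this
    exact this
  refine ⟨{ toFun := fun b => 4 • s b
            map_zero' := ?_
            map_add' := ?_ }, ?_, ?_⟩
  · have := key (s 0) 0 (by rw [hs, smul_zero, map_zero])
    rw [this, smul_zero]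
  · intro b b'
    rw [← smul_add]
    exact key _ _ (by rw [hs, map_add, hs, hs, smul_add])
  · intro b
    show f (4 • s b) = 8 • b
    rw [map_nsmul, hs, smul_smul]
    norm_num
  · intro a
    show 4 • s (f a) = 8 • a
    rw [key (s (f a)) (2 • a) (by rw [hs, map_nsmul]), smul_smul]
    norm_num

/-- realises the equation lemmas here (unique names) -/
theorem wtf_eqns_cite : True := by
  have := @wtfDatL.eq_1
  have := @wtfDatD.eq_1
  have := @wtfMid4.eq_1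
  have := @wtfDualProdResc.eq_1
  have := @wtfExtProd.eq_1
  have := @wtfConeFst.eq_1
  have := @wtfStar.eq_1
  have := @wtfRho.eq_1
  trivial

end Claimed.Agent.R304
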