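/-
Row 304 (S0559, Hilbert-Smith).  Owner: helper248.  THE INTERFACE  S → E.

`FcModel` = everything layer E (files `Wt*`) needs to know about the geometric class `T(X)` of differential `FC`-objects.
Layer S (helper231 FcBasic/FcCube/FcCut, helper154 FcLG/FcFin/FcCyl, helper138 As*) has to produce ONE term `fc_model : FcModel`.
`WtInst.lean` turns a term of `FcModel` into `EhTheory` and `EhCube` (helper13's interface).

MEANING.  `T X` = thick class generated by `f_!(AS(cube).res E)` and their duals.   `P_V := (T X).near V` (members locally acyclic near `X ∖ V`).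

FIELD            CONTENT                                                                                     OWNER
`refl`           `cone(M → M^∨∨)` locally acyclic                                                             154 (property F)
`cpt`            every member is locally acyclic off a compact set                                            231 (induction)
`push`           `g_! T(X) ⊆ T(Y)` for every continuous `g`                                                   231 (induction)
`pushDual`       `g_!(M^∨) → (g_! M)^∨` has locally acyclic cone                                              231 (from `cpt`)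
`exc`            the classes for excision (CbNotes 10): cover cut + complement                                231 (FcCut)
`emb`            objects supported in an open subset come from that subset (support theorem, paper P3.2)      231 (FcCut)
`cyl`            the cylinder null-cobordism between `i_{1!} x` and `i_{0!} x` on `I × X`                     154 (FcCyl)
`pt_fin/pt_mem`  `T(point)` = finite dimensional homology                                                     154 (FcFin)
`cube*`          the forms on the cubes                                                                       248 (WtCube)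
-/
import Claimed.Agent.R304.WtHypDefs
import Claimed.Agent.R304.EhDefs

set_option autoImplicit false

namespace Claimed.Agent.R304

open Topology TopologicalSpace

/-- the slice inclusion `x ↦ (s, x)` -/
def fcSlice (X : Type) [TopologicalSpace X] (s : unitInterval) : C(X, unitInterval × X) :=
  ⟨fun x => (s, x), by fun_prop⟩

/-- the cycles of a differential object -/
def FcD.cyc {X : Type} [TopologicalSpace X] (A : FcD X) : Submodule ℝ A.C := LinearMap.ker A.d

/-- the boundaries inside the cycles -/
def FcD.bdr {X : Type} [TopologicalSpace X] (A : FcD X) : Submodule ℝ A.cyc :=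
  (LinearMap.range A.d).comap A.cyc.subtype

/-- the (global) homology `ker d / im d` -/
abbrev FcD.Hom {X : Type} [TopologicalSpace X] (A : FcD X) : Type := A.cyc ⧸ A.bdr

/-- THE INTERFACE  S → E -/
structure FcModel where
  /-- the geometric class -/
  T : (X : Type) → [TopologicalSpace X] → [T2Space X] → [LocallyCompactSpace X] → FcCls X
  refl : ∀ (X : Type) [TopologicalSpace X] [T2Space X] [LocallyCompactSpace X], (T X).Refl
  cpt : ∀ (X : Type) [TopologicalSpace X] [T2Space X] [LocallyCompactSpace X] (A : FcD X),
    (T X).mem A → ∃ K : Set X, IsCompact K ∧ A.AcycOn Kᶜ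
  push : ∀ {X Y : Type} [TopologicalSpace X] [T2Space X] [LocallyCompactSpace X] [TopologicalSpace Y]
    [T2Space Y] [LocallyCompactSpace Y] (g : C(X, Y)) (A : FcD X), (T X).mem A → (T Y).mem (A.push g)
  pushDual : ∀ {X Y : Type} [TopologicalSpace X] [T2Space X] [LocallyCompactSpace X] [TopologicalSpace Y]
    [T2Space Y] [LocallyCompactSpace Y] (g : C(X, Y)) (A : FcD X), (T X).mem A →
    (fcCone (fcPushDual g A)).Acyc
  exc : ∀ (X : Type) [TopologicalSpace X] [T2Space X] [LocallyCompactSpace X] (U V : Set X),
    IsOpen U → IsOpen V → ∃ TV TW : FcCls X,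
      ((T X).near (U ∩ V)).le TV ∧ TV.le ((T X).near V) ∧
      ((T X).near U).le TW ∧ TW.le ((T X).near (U ∪ V)) ∧ TV.le TW ∧
      (∀ A, ((T X).near V).mem A → TV.mem (A.prod (A.resc (-1)))) ∧
      (∀ A, ((T X).near (U ∪ V)).mem A → TW.mem (A.prod (A.resc (-1)))) ∧
      (∀ M, TW.mem M → ∃ (M' : FcD X) (f : FcHom M' M), TV.mem M' ∧ ((T X).near U).mem (fcCone f))
  emb : ∀ {Y X : Type} [TopologicalSpace Y] [T2Space Y] [LocallyCompactSpace Y] [TopologicalSpace X]
    [T2Space X] [LocallyCompactSpace X] (j : C(Y, X)), IsOpenEmbedding j → ∀ (V : Set X), IsOpen V →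
    V ⊆ Set.range j → ∀ A, ((T X).near V).mem A →
    ∃ (A' : FcD Y) (f : FcHom (A'.push j) A), (T Y).mem A' ∧ (fcCone f).Acyc
  cyl : ∀ (X : Type) [TopologicalSpace X] [T2Space X] [LocallyCompactSpace X] (t : ZMod 4)
    (x : WtForm X t), (T X).mem x.M →
    ∃ D : WtDat ((x.push (fcSlice X 1)).sum (x.push (fcSlice X 0)).neg),
      (T (unitInterval × X)).mem D.N ∧
      (∀ O : Set X, IsOpen O → x.M.AcycOn O → D.N.AcycOn (Set.univ ×ˢ O)) ∧
      (∀ O : Set X, IsOpen O → (fcCone x.ad).AcycOn O → D.S.M.AcycOn (Set.univ ×ˢ O))
  pt_fin : ∀ A : FcD PUnit.{1}, (T PUnit.{1}).mem A → Module.Finite ℝ A.Hom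
  pt_mem : ∀ A : FcD PUnit.{1}, Module.Finite ℝ A.Hom → (T PUnit.{1}).mem A
  /-- the orientation form of the cube `[-1,1]^d`, of type `d mod 4` -/
  cube : (d : ℕ) → WtForm (EhCb d) (d : ZMod 4)
  cube_mem : ∀ d, (T (EhCb d)).mem (cube d).M
  /-- nonsingular off the boundary -/
  cube_ns : ∀ d, (fcCone (cube d).ad).AcycOn (ehCbBd d)ᶜ
  /-- the homology of the `0`-cube is a line on which the form is not zero -/
  cube_zero : ∃ m : (cube 0).M.C, (cube 0).M.d m = 0 ∧ (cube 0).b m m ≠ 0 ∧
    ∀ m' : (cube 0).M.C, (cube 0).M.d m' = 0 → ∃ (c : ℝ) (m'' : (cube 0).M.C), m' = c • m + (cube 0).M.d m''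
  /-- (C1) near the centre of the bottom face the boundary of the cube is `±` that face -/
  cube_bd : ∀ (d : ℕ) (ht : ((d : ℕ) : ZMod 4) + 1 = ((d + 1 : ℕ) : ZMod 4)),
    WtRel ((T (EhCb (d + 1))).near (ehCbA (d + 1) : Set (EhCb (d + 1))))
        ((T (EhCb (d + 1))).near (ehCbUp d : Set (EhCb (d + 1))))
        ((cube (d + 1)).bd (d : ZMod 4) ht) ((cube d).push (ehCbFace d)) ∨
    WtRel ((T (EhCb (d + 1))).near (ehCbA (d + 1) : Set (EhCb (d + 1))))
        ((T (EhCb (d + 1))).near (ehCbUp d : Set (EhCb (d + 1))))
        ((cube (d + 1)).bd (d : ZMod 4) ht) ((cube d).push (ehCbFace d)).neg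

/-- realises the equation lemmas here (unique names) -/
theorem iface_defs_eqns_cite : True := by
  have := @fcSlice.eq_1
  have := @FcD.cyc.eq_1
  have := @FcD.bdr.eq_1
  have := @FcD.Hom.eq_1
  trivial

end Claimed.Agent.R304
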