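/-
Row 304 (S0559, Hilbert-Smith).  Owner: helper248.  DEFINITIONS: THE ORIENTATION FORMS OF THE CUBES.

`A_d = asObj (EhCb d)` (helper138).   `wcInt d` = interior of the cube,  `wcHalf d` = interior of the `(d+1)`-cube together with the relative interior of the bottom face `x_0 = -1`.
`wcGam X d`  : the sign operator `γ_d = (-1)^{q(q+1)/2 + d q}` on degree `q`       (`γ_d δ = -(-1)^d δ γ_d τ`,  `γ_{d+1} τ = γ_d`,  `τ = asObjSgn`).
`WcInt d`    : an INTEGRAL: a functional `I` on `A_d` with `I δ = 0` on `A_d(int)`, nonzero on a generator of `H(A_d(int))`.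
`wcI d`      : the integrals, built by RECURSION so that STOKES holds for the bottom face:  `I_{d+1}(δ m) = I_d(ρ m)` for `supp m ⊆ wcHalf d`,  `ρ` = restriction to the face.
`wcB1 d I`   : `β₁(a,a') = I(γ_d a ∪ a')`;     `wcB d I = (β₁ + e β₁ᵀ)/2`,  `e = wtE d`.
`wcCube d`   : the form `wcB d (wcI d)` on `A_d.res (wcInt d)`, of type `d mod 4`.
All proof obligations of this file and the package WtCubeAlg (signs, Leibniz, Stokes: `wc_K_nat` ... `wc_b_loc`) are PROVED here (helper108): the file has no gaps of its own.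
-/
import Claimed.Agent.R304.AsBoxes
import Claimed.Agent.R304.IfaceDefs

set_option autoImplicit false

namespace Claimed.Agent.R304

open Topology

/-- the interior of the cube -/
def wcInt (d : ℕ) : Set (EhCb d) := (ehCbBd d)ᶜ

/-- the interior of the `(d+1)`-cube together with the relative interior of the bottom face -/
def wcHalf (d : ℕ) : Set (EhCb (d + 1)) := {x | (x 0 : ℝ) < 1 ∧ ∀ i : Fin d, |(x i.succ : ℝ)| < 1}

/-- the signs `(-1)^{q(q+1)/2 + d q}` -/
def wcC (d q : ℕ) : ℝ := (-1) ^ (q * (q + 1) / 2 + d * q)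

/-- the sign operator `γ_d` -/
noncomputable def wcGam (X : Type) [TopologicalSpace X] (d : ℕ) : (asObj X).C →ₗ[ℝ] (asObj X).C :=
  asTMap (fun q => wcC d q • LinearMap.id)

/-- the bottom face is a proper map -/
theorem wc_face_proper (d : ℕ) : IsProperMap (ehCbFace d) := (ehCbFace d).continuous.isProperMap

/-- restriction to the bottom face -/
noncomputable def wcRho (d : ℕ) : (asObj (EhCb (d + 1))).C →ₗ[ℝ] (asObj (EhCb d)).C :=
  asObjPullL (ehCbFace d) (wc_face_proper d)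

/-- an integral on the `d`-cube -/
structure WcInt (d : ℕ) where
  /-- the functional (only its values on elements supported in the interior, resp. in `wcHalf`, matter) -/
  I : (asObj (EhCb d)).C →ₗ[ℝ] ℝ
  stokes : ∀ m, (asObj (EhCb d)).supp m ⊆ wcInt d → I ((asObj (EhCb d)).d m) = 0
  gen : ∀ c, AsGenAt (asObj (EhCb d)) (wcInt d) c → I c ≠ 0

theorem wc_int_subset_half (d : ℕ) : wcInt (d + 1) ⊆ wcHalf d := by
  intro x hx
  have hx' : ∀ i, |(x i : ℝ)| ≠ 1 := fun i hi => hx ⟨i, hi⟩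
  have hlt : ∀ i, |(x i : ℝ)| < 1 := fun i =>
    lt_of_le_of_ne (abs_le.2 ⟨(x i).2.1, (x i).2.2⟩) (hx' i)
  exact ⟨(abs_lt.1 (hlt 0)).2, fun i => hlt i.succ⟩

/-! ### signs -/

theorem wc_cast4 (k r : ℕ) : ((4 * k + r : ℕ) : ZMod 4) = (r : ZMod 4) := by
  push_cast
  rw [show (4 : ZMod 4) = 0 from rfl]
  simp

theorem wc_mod4 (d : ℕ) : ∃ k r, r < 4 ∧ d = 4 * k + r :=
  ⟨d / 4, d % 4, Nat.mod_lt _ (by norm_num), (Nat.div_add_mod d 4).symm⟩

theorem wc_K_nat (d : ℕ) : wtK (d : ZMod 4) = (-1) ^ d := by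
  obtain ⟨k, r, hr, rfl⟩ := wc_mod4 d
  rw [wc_cast4, pow_add, pow_mul, show ((-1 : ℝ)) ^ 4 = 1 by norm_num, one_pow, one_mul]
  interval_cases r
  · simpa using wtK_zero
  · simpa using wtK_one
  · simpa using wtK_two
  · rw [show ((-1 : ℝ)) ^ 3 = -1 by norm_num]
    simpa using wtK_three

theorem wc_E_nat (d : ℕ) : wtE (d : ZMod 4) = (-1) ^ (d * (d - 1) / 2) := by
  obtain ⟨k, r, hr, rfl⟩ := wc_mod4 d
  rw [wc_cast4]
  interval_cases r
  · have e : (4 * k + 0) * (4 * k + 0 - 1) / 2 = 2 * (k * (4 * k - 1)) := by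
      have : (4 * k + 0) * (4 * k + 0 - 1) = 2 * (2 * (k * (4 * k - 1))) := by
        simp only [add_zero]; ring
      rw [this, Nat.mul_div_cancel_left _ (by norm_num)]
    rw [e, pow_mul]
    simpa using wtE_zero
  · have e : (4 * k + 1) * (4 * k + 1 - 1) / 2 = 2 * ((4 * k + 1) * k) := by
      have : (4 * k + 1) * (4 * k + 1 - 1) = 2 * (2 * ((4 * k + 1) * k)) := by
        simp only [Nat.add_sub_cancel]; ring
      rw [this, Nat.mul_div_cancel_left _ (by norm_num)]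
    rw [e, pow_mul]
    simpa using wtE_one
  · have e : (4 * k + 2) * (4 * k + 2 - 1) / 2 = 2 * (k * (4 * k + 3)) + 1 := by
      have : (4 * k + 2) * (4 * k + 2 - 1) = 2 * (2 * (k * (4 * k + 3)) + 1) := by
        rw [show 4 * k + 2 - 1 = 4 * k + 1 by omega]; ring
      rw [this, Nat.mul_div_cancel_left _ (by norm_num)]
    rw [e, pow_succ, pow_mul]
    simpa using wtE_two
  · have e : (4 * k + 3) * (4 * k + 3 - 1) / 2 = 2 * (k * (4 * k + 5) + 1) + 1 := by
      have : (4 * k + 3) * (4 * k + 3 - 1) = 2 * (2 * (k * (4 * k + 5) + 1) + 1) := by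
        rw [show 4 * k + 3 - 1 = 4 * k + 2 by omega]; ring
      rw [this, Nat.mul_div_cancel_left _ (by norm_num)]
    rw [e, pow_succ, pow_mul]
    simpa using wtE_three

theorem wc_C_self (d : ℕ) : wcC d d = wtE (d : ZMod 4) := by
  obtain ⟨k, r, hr, rfl⟩ := wc_mod4 d
  rw [wc_cast4]
  unfold wcC
  interval_cases r
  · have e : (4 * k + 0) * (4 * k + 0 + 1) / 2 + (4 * k + 0) * (4 * k + 0) =
        2 * (k * (4 * k + 1) + 8 * k * k) := by
      have : (4 * k + 0) * (4 * k + 0 + 1) = 2 * (2 * (k * (4 * k + 1))) := by ring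
      rw [this, Nat.mul_div_cancel_left _ (by norm_num)]; ring
    rw [e, pow_mul]
    simpa using wtE_zero.symm
  · have e : (4 * k + 1) * (4 * k + 1 + 1) / 2 + (4 * k + 1) * (4 * k + 1) =
        2 * (12 * k * k + 7 * k + 1) := by
      have : (4 * k + 1) * (4 * k + 1 + 1) = 2 * (8 * k * k + 6 * k + 1) := by ring
      rw [this, Nat.mul_div_cancel_left _ (by norm_num)]; ring
    rw [e, pow_mul]
    simpa using wtE_one.symm
  · have e : (4 * k + 2) * (4 * k + 2 + 1) / 2 + (4 * k + 2) * (4 * k + 2) =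
        2 * (12 * k * k + 13 * k + 3) + 1 := by
      have : (4 * k + 2) * (4 * k + 2 + 1) = 2 * (8 * k * k + 10 * k + 3) := by ring
      rw [this, Nat.mul_div_cancel_left _ (by norm_num)]; ring
    rw [e, pow_succ, pow_mul]
    simpa using wtE_two.symm
  · have e : (4 * k + 3) * (4 * k + 3 + 1) / 2 + (4 * k + 3) * (4 * k + 3) =
        2 * (12 * k * k + 19 * k + 7) + 1 := by
      have : (4 * k + 3) * (4 * k + 3 + 1) = 2 * (8 * k * k + 14 * k + 6) := by ring
      rw [this, Nat.mul_div_cancel_left _ (by norm_num)]; ring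
    rw [e, pow_succ, pow_mul]
    simpa using wtE_three.symm

theorem wc_C_succ (d q : ℕ) : wcC d (q + 1) = -((-1 : ℝ) ^ d) * ((-1) ^ q * wcC d q) := by
  unfold wcC
  have e : (q + 1) * (q + 1 + 1) / 2 + d * (q + 1) = (q * (q + 1) / 2 + d * q) + (q + 1 + d) := by
    have : (q + 1) * (q + 1 + 1) = q * (q + 1) + 2 * (q + 1) := by ring
    rw [this, Nat.add_mul_div_left _ _ (by norm_num : 0 < 2)]; ring
  rw [e, pow_add _ _ (q + 1 + d), pow_add _ (q + 1) d, pow_succ]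
  ring

theorem wc_C_up (d q : ℕ) : wcC (d + 1) q * (-1) ^ q = wcC d q := by
  unfold wcC
  have e : q * (q + 1) / 2 + (d + 1) * q = (q * (q + 1) / 2 + d * q) + q := by ring
  rw [e, pow_add, mul_assoc, ← pow_add, ← two_mul, pow_mul]
  simp

theorem wc_C_sq (d q : ℕ) : wcC d q * wcC d q = 1 := by
  unfold wcC
  rw [← pow_add, ← two_mul, pow_mul]
  simp


/-! ### the sign operators -/

theorem wc_gam_el (X : Type) [TopologicalSpace X] (d q : ℕ) (φ : AsC ℝ X q)
    (hφ : IsCompact (asSupp φ)) : wcGam X d (asEl X q φ hφ) = wcC d q • asEl X q φ hφ := by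
  have h := DirectSum.toModule_lof (M := fun q => AsQ X q) (N := AsT X) ℝ
    (φ := fun q => (DirectSum.lof ℝ ℕ (fun q => AsQ X q) q).comp
      (wcC d q • (LinearMap.id : AsQ X q →ₗ[ℝ] AsQ X q))) q (asQMk X q ⟨φ, hφ⟩)
  refine h.trans ?_
  show DirectSum.lof ℝ ℕ (fun q => AsQ X q) q (wcC d q • asQMk X q ⟨φ, hφ⟩) = _
  rw [map_smul]
  rfl

theorem wc_gam_gam (X : Type) [TopologicalSpace X] (d : ℕ) (m : (asObj X).C) :
    wcGam X d (wcGam X d m) = m := by
  refine as_obj_induction (fun m => wcGam X d (wcGam X d m) = m) ?_ ?_ ?_ m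
  · simp only [map_zero]
  · intro a b ha hb
    simp only [map_add, ha, hb]
  · intro q φ hφ
    rw [wc_gam_el, map_smul, wc_gam_el, smul_smul, wc_C_sq, one_smul]

theorem wc_sum_supp {X : Type} [TopologicalSpace X] (A : FcD X) (S : Set X) (n : ℕ) (f : ℕ → A.C)
    (hf : ∀ i, A.supp (f i) ⊆ S) : A.supp (∑ i ∈ Finset.range n, f i) ⊆ S := by
  induction n with
  | zero =>
    rw [Finset.sum_range_zero, A.toFcObj.supp_zero]
    exact Set.empty_subset _
  | succ n ih =>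
    rw [Finset.sum_range_succ]
    exact (A.supp_add _ _).trans (Set.union_subset ih (hf n))

theorem wc_gam_supp_le (X : Type) [TopologicalSpace X] (d : ℕ) (m : (asObj X).C) :
    (asObj X).supp (wcGam X d m) ⊆ (asObj X).supp m := by
  obtain ⟨N, hN⟩ := as_obj_sum_pr m
  have e : wcGam X d m = ∑ q ∈ Finset.range N, wcGam X d (asObjPr X q m) := by
    conv_lhs => rw [hN]
    rw [map_sum]
  rw [e]
  refine wc_sum_supp _ _ _ _ (fun q => ?_)
  obtain ⟨φ, hφ, h⟩ := as_obj_pr_el q m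
  have s1 := as_obj_pr_supp q m
  rw [h] at s1 ⊢
  rw [wc_gam_el]
  exact ((asObj X).supp_smul _ _).trans s1

theorem wc_gam_supp (X : Type) [TopologicalSpace X] (d : ℕ) (m : (asObj X).C) :
    (asObj X).supp (wcGam X d m) = (asObj X).supp m := by
  refine Set.Subset.antisymm (wc_gam_supp_le X d m) ?_
  have h := wc_gam_supp_le X d (wcGam X d m)
  rwa [wc_gam_gam] at h

theorem wc_gam_pr (X : Type) [TopologicalSpace X] (d q : ℕ) (m : (asObj X).C) (h : asObjPr X q m = m) :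
    wcGam X d m = wcC d q • m := by
  obtain ⟨φ, hφ, h'⟩ := as_obj_pr_el q m
  rw [h] at h'
  rw [h', wc_gam_el]

theorem wc_gam_d (X : Type) [TopologicalSpace X] (d : ℕ) (m : (asObj X).C) :
    wcGam X d ((asObj X).d m) = (-((-1 : ℝ) ^ d)) • (asObj X).d (wcGam X d (asObjSgn X m)) := by
  refine as_obj_induction (fun m => wcGam X d ((asObj X).d m) =
    (-((-1 : ℝ) ^ d)) • (asObj X).d (wcGam X d (asObjSgn X m))) ?_ ?_ ?_ m
  · simp only [map_zero, smul_zero]
  · intro a b ha hb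
    simp only [map_add, ha, hb, smul_add]
  · intro q φ hφ
    rw [as_el_d, wc_gam_el, as_obj_sgn_el, map_smul, wc_gam_el, map_smul, map_smul, as_el_d,
      smul_smul, smul_smul, wc_C_succ, mul_assoc]

theorem wc_gam_succ (X : Type) [TopologicalSpace X] (d : ℕ) (m : (asObj X).C) :
    wcGam X (d + 1) (asObjSgn X m) = wcGam X d m := by
  refine as_obj_induction (fun m => wcGam X (d + 1) (asObjSgn X m) = wcGam X d m) ?_ ?_ ?_ m
  · simp only [map_zero]
  · intro a b ha hb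
    simp only [map_add, ha, hb]
  · intro q φ hφ
    rw [as_obj_sgn_el, map_smul, wc_gam_el, wc_gam_el, smul_smul, mul_comm, wc_C_up]

theorem wc_sgn_gam (X : Type) [TopologicalSpace X] (d : ℕ) (m : (asObj X).C) :
    asObjSgn X (wcGam X d m) = wcGam X d (asObjSgn X m) := by
  refine as_obj_induction (fun m => asObjSgn X (wcGam X d m) = wcGam X d (asObjSgn X m)) ?_ ?_ ?_ m
  · simp only [map_zero]
  · intro a b ha hb
    simp only [map_add, ha, hb]
  · intro q φ hφ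
    rw [as_obj_sgn_el, map_smul, wc_gam_el, map_smul, as_obj_sgn_el, smul_smul, smul_smul, mul_comm]

theorem wc_rho_gam (d e : ℕ) (m : (asObj (EhCb (d + 1))).C) :
    wcRho d (wcGam (EhCb (d + 1)) e m) = wcGam (EhCb d) e (wcRho d m) := by
  refine as_obj_induction (fun m => wcRho d (wcGam (EhCb (d + 1)) e m) =
    wcGam (EhCb d) e (wcRho d m)) ?_ ?_ ?_ m
  · simp only [map_zero]
  · intro a b ha hb
    simp only [map_add, ha, hb]
  · intro q φ hφ
    unfold wcRho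
    rw [wc_gam_el, map_smul, as_objPullL_el, wc_gam_el]

/-! ### the bottom face, the integrals -/

theorem wc_rho_d (d : ℕ) (m : (asObj (EhCb (d + 1))).C) :
    wcRho d ((asObj (EhCb (d + 1))).d m) = (asObj (EhCb d)).d (wcRho d m) :=
  (asObjPull (ehCbFace d) (wc_face_proper d)).comm m

theorem wc_face_zero (d : ℕ) (x : EhCb d) : ((ehCbFace d x) 0 : ℝ) = -1 := rfl

theorem wc_face_succ (d : ℕ) (x : EhCb d) (i : Fin d) : (ehCbFace d x) i.succ = x i := rfl

theorem wc_face_inj (d : ℕ) : Function.Injective (ehCbFace d) := by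
  intro x y h
  funext i
  have := congrFun h i.succ
  rwa [wc_face_succ, wc_face_succ] at this

theorem wc_face_closedEmb (d : ℕ) : IsClosedEmbedding (ehCbFace d) :=
  (ehCbFace d).continuous.isClosedEmbedding (wc_face_inj d)

theorem wc_mem_int (d : ℕ) (x : EhCb d) : x ∈ wcInt d ↔ ∀ i, |(x i : ℝ)| < 1 := by
  constructor
  · intro hx i
    exact lt_of_le_of_ne (abs_le.2 ⟨(x i).2.1, (x i).2.2⟩) (fun hi => hx ⟨i, hi⟩)
  · rintro hx ⟨i, hi⟩
    exact (hx i).ne hi

theorem wc_face_mem_half (d : ℕ) (x : EhCb d) : ehCbFace d x ∈ wcHalf d ↔ x ∈ wcInt d := by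
  rw [wc_mem_int]
  constructor
  · intro h i
    exact h.2 i
  · intro h
    refine ⟨?_, fun i => h i⟩
    rw [wc_face_zero]; norm_num

theorem wc_int_disjoint_face (d : ℕ) : Disjoint (wcInt (d + 1)) (Set.range (ehCbFace d)) := by
  rw [Set.disjoint_left]
  rintro _ hx ⟨y, rfl⟩
  have := (wc_mem_int (d + 1) _).1 hx 0
  rw [wc_face_zero] at this
  norm_num at this

theorem wc_half_diff_face (d : ℕ) (x : EhCb (d + 1)) (hx : x ∈ wcHalf d)
    (hx' : x ∉ Set.range (ehCbFace d)) : x ∈ wcInt (d + 1) := by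
  rw [wc_mem_int]
  have h0 : (x 0 : ℝ) ≠ -1 := by
    intro h
    apply hx'
    refine ⟨fun i => x i.succ, ?_⟩
    funext i
    refine Fin.cases ?_ (fun j => ?_) i
    · apply Subtype.ext
      rw [wc_face_zero, h]
    · rw [wc_face_succ]
  intro i
  refine Fin.cases ?_ (fun j => hx.2 j) i
  rw [abs_lt]
  exact ⟨lt_of_le_of_ne (x 0).2.1 (Ne.symm h0), hx.1⟩

theorem wc_rho_supp (d : ℕ) (n : (asObj (EhCb (d + 1))).C) (hn : (asObj (EhCb (d + 1))).supp n ⊆ wcHalf d) :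
    (asObj (EhCb d)).supp (wcRho d n) ⊆ wcInt d := by
  intro x hx
  have h1 : ehCbFace d x ∈ (asObj (EhCb (d + 1))).supp n :=
    (asObjPull (ehCbFace d) (wc_face_proper d)).loc n ⟨x, hx, rfl⟩
  exact (wc_face_mem_half d x).1 (hn h1)

theorem wc_rho_of_int (d : ℕ) (m : (asObj (EhCb (d + 1))).C)
    (hm : (asObj (EhCb (d + 1))).supp m ⊆ wcInt (d + 1)) : wcRho d m = 0 :=
  as_objPull_of_disjoint (ehCbFace d) (wc_face_proper d) m
    (Set.disjoint_of_subset_left hm (wc_int_disjoint_face d))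

theorem wc_int_eq_bx (d : ℕ) : wcInt d = asBx d (fun _ => -1) (fun _ => 1) := by
  ext x
  rw [wc_mem_int]
  exact forall_congr' (fun i => abs_lt)

theorem wc_half_eq_bx (d : ℕ) :
    wcHalf d = asBx (d + 1) (Fin.cons (-2) (fun _ => -1)) (fun _ => 1) := by
  ext x
  constructor
  · intro hx i
    refine Fin.cases ?_ (fun j => ?_) i
    · refine ⟨?_, hx.1⟩
      have := (x 0).2.1
      simp only [Fin.cons_zero]
      linarith
    · simp only [Fin.cons_succ]
      exact abs_lt.1 (hx.2 j)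
  · intro hx
    refine ⟨(hx 0).2, fun j => ?_⟩
    have := hx j.succ
    simp only [Fin.cons_succ] at this
    exact abs_lt.2 this

theorem wc_half_open0 (d : ℕ) : IsOpen (wcHalf d) := by
  rw [wc_half_eq_bx]
  exact as_bx_isOpen _ _ _

theorem wc_half_acyc (d : ℕ) : (asObj (EhCb (d + 1))).AcycAt (wcHalf d) := by
  rw [wc_half_eq_bx]
  refine as_bx_half (d + 1) _ _ 0 (Or.inl ⟨?_, le_refl _⟩)
  simp only [Fin.cons_zero]
  norm_num

theorem wc_int_gen (d : ℕ) : ∃ c, AsGenAt (asObj (EhCb d)) (wcInt d) c := by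
  obtain ⟨c, hc, -⟩ := as_bx_gen d (fun _ => -1) (fun _ => 1)
    (fun _ => Or.inr ⟨le_refl _, by norm_num, le_refl _⟩)
  rw [← wc_int_eq_bx] at hc
  exact ⟨c, hc⟩

theorem wc_int_zero : Nonempty (WcInt 0) := by
  have hu : wcInt 0 = Set.univ := by
    ext x
    simp [wc_mem_int]
  have h1 : AsGenAt (asObj (EhCb 0)) Set.univ (asObjOne (EhCb 0)) := as_bx_cube 0
  obtain ⟨I, hI1, hI2⟩ := as_genAt_integral _ _ _ h1
  refine ⟨⟨I, fun m _ => hI2 m (Set.subset_univ _), fun c hc hIc => ?_⟩⟩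
  rw [hu] at hc
  obtain ⟨t, m', hm', e⟩ := hc.2.2.2 (asObjOne (EhCb 0)) h1.1 h1.2.1
  rw [e, map_add, map_smul, hIc, hI2 m' hm'] at hI1
  simp at hI1

theorem wc_int_step (d : ℕ) (I : WcInt d) :
    ∃ J : WcInt (d + 1), ∀ m, (asObj (EhCb (d + 1))).supp m ⊆ wcHalf d →
      J.I ((asObj (EhCb (d + 1))).d m) = I.I (wcRho d m) := by
  obtain ⟨ψ, hψ⟩ := fc_factor
    ((asObj (EhCb (d + 1))).d ∘ₗ ((asObj (EhCb (d + 1))).sec (wcHalf d)).subtype)
    (I.I ∘ₗ wcRho d ∘ₗ ((asObj (EhCb (d + 1))).sec (wcHalf d)).subtype) (by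
      rintro ⟨m, hm⟩ hd
      have hd' : (asObj (EhCb (d + 1))).d m = 0 := hd
      show I.I (wcRho d m) = 0
      obtain ⟨m', hm', e⟩ := wc_half_acyc d m hm hd'
      rw [← e, wc_rho_d]
      exact I.stokes _ (wc_rho_supp d m' hm'))
  have hψ' : ∀ m, (asObj (EhCb (d + 1))).supp m ⊆ wcHalf d →
      ψ ((asObj (EhCb (d + 1))).d m) = I.I (wcRho d m) := fun m hm => hψ ⟨m, hm⟩
  refine ⟨⟨ψ, fun m hm => ?_, fun c hc => ?_⟩, hψ'⟩
  · rw [hψ' m (hm.trans (wc_int_subset_half d)), wc_rho_of_int d m hm, map_zero]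
  · obtain ⟨hc1, hc2, hc3, -⟩ := hc
    obtain ⟨m, hm, e⟩ := wc_half_acyc d c (hc1.trans (wc_int_subset_half d)) hc2
    rw [← e, hψ' m hm]
    apply I.gen
    obtain ⟨c₀, hc₀⟩ := wc_int_gen d
    refine as_genAt_of_not_bd _ _ c₀ _ hc₀ (wc_rho_supp d m hm) ?_ ?_
    · rw [← wc_rho_d, e]
      exact wc_rho_of_int d c hc1
    · intro n' hn' e'
      obtain ⟨s, hs1, hs2⟩ := as_obj_closed_section (ehCbFace d) (wc_face_closedEmb d)
      have hs2' : wcRho d (s n') = n' := hs2 n'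
      have hsn : (asObj (EhCb (d + 1))).supp (s n') ⊆ wcHalf d := by
        refine (hs1 n').trans ?_
        rintro _ ⟨x, hx, rfl⟩
        exact (wc_face_mem_half d x).2 (hn' hx)
      have hm1 : (asObj (EhCb (d + 1))).supp (m - (asObj (EhCb (d + 1))).d (s n')) ⊆ wcHalf d :=
        ((asObj (EhCb (d + 1))).supp_sub _ _).trans
          (Set.union_subset hm (((asObj (EhCb (d + 1))).d_loc _).trans hsn))
      obtain ⟨a, ha1, -, ha3⟩ := as_obj_taut (ehCbFace d) (wc_face_closedEmb d) (wcHalf d)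
        (wc_half_open0 d) (m - (asObj (EhCb (d + 1))).d (s n')) hm1 (by
          show wcRho d (m - (asObj (EhCb (d + 1))).d (s n')) = 0
          rw [map_sub, wc_rho_d, hs2', e', sub_self]) (by
          rw [map_sub, (asObj (EhCb (d + 1))).d_sq, sub_zero, e]
          exact Set.disjoint_of_subset_left hc1 (wc_int_disjoint_face d))
      refine hc3 (m - (asObj (EhCb (d + 1))).d (s n') - (asObj (EhCb (d + 1))).d a) ?_ ?_
      · intro x hx
        refine wc_half_diff_face d x ?_ (Set.disjoint_left.1 ha3 hx)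
        exact ((asObj (EhCb (d + 1))).supp_sub _ _).trans
          (Set.union_subset hm1 (((asObj (EhCb (d + 1))).d_loc _).trans ha1)) hx
      · rw [map_sub, map_sub, (asObj (EhCb (d + 1))).d_sq, (asObj (EhCb (d + 1))).d_sq, sub_zero,
          sub_zero, e]

/-- the integrals -/
noncomputable def wcI : (d : ℕ) → WcInt d
  | 0 => Classical.choice wc_int_zero
  | d + 1 => Classical.choose (wc_int_step d (wcI d))

/-- STOKES for the bottom face -/
theorem wc_stokes (d : ℕ) (m : (asObj (EhCb (d + 1))).C) (hm : (asObj (EhCb (d + 1))).supp m ⊆ wcHalf d) :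
    (wcI (d + 1)).I ((asObj (EhCb (d + 1))).d m) = (wcI d).I (wcRho d m) :=
  Classical.choose_spec (wc_int_step d (wcI d)) m hm

/-- `β₁(a,a') = I(γ_d a ∪ a')` -/
noncomputable def wcB1 (d : ℕ) (I : (asObj (EhCb d)).C →ₗ[ℝ] ℝ) :
    (asObj (EhCb d)).C →ₗ[ℝ] (asObj (EhCb d)).C →ₗ[ℝ] ℝ :=
  ((asObjCup (EhCb d)).compr₂ I).comp (wcGam (EhCb d) d)

/-- the symmetrised pairing -/
noncomputable def wcB (d : ℕ) (I : (asObj (EhCb d)).C →ₗ[ℝ] ℝ) :
    (asObj (EhCb d)).C →ₗ[ℝ] (asObj (EhCb d)).C →ₗ[ℝ] ℝ :=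
  (1 / 2 : ℝ) • (wcB1 d I + wtE (d : ZMod 4) • (wcB1 d I).flip)

/-! ### Stokes -/

theorem wc_b1_apply (d : ℕ) (I : (asObj (EhCb d)).C →ₗ[ℝ] ℝ) (a a' : (asObj (EhCb d)).C) :
    wcB1 d I a a' = I (asObjCup (EhCb d) (wcGam (EhCb d) d a) a') := rfl

theorem wc_b_apply (d : ℕ) (I : (asObj (EhCb d)).C →ₗ[ℝ] ℝ) (a a' : (asObj (EhCb d)).C) :
    wcB d I a a' = (1 / 2 : ℝ) * (wcB1 d I a a' + wtE (d : ZMod 4) * wcB1 d I a' a) := rfl

/-- the Leibniz rule for `γ_e n ∪ n'` -/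
theorem wc_leibniz (X : Type) [TopologicalSpace X] (e : ℕ) (n n' : (asObj X).C) :
    (asObj X).d (asObjCup X (wcGam X e n) n') =
      ((-1 : ℝ) ^ e) • asObjCup X (wcGam X (e + 1) ((asObj X).d n)) n' +
        asObjCup X (wcGam X (e + 1) n) ((asObj X).d n') := by
  have h1 : wcGam X (e + 1) ((asObj X).d n) = ((-1 : ℝ) ^ e) • (asObj X).d (wcGam X e n) := by
    rw [wc_gam_d, wc_gam_succ, pow_succ]
    simp
  have h2 : asObjSgn X (wcGam X e n) = wcGam X (e + 1) n := by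
    rw [wc_sgn_gam, ← wc_gam_succ X e (asObjSgn X n), as_obj_sgn_sgn]
  have h3 : ((-1 : ℝ) ^ e) * ((-1 : ℝ) ^ e) = 1 := by
    rw [← pow_add, ← two_mul, pow_mul]; simp
  rw [as_objCup_d, h2, h1, map_smul, LinearMap.smul_apply, smul_smul, h3, one_smul]

theorem wc_b1_stokes (d : ℕ) (n n' : (asObj (EhCb (d + 1))).C)
    (h : (asObj (EhCb (d + 1))).supp n ∩ (asObj (EhCb (d + 1))).supp n' ⊆ wcHalf d) :
    wcB1 d (wcI d).I (wcRho d n) (wcRho d n') =
      wcB1 (d + 1) (wcI (d + 1)).I n ((asObj (EhCb (d + 1))).d n') +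
        wtK (d : ZMod 4) * wcB1 (d + 1) (wcI (d + 1)).I ((asObj (EhCb (d + 1))).d n) n' := by
  have hs : (asObj (EhCb (d + 1))).supp (asObjCup (EhCb (d + 1)) (wcGam (EhCb (d + 1)) d n) n') ⊆
      wcHalf d := by
    refine (as_objCup_supp _ _).trans ?_
    rw [wc_gam_supp]
    exact h
  have h1 := wc_stokes d _ hs
  rw [wc_leibniz, map_add, map_smul, smul_eq_mul] at h1
  have h2 : wcRho d (asObjCup (EhCb (d + 1)) (wcGam (EhCb (d + 1)) d n) n') =
      asObjCup (EhCb d) (wcGam (EhCb d) d (wcRho d n)) (wcRho d n') := by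
    rw [← wc_rho_gam]
    exact as_objCup_pull _ _ _ _
  rw [h2] at h1
  rw [wc_b1_apply, wc_b1_apply, wc_b1_apply, ← h1, wc_K_nat]
  ring

theorem wc_KE (d : ℕ) : wtE (d : ZMod 4) = wtK (d : ZMod 4) * wtE ((d + 1 : ℕ) : ZMod 4) := by
  have ht : ((d : ℕ) : ZMod 4) + 1 = ((d + 1 : ℕ) : ZMod 4) := by push_cast; rfl
  rw [wtE_pred ht, wtK_pred ht]
  ring

theorem wc_KE' (d : ℕ) : wtK (d : ZMod 4) * wtE (d : ZMod 4) = wtE ((d + 1 : ℕ) : ZMod 4) := by
  rw [wc_KE d, ← mul_assoc, wtK_sq, one_mul]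

theorem wc_b_stokes (d : ℕ) (n n' : (asObj (EhCb (d + 1))).C)
    (h : (asObj (EhCb (d + 1))).supp n ∩ (asObj (EhCb (d + 1))).supp n' ⊆ wcHalf d) :
    wcB d (wcI d).I (wcRho d n) (wcRho d n') =
      wcB (d + 1) (wcI (d + 1)).I n ((asObj (EhCb (d + 1))).d n') +
        wtK (d : ZMod 4) * wcB (d + 1) (wcI (d + 1)).I ((asObj (EhCb (d + 1))).d n) n' := by
  have h1 := wc_b1_stokes d n n' h
  have h2 := wc_b1_stokes d n' n (by rwa [Set.inter_comm])
  rw [wc_b_apply, wc_b_apply, wc_b_apply, h1, h2, ← wc_KE' d]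
  linear_combination (-(1 / 2 : ℝ) * wtE (d : ZMod 4) *
    wcB1 (d + 1) (wcI (d + 1)).I n' ((asObj (EhCb (d + 1))).d n)) * wtK_sq (d : ZMod 4)

/-- the Leibniz rule for `γ_e τ n ∪ n'` -/
theorem wc_leibniz0 (X : Type) [TopologicalSpace X] (e : ℕ) (n n' : (asObj X).C) :
    (asObj X).d (asObjCup X (wcGam X e (asObjSgn X n)) n') =
      (-((-1 : ℝ) ^ e)) • asObjCup X (wcGam X e ((asObj X).d n)) n' +
        asObjCup X (wcGam X e n) ((asObj X).d n') := by
  have h2 : asObjSgn X (wcGam X e (asObjSgn X n)) = wcGam X e n := by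
    rw [wc_sgn_gam, as_obj_sgn_sgn]
  have h3 : (-((-1 : ℝ) ^ e)) * (-((-1 : ℝ) ^ e)) = 1 := by
    rw [neg_mul_neg, ← pow_add, ← two_mul, pow_mul]; simp
  rw [as_objCup_d, h2, wc_gam_d, map_smul, LinearMap.smul_apply, smul_smul, h3, one_smul]

theorem wc_b1_adj (d : ℕ) (n n' : (asObj (EhCb d)).C)
    (h : (asObj (EhCb d)).supp n ∩ (asObj (EhCb d)).supp n' ⊆ wcInt d) :
    wcB1 d (wcI d).I ((asObj (EhCb d)).d n) n' =
      wtK (d : ZMod 4) * wcB1 d (wcI d).I n ((asObj (EhCb d)).d n') := by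
  have hs : (asObj (EhCb d)).supp (asObjCup (EhCb d) (wcGam (EhCb d) d (asObjSgn (EhCb d) n)) n') ⊆
      wcInt d := by
    refine (as_objCup_supp _ _).trans ?_
    rw [wc_gam_supp, as_obj_sgn_supp]
    exact h
  have h1 := (wcI d).stokes _ hs
  rw [wc_leibniz0, map_add, map_smul, smul_eq_mul, ← wc_K_nat] at h1
  rw [wc_b1_apply, wc_b1_apply]
  linear_combination (-(wtK (d : ZMod 4))) * h1 -
    ((wcI d).I (asObjCup (EhCb d) (wcGam (EhCb d) d ((asObj (EhCb d)).d n)) n')) * wtK_sq (d : ZMod 4)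

theorem wc_b_adj (d : ℕ) (n n' : (asObj (EhCb d)).C)
    (h : (asObj (EhCb d)).supp n ∩ (asObj (EhCb d)).supp n' ⊆ wcInt d) :
    wcB d (wcI d).I ((asObj (EhCb d)).d n) n' =
      wtK (d : ZMod 4) * wcB d (wcI d).I n ((asObj (EhCb d)).d n') := by
  have h1 := wc_b1_adj d n n' h
  have h2 := wc_b1_adj d n' n (by rwa [Set.inter_comm])
  rw [wc_b_apply, wc_b_apply, h1, h2]
  linear_combination (-(1 / 2 : ℝ) * wtE (d : ZMod 4) *
    wcB1 d (wcI d).I n' ((asObj (EhCb d)).d n)) * wtK_sq (d : ZMod 4)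

theorem wc_b_symm' (d : ℕ) (I : (asObj (EhCb d)).C →ₗ[ℝ] ℝ) (n n' : (asObj (EhCb d)).C) :
    wcB d I n' n = wtE (d : ZMod 4) * wcB d I n n' := by
  rw [wc_b_apply, wc_b_apply]
  linear_combination (-(1 / 2 : ℝ) * wcB1 d I n' n) * wtE_sq (d : ZMod 4)

theorem wc_b1_loc (d : ℕ) (I : (asObj (EhCb d)).C →ₗ[ℝ] ℝ) (n n' : (asObj (EhCb d)).C)
    (h : Disjoint ((asObj (EhCb d)).supp n) ((asObj (EhCb d)).supp n')) : wcB1 d I n n' = 0 := by
  have hs : (asObj (EhCb d)).supp (asObjCup (EhCb d) (wcGam (EhCb d) d n) n') = ∅ := by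
    rw [← Set.subset_empty_iff]
    refine (as_objCup_supp _ _).trans ?_
    rw [wc_gam_supp]
    exact Set.disjoint_iff.1 h
  rw [wc_b1_apply, ((asObj (EhCb d)).supp_empty_iff _).1 hs, map_zero]

theorem wc_b_loc' (d : ℕ) (I : (asObj (EhCb d)).C →ₗ[ℝ] ℝ) (n n' : (asObj (EhCb d)).C)
    (h : Disjoint ((asObj (EhCb d)).supp n) ((asObj (EhCb d)).supp n')) : wcB d I n n' = 0 := by
  rw [wc_b_apply, wc_b1_loc d I n n' h, wc_b1_loc d I n' n h.symm]
  simp

theorem wc_b_symm (d : ℕ) (n n' : (asObj (EhCb d)).C) :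
    wcB d (wcI d).I n' n = wtE (d : ZMod 4) * wcB d (wcI d).I n n' :=
  wc_b_symm' d _ n n'

theorem wc_b_loc (d : ℕ) (n n' : (asObj (EhCb d)).C)
    (h : Disjoint ((asObj (EhCb d)).supp n) ((asObj (EhCb d)).supp n')) : wcB d (wcI d).I n n' = 0 :=
  wc_b_loc' d _ n n' h

/-- THE ORIENTATION FORM OF THE CUBE, on the cochains with compact support in the interior -/
noncomputable def wcCube (d : ℕ) : WtForm (EhCb d) (d : ZMod 4) where
  M := (asObj (EhCb d)).res (wcInt d)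
  b := (wcB d (wcI d).I).compl₁₂ ((asObj (EhCb d)).sec (wcInt d)).subtype
    ((asObj (EhCb d)).sec (wcInt d)).subtype
  loc := fun m n h => wc_b_loc d m.1 n.1 h
  symm := fun x y => wc_b_symm d x.1 y.1
  adj := fun x y => wc_b_adj d x.1 y.1 (Set.inter_subset_left.trans x.2)

/-- the inclusion `M(U) → M(V)` for `U ⊆ V` -/
def fcResMono {X : Type} [TopologicalSpace X] (A : FcD X) {U V : Set X} (h : U ⊆ V) :
    FcHom (A.res U) (A.res V) where
  f := Submodule.inclusion (fun _ hm => Set.Subset.trans hm h)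
  loc := fun _ => subset_rfl
  comm := fun _ => rfl

/-- the pairing between `A(half)` and `A(int)` on the `(d+1)`-cube -/
noncomputable def wcPair (d : ℕ) :
    ((asObj (EhCb (d + 1))).res (wcHalf d)).C →ₗ[ℝ] ((asObj (EhCb (d + 1))).res (wcInt (d + 1))).C →ₗ[ℝ] ℝ :=
  (wcB (d + 1) (wcI (d + 1)).I).compl₁₂ ((asObj (EhCb (d + 1))).sec (wcHalf d)).subtype
    ((asObj (EhCb (d + 1))).sec (wcInt (d + 1))).subtype

theorem wc_pair_loc (d : ℕ) :
    FcLoc2 ((asObj (EhCb (d + 1))).res (wcHalf d)) ((asObj (EhCb (d + 1))).res (wcInt (d + 1))) (wcPair d) :=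
  fun m n h => wc_b_loc (d + 1) m.1 n.1 h

/-- LEFSCHETZ DUALITY MAP at the bottom face: `μ : A(half) → A(int)^∨<k>`, `n ↦ b(n, ·)` -/
noncomputable def wcMu (d : ℕ) :
    FcHom ((asObj (EhCb (d + 1))).res (wcHalf d))
      (((asObj (EhCb (d + 1))).res (wcInt (d + 1))).dual.resc (wtK ((d + 1 : ℕ) : ZMod 4))) where
  f := fcCurry (wcPair d) (wc_pair_loc d)
  loc := fck_curry_loc (wcPair d) (wc_pair_loc d)
  comm := fun m => by
    apply Subtype.ext
    apply LinearMap.ext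
    intro n
    exact wc_b_adj (d + 1) m.1 n.1 (Set.inter_subset_right.trans n.2)

/-- `N = cone(A(int) → A(half))` -/
noncomputable def wcN (d : ℕ) : FcD (EhCb (d + 1)) :=
  fcCone (fcResMono (asObj (EhCb (d + 1))) (wc_int_subset_half d))

/-- restriction to the face, `A(half) → A_F(int)` -/
noncomputable def wcRhoRes (d : ℕ) :
    ((asObj (EhCb (d + 1))).res (wcHalf d)).C →ₗ[ℝ] ((asObj (EhCb d)).res (wcInt d)).C :=
  (wcRho d).restrict (p := (asObj (EhCb (d + 1))).sec (wcHalf d)) (q := (asObj (EhCb d)).sec (wcInt d))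
    (fun n hn => wc_rho_supp d n hn)

/-- `ρ̄ : N → face_! A_F(int)`, `(a,n) ↦ ρ n` -/
noncomputable def wcRhoBar (d : ℕ) : FcHom (wcN d) (((asObj (EhCb d)).res (wcInt d)).push (ehCbFace d)) where
  f := wcRhoRes d ∘ₗ LinearMap.snd ℝ ((asObj (EhCb (d + 1))).res (wcInt (d + 1))).C
    ((asObj (EhCb (d + 1))).res (wcHalf d)).C
  loc := fun m => ((asObjPull (ehCbFace d) (wc_face_proper d)).loc m.2.1).trans Set.subset_union_right
  comm := fun m => by
    apply Subtype.ext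
    show wcRho d (m.1.1 + (asObj (EhCb (d + 1))).d m.2.1) = (asObj (EhCb d)).d (wcRho d m.2.1)
    rw [map_add, wc_rho_of_int d m.1.1 m.1.2, zero_add, wc_rho_d]

/-- on `A(int)` the Lefschetz map is the adjoint of the form of the cube -/
theorem wc_mu_incl (d : ℕ) (a : ((asObj (EhCb (d + 1))).res (wcInt (d + 1))).C) :
    (wcMu d).f ((fcResMono (asObj (EhCb (d + 1))) (wc_int_subset_half d)).f a) =
      (wcCube (d + 1)).ad.f a := rfl

/-- `λ₁ : N → cone(ad) = bd(cube)`, `(a,n) ↦ (a, μ n)` -/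
noncomputable def wcLam1 (d : ℕ) : FcHom (wcN d) (fcCone (wcCube (d + 1)).ad) where
  f := (LinearMap.fst ℝ ((asObj (EhCb (d + 1))).res (wcInt (d + 1))).C
      ((asObj (EhCb (d + 1))).res (wcHalf d)).C).prod
    ((wcMu d).f ∘ₗ LinearMap.snd ℝ ((asObj (EhCb (d + 1))).res (wcInt (d + 1))).C
      ((asObj (EhCb (d + 1))).res (wcHalf d)).C)
  loc := fun m => Set.union_subset_union subset_rfl ((wcMu d).loc m.2)
  comm := fun m => by
    refine Prod.ext rfl ?_
    exact (map_add (wcMu d).f ((fcResMono (asObj (EhCb (d + 1))) (wc_int_subset_half d)).f m.1)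
      (((asObj (EhCb (d + 1))).res (wcHalf d)).d m.2)).trans
      (congrArg (fun z => (wcMu d).f ((fcResMono (asObj (EhCb (d + 1))) (wc_int_subset_half d)).f m.1) + z)
        ((wcMu d).comm m.2))

/-- THE DATUM OF (C1) on `bd(cube (d+1)) ⊥ face_!(cube d)` -/
noncomputable def wcDat (d : ℕ) (ht : ((d : ℕ) : ZMod 4) + 1 = ((d + 1 : ℕ) : ZMod 4)) :
    WtDat (((wcCube (d + 1)).bd (d : ZMod 4) ht).sum ((wcCube d).push (ehCbFace d))) where
  N := wcN d
  lam :=
    { f := (wcLam1 d).f.prod (wcRhoBar d).f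
      loc := fun u => Set.union_subset ((wcLam1 d).loc u) ((wcRhoBar d).loc u)
      comm := fun u => Prod.ext ((wcLam1 d).comm u) ((wcRhoBar d).comm u) }
  h := (wcB (d + 1) (wcI (d + 1)).I).compl₁₂
    (((asObj (EhCb (d + 1))).sec (wcHalf d)).subtype ∘ₗ
      LinearMap.snd ℝ ((asObj (EhCb (d + 1))).res (wcInt (d + 1))).C ((asObj (EhCb (d + 1))).res (wcHalf d)).C)
    (((asObj (EhCb (d + 1))).sec (wcHalf d)).subtype ∘ₗ
      LinearMap.snd ℝ ((asObj (EhCb (d + 1))).res (wcInt (d + 1))).C ((asObj (EhCb (d + 1))).res (wcHalf d)).C)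
  h_loc := fun u v h => wc_b_loc (d + 1) u.2.1 v.2.1
    (Set.disjoint_of_subset Set.subset_union_right Set.subset_union_right h)
  h_symm := fun u v => by
    rw [wc_KE' d]
    exact wc_b_symm (d + 1) u.2.1 v.2.1
  h_eq := fun u v => by
    show (wcB (d + 1) (wcI (d + 1)).I u.2.1 v.1.1 +
        wtE (d : ZMod 4) * wcB (d + 1) (wcI (d + 1)).I v.2.1 u.1.1) +
        wcB d (wcI d).I (wcRho d u.2.1) (wcRho d v.2.1) =
      wcB (d + 1) (wcI (d + 1)).I u.2.1 (v.1.1 + (asObj (EhCb (d + 1))).d v.2.1) +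
        wtK (d : ZMod 4) *
          wcB (d + 1) (wcI (d + 1)).I (u.1.1 + (asObj (EhCb (d + 1))).d u.2.1) v.2.1
    rw [wc_b_stokes d u.2.1 v.2.1 (Set.inter_subset_left.trans u.2.2), map_add, map_add,
      LinearMap.add_apply, wc_b_symm (d + 1) u.1.1 v.2.1, wc_KE d]
    linear_combination (wtK (d : ZMod 4) * wcB (d + 1) (wcI (d + 1)).I u.1.1 v.2.1) *
      wtE_sq ((d + 1 : ℕ) : ZMod 4)

/-- realises the equation lemmas here (unique names) -/
theorem wt_cube_defs_eqns_cite : True := by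
  have := @wcInt.eq_1
  have := @wcHalf.eq_1
  have := @wcC.eq_1
  have := @wcGam.eq_1
  have := @wcRho.eq_1
  have := @wcI.eq_1
  have := @wcB1.eq_1
  have := @wcB.eq_1
  have := @wcCube.eq_1
  have := @fcResMono.eq_1
  have := @wcPair.eq_1
  have := @wcMu.eq_1
  have := @wcN.eq_1
  have := @wcRhoRes.eq_1
  have := @wcRhoBar.eq_1
  have := @wcLam1.eq_1
  have := @wcDat.eq_1
  trivial

end Claimed.Agent.R304
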