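/-
Row 304 (S0559, Hilbert-Smith).  PACKAGE WtCubePD (helper284): helper lemmas for `wc_pd_int`, `wc_pd_half` (`WtCube.lean`).  Prefix `wcp_`.

1. ABSTRACT CORE: `μ : N → M^∨<k>`; `H(N(B)) = ℝ c`; for cofinally many compact `K ⊆ B`: `H(Γ_M(K)) = ℝ [u]`, `μ(c)(u) ≠ 0`.  Then `cone μ` is acyclic at `B`.
2. AS-LEVEL: closed subsets `K` of a compact Hausdorff space with the cohomology of a point: relative cycles of `Γ(K)` (tautness + local sections).
3. BOXES: bases of boxes, cofinal closed boxes.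
-/
import Claimed.Agent.R304.WtCubeDefs
import Claimed.Agent.R304.FcLG

set_option autoImplicit false
set_option linter.unusedSectionVars false

namespace Claimed.Agent.R304

open Topology

/-! ### 1. the abstract core -/

section Core

variable {X : Type} [TopologicalSpace X] [T2Space X]

/-- generator case -/
theorem wcp_core_gen (N M : FcD X) (k : ℝ) (hk : k ≠ 0) (μ : FcHom N (M.dual.resc k)) (B : Set X)
    (c : N.C) (hc : AsGenAt N B c)
    (hK : ∀ K₀, IsCompact K₀ → K₀ ⊆ B → ∃ (K : Set X) (u : M.C), IsCompact K ∧ K₀ ⊆ K ∧ K ⊆ B ∧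
      Disjoint (M.supp (M.d u)) K ∧ fcAp (A := M) (μ.f c) u ≠ 0 ∧
      ∀ m, Disjoint (M.supp (M.d m)) K →
        ∃ (t : ℝ) (m' : M.C), Disjoint (M.supp (m - t • u - M.d m')) K) :
    (fcCone μ).AcycAt B := by
  rintro ⟨n, φ⟩ hsupp hd
  have hm1 : N.supp n ⊆ B := Set.subset_union_left.trans hsupp
  have hm2 : M.dual.supp φ ⊆ B := Set.subset_union_right.trans hsupp
  have hd' : (-(N.d n), μ.f n + (M.dual.resc k).d φ) = (0 : N.C × (M.dual.resc k).C) := hd
  have hd1 : N.d n = 0 := by simpa using congrArg Prod.fst hd'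
  have hd2 : μ.f n + (M.dual.resc k).d φ = 0 := congrArg Prod.snd hd'
  have E2 : ∀ n m, fcAp (A := M) (μ.f (N.d n)) m = k * fcAp (A := M) (μ.f n) (M.d m) := by
    intro n m
    rw [μ.comm]
    rfl
  have E3 : ∀ n m, Disjoint (N.supp n) (M.supp m) → fcAp (A := M) (μ.f n) m = 0 := fun n m h =>
    fcAp_eq_zero (A := M) _ _ (Set.disjoint_of_subset_left (μ.loc n) h)
  have hd3 : ∀ m, fcAp (A := M) (μ.f n) m + k * fcAp (A := M) φ (M.d m) = 0 := by
    intro m
    have := congrArg (fun ξ : M.dual.C => fcAp (A := M) ξ m) hd2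
    exact this
  obtain ⟨hcB, hdc, -, hgenN⟩ := hc
  obtain ⟨t, n₁, hn₁, hn⟩ := hgenN n hm1 hd1
  obtain ⟨K, u, hKc, hK₀K, hKB, hdu, hne, hgen⟩ := hK (M.dual.supp φ ∪ N.supp n₁ ∪ N.supp c)
    (((M.dual.supp_compact φ).union (N.supp_compact n₁)).union (N.supp_compact c))
    (Set.union_subset (Set.union_subset hm2 hn₁) hcB)
  have hφK : M.dual.supp φ ⊆ K := (Set.subset_union_left.trans Set.subset_union_left).trans hK₀K
  have hn₁K : N.supp n₁ ⊆ K := (Set.subset_union_right.trans Set.subset_union_left).trans hK₀K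
  have hcK : N.supp c ⊆ K := Set.subset_union_right.trans hK₀K
  -- vanishing off `K`
  have V1 : ∀ r, Disjoint (M.supp r) K → fcAp (A := M) φ r = 0 := fun r hr =>
    fcAp_eq_zero (A := M) φ r (Set.disjoint_of_subset_left hφK hr.symm)
  have V2 : ∀ r, Disjoint (M.supp r) K → fcAp (A := M) (μ.f n₁) r = 0 := fun r hr =>
    E3 n₁ r (Set.disjoint_of_subset_left hn₁K hr.symm)
  have V3 : ∀ r, Disjoint (M.supp r) K → fcAp (A := M) (μ.f c) r = 0 := fun r hr =>
    E3 c r (Set.disjoint_of_subset_left hcK hr.symm)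
  have hμn : ∀ m, fcAp (A := M) (μ.f n) m
      = t * fcAp (A := M) (μ.f c) m + k * fcAp (A := M) (μ.f n₁) (M.d m) := by
    intro m
    rw [hn, map_add, map_smul, ← E2]
    rfl
  -- `t = 0`
  have ht : t = 0 := by
    have h1 := hd3 u
    rw [hμn u, V1 _ hdu, V2 _ hdu] at h1
    have h2 : t * fcAp (A := M) (μ.f c) u = 0 := by linarith
    exact (mul_eq_zero.1 h2).resolve_right hne
  subst ht
  have hn' : n = N.d n₁ := by rw [hn, zero_smul, zero_add]
  -- closedness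
  have C1 : ∀ m, fcAp (A := M) (μ.f c) (M.d m) = 0 := by
    intro m
    have h1 := E2 c m
    rw [hdc, map_zero] at h1
    have h2 : k * fcAp (A := M) (μ.f c) (M.d m) = 0 := h1.symm
    exact (mul_eq_zero.1 h2).resolve_left hk
  have C2 : ∀ m, fcAp (A := M) φ (M.d m) + fcAp (A := M) (μ.f n₁) (M.d m) = 0 := by
    intro m
    have h1 := hd3 m
    rw [hμn m, zero_mul, zero_add] at h1
    have h2 : k * (fcAp (A := M) φ (M.d m) + fcAp (A := M) (μ.f n₁) (M.d m)) = 0 := by linarith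
    exact (mul_eq_zero.1 h2).resolve_left hk
  set s : ℝ := -(fcAp (A := M) φ u + fcAp (A := M) (μ.f n₁) u) / fcAp (A := M) (μ.f c) u with hs
  let ψ : M.C →ₗ[ℝ] ℝ := φ.1 + (μ.f n₁).1 + s • (μ.f c).1
  have hψ : ∀ m, ψ m = fcAp (A := M) φ m + fcAp (A := M) (μ.f n₁) m
      + s * fcAp (A := M) (μ.f c) m := fun m => rfl
  have hψu : ψ u = 0 := by
    rw [hψ, hs]
    field_simp
    ring
  have hψd : ∀ m, ψ (M.d m) = 0 := by
    intro m
    rw [hψ, C1, C2]; ring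
  have hψr : ∀ r, Disjoint (M.supp r) K → ψ r = 0 := by
    intro r hr
    rw [hψ, V1 r hr, V2 r hr, V3 r hr]; ring
  obtain ⟨ψ', hψ'0, hψ'd⟩ := fcg_dv_cobound M.d (M.sec Kᶜ) ψ (by
    intro v hv
    have hv' : Disjoint (M.supp (M.d v)) K := Set.subset_compl_iff_disjoint_right.1 hv
    obtain ⟨t', m', hr⟩ := hgen v hv'
    have h1 : v = (v - t' • u - M.d m') + t' • u + M.d m' := by abel
    rw [h1, map_add, map_add, map_smul, hψr _ hr, hψu, hψd]
    simp)
  have hψ'K : ∀ m, Disjoint (M.supp m) K → (k⁻¹ • ψ') m = 0 := by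
    intro m hm
    have : ψ' m = 0 := hψ'0 m (Set.subset_compl_iff_disjoint_right.2 hm)
    simp [this]
  refine ⟨(-n₁ - s • c, fcgMkDual M (k⁻¹ • ψ') K hKc hψ'K), ?_, ?_⟩
  · refine Set.union_subset ?_ ((fcgMkDual_supp M _ K hKc hψ'K).trans hKB)
    refine (N.supp_sub _ _).trans (Set.union_subset ((N.supp_neg _).trans hn₁) ?_)
    exact (N.supp_smul _ _).trans hcB
  · show (-(N.d (-n₁ - s • c)), μ.f (-n₁ - s • c)
      + (M.dual.resc k).d (fcgMkDual M (k⁻¹ • ψ') K hKc hψ'K)) = (n, φ)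
    refine Prod.ext ?_ ?_
    · show -(N.d (-n₁ - s • c)) = n
      rw [map_sub, map_neg, map_smul, hdc, hn']
      simp
    · show μ.f (-n₁ - s • c) + (M.dual.resc k).d (fcgMkDual M (k⁻¹ • ψ') K hKc hψ'K) = φ
      apply fck_dual_ext (A := M)
      intro m
      show fcAp (A := M) (μ.f (-n₁ - s • c)) m + k * (k⁻¹ * ψ' (M.d m)) = fcAp (A := M) φ m
      rw [hψ'd, hψ, map_sub, map_neg, map_smul]
      show -fcAp (A := M) (μ.f n₁) m - s * fcAp (A := M) (μ.f c) m + _ = _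
      field_simp
      ring

/-- acyclic case -/
theorem wcp_core_acyc (N M : FcD X) (k : ℝ) (hk : k ≠ 0) (μ : FcHom N (M.dual.resc k)) (B : Set X)
    (hN : N.AcycAt B)
    (hK : ∀ K, IsCompact K → K ⊆ B → ∃ K', IsCompact K' ∧ K ⊆ K' ∧ K' ⊆ B ∧ M.AcycG K') :
    (fcCone μ).AcycAt B :=
  fcCone_acycAt μ hN ((fcg_dual_acycAt M B hK).resc hk)

end Core

/-! ### 2. closed subsets with the cohomology of a point -/

section Closed

variable {X : Type} [TopologicalSpace X] [CompactSpace X] [T2Space X]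

/-- the inclusion of a subset -/
def wcpIncl (Z : Set X) : C(Z, X) := ⟨Subtype.val, continuous_subtype_val⟩

theorem wcp_incl_closed {Z : Set X} (hZ : IsClosed Z) : IsClosedEmbedding (wcpIncl Z) :=
  hZ.isClosedEmbedding_subtypeVal

theorem wcp_incl_range (Z : Set X) : Set.range (wcpIncl Z) = Z := Subtype.range_coe

theorem wcp_pull_one {Z : Set X} [CompactSpace Z] (hi : IsProperMap (wcpIncl Z)) :
    (asObjPull (wcpIncl Z) hi).f (asObjOne X) = asObjOne Z := by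
  unfold asObjOne
  rw [as_objPull_el]
  rfl

theorem wcp_pull_d {Z : Set X} (hi : IsProperMap (wcpIncl Z)) (m : (asObj X).C) :
    (asObjPull (wcpIncl Z) hi).f ((asObj X).d m) = (asObj Z).d ((asObjPull (wcpIncl Z) hi).f m) :=
  (asObjPull (wcpIncl Z) hi).comm m

/-- (T1) relative cycles of `Γ(Z)`, in `AS(X)` -/
theorem wcp_rel_decomp {Z : Set X} (hZ : IsClosed Z) [CompactSpace Z]
    (hgen : AsGenAt (asObj Z) Set.univ (asObjOne Z)) (m : (asObj X).C)
    (hm : Disjoint ((asObj X).supp ((asObj X).d m)) Z) :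
    ∃ (t : ℝ) (P r : (asObj X).C), m = t • asObjOne X + (asObj X).d P + r ∧
      Disjoint ((asObj X).supp r) Z := by
  have hi := wcp_incl_closed hZ
  set ρ : (asObj X).C →ₗ[ℝ] (asObj Z).C := (asObjPull (wcpIncl Z) hi.isProperMap).f with hρ
  have hρd : ∀ x, ρ ((asObj X).d x) = (asObj Z).d (ρ x) := wcp_pull_d hi.isProperMap
  have h1 : (asObj Z).d (ρ m) = 0 := by
    rw [← hρd]
    exact as_objPull_of_disjoint _ _ _ (by rw [wcp_incl_range]; exact hm)
  obtain ⟨t, n, -, hn⟩ := hgen.2.2.2 (ρ m) (Set.subset_univ _) h1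
  obtain ⟨s, -, hs⟩ := as_obj_closed_section (wcpIncl Z) hi
  have hρ1 : ρ (asObjOne X) = asObjOne Z := wcp_pull_one _
  have hρs : ∀ n, ρ (s n) = n := hs
  have hx0 : ρ (m - t • asObjOne X - (asObj X).d (s n)) = 0 := by
    rw [map_sub, map_sub, map_smul, hρd, hρ1, hρs, hn]
    abel
  have hxd : (asObj X).d (m - t • asObjOne X - (asObj X).d (s n)) = (asObj X).d m := by
    rw [map_sub, map_sub, map_smul, as_objOne_d, (asObj X).d_sq]
    simp
  obtain ⟨a, -, -, ha⟩ := as_obj_taut (wcpIncl Z) hi Set.univ isOpen_univ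
    (m - t • asObjOne X - (asObj X).d (s n)) (Set.subset_univ _) hx0
    (by rw [hxd, wcp_incl_range]; exact hm)
  rw [wcp_incl_range] at ha
  refine ⟨t, s n + a, _, ?_, ha⟩
  rw [map_add]
  abel

/-- (T2) `H(Γ(K)) = ℝ [u]` for `M = AS(X)(O)`, `K ⊆ O` -/
theorem wcp_rel_gen {K O : Set X} (hK : IsClosed K) [CompactSpace K]
    (hgen : AsGenAt (asObj K) Set.univ (asObjOne K)) (hO : IsOpen O) (hKO : K ⊆ O) :
    ∃ u : ((asObj X).res O).C, Disjoint ((asObj X).supp (asObjOne X - u.1)) K ∧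
      Disjoint (((asObj X).res O).supp (((asObj X).res O).d u)) K ∧
      ∀ m : ((asObj X).res O).C, Disjoint (((asObj X).res O).supp (((asObj X).res O).d m)) K →
        ∃ (t : ℝ) (m' : ((asObj X).res O).C),
          Disjoint (((asObj X).res O).supp (m - t • u - ((asObj X).res O).d m')) K := by
  obtain ⟨π, -, -, hπ⟩ := fcg_cut (asObj X).toFcObj Set.univ O Kᶜ isCompact_univ hO
    hK.isOpen_compl (by
      intro x _
      by_cases hx : x ∈ K
      · exact Or.inl (hKO hx)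
      · exact Or.inr hx)
  have hπ1 : ∀ x : (asObj X).C, (asObj X).supp (π x) ⊆ O := fun x => (hπ x (Set.subset_univ _)).1
  have hπ2 : ∀ x : (asObj X).C, Disjoint ((asObj X).supp (x - π x)) K := fun x =>
    Set.subset_compl_iff_disjoint_right.1 (hπ x (Set.subset_univ _)).2
  refine ⟨⟨π (asObjOne X), hπ1 _⟩, hπ2 _, ?_, ?_⟩
  · show Disjoint ((asObj X).supp ((asObj X).d (π (asObjOne X)))) K
    have h1 : (asObj X).d (π (asObjOne X)) = -(asObj X).d (asObjOne X - π (asObjOne X)) := by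
      rw [map_sub, as_objOne_d]; simp
    rw [h1]
    exact Set.disjoint_of_subset_left (((asObj X).supp_neg _).trans ((asObj X).d_loc _)) (hπ2 _)
  · intro m hm
    obtain ⟨t, P, r, hmr, hr⟩ := wcp_rel_decomp hK hgen m.1 hm
    refine ⟨t, ⟨π P, hπ1 _⟩, ?_⟩
    show Disjoint ((asObj X).supp (m.1 - t • π (asObjOne X) - (asObj X).d (π P))) K
    have h1 : m.1 - t • π (asObjOne X) - (asObj X).d (π P)
        = t • (asObjOne X - π (asObjOne X)) + (asObj X).d (P - π P) + r := by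
      rw [hmr, map_sub, smul_sub]; abel
    rw [h1]
    refine Set.disjoint_of_subset_left ((asObj X).supp_add _ _) (Set.disjoint_union_left.2 ⟨?_, hr⟩)
    refine Set.disjoint_of_subset_left ((asObj X).supp_add _ _) (Set.disjoint_union_left.2 ⟨?_, ?_⟩)
    · exact Set.disjoint_of_subset_left ((asObj X).supp_smul _ _) (hπ2 _)
    · exact Set.disjoint_of_subset_left ((asObj X).d_loc _) (hπ2 _)

/-- (T3) `H(Γ(K)) = 0` for `M = AS(X)(O)` if `K` meets the complement of `O` in `L`, `K` and `L` with the cohomology of a point -/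
theorem wcp_rel_acyc {K L O : Set X} (hK : IsClosed K) (hL : IsClosed L) [CompactSpace K]
    [CompactSpace L] (hgenK : AsGenAt (asObj K) Set.univ (asObjOne K))
    (hgenL : AsGenAt (asObj L) Set.univ (asObjOne L)) (hLK : L ⊆ K) (hO : IsOpen O)
    (hKL : K \ L ⊆ O) (hOL : Disjoint O L) : ((asObj X).res O).AcycG K := by
  intro m hm
  obtain ⟨t, P₀, r, hmr, hr⟩ := wcp_rel_decomp hK hgenK m.1 hm
  have hi := wcp_incl_closed hL
  set ρ : (asObj X).C →ₗ[ℝ] (asObj L).C := (asObjPull (wcpIncl L) hi.isProperMap).f with hρ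
  have hρd : ∀ x, ρ ((asObj X).d x) = (asObj L).d (ρ x) := wcp_pull_d hi.isProperMap
  have hρ1 : ρ (asObjOne X) = asObjOne L := wcp_pull_one _
  have hρ0 : ∀ x, Disjoint ((asObj X).supp x) L → ρ x = 0 := fun x hx =>
    as_objPull_of_disjoint _ _ _ (by rw [wcp_incl_range]; exact hx)
  have hmL : Disjoint ((asObj X).supp m.1) L := Set.disjoint_of_subset_left m.2 hOL
  have hrL : Disjoint ((asObj X).supp r) L := Set.disjoint_of_subset_right hLK hr
  have h1 : t • asObjOne L + (asObj L).d (ρ P₀) = 0 := by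
    have h2 := congrArg ρ hmr
    rw [hρ0 _ hmL, map_add, map_add, map_smul, hρ1, hρd, hρ0 _ hrL, add_zero] at h2
    exact h2.symm
  have ht : t = 0 := by
    by_contra ht
    refine hgenL.2.2.1 (-(t⁻¹ • ρ P₀)) (Set.subset_univ _) ?_
    have h2 : (asObj L).d (ρ P₀) = -(t • asObjOne L) := by
      rw [← add_zero (-(t • asObjOne L)), ← h1]; abel
    rw [map_neg, map_smul, h2, smul_neg, smul_smul, inv_mul_cancel₀ ht, one_smul, neg_neg]
  subst ht
  rw [zero_smul, zero_add] at h1 hmr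
  obtain ⟨t', n', -, hn'⟩ := hgenL.2.2.2 (ρ P₀) (Set.subset_univ _) h1
  obtain ⟨s, -, hs⟩ := as_obj_closed_section (wcpIncl L) hi
  have hρs : ∀ n, ρ (s n) = n := hs
  have hP0 : ρ (P₀ - t' • asObjOne X - (asObj X).d (s n')) = 0 := by
    rw [map_sub, map_sub, map_smul, hρd, hρ1, hρs, hn']
    abel
  have hPd : (asObj X).d (P₀ - t' • asObjOne X - (asObj X).d (s n')) = (asObj X).d P₀ := by
    rw [map_sub, map_sub, map_smul, as_objOne_d, (asObj X).d_sq]
    simp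
  have hdP₀ : (asObj X).d P₀ = m.1 - r := by rw [hmr]; abel
  obtain ⟨a₂, -, -, ha₂⟩ := as_obj_taut (wcpIncl L) hi Set.univ isOpen_univ
    (P₀ - t' • asObjOne X - (asObj X).d (s n')) (Set.subset_univ _) hP0 (by
      rw [hPd, wcp_incl_range, hdP₀]
      exact Set.disjoint_of_subset_left ((asObj X).supp_sub _ _)
        (Set.disjoint_union_left.2 ⟨hmL, hrL⟩))
  rw [wcp_incl_range] at ha₂
  obtain ⟨P₂, hP₂⟩ : ∃ P₂ : (asObj X).C,
      P₂ = P₀ - t' • asObjOne X - (asObj X).d (s n') - (asObj X).d a₂ := ⟨_, rfl⟩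
  rw [← hP₂] at ha₂
  have hP₂d : (asObj X).d P₂ = (asObj X).d P₀ := by
    rw [hP₂, map_sub, hPd, (asObj X).d_sq, sub_zero]
  obtain ⟨π, -, -, hπ⟩ := fcg_cut (asObj X).toFcObj ((asObj X).supp P₂) O Kᶜ
    ((asObj X).supp_compact P₂) hO hK.isOpen_compl (by
      intro x hx
      by_cases hxK : x ∈ K
      · exact Or.inl (hKL ⟨hxK, fun hxL => Set.disjoint_left.1 ha₂ hx hxL⟩)
      · exact Or.inr hxK)
  obtain ⟨hπ1, hπ2⟩ := hπ P₂ subset_rfl
  refine ⟨⟨π P₂, hπ1⟩, ?_⟩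
  show Disjoint ((asObj X).supp (m.1 - (asObj X).d (π P₂))) K
  have h3 : m.1 - (asObj X).d (π P₂) = (asObj X).d (P₂ - π P₂) + r := by
    rw [map_sub, hP₂d, hmr]; abel
  rw [h3]
  refine Set.disjoint_of_subset_left ((asObj X).supp_add _ _) (Set.disjoint_union_left.2 ⟨?_, hr⟩)
  exact Set.disjoint_of_subset_left ((asObj X).d_loc _)
    (Set.subset_compl_iff_disjoint_right.1 hπ2)

end Closed

/-! ### 3. restriction to a subset -/

section Res

variable {X : Type} [TopologicalSpace X]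

theorem wcp_genAt_res (A : FcD X) {B O : Set X} (hBO : B ⊆ O) (c : A.C) (hc : AsGenAt A B c) :
    AsGenAt (A.res O) B ⟨c, hc.1.trans hBO⟩ := by
  obtain ⟨h1, h2, h3, h4⟩ := hc
  refine ⟨h1, Subtype.ext h2, fun m' hm' hd => h3 m'.1 hm' (congrArg Subtype.val hd), ?_⟩
  intro m hm hd
  obtain ⟨t, m', hm', hmm⟩ := h4 m.1 hm (congrArg Subtype.val hd)
  exact ⟨t, ⟨m', hm'.trans hBO⟩, hm', Subtype.ext hmm⟩

theorem wcp_acycAt_res (A : FcD X) {B O : Set X} (hBO : B ⊆ O) (h : A.AcycAt B) :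
    (A.res O).AcycAt B := by
  intro m hm hd
  obtain ⟨m', hm', hmm⟩ := h m.1 hm (congrArg Subtype.val hd)
  exact ⟨⟨m', hm'.trans hBO⟩, hm', Subtype.ext hmm⟩

end Res

/-! ### 4. boxes -/

/-- closed boxes -/
def wcpCl (n : ℕ) (a b : Fin n → ℝ) : Set (Fin n → AsIv) :=
  {x | ∀ i, a i ≤ (x i : ℝ) ∧ (x i : ℝ) ≤ b i}

theorem wcp_cl_isClosed (n : ℕ) (a b : Fin n → ℝ) : IsClosed (wcpCl n a b) := by
  have h : wcpCl n a b = ⋂ i, {x : Fin n → AsIv | a i ≤ (x i : ℝ) ∧ (x i : ℝ) ≤ b i} := by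
    ext x; simp [wcpCl]
  rw [h]
  refine isClosed_iInter fun i => ?_
  have hc : Continuous fun x : Fin n → AsIv => (x i : ℝ) :=
    continuous_subtype_val.comp (continuous_apply i)
  exact (isClosed_le continuous_const hc).inter (isClosed_le hc continuous_const)

theorem wcp_cl_subset_bx (n : ℕ) (a b a' b' : Fin n → ℝ) (h : ∀ i, a i < a' i ∧ b' i < b i) :
    wcpCl n a' b' ⊆ asBx n a b := fun _ hx i =>
  ⟨lt_of_lt_of_le (h i).1 (hx i).1, lt_of_le_of_lt (hx i).2 (h i).2⟩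

theorem wcp_cl_nonempty (n : ℕ) (a b : Fin n → ℝ) (h : ∀ i, -1 ≤ a i ∧ a i ≤ b i ∧ a i ≤ 1) :
    (wcpCl n a b).Nonempty :=
  ⟨fun i => ⟨a i, (h i).1, (h i).2.2⟩, fun i => ⟨le_rfl, (h i).2.1⟩⟩

/-- closed boxes are cofinal among the compact subsets of a nonempty box -/
theorem wcp_cofinal (n : ℕ) (a b : Fin n → ℝ) (p : Fin n → AsIv) (hp : p ∈ asBx n a b)
    (K₀ : Set (Fin n → AsIv)) (hK₀ : IsCompact K₀) (hK₀B : K₀ ⊆ asBx n a b) :
    ∃ a' b' : Fin n → ℝ, (∀ i, a i < a' i ∧ a' i ≤ b' i ∧ b' i < b i ∧ -1 ≤ a' i ∧ b' i ≤ 1) ∧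
      K₀ ⊆ wcpCl n a' b' := by
  have hK₁ : IsCompact (insert p K₀) := hK₀.insert p
  have hne : (insert p K₀).Nonempty := ⟨p, Set.mem_insert _ _⟩
  have hK₁B : insert p K₀ ⊆ asBx n a b := Set.insert_subset hp hK₀B
  have hc : ∀ i, ContinuousOn (fun x : Fin n → AsIv => (x i : ℝ)) (insert p K₀) := fun i =>
    (continuous_subtype_val.comp (continuous_apply i)).continuousOn
  have hmin : ∀ i, ∃ x ∈ insert p K₀, ∀ y ∈ insert p K₀, (x i : ℝ) ≤ (y i : ℝ) := fun i => by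
    obtain ⟨x, hx, hxm⟩ := hK₁.exists_isMinOn hne (hc i)
    exact ⟨x, hx, fun y hy => hxm hy⟩
  have hmax : ∀ i, ∃ x ∈ insert p K₀, ∀ y ∈ insert p K₀, (y i : ℝ) ≤ (x i : ℝ) := fun i => by
    obtain ⟨x, hx, hxm⟩ := hK₁.exists_isMaxOn hne (hc i)
    exact ⟨x, hx, fun y hy => hxm hy⟩
  choose xm hxm hxm' using hmin
  choose xM hxM hxM' using hmax
  refine ⟨fun i => (xm i i : ℝ), fun i => (xM i i : ℝ), fun i => ⟨?_, ?_, ?_, ?_, ?_⟩, ?_⟩
  · exact (hK₁B (hxm i) i).1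
  · exact hxm' i _ (hxM i)
  · exact (hK₁B (hxM i) i).2
  · exact (xm i i).2.1
  · exact (xM i i).2.2
  · intro y hy i
    exact ⟨hxm' i y (Set.mem_insert_of_mem _ hy), hxM' i y (Set.mem_insert_of_mem _ hy)⟩

theorem wcp_int_eq (n : ℕ) : wcInt n = asBx n (fun _ => -1) (fun _ => 1) := by
  ext x
  constructor
  · intro hx i
    have hx' : |(x i : ℝ)| ≠ 1 := fun hi => hx ⟨i, hi⟩
    have hlt : |(x i : ℝ)| < 1 := lt_of_le_of_ne (abs_le.2 ⟨(x i).2.1, (x i).2.2⟩) hx'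
    exact abs_lt.1 hlt
  · rintro hx ⟨i, hi⟩
    exact absurd hi (ne_of_lt (abs_lt.2 (hx i)))

theorem wcp_int_isOpen (n : ℕ) : IsOpen (wcInt n) := by
  rw [wcp_int_eq]; exact as_bx_isOpen n _ _

theorem wcp_bx_empty (n : ℕ) (a b : Fin n → ℝ) (i : Fin n) (h : b i ≤ a i) : asBx n a b = ∅ := by
  ext x
  simp only [Set.mem_empty_iff_false, iff_false]
  intro hx
  exact absurd ((hx i).1.trans (hx i).2) (not_lt.2 h)

/-! ### 5. duality on boxes -/

/-- inner boxes -/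
theorem wcp_inner (n : ℕ) (O₁ O₂ : Set (EhCb n)) (hO₂ : IsOpen O₂) (k : ℝ) (hk : k ≠ 0)
    (μ : FcHom ((asObj (EhCb n)).res O₁) (((asObj (EhCb n)).res O₂).dual.resc k))
    (a b : Fin n → ℝ) (hab : ∀ i, -1 ≤ a i ∧ a i < b i ∧ b i ≤ 1)
    (hB₁ : asBx n a b ⊆ O₁) (hB₂ : asBx n a b ⊆ O₂)
    (hβ : ∀ (c : ((asObj (EhCb n)).res O₁).C) (u : ((asObj (EhCb n)).res O₂).C),
      AsGenAt (asObj (EhCb n)) (wcInt n) c.1 → asObjPr (EhCb n) n c.1 = c.1 →
      Disjoint ((asObj (EhCb n)).supp c.1) ((asObj (EhCb n)).supp (asObjOne (EhCb n) - u.1)) →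
      fcAp (A := (asObj (EhCb n)).res O₂) (μ.f c) u ≠ 0) :
    (fcCone μ).AcycAt (asBx n a b) := by
  obtain ⟨c, hc, hpr⟩ := as_bx_gen n a b (fun i => Or.inr (hab i))
  have hcard : (Finset.univ.filter (fun i => -1 ≤ a i)).card = n := by
    rw [Finset.filter_true_of_mem (fun i _ => (hab i).1), Finset.card_univ, Fintype.card_fin]
  rw [hcard] at hpr
  have hcint : AsGenAt (asObj (EhCb n)) (wcInt n) c := by
    rw [wcp_int_eq]
    exact as_bx_mono n _ _ a b
      (fun i => Or.inr ⟨le_rfl, (hab i).1, (hab i).2.1, (hab i).2.2, le_rfl⟩) c hc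
  have hp : (fun i => (⟨(a i + b i) / 2, by
      constructor <;> linarith [(hab i).1, (hab i).2.1, (hab i).2.2]⟩ : AsIv)) ∈ asBx n a b := by
    intro i
    constructor
    · show a i < (a i + b i) / 2
      linarith [(hab i).2.1]
    · show (a i + b i) / 2 < b i
      linarith [(hab i).2.1]
  refine wcp_core_gen _ _ k hk μ (asBx n a b) ⟨c, hc.1.trans hB₁⟩ (wcp_genAt_res _ hB₁ c hc) ?_
  intro K₀ hK₀ hK₀B
  obtain ⟨a', b', hab', hK₀K⟩ := wcp_cofinal n a b _ hp (K₀ ∪ (asObj (EhCb n)).supp c)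
    (hK₀.union ((asObj (EhCb n)).supp_compact c)) (Set.union_subset hK₀B hc.1)
  have hKB : wcpCl n a' b' ⊆ asBx n a b :=
    wcp_cl_subset_bx n a b a' b' (fun i => ⟨(hab' i).1, (hab' i).2.2.1⟩)
  have hKcl := wcp_cl_isClosed n a' b'
  obtain ⟨inst, hgenK⟩ := as_bx_closed n a' b' (wcpCl n a' b') rfl
    (wcp_cl_nonempty n a' b' (fun i => ⟨(hab' i).2.2.2.1, (hab' i).2.1,
      (hab' i).2.1.trans (hab' i).2.2.2.2⟩))
  obtain ⟨u, hu1, hu2, hu3⟩ := wcp_rel_gen hKcl hgenK hO₂ (hKB.trans hB₂)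
  refine ⟨wcpCl n a' b', u, hKcl.isCompact, Set.subset_union_left.trans hK₀K, hKB, hu2, ?_, hu3⟩
  exact hβ _ u hcint hpr (Set.disjoint_of_subset_left (Set.subset_union_right.trans hK₀K) hu1.symm)

/-- boxes which touch the bottom face -/
theorem wcp_halfopen (d : ℕ) (O₁ : Set (EhCb (d + 1))) (k : ℝ) (hk : k ≠ 0)
    (μ : FcHom ((asObj (EhCb (d + 1))).res O₁)
      (((asObj (EhCb (d + 1))).res (wcInt (d + 1))).dual.resc k))
    (a b : Fin (d + 1) → ℝ) (h0 : a 0 < -1 ∧ -1 < b 0 ∧ b 0 ≤ 1)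
    (hab : ∀ i : Fin d, -1 ≤ a i.succ ∧ a i.succ < b i.succ ∧ b i.succ ≤ 1)
    (hB₁ : asBx (d + 1) a b ⊆ O₁) : (fcCone μ).AcycAt (asBx (d + 1) a b) := by
  refine wcp_core_acyc _ _ k hk μ _
    (wcp_acycAt_res _ hB₁ (as_bx_half (d + 1) a b 0 (Or.inl ⟨h0.1, h0.2.2⟩))) ?_
  intro K₀ hK₀ hK₀B
  have hp : (Fin.cons (⟨-1, by norm_num, by norm_num⟩ : AsIv)
      (fun i : Fin d => (⟨(a i.succ + b i.succ) / 2, by
        constructor <;> linarith [(hab i).1, (hab i).2.1, (hab i).2.2]⟩ : AsIv)) :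
      Fin (d + 1) → AsIv) ∈ asBx (d + 1) a b := by
    intro i
    refine Fin.cases ?_ (fun j => ?_) i
    · exact ⟨h0.1, h0.2.1⟩
    · constructor
      · show a j.succ < (a j.succ + b j.succ) / 2
        linarith [(hab j).2.1]
      · show (a j.succ + b j.succ) / 2 < b j.succ
        linarith [(hab j).2.1]
  obtain ⟨a', b', hab', hK₀K⟩ := wcp_cofinal (d + 1) a b _ hp K₀ hK₀ hK₀B
  set a'' : Fin (d + 1) → ℝ := Function.update a' 0 (-1) with ha''
  set b'' : Fin (d + 1) → ℝ := Function.update b' 0 (-1) with hb''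
  have ha0 : a'' 0 = -1 := Function.update_self _ _ _
  have hb0 : b'' 0 = -1 := Function.update_self _ _ _
  have has : ∀ j : Fin d, a'' j.succ = a' j.succ := fun j =>
    Function.update_of_ne (Fin.succ_ne_zero j) _ _
  have hbs : ∀ j : Fin d, b'' j.succ = b' j.succ := fun j =>
    Function.update_of_ne (Fin.succ_ne_zero j) _ _
  have hKcl := wcp_cl_isClosed (d + 1) a'' b'
  have hLcl := wcp_cl_isClosed (d + 1) a'' b''
  have hKB : wcpCl (d + 1) a'' b' ⊆ asBx (d + 1) a b := by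
    refine wcp_cl_subset_bx _ _ _ _ _ (fun i => ?_)
    refine Fin.cases ?_ (fun j => ?_) i
    · rw [ha0]; exact ⟨h0.1, (hab' 0).2.2.1⟩
    · rw [has]; exact ⟨(hab' j.succ).1, (hab' j.succ).2.2.1⟩
  have hK₀K' : K₀ ⊆ wcpCl (d + 1) a'' b' := by
    intro x hx i
    refine ⟨?_, (hK₀K hx i).2⟩
    refine Fin.cases ?_ (fun j => ?_) i
    · rw [ha0]; exact (x 0).2.1
    · rw [has]; exact (hK₀K hx j.succ).1
  obtain ⟨instK, hgenK⟩ := as_bx_closed (d + 1) a'' b' (wcpCl (d + 1) a'' b') rfl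
    (wcp_cl_nonempty _ _ _ (fun i => by
      refine Fin.cases ?_ (fun j => ?_) i
      · rw [ha0]; exact ⟨le_rfl, (hab' 0).2.2.2.1.trans (hab' 0).2.1, by norm_num⟩
      · rw [has]; exact ⟨(hab' j.succ).2.2.2.1, (hab' j.succ).2.1,
          (hab' j.succ).2.1.trans (hab' j.succ).2.2.2.2⟩))
  obtain ⟨instL, hgenL⟩ := as_bx_closed (d + 1) a'' b'' (wcpCl (d + 1) a'' b'') rfl
    (wcp_cl_nonempty _ _ _ (fun i => by
      refine Fin.cases ?_ (fun j => ?_) i
      · rw [ha0, hb0]; exact ⟨le_rfl, le_rfl, by norm_num⟩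
      · rw [has, hbs]; exact ⟨(hab' j.succ).2.2.2.1, (hab' j.succ).2.1,
          (hab' j.succ).2.1.trans (hab' j.succ).2.2.2.2⟩))
  refine ⟨wcpCl (d + 1) a'' b', hKcl.isCompact, hK₀K', hKB, ?_⟩
  refine wcp_rel_acyc hKcl hLcl hgenK hgenL ?_ (wcp_int_isOpen _) ?_ ?_
  · intro x hx i
    refine ⟨(hx i).1, ?_⟩
    refine Fin.cases ?_ (fun j => ?_) i
    · have := (hx 0).2
      rw [hb0] at this
      exact this.trans ((hab' 0).2.2.2.1.trans (hab' 0).2.1)
    · have := (hx j.succ).2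
      rwa [hbs] at this
  · rintro x ⟨hxK, hxL⟩
    rw [wcp_int_eq]
    have hxB := hKB hxK
    intro i
    refine Fin.cases ?_ (fun j => ?_) i
    · refine ⟨?_, lt_of_lt_of_le (hxB 0).2 h0.2.2⟩
      by_contra hcon
      apply hxL
      intro i
      refine Fin.cases ?_ (fun j => ?_) i
      · rw [hb0]; exact ⟨(hxK 0).1, not_lt.1 hcon⟩
      · rw [hbs]; exact hxK j.succ
    · exact ⟨lt_of_le_of_lt (hab j).1 (hxB j.succ).1, lt_of_lt_of_le (hxB j.succ).2 (hab j).2.2⟩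
  · rw [Set.disjoint_left, wcp_int_eq]
    intro x hx hxL
    have h1 := (hx 0).1
    have h2 := (hxL 0).2
    rw [hb0] at h2
    exact absurd h1 (not_lt.2 h2)

/-- Poincare duality in the interior, for any map `μ` given by a pairing which is nonzero on (generator, unit) -/
theorem wcp_pd_int (n : ℕ) (k : ℝ) (hk : k ≠ 0)
    (μ : FcHom ((asObj (EhCb n)).res (wcInt n)) (((asObj (EhCb n)).res (wcInt n)).dual.resc k))
    (hβ : ∀ (c u : ((asObj (EhCb n)).res (wcInt n)).C),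
      AsGenAt (asObj (EhCb n)) (wcInt n) c.1 → asObjPr (EhCb n) n c.1 = c.1 →
      Disjoint ((asObj (EhCb n)).supp c.1) ((asObj (EhCb n)).supp (asObjOne (EhCb n) - u.1)) →
      fcAp (A := (asObj (EhCb n)).res (wcInt n)) (μ.f c) u ≠ 0) :
    (fcCone μ).AcycOn (wcInt n) := by
  refine fcg_acycOn_of_basis (fcCone μ) (wcInt n)
    {B | ∃ a b : Fin n → ℝ, (∀ i, -1 ≤ a i ∧ b i ≤ 1) ∧ B = asBx n a b} ?_ ?_ ?_ ?_
  · rintro B ⟨a, b, -, rfl⟩
    exact as_bx_isOpen n a b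
  · rintro B ⟨a, b, hab, rfl⟩ B' ⟨a', b', hab', rfl⟩
    refine ⟨_, _, fun i => ⟨?_, ?_⟩, as_bx_inter n a b a' b'⟩
    · exact le_max_of_le_left (hab i).1
    · exact min_le_of_left_le (hab i).2
  · intro U hU hUO x hx
    obtain ⟨a, b, hxB, hBU⟩ := as_bx_basis n U hU x hx
    refine ⟨_, ⟨fun i => max (a i) (-1), fun i => min (b i) 1, fun i => ⟨le_max_right _ _,
      min_le_right _ _⟩, rfl⟩, ?_, ?_⟩
    · have hxi := hUO hx
      rw [wcp_int_eq] at hxi
      exact fun i => ⟨max_lt (hxB i).1 (hxi i).1, lt_min (hxB i).2 (hxi i).2⟩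
    · intro y hy
      exact hBU fun i => ⟨lt_of_le_of_lt (le_max_left _ _) (hy i).1,
        lt_of_lt_of_le (hy i).2 (min_le_left _ _)⟩
  · rintro B ⟨a, b, hab, rfl⟩
    by_cases h : ∀ i, a i < b i
    · have hBint : asBx n a b ⊆ wcInt n := by
        rw [wcp_int_eq]
        exact fun y hy i => ⟨lt_of_le_of_lt (hab i).1 (hy i).1, lt_of_lt_of_le (hy i).2 (hab i).2⟩
      exact wcp_inner n _ _ (wcp_int_isOpen n) k hk μ a b
        (fun i => ⟨(hab i).1, h i, (hab i).2⟩) hBint hBint hβ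
    · push Not at h
      obtain ⟨i, hi⟩ := h
      rw [wcp_bx_empty n a b i hi]
      exact fcg_acycAt_empty _

theorem wcp_half_eq (d : ℕ) :
    wcHalf d = asBx (d + 1) (Fin.cons (-2) (fun _ => -1)) (fun _ => 1) := by
  ext x
  constructor
  · rintro ⟨h0, hs⟩ i
    refine Fin.cases ?_ (fun j => ?_) i
    · exact ⟨lt_of_lt_of_le (by norm_num) (x 0).2.1, h0⟩
    · exact abs_lt.1 (hs j)
  · intro hx
    exact ⟨(hx 0).2, fun j => abs_lt.2 (hx j.succ)⟩

/-- Lefschetz duality at the bottom face -/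
theorem wcp_pd_half (d : ℕ) (k : ℝ) (hk : k ≠ 0)
    (μ : FcHom ((asObj (EhCb (d + 1))).res (wcHalf d))
      (((asObj (EhCb (d + 1))).res (wcInt (d + 1))).dual.resc k))
    (hβ : ∀ (c : ((asObj (EhCb (d + 1))).res (wcHalf d)).C)
      (u : ((asObj (EhCb (d + 1))).res (wcInt (d + 1))).C),
      AsGenAt (asObj (EhCb (d + 1))) (wcInt (d + 1)) c.1 →
      asObjPr (EhCb (d + 1)) (d + 1) c.1 = c.1 →
      Disjoint ((asObj (EhCb (d + 1))).supp c.1)
        ((asObj (EhCb (d + 1))).supp (asObjOne (EhCb (d + 1)) - u.1)) →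
      fcAp (A := (asObj (EhCb (d + 1))).res (wcInt (d + 1))) (μ.f c) u ≠ 0) :
    (fcCone μ).AcycOn (wcHalf d) := by
  refine fcg_acycOn_of_basis (fcCone μ) (wcHalf d)
    {B | ∃ a b : Fin (d + 1) → ℝ, (b 0 ≤ 1 ∧ ∀ i : Fin d, -1 ≤ a i.succ ∧ b i.succ ≤ 1) ∧
      B = asBx (d + 1) a b} ?_ ?_ ?_ ?_
  · rintro B ⟨a, b, -, rfl⟩
    exact as_bx_isOpen _ a b
  · rintro B ⟨a, b, hab, rfl⟩ B' ⟨a', b', hab', rfl⟩
    refine ⟨_, _, ⟨min_le_of_left_le hab.1, fun i => ⟨?_, ?_⟩⟩, as_bx_inter _ a b a' b'⟩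
    · exact le_max_of_le_left (hab.2 i).1
    · exact min_le_of_left_le (hab.2 i).2
  · intro U hU hUO x hx
    obtain ⟨a, b, hxB, hBU⟩ := as_bx_basis _ U hU x hx
    refine ⟨_, ⟨fun i => max (a i) ((Fin.cons (-2) (fun _ => -1) : Fin (d + 1) → ℝ) i),
      fun i => min (b i) 1, ⟨min_le_right _ _, fun i => ⟨le_max_right _ _, min_le_right _ _⟩⟩,
      rfl⟩, ?_, ?_⟩
    · have hxi := hUO hx
      rw [wcp_half_eq] at hxi
      exact fun i => ⟨max_lt (hxB i).1 (hxi i).1, lt_min (hxB i).2 (hxi i).2⟩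
    · intro y hy
      exact hBU fun i => ⟨lt_of_le_of_lt (le_max_left _ _) (hy i).1,
        lt_of_lt_of_le (hy i).2 (min_le_left _ _)⟩
  · rintro B ⟨a, b, hab, rfl⟩
    have hBhalf : asBx (d + 1) a b ⊆ wcHalf d := by
      intro y hy
      exact ⟨lt_of_lt_of_le (hy 0).2 hab.1, fun j => abs_lt.2
        ⟨lt_of_le_of_lt (hab.2 j).1 (hy j.succ).1, lt_of_lt_of_le (hy j.succ).2 (hab.2 j).2⟩⟩
    by_cases hs : ∀ i : Fin d, a i.succ < b i.succ
    · by_cases h0 : -1 ≤ a 0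
      · by_cases h0' : a 0 < b 0
        · have hab' : ∀ i, -1 ≤ a i ∧ a i < b i ∧ b i ≤ 1 := by
            intro i
            refine Fin.cases ?_ (fun j => ?_) i
            · exact ⟨h0, h0', hab.1⟩
            · exact ⟨(hab.2 j).1, hs j, (hab.2 j).2⟩
          have hBint : asBx (d + 1) a b ⊆ wcInt (d + 1) := by
            rw [wcp_int_eq]
            exact fun y hy i => ⟨lt_of_le_of_lt (hab' i).1 (hy i).1,
              lt_of_lt_of_le (hy i).2 (hab' i).2.2⟩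
          exact wcp_inner (d + 1) _ _ (wcp_int_isOpen _) k hk μ a b hab' hBhalf hBint hβ
        · rw [wcp_bx_empty _ a b 0 (not_lt.1 h0')]
          exact fcg_acycAt_empty _
      · by_cases h0' : -1 < b 0
        · exact wcp_halfopen d _ k hk μ a b ⟨not_le.1 h0, h0', hab.1⟩
            (fun j => ⟨(hab.2 j).1, hs j, (hab.2 j).2⟩) hBhalf
        · have hemp : asBx (d + 1) a b = ∅ := by
            ext x
            simp only [Set.mem_empty_iff_false, iff_false]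
            intro hx
            exact h0' (lt_of_le_of_lt (x 0).2.1 (hx 0).2)
          rw [hemp]
          exact fcg_acycAt_empty _
    · push Not at hs
      obtain ⟨i, hi⟩ := hs
      rw [wcp_bx_empty _ a b i.succ hi]
      exact fcg_acycAt_empty _

/-! ### 6. the pairing of the generator with the unit -/

theorem wcp_eval (n : ℕ) (c u : (asObj (EhCb n)).C) (hgen : AsGenAt (asObj (EhCb n)) (wcInt n) c)
    (hpr : asObjPr (EhCb n) n c = c)
    (hdis : Disjoint ((asObj (EhCb n)).supp c) ((asObj (EhCb n)).supp (asObjOne (EhCb n) - u))) :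
    wcB n (wcI n).I c u ≠ 0 := by
  have h1 : wcB n (wcI n).I c u = wcB n (wcI n).I c (asObjOne (EhCb n)) := by
    have h2 : wcB n (wcI n).I c (asObjOne (EhCb n) - u) = 0 := wc_b_loc n c _ hdis
    rw [map_sub, sub_eq_zero] at h2
    exact h2.symm
  have h0 : asObjPr (EhCb n) 0 (asObjOne (EhCb n)) = asObjOne (EhCb n) := as_obj_pr_el_same 0 _ _
  have hC0 : wcC n 0 = 1 := by simp [wcC]
  rw [h1, wc_b_apply, wc_b1_apply, wc_b1_apply, as_objCup_one_right, wc_gam_pr _ n n c hpr,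
    wc_gam_pr _ n 0 _ h0, hC0, one_smul, as_objCup_one_left, map_smul, wc_C_self, smul_eq_mul]
  have hI : (wcI n).I c ≠ 0 := (wcI n).gen c hgen
  have hE : wtE (n : ZMod 4) ≠ 0 := by
    intro h
    have := wtE_sq (n : ZMod 4)
    rw [h] at this
    norm_num at this
  have h3 : (1 / 2 : ℝ) * (wtE (n : ZMod 4) * (wcI n).I c + wtE (n : ZMod 4) * (wcI n).I c)
      = wtE (n : ZMod 4) * (wcI n).I c := by ring
  rw [h3]
  exact mul_ne_zero hE hI

theorem wcp_K_ne (t : ZMod 4) : wtK t ≠ 0 := by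
  intro h
  have := wtK_sq t
  rw [h] at this
  norm_num at this

/-- Poincare duality in the interior of the cube -/
theorem wcp_pd_int_cube (d : ℕ) : (fcCone (wcCube d).ad).AcycOn (ehCbBd d)ᶜ :=
  wcp_pd_int d (wtK (d : ZMod 4)) (wcp_K_ne _) (wcCube d).ad
    (fun c u hgen hpr hdis => wcp_eval d c.1 u.1 hgen hpr hdis)

/-- Lefschetz duality at the bottom face -/
theorem wcp_pd_half_cube (d : ℕ) : (fcCone (wcMu d)).AcycOn (wcHalf d) :=
  wcp_pd_half d (wtK ((d + 1 : ℕ) : ZMod 4)) (wcp_K_ne _) (wcMu d)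
    (fun c u hgen hpr hdis => wcp_eval (d + 1) c.1 u.1 hgen hpr hdis)

end Claimed.Agent.R304
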