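/-
Row 304 (S0559, Hilbert-Smith).  Owner: helper248.  PACKAGES WtCubeAlg / WtCubePD / WtCubeBd: THE FORMS OF THE CUBES AND (C1).
Definitions: WtCubeDefs.lean.   Notation: `A = asObj (cube)`, `δ = A.d`, `τ = asObjSgn`, `γ_d = wcGam _ d`, `k_d = wtK d = (-1)^d`, `e_d = wtE d = (-1)^{d(d-1)/2}`.

=== PACKAGE WtCubeAlg (signs and Stokes; also the obligations `sorry` of WtCubeDefs; ~900 lines) ===
* `wc_K_nat`, `wc_E_nat`, `wc_C_self`: case distinction `d mod 4`.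
* `wc_gam_*`: on homogeneous elements (`as_obj_sum_pr`, `asTMap` on `lof`): `c_d(q+1) = -(-1)^d (-1)^q c_d(q)`, `c_{d+1}(q) (-1)^q = c_d(q)`.
* `wc_b1_stokes`:  `δ(γτ n ∪ n') = δγτ n ∪ n' + γ n ∪ δ n'` (Leibniz `as_objCup_d`, `ττ = 1`), `γ_{d+1} δ = -k_{d+1} δ γ_{d+1} τ`, `wc_stokes` for `m = γτ n ∪ n'` (support in `supp n ∩ supp n'`),
     `ρ(x ∪ y) = ρ x ∪ ρ y`, `ρ γ_{d+1} τ = γ_d ρ`.   Result: `β₁^d(ρ n, ρ n') = β₁^{d+1}(n, δ n') + k_d β₁^{d+1}(δ n, n')`.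
* `wc_b_stokes`: the same identity for the transposed pairing is `k_d ×` the transposed identity; `k_d e_d = e_{d+1}`... (`wtE_pred`, `wtK_pred`); add.
* `wc_b_adj`: as `wc_b1_stokes` with `I.stokes` instead of `wc_stokes`.

=== PACKAGE WtCubePD (Poincare-Lefschetz duality on boxes; ~1500 lines) ===
`wc_pd_half d`: the cone of `μ : A(half) → A(int)^∨<k>` is acyclic on every open subset of `wcHalf d`.   `wc_pd_int`: the same for `ad : A(int) → A(int)^∨<k>` on `wcInt d`.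
Plan: LG2 (helper154, FcLG: a cone which is acyclic on a basis closed under finite intersections is acyclic on all open subsets) for the basis of boxes `B = asBx .. ⊆ half`.
 (i) `B` inner box (closure need not be inside): `H(A(B)) = ℝ c_B` (`as_bx_gen`), `H(A(int)^∨(B)) = colim_{K ⊆ B compact} H(Γ(K))^*`, `Γ(K) = A(int)/A(int ∖ K)` (FcLG); closed boxes `K ⊆ B` are cofinal,
     `H(Γ(K)) = ℝ·[u]`, `u ∈ A(int)` any element which is `1` near `K` (tautness + `as_bx_closed`);  choose the generator `c` of `H(A(B))` supported in the interior of `K` (`as_bx_mono`): `c ∪ u = c = u ∪ c`, so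
     `b(c,u) = (c_d(d) I(c) + e_d c_d(0) I(c))/2 = e_d I(c) ≠ 0` (`wc_C_self`, `WcInt.gen` + `as_bx_mono`).
 (ii) `B` a box touching the bottom face (half-open in the coordinate `0`): `A(B)` is acyclic (`as_bx_half`); `Γ(K)` for `K = [-1,b] × K'`: `A(int)/A(int ∖ K) ≃ cone(AS(K) → AS(K ∩ face))[-1]`, both have the cohomology of a point: acyclic.
=== PACKAGE WtCubeBd ((C1); ~700 lines) ===
* `wc_rho_acyc`: tautness `as_obj_taut_cone` for the closed embedding `ehCbFace d`, restricted to the open set `wcHalf d` (`res` commutes with cones and preserves `Acyc`; `(range face)ᶜ ∩ half = int`).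
* `wt_graph_mem` (abstract): `S ⊇ R' = {(0,(z₁,0),ν)} = Tw(Z₁, N^∨<-k>, k λ₁^∨ ad₁)`, `S/R' = cone(λ₂)`.
* `wc_cube_bd`: datum `wcDat d`;  `N ∈ T`, `N` acyclic on the interior (cone of the identity there), which contains the centre: `N ∈ P_A`.
     `S ∈ P_Up`: take `O = wcHalf d ⊇ (ehCbUp d)ᶜ` (the lower half axis).  On `O`: `cone(ρ̄)` acyclic, `cone(λ₁)` acyclic (filtered: `1`, `μ`; `wc_pd_half`), `cone(ad)` of a boundary is acyclic (`T.Refl`).
     Apply `wt_graph_mem` to the class `P = T.near Oᶜ`... (members of `T` acyclic on `O`).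
* `wc_cube_zero`: `EhCb 0` is a point, `wcInt 0 = univ`, `m = asObjOne`, `b(1,1) = I(1) ≠ 0`.
-/
import Claimed.Agent.R304.WtCubeDefs
import Claimed.Agent.R304.WtCubePD
import Claimed.Agent.R304.WtCof

set_option autoImplicit false

namespace Claimed.Agent.R304

open Topology

/-! ### WtCubeAlg -/

/- The statements `wc_K_nat`, `wc_E_nat`, `wc_C_self`, `wc_gam_supp/_pr/_d/_succ`, `wc_rho_gam`, `wc_rho_d`, `wc_b1_stokes`, `wc_b_stokes`, `wc_b_adj`,
`wc_b_symm`, `wc_b_loc` are PROVED in `WtCubeDefs.lean` (verbatim; they are needed for the obligations of the definitions there). -/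

theorem wc_C_zero (d : ℕ) : wcC d 0 = 1 := by
  simp [wcC]

/-! ### WtCubePD -/

/-- Poincare duality in the interior of the cube (= field `cube_ns` of `FcModel`) -/
theorem wc_pd_int (d : ℕ) : (fcCone (wcCube d).ad).AcycOn (ehCbBd d)ᶜ :=
  wcp_pd_int_cube d

/-- Lefschetz duality at the bottom face -/
theorem wc_pd_half (d : ℕ) : (fcCone (wcMu d)).AcycOn (wcHalf d) :=
  wcp_pd_half_cube d

/-! ### WtCubeBd -/

theorem wcb_half_isOpen (d : ℕ) : IsOpen (wcHalf d) := by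
  have h0 : IsOpen {x : EhCb (d + 1) | (x 0 : ℝ) < 1} :=
    isOpen_lt (continuous_subtype_val.comp (continuous_apply 0)) continuous_const
  have h1 : IsOpen {x : EhCb (d + 1) | ∀ i : Fin d, |(x i.succ : ℝ)| < 1} := by
    rw [Set.ofPred_forall]
    exact isOpen_iInter_of_finite fun i =>
      isOpen_lt (continuous_subtype_val.comp (continuous_apply i.succ)).abs continuous_const
  exact h0.inter h1

theorem wcb_face_closedEmb (d : ℕ) : IsClosedEmbedding (ehCbFace d) := by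
  refine (ehCbFace d).continuous.isClosedEmbedding ?_
  intro x y h
  funext i
  have := congrFun h i.succ
  simpa [ehCbFace] using this

theorem wcb_int_subset_compl_face (d : ℕ) : wcInt (d + 1) ⊆ (Set.range (ehCbFace d))ᶜ := by
  rintro x hx ⟨y, rfl⟩
  exact hx ⟨0, by simp [ehCbFace]⟩

theorem wcb_half_diff_face (d : ℕ) : wcHalf d ∩ (Set.range (ehCbFace d))ᶜ ⊆ wcInt (d + 1) := by
  rintro x ⟨⟨h0, h1⟩, hx⟩ ⟨i, hi⟩
  revert hi
  refine Fin.cases ?_ (fun k => ?_) i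
  · intro hi
    have hx0 : (x 0 : ℝ) = -1 := by
      rcases abs_eq (by norm_num : (0 : ℝ) ≤ 1) |>.1 hi with h | h
      · linarith
      · exact h
    refine hx ⟨fun k => x k.succ, ?_⟩
    funext j
    refine Fin.cases ?_ (fun k => ?_) j
    · apply Subtype.ext
      simp [ehCbFace, hx0]
    · simp [ehCbFace]
  · intro hi
    have := h1 k
    linarith

theorem wcb_face_mem_half (d : ℕ) {y : EhCb d} (h : ehCbFace d y ∈ wcHalf d) : y ∈ wcInt d := by
  rintro ⟨i, hi⟩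
  have h1 : |((ehCbFace d y) i.succ : ℝ)| < 1 := h.2 i
  have h2 : ((ehCbFace d y) i.succ : ℝ) = (y i : ℝ) := by simp [ehCbFace]
  rw [h2] at h1
  linarith

theorem wcb_face_image_int (d : ℕ) : ehCbFace d '' wcInt d ⊆ wcHalf d := by
  rintro _ ⟨y, hy, rfl⟩
  have hy' : ∀ i, |(y i : ℝ)| < 1 := fun i =>
    lt_of_le_of_ne (abs_le.2 ⟨(y i).2.1, (y i).2.2⟩) (fun hi => hy ⟨i, hi⟩)
  refine ⟨?_, fun i => ?_⟩
  · have : ((ehCbFace d y) 0 : ℝ) = -1 := by simp [ehCbFace]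
    rw [this]; norm_num
  · have h2 : ((ehCbFace d y) i.succ : ℝ) = (y i : ℝ) := by simp [ehCbFace]
    rw [h2]
    exact hy' i

theorem wc_rho_acyc (d : ℕ) : (fcCone (wcRhoBar d)).Acyc := by
  intro U hU _
  rintro ⟨⟨a, n⟩, c⟩ hm hd
  have hi := wcb_face_closedEmb d
  have hm' : ((asObj (EhCb (d + 1))).supp a.1 ∪ (asObj (EhCb (d + 1))).supp n.1) ∪
      ehCbFace d '' (asObj (EhCb d)).supp c.1 ⊆ U := hm
  have e1 : -(-((asObj (EhCb (d + 1))).d a.1)) = 0 :=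
    congrArg (fun z : (((asObj (EhCb (d + 1))).res (wcInt (d + 1))).C ×
      ((asObj (EhCb (d + 1))).res (wcHalf d)).C) × ((asObj (EhCb d)).res (wcInt d)).C => z.1.1.1) hd
  have e2 : -(a.1 + (asObj (EhCb (d + 1))).d n.1) = 0 :=
    congrArg (fun z : (((asObj (EhCb (d + 1))).res (wcInt (d + 1))).C ×
      ((asObj (EhCb (d + 1))).res (wcHalf d)).C) × ((asObj (EhCb d)).res (wcInt d)).C => z.1.2.1) hd
  have e3 : wcRho d n.1 + (asObj (EhCb d)).d c.1 = 0 :=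
    congrArg (fun z : (((asObj (EhCb (d + 1))).res (wcInt (d + 1))).C ×
      ((asObj (EhCb (d + 1))).res (wcHalf d)).C) × ((asObj (EhCb d)).res (wcInt d)).C => z.2.1) hd
  obtain ⟨⟨⟨a', b'⟩, c'⟩, hs', hd'⟩ := as_obj_taut_cone (ehCbFace d) hi (U ∩ wcHalf d)
    (hU.inter (wcb_half_isOpen d)) (Set.subset_univ _)
    (((⟨a.1, a.2.trans (wcb_int_subset_compl_face d)⟩, n.1), c.1) :
      (((asObj (EhCb (d + 1))).res (Set.range (ehCbFace d))ᶜ).C × (asObj (EhCb (d + 1))).C) ×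
        (asObj (EhCb d)).C)
    (by
      show ((asObj (EhCb (d + 1))).supp a.1 ∪ (asObj (EhCb (d + 1))).supp n.1) ∪
        ehCbFace d '' (asObj (EhCb d)).supp c.1 ⊆ U ∩ wcHalf d
      refine Set.subset_inter hm' (Set.union_subset (Set.union_subset ?_ n.2) ?_)
      · exact a.2.trans (wc_int_subset_half d)
      · exact (Set.image_mono c.2).trans (wcb_face_image_int d))
    (by
      refine Prod.ext (Prod.ext (Subtype.ext ?_) ?_) ?_
      · exact e1
      · exact e2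
      · exact e3)
  have hs'' : ((asObj (EhCb (d + 1))).supp a'.1 ∪ (asObj (EhCb (d + 1))).supp b') ∪
      ehCbFace d '' (asObj (EhCb d)).supp c' ⊆ U ∩ wcHalf d := hs'
  have f1 : -(-((asObj (EhCb (d + 1))).d a'.1)) = a.1 :=
    congrArg (fun z : (((asObj (EhCb (d + 1))).res (Set.range (ehCbFace d))ᶜ).C ×
      (asObj (EhCb (d + 1))).C) × (asObj (EhCb d)).C => z.1.1.1) hd'
  have f2 : -(a'.1 + (asObj (EhCb (d + 1))).d b') = n.1 :=
    congrArg (fun z : (((asObj (EhCb (d + 1))).res (Set.range (ehCbFace d))ᶜ).C ×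
      (asObj (EhCb (d + 1))).C) × (asObj (EhCb d)).C => z.1.2) hd'
  have f3 : wcRho d b' + (asObj (EhCb d)).d c' = c.1 :=
    congrArg (fun z : (((asObj (EhCb (d + 1))).res (Set.range (ehCbFace d))ᶜ).C ×
      (asObj (EhCb (d + 1))).C) × (asObj (EhCb d)).C => z.2) hd'
  have ha' : (asObj (EhCb (d + 1))).supp a'.1 ⊆ wcInt (d + 1) := fun x hx =>
    wcb_half_diff_face d ⟨(hs'' (Or.inl (Or.inl hx))).2, a'.2 hx⟩
  have hb' : (asObj (EhCb (d + 1))).supp b' ⊆ wcHalf d := fun x hx => (hs'' (Or.inl (Or.inr hx))).2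
  have hc' : (asObj (EhCb d)).supp c' ⊆ wcInt d := fun y hy =>
    wcb_face_mem_half d (hs'' (Or.inr ⟨y, hy, rfl⟩)).2
  refine ⟨(((⟨a'.1, ha'⟩, ⟨b', hb'⟩), ⟨c', hc'⟩) :
    (((asObj (EhCb (d + 1))).res (wcInt (d + 1))).C × ((asObj (EhCb (d + 1))).res (wcHalf d)).C) ×
      ((asObj (EhCb d)).res (wcInt d)).C), ?_, ?_⟩
  · show ((asObj (EhCb (d + 1))).supp a'.1 ∪ (asObj (EhCb (d + 1))).supp b') ∪
      ehCbFace d '' (asObj (EhCb d)).supp c' ⊆ U
    exact hs''.trans Set.inter_subset_left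
  · refine Prod.ext (Prod.ext (Subtype.ext ?_) (Subtype.ext ?_)) (Subtype.ext ?_)
    · exact f1
    · exact f2
    · exact f3

section graph

variable {X : Type} [TopologicalSpace X] [T2Space X] {t : ZMod 4} {z₁ z₂ : WtForm X t}
  (D : WtDat (z₁.sum z₂)) (l₁ : FcHom D.N z₁.M) (l₂ : FcHom D.N z₂.M)

/-- `g = l₁^∨ ad₁ : Z₁ → N^∨<k>` -/
def wcgG : FcHom z₁.M (D.N.dual.resc (wtK t)) := ((fcTr l₁).resc (wtK t)).comp z₁.ad

theorem wcgG_ap (a : z₁.M.C) (n : D.N.C) : fcAp (A := D.N) ((wcgG D l₁).f a) n = z₁.b a (l₁.f n) := rfl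

/-- the extension `cone(g<-1>) → S → cone(l₂)`; the inclusion is `(a, β) ↦ (0, (a, 0), k β)` -/
def wcgExt (hl : ∀ n, D.lam.f n = (l₁.f n, l₂.f n)) :
    FcExt (fcCone ((wcgG D l₁).resc (-1))) D.S.M (fcCone l₂) where
  i := ⟨LinearMap.inr ℝ D.N.C ((z₁.M.C × z₂.M.C) × D.N.dual.C) ∘ₗ
      ((LinearMap.inl ℝ z₁.M.C z₂.M.C).prodMap (wtK t • (LinearMap.id : D.N.dual.C →ₗ[ℝ] D.N.dual.C))),
    fun (m : z₁.M.C × D.N.dual.C) => by
      show D.N.supp 0 ∪ ((z₁.M.supp m.1 ∪ z₂.M.supp 0) ∪ D.N.dual.supp (wtK t • m.2)) ⊆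
        z₁.M.supp m.1 ∪ D.N.dual.supp m.2
      rw [D.N.supp_zero, z₂.M.supp_zero, Set.empty_union, Set.union_empty]
      exact Set.union_subset_union subset_rfl (D.N.dual.supp_smul _ _),
    fun (m : z₁.M.C × D.N.dual.C) => by
      obtain ⟨a, β⟩ := m
      refine Prod.ext ?_ (Prod.ext ?_ ?_)
      · show (0 : D.N.C) = -(D.N.d 0)
        rw [map_zero, neg_zero]
      · refine Prod.ext ?_ ?_
        · show -((-1 : ℝ) • z₁.M.d a) = (D.lam.f 0).1 + z₁.M.d a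
          rw [map_zero, neg_one_smul, neg_neg]
          exact (zero_add _).symm
        · show (0 : z₂.M.C) = (D.lam.f 0).2 + z₂.M.d 0
          rw [map_zero, map_zero]
          exact (zero_add _).symm
      · apply fck_dual_ext (A := D.N)
        intro n'
        show wtK t * (z₁.b a (l₁.f n') + (-1 : ℝ) * (wtK t * fcAp β (D.N.d n'))) =
          D.h 0 n' + wtK t * (z₁.b a (D.lam.f n').1 + z₂.b 0 (D.lam.f n').2) -
            wtK t * (wtK t * fcAp β (D.N.d n'))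
        rw [hl n', map_zero, map_zero]
        simp only [LinearMap.zero_apply]
        ring⟩
  p := ⟨(LinearMap.fst ℝ D.N.C ((z₁.M.C × z₂.M.C) × D.N.dual.C)).prod
      (LinearMap.snd ℝ z₁.M.C z₂.M.C ∘ₗ LinearMap.fst ℝ (z₁.M.C × z₂.M.C) D.N.dual.C ∘ₗ
        LinearMap.snd ℝ D.N.C ((z₁.M.C × z₂.M.C) × D.N.dual.C)),
    fun (m : D.N.C × ((z₁.M.C × z₂.M.C) × D.N.dual.C)) => by
      show D.N.supp m.1 ∪ z₂.M.supp m.2.1.2 ⊆
        D.N.supp m.1 ∪ ((z₁.M.supp m.2.1.1 ∪ z₂.M.supp m.2.1.2) ∪ D.N.dual.supp m.2.2)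
      exact Set.union_subset_union subset_rfl
        (Set.subset_union_right.trans Set.subset_union_left),
    fun (m : D.N.C × ((z₁.M.C × z₂.M.C) × D.N.dual.C)) => by
      show ((-(D.N.d m.1), (D.lam.f m.1).2 + z₂.M.d m.2.1.2) : D.N.C × z₂.M.C) =
        (-(D.N.d m.1), l₂.f m.1 + z₂.M.d m.2.1.2)
      rw [hl m.1]⟩
  r := (LinearMap.fst ℝ z₁.M.C z₂.M.C ∘ₗ LinearMap.fst ℝ (z₁.M.C × z₂.M.C) D.N.dual.C ∘ₗ
        LinearMap.snd ℝ D.N.C ((z₁.M.C × z₂.M.C) × D.N.dual.C)).prod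
      (wtK t • (LinearMap.snd ℝ (z₁.M.C × z₂.M.C) D.N.dual.C ∘ₗ
        LinearMap.snd ℝ D.N.C ((z₁.M.C × z₂.M.C) × D.N.dual.C)))
  s := (LinearMap.fst ℝ D.N.C z₂.M.C).prod
      (LinearMap.inl ℝ (z₁.M.C × z₂.M.C) D.N.dual.C ∘ₗ LinearMap.inr ℝ z₁.M.C z₂.M.C ∘ₗ
        LinearMap.snd ℝ D.N.C z₂.M.C)
  r_loc := fun (m : D.N.C × ((z₁.M.C × z₂.M.C) × D.N.dual.C)) => by
    show z₁.M.supp m.2.1.1 ∪ D.N.dual.supp (wtK t • m.2.2) ⊆
      D.N.supp m.1 ∪ ((z₁.M.supp m.2.1.1 ∪ z₂.M.supp m.2.1.2) ∪ D.N.dual.supp m.2.2)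
    exact (Set.union_subset_union Set.subset_union_left (D.N.dual.supp_smul _ _)).trans
      Set.subset_union_right
  s_loc := fun (m : D.N.C × z₂.M.C) => by
    show D.N.supp m.1 ∪ ((z₁.M.supp 0 ∪ z₂.M.supp m.2) ∪ D.N.dual.supp 0) ⊆
      D.N.supp m.1 ∪ z₂.M.supp m.2
    rw [z₁.M.supp_zero, D.N.dual.supp_zero, Set.empty_union, Set.union_empty]
  ri := fun (m : z₁.M.C × D.N.dual.C) => by
    show ((m.1, wtK t • (wtK t • m.2)) : z₁.M.C × D.N.dual.C) = m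
    rw [smul_smul, wtK_sq, one_smul]
  ps := fun _ => rfl
  sum := fun (m : D.N.C × ((z₁.M.C × z₂.M.C) × D.N.dual.C)) => by
    show ((0 + m.1, (m.2.1.1 + 0, 0 + m.2.1.2), wtK t • (wtK t • m.2.2) + 0) :
      D.N.C × ((z₁.M.C × z₂.M.C) × D.N.dual.C)) = m
    rw [smul_smul, wtK_sq, one_smul, zero_add, zero_add, add_zero, add_zero]

end graph

/-- realises the equation lemmas here (unique names) -/
theorem wcg_eqns_cite : True := by
  have := @wcgG.eq_1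
  have := @wcgExt.eq_1
  trivial

/-- (abstract) a datum on `z₁ ⊥ z₂` whose two legs are `P`-equivalences is a null-cobordism -/
theorem wt_graph_mem {X : Type} [TopologicalSpace X] [T2Space X] {t : ZMod 4} (P : FcCls X)
    {z₁ z₂ : WtForm X t} (D : WtDat (z₁.sum z₂)) (l₁ : FcHom D.N z₁.M) (l₂ : FcHom D.N z₂.M)
    (hl : ∀ n, D.lam.f n = (l₁.f n, l₂.f n)) (h₁ : P.mem (fcCone l₁)) (h₂ : P.mem (fcCone l₂))
    (ha : P.mem (fcCone z₁.ad)) : P.mem D.S.M := by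
  have hg : P.mem (fcCone (wcgG D l₁)) :=
    fcb_comp_mem P z₁.ad ((fcTr l₁).resc (wtK t)) ha
      ((fcb_cone_resc_iff P _ (wtK_ne_zero t)).2 (fck_eqv_tr P l₁ h₁))
  exact fcb_ext_mem P (wcgExt D l₁ l₂ hl) h₂ ((fcb_cone_resc_iff P _ (by norm_num)).2 hg)

/-- the lower half axis lies in `wcHalf` -/
theorem wc_up_compl (d : ℕ) : ((ehCbUp d : TopologicalSpace.Opens (EhCb (d + 1))) : Set (EhCb (d + 1)))ᶜ ⊆ wcHalf d := by
  intro x hx
  have h1 : ¬ (0 : ℝ) < (x 0 : ℝ) := fun h => hx (Or.inr h)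
  have h2 : ∀ i : Fin d, (x i.succ : ℝ) = 0 := by
    intro i
    by_contra hne
    exact hx (Or.inl fun h0 => hne (congrFun h0 i))
  refine ⟨by linarith [not_lt.1 h1], fun i => ?_⟩
  rw [h2 i]
  simp

theorem wc_half_isOpen (d : ℕ) : IsOpen (wcHalf d) := wcb_half_isOpen d

theorem wcb_int_isOpen (d : ℕ) : IsOpen (wcInt d) := by
  have h : IsClosed (ehCbBd d) := by
    have e : ehCbBd d = ⋃ i : Fin d, {x : EhCb d | |(x i : ℝ)| = 1} := by
      ext x
      simp [ehCbBd]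
    rw [e]
    exact isClosed_iUnion_of_finite fun i =>
      isClosed_eq (continuous_subtype_val.comp (continuous_apply i)).abs continuous_const
  exact h.isOpen_compl

theorem wcb_centre_mem_int (d : ℕ) : ((ehCbA d : TopologicalSpace.Opens (EhCb d)) : Set (EhCb d))ᶜ ⊆ wcInt d := by
  intro x hx
  have hx0 : ehCbIncl d x = 0 := by
    by_contra h
    exact hx h
  rintro ⟨i, hi⟩
  have h1 : (x i : ℝ) = 0 := congrFun hx0 i
  rw [h1] at hi
  simp at hi

/-- `N = cone(A(int) → A(half))` is the cone of an identity over the interior -/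
theorem wcb_N_acycOn (d : ℕ) : (wcN d).AcycOn (wcInt (d + 1)) := by
  intro U _ hUO
  rintro ⟨a, n⟩ hm hd
  have hm' : (asObj (EhCb (d + 1))).supp a.1 ∪ (asObj (EhCb (d + 1))).supp n.1 ⊆ U := hm
  have e2 : a.1 + (asObj (EhCb (d + 1))).d n.1 = 0 :=
    congrArg (fun z : ((asObj (EhCb (d + 1))).res (wcInt (d + 1))).C ×
      ((asObj (EhCb (d + 1))).res (wcHalf d)).C => z.2.1) hd
  refine ⟨((⟨n.1, (Set.subset_union_right.trans hm').trans hUO⟩, 0) :
    ((asObj (EhCb (d + 1))).res (wcInt (d + 1))).C × ((asObj (EhCb (d + 1))).res (wcHalf d)).C), ?_, ?_⟩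
  · show (asObj (EhCb (d + 1))).supp n.1 ∪ (asObj (EhCb (d + 1))).supp 0 ⊆ U
    rw [(asObj (EhCb (d + 1))).supp_zero, Set.union_empty]
    exact Set.subset_union_right.trans hm'
  · refine Prod.ext (Subtype.ext ?_) (Subtype.ext ?_)
    · show -((asObj (EhCb (d + 1))).d n.1) = a.1
      exact (eq_neg_of_add_eq_zero_left e2).symm
    · show n.1 + (asObj (EhCb (d + 1))).d 0 = n.1
      rw [map_zero, add_zero]

/-- `λ₁` is the map of cones induced by `(1, μ)` -/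
theorem wcb_lam1_mem (d : ℕ) (P : FcCls (EhCb (d + 1))) (hmu : P.mem (fcCone (wcMu d))) :
    P.mem (fcCone (wcLam1 d)) := by
  have h := fcb_coneMap_mem P (f := (wcCube (d + 1)).ad)
    (f' := fcResMono (asObj (EhCb (d + 1))) (wc_int_subset_half d))
    (fcId ((asObj (EhCb (d + 1))).res (wcInt (d + 1)))) (wcMu d)
    (fcbHtpyOfEq fun _ => rfl) (fcb_cone_id_mem P _) hmu
  have e : wcLam1 d = fcbConeMap (f := (wcCube (d + 1)).ad)
      (f' := fcResMono (asObj (EhCb (d + 1))) (wc_int_subset_half d))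
      (fcId ((asObj (EhCb (d + 1))).res (wcInt (d + 1)))) (wcMu d) (fcbHtpyOfEq fun _ => rfl) := by
    apply FcHom.ext'
    rintro ⟨a, n⟩
    refine Prod.ext rfl ?_
    show (wcMu d).f n = (wcMu d).f n + 0
    rw [add_zero]
  rw [e]
  exact h

/-- **(C1)** for every reflexive class containing the three objects involved -/
theorem wc_cube_bd (d : ℕ) (ht : ((d : ℕ) : ZMod 4) + 1 = ((d + 1 : ℕ) : ZMod 4))
    (T : FcCls (EhCb (d + 1))) (hT : T.Refl)
    (h1 : T.mem ((asObj (EhCb (d + 1))).res (wcInt (d + 1))))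
    (h2 : T.mem ((asObj (EhCb (d + 1))).res (wcHalf d)))
    (h3 : T.mem (((asObj (EhCb d)).res (wcInt d)).push (ehCbFace d))) :
    WtRel (T.near (ehCbA (d + 1) : Set (EhCb (d + 1)))) (T.near (ehCbUp d : Set (EhCb (d + 1))))
      ((wcCube (d + 1)).bd (d : ZMod 4) ht) ((wcCube d).push (ehCbFace d)).neg := by
  have hN : T.mem (wcN d) := T.cone _ h1 h2
  have hNnear : (T.near (ehCbA (d + 1) : Set (EhCb (d + 1)))).mem (wcN d) :=
    ⟨hN, wcInt (d + 1), wcb_int_isOpen (d + 1), wcb_centre_mem_int (d + 1), wcb_N_acycOn d⟩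
  have hMd : T.mem (((asObj (EhCb (d + 1))).res (wcInt (d + 1))).dual.resc
      (wtK ((d + 1 : ℕ) : ZMod 4))) := T.resc _ (wtK_ne_zero _) (T.dual h1)
  have hmu : (T.near (ehCbUp d : Set (EhCb (d + 1)))).mem (fcCone (wcMu d)) :=
    ⟨T.cone _ h2 hMd, wcHalf d, wc_half_isOpen d, wc_up_compl d, wc_pd_half d⟩
  have hl1 := wcb_lam1_mem d _ hmu
  have hl2 : (T.near (ehCbUp d : Set (EhCb (d + 1)))).mem (fcCone (wcRhoBar d)) :=
    FcCls.acyc _ (wc_rho_acyc d)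
  have ha : (T.near (ehCbUp d : Set (EhCb (d + 1)))).mem
      (fcCone ((wcCube (d + 1)).bd (d : ZMod 4) ht).ad) :=
    wtb_bd_ad_mem _ (wcCube (d + 1)) (hT _ h1) _ ht
  have hS : (T.near (ehCbUp d : Set (EhCb (d + 1)))).mem (wcDat d ht).S.M :=
    wt_graph_mem _ (wcDat d ht) (wcLam1 d) (wcRhoBar d) (fun _ => rfl) hl1 hl2 ha
  exact wt_nc_iso _ _ (WtIso.sumMap (WtIso.refl _) (wtIsoNegNeg _).symm) ⟨wcDat d ht, hNnear, hS⟩

/-- the field `cube_zero` of `FcModel` -/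
theorem wc_cube_zero : ∃ m : (wcCube 0).M.C, (wcCube 0).M.d m = 0 ∧ (wcCube 0).b m m ≠ 0 ∧
    ∀ m' : (wcCube 0).M.C, (wcCube 0).M.d m' = 0 →
      ∃ (c : ℝ) (m'' : (wcCube 0).M.C), m' = c • m + (wcCube 0).M.d m'' := by
  have huniv : wcInt 0 = Set.univ := by
    ext x
    simp [wcInt, ehCbBd]
  have hgen : AsGenAt (asObj (EhCb 0)) (wcInt 0) (asObjOne (EhCb 0)) := by
    rw [huniv]
    exact as_obj_contr (⟨fun p => p.1, continuous_fst⟩ : C(EhCb 0 × unitInterval, EhCb 0)) default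
      (fun _ => rfl) (fun _ => Subsingleton.elim _ _)
  have hI : (wcI 0).I (asObjOne (EhCb 0)) ≠ 0 := (wcI 0).gen _ hgen
  obtain ⟨h1, h2, _, h4⟩ := hgen
  have hgam : wcGam (EhCb 0) 0 (asObjOne (EhCb 0)) = asObjOne (EhCb 0) := by
    rw [wc_gam_pr (EhCb 0) 0 0 (asObjOne (EhCb 0)) (as_obj_pr_el_same 0 _ _), wc_C_zero, one_smul]
  have hb1 : wcB1 0 (wcI 0).I (asObjOne (EhCb 0)) (asObjOne (EhCb 0)) =
      (wcI 0).I (asObjOne (EhCb 0)) := by
    show (wcI 0).I (asObjCup (EhCb 0) (wcGam (EhCb 0) 0 (asObjOne (EhCb 0))) (asObjOne (EhCb 0))) = _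
    rw [hgam, as_objCup_one_right]
  refine ⟨⟨asObjOne (EhCb 0), h1⟩, Subtype.ext h2, ?_, ?_⟩
  · show (1 / 2 : ℝ) * (wcB1 0 (wcI 0).I (asObjOne (EhCb 0)) (asObjOne (EhCb 0)) +
      wtE ((0 : ℕ) : ZMod 4) * wcB1 0 (wcI 0).I (asObjOne (EhCb 0)) (asObjOne (EhCb 0))) ≠ 0
    rw [hb1, Nat.cast_zero, wtE_zero]
    intro h
    apply hI
    linarith
  · intro m' hm'
    obtain ⟨c, m'', hm'', e⟩ := h4 m'.1 m'.2 (congrArg Subtype.val hm')
    exact ⟨c, ⟨m'', hm''⟩, Subtype.ext e⟩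

end Claimed.Agent.R304
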