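/-
Row 304 (S0559, Hilbert-Smith).  Owner: helper248.  PACKAGE WtPush: PUSH FORWARD OF FORMS AND DATA.
CbNotes.lean, block 8.   `g : C(X,Y)` ANY continuous map.  `g_!(M,b) = (g_! M, b)`.
The only point: `(g_! M)^∨ ≠ g_!(M^∨)` if `g` is not proper; `fcPushDual g M : g_!(M^∨) → (g_! M)^∨` is an inclusion whose cone is locally
acyclic for the members of `T` (hypothesis `WtPushOK.dualT`; proved in layer S from "acyclic off a compact set").

* `wtpAd g x`   :  `(1, fcPushDual) : g_!(cone ad_x) → cone(ad_{g_! x})` is a filtered chain map with graded pieces `1`, `fcPushDual`  (`wtp_ad_acyc`).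
* `WtDat.push`, `wtpS g D` :  push the datum: `(g_! N, lam, h)`;  `(1,1,fcPushDual) : g_!(S) → S(g_! N, lam, h)`  (`wtp_S_acyc`).
* `wt_push_bd`:  `(1, fcPushDual) : g_!(bd x) → bd (g_! x)` is ISOMETRIC with locally acyclic cone.
* `wt_push_sum/neg/id/comp`: the underlying vector spaces and forms are EQUAL, the supports agree by `Set.image_union`, `Set.image_id`, `Set.image_image`.
-/
import Claimed.Agent.R304.WtGrpDefs
import Claimed.Agent.R304.FcFunDefs

set_option autoImplicit false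
set_option linter.unusedSectionVars false

namespace Claimed.Agent.R304

open Topology

variable {X Y Z : Type} [TopologicalSpace X] [T2Space X] [TopologicalSpace Y] [T2Space Y]
  [TopologicalSpace Z] [T2Space Z] {t : ZMod 4}

/-- `g_!` is compatible with the classes `(T;P)` and `(T';P')` -/
structure WtPushOK (g : C(X, Y)) (T P : FcCls X) (T' P' : FcCls Y) : Prop where
  mapT : ∀ A, T.mem A → T'.mem (A.push g)
  mapP : ∀ A, P.mem A → P'.mem (A.push g)
  dualT : ∀ A, T.mem A → (fcCone (fcPushDual g A)).Acyc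

/-- `fcPushDual` with rescaled differentials -/
def wtpPD (g : C(X, Y)) (A : FcD X) (c : ℝ) : FcHom ((A.dual.resc c).push g) ((A.push g).dual.resc c) where
  f := (fcPushDual g A).f
  loc := (fcPushDual g A).loc
  comm := fun _ => rfl

theorem wtp_PD_acyc (g : C(X, Y)) (A : FcD X) {c : ℝ} (hc : c ≠ 0)
    (hd : (fcCone (fcPushDual g A)).Acyc) : (fcCone (wtpPD g A c)).Acyc :=
  (fcb_cone_resc_iff (fcAcycCls Y) (fcPushDual g A) hc).2 hd


/-- `(1, fcPushDual) : g_!(cone ad_x) → cone(ad_{g_! x})` -/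
def wtpAd (g : C(X, Y)) (x : WtForm X t) : FcHom ((fcCone x.ad).push g) (fcCone (x.push g).ad) where
  f := (LinearMap.id : x.M.C →ₗ[ℝ] x.M.C).prodMap (fcPushDual g x.M).f
  loc := fun (m : x.M.C × x.M.dual.C) => by
    show g '' x.M.supp m.1 ∪ (x.M.push g).dual.supp ((fcPushDual g x.M).f m.2) ⊆
      g '' (x.M.supp m.1 ∪ x.M.dual.supp m.2)
    rw [Set.image_union]
    exact Set.union_subset_union subset_rfl ((fcPushDual g x.M).loc m.2)
  comm := fun _ => rfl

theorem wtp_ad_acyc (g : C(X, Y)) (x : WtForm X t) (hd : (fcCone (fcPushDual g x.M)).Acyc) :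
    (fcCone (wtpAd g x)).Acyc :=
  fck_mem_cone_filt (fcAcycCls Y) ((fcbExtCone x.ad).push g) (fcbExtCone (x.push g).ad) (wtpAd g x)
    (wtpPD g x.M (wtK t)) (fcfPushResc g x.M (-1)).toHom (fun _ => rfl) (fun _ => rfl)
    (wtp_PD_acyc g x.M (wtK_ne_zero t) hd) (fcb_iso_cone_mem (fcAcycCls Y) _)

theorem wt_push_in (g : C(X, Y)) {T P : FcCls X} {T' P' : FcCls Y} (ok : WtPushOK g T P T' P')
    {x : WtForm X t} (hx : x.In T P) : (x.push g).In T' P' :=
  ⟨ok.mapT _ hx.1, P'.cone_tgt (wtpAd g x) (ok.mapP _ hx.2) (P'.acyc (wtp_ad_acyc g x (ok.dualT _ hx.1)))⟩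

/-- push forward of a datum -/
def WtDat.push (g : C(X, Y)) {x : WtForm X t} (D : WtDat x) : WtDat (x.push g) where
  N := D.N.push g
  lam := D.lam.push g
  h := D.h
  h_loc := fun m n h => D.h_loc m n (by
    rw [Set.disjoint_left] at h ⊢
    exact fun a ha hb => h (Set.mem_image_of_mem g ha) (Set.mem_image_of_mem g hb))
  h_symm := D.h_symm
  h_eq := D.h_eq

/-- `(1, 1, fcPushDual) : g_!(S) → S(g_! N, lam, h)` -/
def wtpS (g : C(X, Y)) {x : WtForm X t} (D : WtDat x) : FcHom (D.S.M.push g) (D.push g).S.M where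
  f := (LinearMap.id : D.N.C →ₗ[ℝ] D.N.C).prodMap
    ((LinearMap.id : x.M.C →ₗ[ℝ] x.M.C).prodMap (fcPushDual g D.N).f)
  loc := fun (m : D.N.C × (x.M.C × D.N.dual.C)) => by
    show g '' D.N.supp m.1 ∪ (g '' x.M.supp m.2.1 ∪ (D.N.push g).dual.supp ((fcPushDual g D.N).f m.2.2)) ⊆
      g '' (D.N.supp m.1 ∪ (x.M.supp m.2.1 ∪ D.N.dual.supp m.2.2))
    rw [Set.image_union, Set.image_union]
    exact Set.union_subset_union subset_rfl
      (Set.union_subset_union subset_rfl ((fcPushDual g D.N).loc m.2.2))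
  comm := fun _ => rfl

theorem wtp_S_acyc (g : C(X, Y)) {x : WtForm X t} (D : WtDat x)
    (hd : (fcCone (fcPushDual g D.N)).Acyc) : (fcCone (wtpS g D)).Acyc :=
  fck_mem_cone_filt (fcAcycCls Y) ((wtsExtB D).push g) (wtsExtB (D.push g)) (wtpS g D)
    (wtpPD g D.N (-(wtK t))) (fcfPushCone g D.lam).toHom (fun _ => rfl) (fun _ => rfl)
    (wtp_PD_acyc g D.N (neg_ne_zero.2 (wtK_ne_zero t)) hd) (fcb_iso_cone_mem (fcAcycCls Y) _)

theorem wt_push_nc (g : C(X, Y)) {T P : FcCls X} {T' P' : FcCls Y} (ok : WtPushOK g T P T' P')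
    {x : WtForm X t} (hx : WtNC T P x) : WtNC T' P' (x.push g) := by
  obtain ⟨D, hN, hS⟩ := hx
  exact ⟨D.push g, ok.mapT _ hN,
    P'.cone_tgt (wtpS g D) (ok.mapP _ hS) (P'.acyc (wtp_S_acyc g D (ok.dualT _ hN)))⟩

theorem wt_push_sum (g : C(X, Y)) (x y : WtForm X t) :
    Nonempty (WtIso ((x.sum y).push g) ((x.push g).sum (y.push g))) :=
  ⟨⟨fcfPushProd g x.M y.M, fun _ _ => rfl⟩⟩

theorem wt_push_neg (g : C(X, Y)) (x : WtForm X t) : (x.neg).push g = (x.push g).neg := rfl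

theorem wt_push_zero (g : C(X, Y)) :
    Nonempty (WtIso ((wtFormZero X t).push g) (wtFormZero Y t)) :=
  ⟨⟨⟨LinearEquiv.refl ℝ PUnit, fun _ => (Set.image_empty g).symm, fun _ => rfl⟩, fun _ _ => rfl⟩⟩

theorem wt_push_rel (g : C(X, Y)) {T P : FcCls X} {T' P' : FcCls Y} (ok : WtPushOK g T P T' P')
    {x y : WtForm X t} (h : WtRel T P x y) : WtRel T' P' (x.push g) (y.push g) := by
  obtain ⟨e⟩ := wt_push_sum g x y.neg
  exact wt_nc_iso T' P' e (wt_push_nc g ok h)

theorem wt_push_id (x : WtForm X t) : Nonempty (WtIso (x.push (ContinuousMap.id X)) x) :=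
  ⟨⟨⟨LinearEquiv.refl ℝ x.M.C, fun m => (Set.image_id (x.M.supp m)).symm, fun _ => rfl⟩, fun _ _ => rfl⟩⟩

theorem wt_push_comp (g : C(X, Y)) (g' : C(Y, Z)) (x : WtForm X t) :
    Nonempty (WtIso ((x.push g).push g') (x.push (g'.comp g))) :=
  ⟨⟨fcfPushPush g g' x.M, fun _ _ => rfl⟩⟩

/-- `g_!(bd x) → bd (g_! x)` -/
theorem wt_push_bd (g : C(X, Y)) (x : WtForm X t) (t' : ZMod 4) (ht : t' + 1 = t)
    (hd : (fcCone (fcPushDual g x.M)).Acyc) :
    ∃ f : WtIsom ((x.bd t' ht).push g) ((x.push g).bd t' ht), (fcCone f.f).Acyc :=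
  ⟨⟨wtpAd g x, fun _ _ => rfl⟩, wtp_ad_acyc g x hd⟩

/-- realises the equation lemmas here (unique names) -/
theorem wt_push_eqns_cite : True := by
  have := @wtpPD.eq_1
  have := @wtpAd.eq_1
  have := @WtDat.push.eq_1
  have := @wtpS.eq_1
  trivial

end Claimed.Agent.R304
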