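/-
Row 304 (S0559, Hilbert-Smith).  Owner: helper248.  DEFINITION of the push forward on cobordism groups + its formal properties
(functoriality, compatibility with inclusions of classes and with the boundary).  Short proofs from `WtPush`, `WtCalc`.
-/
import Claimed.Agent.R304.WtPush

set_option autoImplicit false

namespace Claimed.Agent.R304

open Topology

variable {X Y Z : Type} [TopologicalSpace X] [T2Space X] [TopologicalSpace Y] [T2Space Y]
  [TopologicalSpace Z] [T2Space Z]

/-- push forward `h^t(T;P) → h^t(T';P')` -/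
def wtPush (g : C(X, Y)) {T P : FcCls X} {T' P' : FcCls Y} (ok : WtPushOK g T P T' P') (t : ZMod 4) :
    WtH T P t →+ WtH T' P' t where
  toFun := Quotient.map (sa := wtSetoid T P t) (sb := wtSetoid T' P' t)
    (fun x => ⟨x.1.push g, wt_push_in g ok x.2⟩) (fun _ _ h => wt_push_rel g ok h)
  map_zero' := by
    obtain ⟨e⟩ := wt_push_zero (t := t) g
    exact Quotient.sound (s := wtSetoid T' P' t)
      (wt_rel_of_iso T' P' e (wt_push_in g ok (wt_in_zero T P)))
  map_add' := by
    rintro ⟨a⟩ ⟨b⟩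
    obtain ⟨e⟩ := wt_push_sum g a.1 b.1
    exact Quotient.sound (s := wtSetoid T' P' t)
      (wt_rel_of_iso T' P' e (wt_push_in g ok (wt_in_sum T P a.2 b.2)))

theorem wtPush_mk (g : C(X, Y)) {T P : FcCls X} {T' P' : FcCls Y} (ok : WtPushOK g T P T' P') {t : ZMod 4}
    (x : WtForm X t) (hx : x.In T P) :
    wtPush g ok t (wtMk T P x hx) = wtMk T' P' (x.push g) (wt_push_in g ok hx) := rfl

theorem wtPush_id {T P T' P' : FcCls X} (ok : WtPushOK (ContinuousMap.id X) T P T' P') (hT : T.le T')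
    (hP : P.le P') (t : ZMod 4) (a : WtH T P t) :
    wtPush (ContinuousMap.id X) ok t a = wtInc hT hP t a := by
  obtain ⟨x⟩ := a
  obtain ⟨e⟩ := wt_push_id x.1
  exact Quotient.sound (s := wtSetoid T' P' t) (wt_rel_of_iso T' P' e (wt_push_in _ ok x.2))

theorem wtPush_comp (g : C(X, Y)) (g' : C(Y, Z)) {T P : FcCls X} {T' P' : FcCls Y} {T'' P'' : FcCls Z}
    (ok : WtPushOK g T P T' P') (ok' : WtPushOK g' T' P' T'' P'') (ok'' : WtPushOK (g'.comp g) T P T'' P'')
    (t : ZMod 4) (a : WtH T P t) :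
    wtPush g' ok' t (wtPush g ok t a) = wtPush (g'.comp g) ok'' t a := by
  obtain ⟨x⟩ := a
  obtain ⟨e⟩ := wt_push_comp g g' x.1
  exact Quotient.sound (s := wtSetoid T'' P'' t)
    (wt_rel_of_iso T'' P'' e (wt_push_in _ ok' (wt_push_in _ ok x.2)))

theorem wtPush_bd (g : C(X, Y)) {T P N0 : FcCls X} {T' P' N0' : FcCls Y} (ok : WtPushOK g T P T' P')
    (ok' : WtPushOK g P N0 P' N0') (hT : T.Refl) (hT' : T'.Refl) (t t' : ZMod 4) (ht : t' + 1 = t)
    (a : WtH T P t) :
    wtPush g ok' t' (wtBd T P N0 hT t t' ht a) = wtBd T' P' N0' hT' t t' ht (wtPush g ok t a) := by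
  obtain ⟨x⟩ := a
  obtain ⟨f, hf⟩ := wt_push_bd g x.1 t' ht (ok.dualT _ x.2.1)
  exact Quotient.sound (s := wtSetoid P' N0' t')
    (wt_rel_of_isom P' N0' f (N0'.acyc hf) (wt_push_in g ok' (wt_bd_in T P N0 hT x.2 t' ht))
      (wt_bd_in T' P' N0' hT' (wt_push_in g ok x.2) t' ht))

/-- realises the equation lemmas here (unique names) -/
theorem wt_push_defs_eqns_cite : True := by
  have := @wtPush.eq_1
  trivial

end Claimed.Agent.R304
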