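/-
Row 304 (S0559, Hilbert-Smith).  Owner: helper248.  DEFINITIONS for the instantiation `FcModel → EhTheory`:
`wtiP 𝔐 X V = P_V`,  `wtiQ 𝔐 r X V U = h^{r mod 4}(P_V; P_U)`.
-/
import Claimed.Agent.R304.IfaceDefs
import Claimed.Agent.R304.WtPushDefs
import Claimed.Agent.R304.WtCof

set_option autoImplicit false

namespace Claimed.Agent.R304

open Topology TopologicalSpace

attribute [local instance] EhSp.t2 EhSp.lc

/-- `P_V`: the members of `T(X)` which are locally acyclic near `X ∖ V` -/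
def wtiP (𝔐 : FcModel) (X : Type) [TopologicalSpace X] [EhSp X] (V : Opens X) : FcCls X :=
  (𝔐.T X).near (V : Set X)

/-- the groups of the theory -/
def wtiQ (𝔐 : FcModel) (r : ℤ) (X : Type) [TopologicalSpace X] [EhSp X] (V U : Opens X) : Type 1 :=
  WtH (wtiP 𝔐 X V) (wtiP 𝔐 X U) (r : ZMod 4)

/-- the group structure -/
instance wtiQGrp (𝔐 : FcModel) (r : ℤ) (X : Type) [TopologicalSpace X] [EhSp X] (V U : Opens X) :
    AddCommGroup (wtiQ 𝔐 r X V U) :=
  wtHGrp (wtiP 𝔐 X V) (wtiP 𝔐 X U) (r : ZMod 4)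

/-- change of the type along an equality -/
def WtForm.cast {X : Type} [TopologicalSpace X] {t t' : ZMod 4} (h : t = t') (x : WtForm X t) : WtForm X t' :=
  h ▸ x

theorem wti_cast_succ {r s : ℤ} (h : s + 1 = r) : (s : ZMod 4) + 1 = (r : ZMod 4) := by
  subst h; push_cast; ring

theorem wti_refl (𝔐 : FcModel) (X : Type) [TopologicalSpace X] [EhSp X] (V : Opens X) :
    (wtiP 𝔐 X V).Refl := fun A hA => 𝔐.refl X A hA.1

theorem wti_le (𝔐 : FcModel) (X : Type) [TopologicalSpace X] [EhSp X] {U V : Opens X} (h : U ≤ V) :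
    (wtiP 𝔐 X U).le (wtiP 𝔐 X V) := by
  rintro A ⟨hA, O, hO, hUO, hAO⟩
  exact ⟨hA, O, hO, (Set.compl_subset_compl.2 h).trans hUO, hAO⟩

/-- realises the equation lemmas here (unique names) -/
theorem wt_inst_defs_eqns_cite : True := by
  have := @wtiP.eq_1
  have := @wtiQ.eq_1
  have := @WtForm.cast.eq_1
  trivial

end Claimed.Agent.R304
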