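/-
Row 304 (S0559, Hilbert-Smith).  Owner: helper248.  PACKAGE WtInst: `FcModel → EhTheory`.
Every field of helper13's `EhTheory` for `Q r X V U := h^{r mod 4}(P_V; P_U)`, `P_V = (T X).near V`.

PLANS.
* `fc_acycOn_union`   (general FC, from FcLG): `AcycOn O₁`, `AcycOn O₂`, both open ⟹ `AcycOn (O₁ ∪ O₂)` (Mayer-Vietoris).
* `fc_push_acycOn`    : `(g_! A).AcycAt U' ↔ A.AcycAt (g ⁻¹' U')` because `g '' supp m ⊆ U' ↔ supp m ⊆ g ⁻¹' U'`.
* `wti_pushOK`        : `A ∈ P_V`: `A.AcycOn O`, `O ⊇ Vᶜ` open, `A.AcycOn Kᶜ`, `K` compact (`𝔐.cpt`); so `A.AcycOn (O ∪ Kᶜ)`; `C = K ∖ O ⊆ V` compact,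
                        `O' = (f '' C)ᶜ ⊇ V'ᶜ` open, `f ⁻¹' O' ⊆ O ∪ Kᶜ`.  `dualT` = `𝔐.pushDual`, membership = `𝔐.push`.
* `wti_push_id/comp`, `wti_bd_push`: `wtPush_id`, `wtPush_comp`, `wtPush_bd`.
* `wti_exact_*`       : `WtLes` for `T = P_V`, `P = P_U`, `N0 = P_⊥`, and `push id = wtInc` (`wtPush_id`).
* `wti_htpy`          : `x = (M,b) ∈ Forms(P_V;P_U)`.  `𝔐.cyl` gives a datum `D` on `i_{1!}x ⊥ -i_{0!}x` over `I × X`;  `M.AcycOn O`, `O ⊇ Vᶜ` ⟹ `D.N.AcycOn (univ ×ˢ O)`,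
                        and `univ ×ˢ O ⊇ (univ ×ˢ V)ᶜ`; the same for `S` and `U`.  So `i_{1!}x ~ i_{0!}x` in `h(P_{I×V};P_{I×U})`; push forward with `H`
                        (`wti_pushOK` for `H`, `I × V → V'`), `H ∘ i_s = H.curry s`, `wtPush_comp`.
* `wti_dd_exists`     : `𝔐.exc` + `wt_exc_coker` + `wt_exc_ker` + `wt_dd_exists`; (Int) `C ∈ P_V`, `C ∈ P_U ⟹ C ∈ P_{U ∩ V}` by `fc_acycOn_union`.
* `wti_emb_bij`       : `j` an embedding onto an open set, `U ≤ V ⊆ range j`.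
     ONTO: `x = (M,b) ∈ Forms(P_V;P_U)`; `𝔐.emb` gives `M'` over `Y`, `f : j_! M' → M` with acyclic cone.  `y := (M', f^* b)` is LOCAL over `Y` because `j` is injective;
       `j_! y = x.pull f ~ x` (G1c).  `y ∈ Forms(P_{j⁻¹V}; P_{j⁻¹U})`: for `B` over `Y` and `O` open in `X`: `(j_! B).AcycOn O ⟹ B.AcycOn (j ⁻¹' O)` (`j '' U'` is open);
       apply it to `B = M'` and to `B = cone(ad_y)` (`j_! cone(ad_y) → cone(ad_{j_! y})` has acyclic cone, `wt_push_in`).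
     INJECTIVE: a datum `(N,lam,h)` over `X` for `j_! y`; `𝔐.emb` for `N`: `f : j_! N' → N`; `D.pull f` is `j_!` of a datum over `Y` (locality over `Y` by injectivity of `j`).
* `wti_sig_exists`    : package WtSign (helper181's `Sg*`): CbNotes 11.
STATUS: no gap in this file (helper248, 08:00); it rests on WtLes, WtCof (abstract algebra) and on the term of `FcModel`.
-/
import Claimed.Agent.R304.WtInstDefs
import Claimed.Agent.R304.SgWt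
import Claimed.Agent.R304.FcFin

set_option autoImplicit false

namespace Claimed.Agent.R304

open Topology TopologicalSpace

attribute [local instance] EhSp.t2 EhSp.lc

theorem fc_acycOn_union {X : Type} [TopologicalSpace X] [T2Space X] (A : FcD X) {O₁ O₂ : Set X}
    (h₁ : IsOpen O₁) (h₂ : IsOpen O₂) (a₁ : A.AcycOn O₁) (a₂ : A.AcycOn O₂) : A.AcycOn (O₁ ∪ O₂) :=
  fcg_acycOn_union A h₁ h₂ a₁ a₂

theorem fc_push_acycAt {X Y : Type} [TopologicalSpace X] [TopologicalSpace Y] [T2Space Y] (g : C(X, Y))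
    (A : FcD X) (U' : Set Y) : (A.push g).AcycAt U' ↔ A.AcycAt (g ⁻¹' U') :=
  fcf_push_acycAt g A U'

/-- push forward of `P_V` (sets) -/
theorem wti_push_near (𝔐 : FcModel) {X Y : Type} [TopologicalSpace X] [T2Space X] [LocallyCompactSpace X]
    [TopologicalSpace Y] [T2Space Y] [LocallyCompactSpace Y] (f : C(X, Y)) {V : Set X} {V' : Set Y}
    (hV : Set.MapsTo f V V') (A : FcD X) (hA : ((𝔐.T X).near V).mem A) :
    ((𝔐.T Y).near V').mem (A.push f) := by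
  obtain ⟨hT, O, hO, hVO, hAO⟩ := hA
  obtain ⟨K, hK, hAK⟩ := 𝔐.cpt X A hT
  have hU := fc_acycOn_union A hO hK.isClosed.isOpen_compl hAO hAK
  have hC : IsCompact (K \ O) := hK.diff hO
  refine ⟨𝔐.push f A hT, (f '' (K \ O))ᶜ, (hC.image f.continuous).isClosed.isOpen_compl, ?_, ?_⟩
  · rintro y hy ⟨x, ⟨_, hxO⟩, rfl⟩
    exact hy (hV (by_contra fun hxV => hxO (hVO hxV)))
  · intro U' hU' hU'O
    rw [fc_push_acycAt]
    refine hU _ (hU'.preimage f.continuous) ?_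
    intro x hx
    by_cases hxO : x ∈ O
    · exact Or.inl hxO
    · exact Or.inr fun hxK => hU'O hx ⟨x, ⟨hxK, hxO⟩, rfl⟩

theorem wti_pushOK (𝔐 : FcModel) {X Y : Type} [TopologicalSpace X] [EhSp X] [TopologicalSpace Y] [EhSp Y]
    (f : C(X, Y)) {V U : Opens X} {V' U' : Opens Y} (hV : Set.MapsTo f (V : Set X) (V' : Set Y))
    (hU : Set.MapsTo f (U : Set X) (U' : Set Y)) :
    WtPushOK f (wtiP 𝔐 X V) (wtiP 𝔐 X U) (wtiP 𝔐 Y V') (wtiP 𝔐 Y U') :=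
  ⟨fun A hA => wti_push_near 𝔐 f hV A hA, fun A hA => wti_push_near 𝔐 f hU A hA,
    fun A hA => 𝔐.pushDual f A hA.1⟩

/-- push forward -/
def wtiPush (𝔐 : FcModel) (r : ℤ) {X Y : Type} [TopologicalSpace X] [EhSp X] [TopologicalSpace Y] [EhSp Y]
    (f : C(X, Y)) {V U : Opens X} {V' U' : Opens Y} (hV : Set.MapsTo f (V : Set X) (V' : Set Y))
    (hU : Set.MapsTo f (U : Set X) (U' : Set Y)) : wtiQ 𝔐 r X V U →+ wtiQ 𝔐 r Y V' U' :=
  wtPush f (wti_pushOK 𝔐 f hV hU) (r : ZMod 4)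

/-- the boundary -/
def wtiBd (𝔐 : FcModel) (r s : ℤ) (h : s + 1 = r) {X : Type} [TopologicalSpace X] [EhSp X] (V U : Opens X) :
    wtiQ 𝔐 r X V U →+ wtiQ 𝔐 s X U ⊥ :=
  wtBd (wtiP 𝔐 X V) (wtiP 𝔐 X U) (wtiP 𝔐 X ⊥) (wti_refl 𝔐 X V) (r : ZMod 4) (s : ZMod 4) (wti_cast_succ h)

theorem wtInc_self {X : Type} [TopologicalSpace X] [T2Space X] {T P : FcCls X} (hT : T.le T) (hP : P.le P)
    (t : ZMod 4) (a : WtH T P t) : wtInc hT hP t a = a := by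
  obtain ⟨x⟩ := a
  rfl

/-- the push forward along the identity is the inclusion of classes -/
theorem wti_push_id_inc (𝔐 : FcModel) (r : ℤ) {X : Type} [TopologicalSpace X] [EhSp X] {V U V' U' : Opens X}
    (hV : V ≤ V') (hU : U ≤ U') (x : wtiQ 𝔐 r X V U) :
    wtiPush 𝔐 r (ContinuousMap.id X) (ehMapsId hV) (ehMapsId hU) x =
      wtInc (wti_le 𝔐 X hV) (wti_le 𝔐 X hU) (r : ZMod 4) x :=
  wtPush_id _ _ _ _ x

theorem wti_push_id (𝔐 : FcModel) (r : ℤ) {X : Type} [TopologicalSpace X] [EhSp X] {V U : Opens X}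
    (hV : Set.MapsTo (ContinuousMap.id X) (V : Set X) (V : Set X))
    (hU : Set.MapsTo (ContinuousMap.id X) (U : Set X) (U : Set X)) (x : wtiQ 𝔐 r X V U) :
    wtiPush 𝔐 r (ContinuousMap.id X) hV hU x = x :=
  (wti_push_id_inc 𝔐 r le_rfl le_rfl x).trans (wtInc_self _ _ _ x)

theorem wti_push_comp (𝔐 : FcModel) (r : ℤ) {X Y Z : Type} [TopologicalSpace X] [EhSp X] [TopologicalSpace Y]
    [EhSp Y] [TopologicalSpace Z] [EhSp Z] (f : C(X, Y)) (g : C(Y, Z))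
    {V U : Opens X} {V' U' : Opens Y} {V'' U'' : Opens Z}
    (hV : Set.MapsTo f (V : Set X) (V' : Set Y)) (hU : Set.MapsTo f (U : Set X) (U' : Set Y))
    (hV' : Set.MapsTo g (V' : Set Y) (V'' : Set Z)) (hU' : Set.MapsTo g (U' : Set Y) (U'' : Set Z))
    (hV'' : Set.MapsTo (g.comp f) (V : Set X) (V'' : Set Z))
    (hU'' : Set.MapsTo (g.comp f) (U : Set X) (U'' : Set Z)) (x : wtiQ 𝔐 r X V U) :
    wtiPush 𝔐 r g hV' hU' (wtiPush 𝔐 r f hV hU x) = wtiPush 𝔐 r (g.comp f) hV'' hU'' x :=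
  wtPush_comp f g _ _ _ _ x

theorem wti_bd_push (𝔐 : FcModel) (r s : ℤ) (h : s + 1 = r) {X Y : Type} [TopologicalSpace X] [EhSp X]
    [TopologicalSpace Y] [EhSp Y] (f : C(X, Y)) {V U : Opens X} {V' U' : Opens Y}
    (hV : Set.MapsTo f (V : Set X) (V' : Set Y)) (hU : Set.MapsTo f (U : Set X) (U' : Set Y))
    (x : wtiQ 𝔐 r X V U) :
    wtiPush 𝔐 s f hU (ehMapsBot f ⊥) (wtiBd 𝔐 r s h V U x) = wtiBd 𝔐 r s h V' U' (wtiPush 𝔐 r f hV hU x) :=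
  wtPush_bd f _ _ _ _ _ _ _ x

theorem wti_exact_mid (𝔐 : FcModel) (r : ℤ) {X : Type} [TopologicalSpace X] [EhSp X] {V U : Opens X}
    (hUV : U ≤ V) :
    Function.Exact (wtiPush 𝔐 r (ContinuousMap.id X) (V := U) (U := ⊥) (V' := V) (U' := ⊥)
        (ehMapsId hUV) (ehMapsId le_rfl))
      (wtiPush 𝔐 r (ContinuousMap.id X) (V := V) (U := ⊥) (V' := V) (U' := U) (ehMapsId le_rfl)
        (ehMapsId bot_le)) := by
  have h := wt_exact_mid (wtiP 𝔐 X V) (wtiP 𝔐 X U) (wtiP 𝔐 X ⊥) (wti_refl 𝔐 X V) (wti_le 𝔐 X hUV)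
    (wti_le 𝔐 X bot_le) (r : ZMod 4)
  intro y
  rw [wti_push_id_inc 𝔐 r le_rfl bot_le y]
  refine (h y).trans ⟨?_, ?_⟩
  · rintro ⟨a, rfl⟩
    exact ⟨a, wti_push_id_inc 𝔐 r hUV le_rfl a⟩
  · rintro ⟨a, rfl⟩
    exact ⟨a, (wti_push_id_inc 𝔐 r hUV le_rfl a).symm⟩

theorem wti_exact_rel (𝔐 : FcModel) (r s : ℤ) (h : s + 1 = r) {X : Type} [TopologicalSpace X] [EhSp X]
    {V U : Opens X} (hUV : U ≤ V) :
    Function.Exact
      (wtiPush 𝔐 r (ContinuousMap.id X) (V := V) (U := ⊥) (V' := V) (U' := U) (ehMapsId le_rfl)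
        (ehMapsId bot_le))
      (wtiBd 𝔐 r s h V U) := by
  have h' := wt_exact_rel (wtiP 𝔐 X V) (wtiP 𝔐 X U) (wtiP 𝔐 X ⊥) (wti_refl 𝔐 X V) (wti_le 𝔐 X hUV)
    (wti_le 𝔐 X bot_le) (r : ZMod 4) (s : ZMod 4) (wti_cast_succ h)
  intro y
  refine (h' y).trans ⟨?_, ?_⟩
  · rintro ⟨a, rfl⟩
    exact ⟨a, wti_push_id_inc 𝔐 r le_rfl bot_le a⟩
  · rintro ⟨a, rfl⟩
    exact ⟨a, (wti_push_id_inc 𝔐 r le_rfl bot_le a).symm⟩

theorem wti_exact_sub (𝔐 : FcModel) (r s : ℤ) (h : s + 1 = r) {X : Type} [TopologicalSpace X] [EhSp X]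
    {V U : Opens X} (hUV : U ≤ V) :
    Function.Exact (wtiBd 𝔐 r s h V U)
      (wtiPush 𝔐 s (ContinuousMap.id X) (V := U) (U := ⊥) (V' := V) (U' := ⊥) (ehMapsId hUV)
        (ehMapsId le_rfl)) := by
  have h' := wt_exact_sub (wtiP 𝔐 X V) (wtiP 𝔐 X U) (wtiP 𝔐 X ⊥) (wti_refl 𝔐 X V) (wti_le 𝔐 X hUV)
    (wti_le 𝔐 X bot_le) (r : ZMod 4) (s : ZMod 4) (wti_cast_succ h)
  intro y
  rw [wti_push_id_inc 𝔐 s hUV le_rfl y]
  exact h' y

/-- the cylinder over an open set -/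
def wtiCylOp {X : Type} [TopologicalSpace X] (V : Opens X) : Opens (unitInterval × X) :=
  ⟨Set.univ ×ˢ (V : Set X), isOpen_univ.prod V.isOpen⟩

/-- the two ends of the cylinder are cobordant over `I × X` -/
theorem wti_cyl_rel (𝔐 : FcModel) {X : Type} [TopologicalSpace X] [EhSp X] {t : ZMod 4} (V U : Opens X)
    (x : WtForm X t) (hx : x.In (wtiP 𝔐 X V) (wtiP 𝔐 X U)) :
    WtRel (wtiP 𝔐 (unitInterval × X) (wtiCylOp V)) (wtiP 𝔐 (unitInterval × X) (wtiCylOp U))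
      (x.push (fcSlice X 1)) (x.push (fcSlice X 0)) := by
  obtain ⟨⟨hT, O, hO, hVO, hMO⟩, ⟨_, O', hO', hUO', hCO'⟩⟩ := hx
  obtain ⟨D, hN, hNa, hSa⟩ := 𝔐.cyl X t x hT
  refine ⟨D, ⟨hN, Set.univ ×ˢ O, isOpen_univ.prod hO, ?_, hNa O hO hMO⟩,
    ⟨wts_S_mem D _ (fcb_prod_mem _ (𝔐.push _ _ hT) (𝔐.push _ _ hT)) hN, Set.univ ×ˢ O',
      isOpen_univ.prod hO', ?_, hSa O' hO' hCO'⟩⟩
  · rintro ⟨s, y⟩ hy
    exact ⟨trivial, hVO fun hyV => hy ⟨trivial, hyV⟩⟩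
  · rintro ⟨s, y⟩ hy
    exact ⟨trivial, hUO' fun hyU => hy ⟨trivial, hyU⟩⟩

theorem wti_htpy (𝔐 : FcModel) (r : ℤ) {X Y : Type} [TopologicalSpace X] [EhSp X] [TopologicalSpace Y] [EhSp Y]
    (H : C(unitInterval × X, Y)) {V U : Opens X} {V' U' : Opens Y}
    (hV : ∀ t, Set.MapsTo (H.curry t) (V : Set X) (V' : Set Y))
    (hU : ∀ t, Set.MapsTo (H.curry t) (U : Set X) (U' : Set Y)) (x : wtiQ 𝔐 r X V U) :
    wtiPush 𝔐 r (H.curry 0) (hV 0) (hU 0) x = wtiPush 𝔐 r (H.curry 1) (hV 1) (hU 1) x := by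
  obtain ⟨x, hx, rfl⟩ := wtMk_surj _ _ x
  have hs : ∀ s : unitInterval, Set.MapsTo (fcSlice X s) (V : Set X) (wtiCylOp V : Set (unitInterval × X)) :=
    fun s y hy => ⟨trivial, hy⟩
  have hs' : ∀ s : unitInterval, Set.MapsTo (fcSlice X s) (U : Set X) (wtiCylOp U : Set (unitInterval × X)) :=
    fun s y hy => ⟨trivial, hy⟩
  have hHV : Set.MapsTo H (wtiCylOp V : Set (unitInterval × X)) (V' : Set Y) := fun p hp => hV p.1 hp.2
  have hHU : Set.MapsTo H (wtiCylOp U : Set (unitInterval × X)) (U' : Set Y) := fun p hp => hU p.1 hp.2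
  have key : ∀ s : unitInterval, wtiPush 𝔐 r (H.curry s) (hV s) (hU s) (wtMk _ _ x hx) =
      wtiPush 𝔐 r H hHV hHU (wtiPush 𝔐 r (fcSlice X s) (hs s) (hs' s) (wtMk _ _ x hx)) := fun s =>
    (wti_push_comp 𝔐 r (fcSlice X s) H (hs s) (hs' s) hHV hHU (hV s) (hU s) _).symm
  rw [key 0, key 1]
  congr 1
  exact (wtMk_eq_iff _ _ _ _ _ _).2 (wt_rel_symm _ _ (wti_cyl_rel 𝔐 V U x hx))

theorem wti_dd_exists (𝔐 : FcModel) (r : ℤ) {X : Type} [TopologicalSpace X] [EhSp X] (V U I W : Opens X)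
    (hI : I = U ⊓ V) (hW : W = U ⊔ V) :
    ∃ g : wtiQ 𝔐 r X W U →+ wtiQ 𝔐 r X V I,
      (∀ x, wtiPush 𝔐 r (ContinuousMap.id X) (ehMapsId (hW ▸ le_sup_right)) (ehMapsId (hI ▸ inf_le_left))
        (g x) = 8 • x) ∧
      ∀ y, g (wtiPush 𝔐 r (ContinuousMap.id X) (ehMapsId (hW ▸ le_sup_right))
        (ehMapsId (hI ▸ inf_le_left)) y) = 8 • y := by
  subst hI hW
  obtain ⟨TV, TW, h1, h2, h3, h4, h5, h6, h7, h8⟩ := 𝔐.exc X (U : Set X) (V : Set X) U.isOpen V.isOpen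
  have hint : ∀ C, TV.mem C → (wtiP 𝔐 X U).mem C → (wtiP 𝔐 X (U ⊓ V)).mem C := by
    intro C hC hCU
    obtain ⟨hT, O, hO, hVO, hA⟩ := h2 C hC
    obtain ⟨_, O', hO', hUO', hA'⟩ := hCU
    refine ⟨hT, O' ∪ O, hO'.union hO, ?_, fc_acycOn_union C hO' hO hA' hA⟩
    intro y hy
    by_cases hyU : y ∈ (U : Set X)
    · exact Or.inr (hVO fun hyV => hy ⟨hyU, hyV⟩)
    · exact Or.inl (hUO' hyU)
  have hVW : (wtiP 𝔐 X V).le (wtiP 𝔐 X (U ⊔ V)) := wti_le 𝔐 X le_sup_right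
  have hIU : (wtiP 𝔐 X (U ⊓ V)).le (wtiP 𝔐 X U) := wti_le 𝔐 X inf_le_left
  obtain ⟨g, hg1, hg2⟩ := wt_dd_exists (wtInc hVW hIU (r : ZMod 4))
    (fun b hb => wt_exc_ker (wtiP 𝔐 X V) (wtiP 𝔐 X (U ⊔ V)) (wtiP 𝔐 X (U ⊓ V)) (wtiP 𝔐 X U) TV TW
      (wti_refl 𝔐 X _) hVW hIU h2 h4 h5 h1 h3 h6 h7 h8 hint _ b hb)
    (fun a => wt_exc_coker (wtiP 𝔐 X V) (wtiP 𝔐 X (U ⊔ V)) (wtiP 𝔐 X (U ⊓ V)) (wtiP 𝔐 X U) TV TW
      (wti_refl 𝔐 X _) hVW hIU h2 h4 h5 h1 h3 h7 h8 hint _ a)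
  refine ⟨g, fun x => ?_, fun y => ?_⟩
  · exact (wti_push_id_inc 𝔐 r le_sup_right inf_le_left (g x)).trans (hg1 x)
  · exact (congrArg g (wti_push_id_inc 𝔐 r le_sup_right inf_le_left y)).trans (hg2 y)

/-- acyclicity over an open subspace can be tested after push forward -/
theorem wti_emb_acycOn {Y X : Type} [TopologicalSpace Y] [TopologicalSpace X] [T2Space X] (j : C(Y, X))
    (hj : IsOpenEmbedding j) (B : FcD Y) {O : Set X} (h : (B.push j).AcycOn O) : B.AcycOn (j ⁻¹' O) := by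
  intro U' hU' hU'O
  have h1 := h (j '' U') (hj.isOpenMap U' hU') (Set.image_subset_iff.2 hU'O)
  rw [fc_push_acycAt, hj.injective.preimage_image] at h1
  exact h1

/-- membership in `P_{j⁻¹ V}` can be tested after push forward -/
theorem wti_emb_near (𝔐 : FcModel) {Y X : Type} [TopologicalSpace Y] [EhSp Y] [TopologicalSpace X] [EhSp X]
    (j : C(Y, X)) (hj : IsOpenEmbedding j) (V : Opens X) (B : FcD Y) (hB : (𝔐.T Y).mem B)
    (h : ∃ O, IsOpen O ∧ (V : Set X)ᶜ ⊆ O ∧ (B.push j).AcycOn O) :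
    (wtiP 𝔐 Y (Opens.comap j V)).mem B := by
  obtain ⟨O, hO, hVO, hac⟩ := h
  exact ⟨hB, j ⁻¹' O, hO.preimage j.continuous, fun y hy => hVO hy, wti_emb_acycOn j hj B hac⟩

/-- a form over `X` pulled back to an object which lives over the subspace `Y` -/
def wtiFormEmb {Y X : Type} [TopologicalSpace Y] [TopologicalSpace X] [T2Space X] {t : ZMod 4} (j : C(Y, X))
    (hj : Function.Injective j) (x : WtForm X t) (M' : FcD Y) (f : FcHom (M'.push j) x.M) : WtForm Y t where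
  M := M'
  b := x.b.compl₁₂ f.f f.f
  loc := fun m n h => x.loc _ _ (Set.disjoint_of_subset (f.loc m) (f.loc n)
    ((Set.disjoint_image_iff hj).2 h))
  symm := fun _ _ => x.symm _ _
  adj := fun a c => by
    show x.b (f.f (M'.d a)) (f.f c) = wtK t * x.b (f.f a) (f.f (M'.d c))
    have h1 : f.f (M'.d a) = x.M.d (f.f a) := f.comm a
    have h2 : f.f (M'.d c) = x.M.d (f.f c) := f.comm c
    rw [h1, h2, x.adj]

/-- a datum over `X` pulled back to an object which lives over the subspace `Y` -/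
def wtiDatEmb {Y X : Type} [TopologicalSpace Y] [TopologicalSpace X] [T2Space X] {t : ZMod 4} (j : C(Y, X))
    (hj : Function.Injective j) (y : WtForm Y t) (D : WtDat (y.push j)) (N' : FcD Y)
    (f : FcHom (N'.push j) D.N) : WtDat y where
  N := N'
  lam := ⟨D.lam.f ∘ₗ f.f, fun n => (Set.image_subset_image_iff hj).1 ((D.lam.comp f).loc n),
    fun n => (D.lam.comp f).comm n⟩
  h := D.h.compl₁₂ f.f f.f
  h_loc := fun m n h => D.h_loc _ _ (Set.disjoint_of_subset (f.loc m) (f.loc n)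
    ((Set.disjoint_image_iff hj).2 h))
  h_symm := fun _ _ => D.h_symm _ _
  h_eq := fun n n' => (D.pull f).h_eq n n'

theorem wti_emb_surj (𝔐 : FcModel) (r : ℤ) {Y X : Type} [TopologicalSpace Y] [EhSp Y] [TopologicalSpace X]
    [EhSp X] (j : C(Y, X)) (hj : IsOpenEmbedding j) (V U : Opens X)
    (hV : (V : Set X) ⊆ Set.range j) :
    Function.Surjective (wtiPush 𝔐 r j (ehMapsComap j V) (ehMapsComap j U)) := by
  intro a
  obtain ⟨x, hx, rfl⟩ := wtMk_surj _ _ a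
  obtain ⟨M', f, hM', hf⟩ := 𝔐.emb j hj (V : Set X) V.isOpen hV x.M hx.1
  have hA : (wtiP 𝔐 X V).mem (M'.push j) := (fcb_mem_of_equiv (wtiP 𝔐 X V) f ((wtiP 𝔐 X V).acyc hf)).2 hx.1
  have hpull : (x.pull f).In (wtiP 𝔐 X V) (wtiP 𝔐 X U) := wt_pull_in _ _ hx f hA ((wtiP 𝔐 X U).acyc hf)
  have hy : (wtiFormEmb j hj.injective x M' f).In (wtiP 𝔐 Y (Opens.comap j V)) (wtiP 𝔐 Y (Opens.comap j U)) := by
    refine ⟨wti_emb_near 𝔐 j hj V M' hM' hA.2, wti_emb_near 𝔐 j hj U _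
      ((𝔐.T Y).cone _ hM' ((𝔐.T Y).resc _ (wtK_ne_zero _) ((𝔐.T Y).dual hM'))) ?_⟩
    obtain ⟨_, O', hO', hUO', hac⟩ := hpull.2
    refine ⟨O', hO', hUO', fun W hW hWO => ?_⟩
    exact fcCone_acycAt_src (wtpAd j (wtiFormEmb j hj.injective x M' f)) (hac W hW hWO)
      (wtp_ad_acyc j (wtiFormEmb j hj.injective x M' f) (𝔐.pushDual j M' hM') W hW (Set.subset_univ _))
  refine ⟨wtMk _ _ (wtiFormEmb j hj.injective x M' f) hy, ?_⟩
  exact (wtMk_eq_iff _ _ _ _ _ _).2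
    (wt_rel_of_isom _ _ (x.pullIsom f) ((wtiP 𝔐 X U).acyc hf) hpull hx)

theorem wti_emb_inj (𝔐 : FcModel) (r : ℤ) {Y X : Type} [TopologicalSpace Y] [EhSp Y] [TopologicalSpace X]
    [EhSp X] (j : C(Y, X)) (hj : IsOpenEmbedding j) (V U : Opens X)
    (hV : (V : Set X) ⊆ Set.range j) :
    Function.Injective (wtiPush 𝔐 r j (ehMapsComap j V) (ehMapsComap j U)) := by
  refine (injective_iff_map_eq_zero _).2 fun b hb => ?_
  obtain ⟨y, hy, rfl⟩ := wtMk_surj _ _ b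
  obtain ⟨D, hN, hS⟩ := (wtMk_eq_zero_iff _ _ _ _).1 hb
  obtain ⟨N', f, hN', hf⟩ := 𝔐.emb j hj (V : Set X) V.isOpen hV D.N hN
  have hA : (wtiP 𝔐 X V).mem (N'.push j) := (fcb_mem_of_equiv (wtiP 𝔐 X V) f ((wtiP 𝔐 X V).acyc hf)).2 hN
  have hS' : (wtiP 𝔐 X U).mem (D.pull f).S.M := wt_pull_S _ D f ((wtiP 𝔐 X U).acyc hf) hS
  refine (wtMk_eq_zero_iff _ _ _ _).2 ⟨wtiDatEmb j hj.injective y D N' f,
    wti_emb_near 𝔐 j hj V N' hN' hA.2, wti_emb_near 𝔐 j hj U _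
      (wts_S_mem (wtiDatEmb j hj.injective y D N' f) _ hy.1.1 hN') ?_⟩
  obtain ⟨_, O', hO', hUO', hac⟩ := hS'
  refine ⟨O', hO', hUO', fun W hW hWO => ?_⟩
  exact fcCone_acycAt_src (wtpS j (wtiDatEmb j hj.injective y D N' f)) (hac W hW hWO)
    (wtp_S_acyc j (wtiDatEmb j hj.injective y D N' f) (𝔐.pushDual j N' hN') W hW (Set.subset_univ _))

theorem wti_emb_bij (𝔐 : FcModel) (r : ℤ) {Y X : Type} [TopologicalSpace Y] [EhSp Y] [TopologicalSpace X]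
    [EhSp X] (j : C(Y, X)) (hj : IsOpenEmbedding j) (V U : Opens X) (_hUV : U ≤ V)
    (hV : (V : Set X) ⊆ Set.range j) :
    Function.Bijective (wtiPush 𝔐 r j (ehMapsComap j V) (ehMapsComap j U)) :=
  ⟨wti_emb_inj 𝔐 r j hj V U hV, wti_emb_surj 𝔐 r j hj V U hV⟩

/-- the signature (package WtSign) -/
theorem wti_sig_exists (𝔐 : FcModel) :
    ∃ σ : wtiQ 𝔐 0 PUnit.{1} ⊤ ⊥ →+ ℤ, Function.Injective σ ∧
      ∀ (x : WtForm PUnit.{1} ((0 : ℤ) : ZMod 4))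
        (hx : x.In (wtiP 𝔐 PUnit.{1} ⊤) (wtiP 𝔐 PUnit.{1} ⊥)) (m : x.M.C),
        x.M.d m = 0 → x.b m m ≠ 0 →
        (∀ m' : x.M.C, x.M.d m' = 0 → ∃ (c : ℝ) (m'' : x.M.C), m' = c • m + x.M.d m'') →
        σ (wtMk _ _ x hx) = 1 ∨ σ (wtMk _ _ x hx) = -1 :=
  sg_wt_sig_exists 𝔐

/-- THE THEORY -/
noncomputable def wtiTheory (𝔐 : FcModel) : EhTheory.{1} where
  Q := fun r X _ _ V U => wtiQ 𝔐 r X V U
  grp := fun r X _ _ V U => wtiQGrp 𝔐 r X V U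
  push := fun r _ _ _ _ _ _ f _ _ _ _ hV hU => wtiPush 𝔐 r f hV hU
  push_id := fun r _ _ _ _ _ hV hU x => wti_push_id 𝔐 r hV hU x
  push_comp := fun r _ _ _ _ _ _ _ _ _ f g _ _ _ _ _ _ hV hU hV' hU' hV'' hU'' x =>
    wti_push_comp 𝔐 r f g hV hU hV' hU' hV'' hU'' x
  bd := fun r s h _ _ _ V U => wtiBd 𝔐 r s h V U
  bd_push := fun r s h _ _ _ _ _ _ f _ _ _ _ hV hU x => wti_bd_push 𝔐 r s h f hV hU x
  exact_mid := fun r _ _ _ _ _ hUV => wti_exact_mid 𝔐 r hUV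
  exact_rel := fun r s h _ _ _ _ _ hUV => wti_exact_rel 𝔐 r s h hUV
  exact_sub := fun r s h _ _ _ _ _ hUV => wti_exact_sub 𝔐 r s h hUV
  htpy := fun r _ _ _ _ _ _ H _ _ _ _ hV hU x => wti_htpy 𝔐 r H hV hU x
  excN := 8
  excN_pos := by norm_num
  dd := fun r _ _ _ V U I W hI hW => Classical.choose (wti_dd_exists 𝔐 r V U I W hI hW)
  ext_dd := fun r _ _ _ V U I W hI hW x => (Classical.choose_spec (wti_dd_exists 𝔐 r V U I W hI hW)).1 x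
  dd_ext := fun r _ _ _ V U I W hI hW y => (Classical.choose_spec (wti_dd_exists 𝔐 r V U I W hI hW)).2 y
  emb_bij := fun r _ _ _ _ _ _ j hj V U hUV hV => wti_emb_bij 𝔐 r j hj V U hUV hV
  sig := Classical.choose (wti_sig_exists 𝔐)
  sig_inj := (Classical.choose_spec (wti_sig_exists 𝔐)).1

/-- realises the equation lemmas here (unique names) -/
theorem wt_inst_eqns_cite : True := by
  have := @wtiPush.eq_1
  have := @wtiBd.eq_1
  have := @wtiCylOp.eq_1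
  have := @wtiFormEmb.eq_1
  have := @wtiDatEmb.eq_1
  have := @wtiTheory.eq_1
  trivial

end Claimed.Agent.R304
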