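/-
Row 304 (S0559, Hilbert-Smith).  Owner: helper248.  PACKAGE WtInstCube: `FcModel → EhCube`.
`kap d r _ W _` := the class of `𝔐.cube d` in `h^{d mod 4}(P_⊤; P_W)`.

PLANS.
* `wti_cube_in`  : `𝔐.cube_mem`; `cone(ad)` is in `T` (closure properties) and `AcycOn (ehCbBd d)ᶜ` (`𝔐.cube_ns`), an open set containing `Wᶜ`.  `P_⊤`: take `O = ∅`.
* `wti_kap_mono` : the same form; `push id = wtInc` (`wtPush_id`, `wtInc_mk`).
* `wti_kap_zero` : `aug` = push forward to the point; the vector space, `d` and `b` do not change, so `𝔐.cube_zero` is the hypothesis of `wti_sig_exists`.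
* `wti_kap_bd`   : `subst` the degrees; `𝔐.cube_bd d` is the statement up to `WtForm.cast` (`cast` commutes with `bd`, `push`, `neg`: `subst`/`rfl`),
                   `wtBd_mk`, `wtPush_mk`, `wtMk_eq_iff`, `wtMk_neg`.
Estimated 400 lines.
-/
import Claimed.Agent.R304.WtInst

set_option autoImplicit false

namespace Claimed.Agent.R304

open Topology TopologicalSpace

attribute [local instance] EhSp.t2 EhSp.lc

theorem wti_cast_nat {d : ℕ} {r : ℤ} (h : r = d) : ((d : ℕ) : ZMod 4) = (r : ZMod 4) := by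
  subst h; push_cast; rfl

theorem wtic_cast_in {X : Type} [TopologicalSpace X] [T2Space X] {t t' : ZMod 4} (h : t = t')
    (x : WtForm X t) (T P : FcCls X) : (x.cast h).In T P ↔ x.In T P := by
  subst h; rfl

theorem wtic_cast_line {X : Type} [TopologicalSpace X] {t t' : ZMod 4} (h : t = t') (x : WtForm X t)
    (hx : ∃ m : x.M.C, x.M.d m = 0 ∧ x.b m m ≠ 0 ∧
      ∀ m' : x.M.C, x.M.d m' = 0 → ∃ (c : ℝ) (m'' : x.M.C), m' = c • m + x.M.d m'') :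
    ∃ m : (x.cast h).M.C, (x.cast h).M.d m = 0 ∧ (x.cast h).b m m ≠ 0 ∧
      ∀ m' : (x.cast h).M.C, (x.cast h).M.d m' = 0 →
        ∃ (c : ℝ) (m'' : (x.cast h).M.C), m' = c • m + (x.cast h).M.d m'' := by
  subst h; exact hx

theorem wtic_cast_rel {X Y : Type} [TopologicalSpace X] [T2Space X] [TopologicalSpace Y]
    {t t' u u' : ZMod 4} (ht : t = t') (hu : u = u') (x : WtForm X t) (y : WtForm Y u) (g : C(Y, X))
    (h1 : u + 1 = t) (h2 : u' + 1 = t') (T P : FcCls X) :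
    WtRel T P ((x.cast ht).bd u' h2) ((y.cast hu).push g) ↔ WtRel T P (x.bd u h1) (y.push g) := by
  subst ht hu; rfl

theorem wtic_cast_rel_neg {X Y : Type} [TopologicalSpace X] [T2Space X] [TopologicalSpace Y]
    {t t' u u' : ZMod 4} (ht : t = t') (hu : u = u') (x : WtForm X t) (y : WtForm Y u) (g : C(Y, X))
    (h1 : u + 1 = t) (h2 : u' + 1 = t') (T P : FcCls X) :
    WtRel T P ((x.cast ht).bd u' h2) ((y.cast hu).push g).neg ↔ WtRel T P (x.bd u h1) (y.push g).neg := by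
  subst ht hu; rfl

theorem wtic_acycOn_empty {X : Type} [TopologicalSpace X] (A : FcD X) : A.AcycOn ∅ := by
  intro U _ hU m hm _
  have h0 : m = 0 := (A.supp_empty_iff m).1 (Set.subset_empty_iff.1 (hm.trans hU))
  exact ⟨0, by rw [A.toFcObj.supp_zero]; exact Set.empty_subset _, by rw [h0, map_zero]⟩

theorem wtic_bd_closed (d : ℕ) : IsClosed (ehCbBd d) := by
  have : ehCbBd d = ⋃ i : Fin d, {x : EhCb d | |(x i : ℝ)| = 1} := by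
    ext x; simp [ehCbBd]
  rw [this]
  refine isClosed_iUnion_of_finite fun i => ?_
  exact isClosed_eq (by fun_prop) continuous_const

theorem wti_cube_in (𝔐 : FcModel) (d : ℕ) (r : ℤ) (h : r = d) (W : Opens (EhCb d))
    (hW : ehCbBd d ⊆ (W : Set (EhCb d))) :
    ((𝔐.cube d).cast (wti_cast_nat h)).In (wtiP 𝔐 (EhCb d) ⊤) (wtiP 𝔐 (EhCb d) W) := by
  rw [wtic_cast_in]
  refine ⟨⟨𝔐.cube_mem d, ∅, isOpen_empty, by simp, wtic_acycOn_empty _⟩,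
    ⟨(𝔐.T _).cone _ (𝔐.cube_mem d) ((𝔐.T _).resc _ (wtK_ne_zero _) ((𝔐.T _).dual (𝔐.cube_mem d))),
      (ehCbBd d)ᶜ, (wtic_bd_closed d).isOpen_compl, Set.compl_subset_compl.2 hW, 𝔐.cube_ns d⟩⟩

/-- the fundamental class of the cube relative to `W` -/
def wtiKap (𝔐 : FcModel) (d : ℕ) (r : ℤ) (h : r = d) (W : Opens (EhCb d))
    (hW : ehCbBd d ⊆ (W : Set (EhCb d))) : (wtiTheory 𝔐).Q r (EhCb d) ⊤ W :=
  wtMk (wtiP 𝔐 (EhCb d) ⊤) (wtiP 𝔐 (EhCb d) W) ((𝔐.cube d).cast (wti_cast_nat h)) (wti_cube_in 𝔐 d r h W hW)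

theorem wti_kap_mono (𝔐 : FcModel) (d : ℕ) (r : ℤ) (h : r = d) (W W' : Opens (EhCb d))
    (hW : ehCbBd d ⊆ (W : Set (EhCb d))) (hW' : ehCbBd d ⊆ (W' : Set (EhCb d))) (hWW' : W ≤ W') :
    (wtiTheory 𝔐).ext r le_rfl hWW' (wtiKap 𝔐 d r h W hW) = wtiKap 𝔐 d r h W' hW' := by
  show wtPush (ContinuousMap.id _) (wti_pushOK 𝔐 _ (ehMapsId le_rfl) (ehMapsId hWW')) (r : ZMod 4)
    (wtMk _ _ _ _) = wtMk _ _ _ _
  rw [wtPush_id _ (wti_le 𝔐 _ le_rfl) (wti_le 𝔐 _ hWW')]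
  rfl

theorem wti_kap_zero (𝔐 : FcModel) (h : (0 : ℤ) = (0 : ℕ))
    (hW : ehCbBd 0 ⊆ ((⊥ : Opens (EhCb 0)) : Set (EhCb 0))) :
    (wtiTheory 𝔐).sig ((wtiTheory 𝔐).aug 0 ⊤ (wtiKap 𝔐 0 0 h ⊥ hW)) = 1 ∨
      (wtiTheory 𝔐).sig ((wtiTheory 𝔐).aug 0 ⊤ (wtiKap 𝔐 0 0 h ⊥ hW)) = -1 := by
  obtain ⟨m, hm1, hm2, hm3⟩ := wtic_cast_line (wti_cast_nat h) (𝔐.cube 0) 𝔐.cube_zero
  exact (Classical.choose_spec (wti_sig_exists 𝔐)).2
    (((𝔐.cube 0).cast (wti_cast_nat h)).push (ehPt (EhCb 0)))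
    (wt_push_in _ (wti_pushOK 𝔐 _ (ehMapsTop _ _) (ehMapsBot _ _)) (wti_cube_in 𝔐 0 0 h ⊥ hW)) m hm1 hm2 hm3

theorem wti_kap_bd (𝔐 : FcModel) (d : ℕ) (r s : ℤ) (hr : r = (d + 1 : ℕ)) (hs : s = d) (h : s + 1 = r) :
    (wtiTheory 𝔐).ext s (le_refl (ehCbA (d + 1))) (bot_le : ⊥ ≤ ehCbUp d)
        ((wtiTheory 𝔐).bd r s h ⊤ (ehCbA (d + 1))
          (wtiKap 𝔐 (d + 1) r hr (ehCbA (d + 1)) (ehCbBd_subset_A _))) =
      (wtiTheory 𝔐).push s (ehCbFace d) (ehCbFace_mapsTo_A d) (ehCbFace_mapsTo_Up d)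
        (wtiKap 𝔐 d s hs (ehCbA d) (ehCbBd_subset_A _)) ∨
    (wtiTheory 𝔐).ext s (le_refl (ehCbA (d + 1))) (bot_le : ⊥ ≤ ehCbUp d)
        ((wtiTheory 𝔐).bd r s h ⊤ (ehCbA (d + 1))
          (wtiKap 𝔐 (d + 1) r hr (ehCbA (d + 1)) (ehCbBd_subset_A _))) =
      - (wtiTheory 𝔐).push s (ehCbFace d) (ehCbFace_mapsTo_A d) (ehCbFace_mapsTo_Up d)
        (wtiKap 𝔐 d s hs (ehCbA d) (ehCbBd_subset_A _)) := by
  have hL : (wtiTheory 𝔐).ext s (le_refl (ehCbA (d + 1))) (bot_le : ⊥ ≤ ehCbUp d)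
        ((wtiTheory 𝔐).bd r s h ⊤ (ehCbA (d + 1))
          (wtiKap 𝔐 (d + 1) r hr (ehCbA (d + 1)) (ehCbBd_subset_A _))) =
      wtMk (wtiP 𝔐 _ (ehCbA (d + 1))) (wtiP 𝔐 _ (ehCbUp d))
        (((𝔐.cube (d + 1)).cast (wti_cast_nat hr)).bd (s : ZMod 4) (wti_cast_succ h))
        (wt_in_mono (wti_le 𝔐 _ le_rfl) (wti_le 𝔐 _ bot_le)
          (wt_bd_in _ _ _ (wti_refl 𝔐 _ ⊤) (wti_cube_in 𝔐 (d + 1) r hr _ (ehCbBd_subset_A _)) _
            (wti_cast_succ h))) := by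
    exact wtPush_id (wti_pushOK 𝔐 _ (ehMapsId le_rfl) (ehMapsId bot_le)) (wti_le 𝔐 _ le_rfl)
      (wti_le 𝔐 _ bot_le) (s : ZMod 4)
      (wtMk (wtiP 𝔐 _ (ehCbA (d + 1))) (wtiP 𝔐 _ ⊥)
        (((𝔐.cube (d + 1)).cast (wti_cast_nat hr)).bd (s : ZMod 4) (wti_cast_succ h))
        (wt_bd_in _ _ _ (wti_refl 𝔐 _ ⊤) (wti_cube_in 𝔐 (d + 1) r hr _ (ehCbBd_subset_A _)) _
            (wti_cast_succ h)))
  have hR : (wtiTheory 𝔐).push s (ehCbFace d) (ehCbFace_mapsTo_A d) (ehCbFace_mapsTo_Up d)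
        (wtiKap 𝔐 d s hs (ehCbA d) (ehCbBd_subset_A _)) =
      wtMk (wtiP 𝔐 _ (ehCbA (d + 1))) (wtiP 𝔐 _ (ehCbUp d))
        (((𝔐.cube d).cast (wti_cast_nat hs)).push (ehCbFace d))
        (wt_push_in _ (wti_pushOK 𝔐 _ (ehCbFace_mapsTo_A d) (ehCbFace_mapsTo_Up d))
          (wti_cube_in 𝔐 d s hs _ (ehCbBd_subset_A _))) := rfl
  rw [hL, hR]
  have ht : ((d : ℕ) : ZMod 4) + 1 = ((d + 1 : ℕ) : ZMod 4) := by push_cast; rfl
  rcases 𝔐.cube_bd d ht with hc | hc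
  · left
    exact (wtMk_eq_iff _ _ _ _ _ _).2
      ((wtic_cast_rel (wti_cast_nat hr) (wti_cast_nat hs) _ _ _ ht (wti_cast_succ h) _ _).2 hc)
  · right
    exact (wtMk_eq_iff _ _ _ _ _ (wt_in_neg _ _ (wt_push_in _
        (wti_pushOK 𝔐 _ (ehCbFace_mapsTo_A d) (ehCbFace_mapsTo_Up d))
        (wti_cube_in 𝔐 d s hs _ (ehCbBd_subset_A _))))).2
      ((wtic_cast_rel_neg (wti_cast_nat hr) (wti_cast_nat hs) _ _ _ ht (wti_cast_succ h) _ _).2 hc)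

/-- THE CUBE CLASSES -/
noncomputable def wtiCube (𝔐 : FcModel) : EhCube (wtiTheory 𝔐) where
  kap := wtiKap 𝔐
  kap_mono := wti_kap_mono 𝔐
  kap_zero := wti_kap_zero 𝔐
  kap_bd := wti_kap_bd 𝔐

end Claimed.Agent.R304
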