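/-
Row 304 (S0559, Hilbert-Smith).  Owner: helper248.  THE MODEL `fc_model : FcModel` (assembly, no mathematics).

  `T X := fckT X` = the thick class generated by `f_!(C.res E)` and `f_!((C.res E)^∨)`, `C` a cubical model (`FcKub`), `E` a finite union of boxes.
  fields `cpt, push, pushDual, exc, emb`   : helper231, `FcModelA.lean`
  fields `refl, cyl, pt_fin, pt_mem`       : helper154, `FcCylMem.lean`
  fields `cube*`                           : helper248, `WtCube.lean`
and the final objects of layers S + E:  `fcTheory : EhTheory`, `fcCube : EhCube fcTheory`.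
This file has no gaps of its own.
-/
import Claimed.Agent.R304.FcCylMem
import Claimed.Agent.R304.WtCube
import Claimed.Agent.R304.WtInstCube

set_option autoImplicit false

namespace Claimed.Agent.R304

open Topology TopologicalSpace

/-- `id_! A ≅ A` -/
def fcmPushId {X : Type} [TopologicalSpace X] [T2Space X] (A : FcD X) :
    FcIso (A.push (ContinuousMap.id X)) A where
  e := LinearEquiv.refl ℝ A.C
  supp_eq := fun m => (Set.image_id (A.supp m)).symm
  comm := fun _ => rfl

/-- the restrictions of the cubical models to finite unions of boxes are members -/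
theorem fcm_res_mem {n : ℕ} {C : FcD (EhCb n)} {E : Set (EhCb n)} (hC : FcKub n C) (hE : FccU n E) :
    (fckT (EhCb n)).mem (C.res E) :=
  (fckT (EhCb n)).iso (fcmPushId (C.res E))
    (FcThick.gen ⟨n, C, E, ContinuousMap.id _, hC, hE, Set.subset_univ _, Or.inl rfl⟩)

theorem fcm_int_eq (d : ℕ) : wcInt d = asBx d (fun _ => -1) (fun _ => 1) := by
  ext x
  simp only [wcInt, ehCbBd, asBx, Set.mem_compl_iff, Set.mem_ofPred_eq, not_exists]
  constructor
  · intro h i
    have h1 := (x i).2.1
    have h2 := (x i).2.2
    have h3 := h i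
    constructor
    · rcases lt_or_eq_of_le h1 with h4 | h4
      · exact h4
      · exact absurd (by rw [← h4]; norm_num) h3
    · rcases lt_or_eq_of_le h2 with h4 | h4
      · exact h4
      · exact absurd (by rw [h4]; norm_num) h3
  · intro h i h3
    have := abs_lt.2 (h i)
    exact absurd h3 (ne_of_lt this)

theorem fcm_half_eq (d : ℕ) :
    wcHalf d = asBx (d + 1) (Fin.cons (-2) (fun _ => -1)) (fun _ => 1) := by
  ext x
  simp only [wcHalf, asBx, Set.mem_ofPred_eq]
  constructor
  · rintro ⟨h0, h⟩ i
    refine Fin.cases ?_ (fun k => ?_) i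
    · simp only [Fin.cons_zero]
      exact ⟨by linarith [(x 0).2.1], h0⟩
    · simp only [Fin.cons_succ]
      exact abs_lt.1 (h k)
  · intro h
    refine ⟨(h 0).2, fun k => ?_⟩
    have := h k.succ
    simp only [Fin.cons_succ] at this
    exact abs_lt.2 this

theorem fcm_int_mem (d : ℕ) : (fckT (EhCb d)).mem ((asObj (EhCb d)).res (wcInt d)) := by
  rw [fcm_int_eq]
  exact fcm_res_mem (FcKub.base d) (FccU.box _ _)

theorem fcm_half_mem (d : ℕ) : (fckT (EhCb (d + 1))).mem ((asObj (EhCb (d + 1))).res (wcHalf d)) := by
  rw [fcm_half_eq]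
  exact fcm_res_mem (FcKub.base (d + 1)) (FccU.box _ _)

/-- **THE MODEL** -/
noncomputable def fc_model : FcModel where
  T := fun X _ _ _ => fckT X
  refl := fun X _ _ _ => fck_field_refl X
  cpt := fun X _ _ _ A h => fcu_cpt FcKub fck_reflU X A h
  push := fun g A h => fcu_push FcKub fck_reflU g A h
  pushDual := fun g A h => fcu_pushDual FcKub fck_reflU g A h
  exc := fun _ _ _ _ U V hU hV => fcu_exc FcKub fck_reflU U V hU hV
  emb := fun j hj V hV hVj A hA => fcu_emb FcKub fck_reflU j hj V hV hVj A hA
  cyl := fun X _ _ _ t x hx => fck_field_cyl X t x hx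
  pt_fin := fck_field_pt_fin
  pt_mem := fck_field_pt_mem
  cube := wcCube
  cube_mem := fcm_int_mem
  cube_ns := wc_pd_int
  cube_zero := wc_cube_zero
  cube_bd := fun d ht => Or.inr (wc_cube_bd d ht (fckT (EhCb (d + 1))) (fck_field_refl _)
    (fcm_int_mem (d + 1)) (fcm_half_mem d)
    (fcu_push FcKub fck_reflU (ehCbFace d) _ (fcm_int_mem d)))

/-- **THE THEORY** (final object of layers S + E) -/
noncomputable def fcTheory : EhTheory.{1} := wtiTheory fc_model

/-- **THE CUBE CLASSES** -/
noncomputable def fcCube : EhCube fcTheory := wtiCube fc_model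

/-- realises the equation lemmas here (unique names) -/
theorem fcm_inst_eqns_cite : True := by
  have := @fcmPushId.eq_1
  have := @fc_model.eq_1
  have := @fcTheory.eq_1
  have := @fcCube.eq_1
  trivial

end Claimed.Agent.R304
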