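/-
Row 304 (S0559, Hilbert-Smith).  Owner: helper89 (definitions), proofs: package SmAlg.  PURE ALGEBRA: smooth representations of `ℤ_p` and their spectral projectors.

* `SmRep p V`      a smooth representation of `ℤ_p` on a real vector space `V` (every vector is fixed by some `p^j ℤ_p`);
* `R.fix j`        the vectors fixed by `p^j ℤ_p`;
* `V × V`          is the complexification, `(x, y) = x + i y`;  `smJ V` = multiplication by `i`;  `smCx V z` = multiplication by `z : ℂ`;  `R.rho2 a = ρ(a) × ρ(a)`;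
* `smRoot p j i`   `= ζ_j^i ∈ SmLam p`, `ζ_j = exp(2πi/p^j)`  (`i < p^j` runs through the characters of `ℤ/p^j`);
* `smCoef p D j a` `= p^{-j} ∑_{i < p^j, ζ_j^i ∈ D} ζ_j^{- i a}`   (the Fourier transform of the indicator of `D`);
* `smProjAt R D j` `= ∑_{a < p^j} smCoef p D j a · ρ2(a)`;
* `smProj R D`     the projector `e(D)`: on `u ∈ fix j × fix j` it is `smProjAt R D j u` (independent of `j`: `sma_projAt_succ`);
* `smAve R`        the projector on the invariants: `x ↦ p^{-j} ∑_{a < p^j} ρ(a) x`.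
-/
import Claimed.Agent.R304.SmIface

set_option autoImplicit false

namespace Claimed.Agent.R304

/-- a smooth representation of `ℤ_p` on a real vector space -/
structure SmRep (p : ℕ) [Fact p.Prime] (V : Type) [AddCommGroup V] [Module ℝ V] where
  /-- the operators -/
  rho : ℤ_[p] → V →ₗ[ℝ] V
  rho_zero : ∀ v, rho 0 v = v
  rho_add : ∀ a b v, rho (a + b) v = rho a (rho b v)
  smooth : ∀ v, ∃ j : ℕ, ∀ a : ℤ_[p], rho ((p : ℤ_[p]) ^ j * a) v = v

variable {p : ℕ} [Fact p.Prime] {V : Type} [AddCommGroup V] [Module ℝ V]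

/-- the vectors fixed by `p^j ℤ_p` -/
def SmRep.fix (R : SmRep p V) (j : ℕ) : Submodule ℝ V where
  carrier := {v | ∀ a : ℤ_[p], R.rho ((p : ℤ_[p]) ^ j * a) v = v}
  add_mem' := fun {v w} hv hw a => by rw [map_add, hv a, hw a]
  zero_mem' := fun a => map_zero _
  smul_mem' := fun c v hv a => by rw [map_smul, hv a]

theorem SmRep.fix_mono (R : SmRep p V) {j j' : ℕ} (h : j ≤ j') : R.fix j ≤ R.fix j' := by
  intro v hv a
  obtain ⟨e, rfl⟩ := Nat.exists_eq_add_of_le h
  have := hv ((p : ℤ_[p]) ^ e * a)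
  rwa [← mul_assoc, ← pow_add] at this

/-- multiplication by `i` on `V × V` -/
def smJ (V : Type) [AddCommGroup V] [Module ℝ V] : V × V →ₗ[ℝ] V × V :=
  (-(LinearMap.snd ℝ V V)).prod (LinearMap.fst ℝ V V)

/-- multiplication by a complex number on `V × V` -/
noncomputable def smCx (V : Type) [AddCommGroup V] [Module ℝ V] (z : ℂ) : V × V →ₗ[ℝ] V × V :=
  z.re • LinearMap.id + z.im • smJ V

/-- the diagonal action on `V × V` -/
def SmRep.rho2 (R : SmRep p V) (a : ℤ_[p]) : V × V →ₗ[ℝ] V × V := (R.rho a).prodMap (R.rho a)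

/-- `ζ_j^i` as a character -/
noncomputable def smRoot (p : ℕ) [Fact p.Prime] (j i : ℕ) : SmLam p :=
  ⟨smZeta p j ^ i, j, by rw [← pow_mul, mul_comm, pow_mul, smZeta_pow p j (Fact.out : p.Prime).pos, one_pow]⟩

open Classical in
/-- the Fourier coefficients of the indicator of `D` at the level `j` -/
noncomputable def smCoef (p : ℕ) [Fact p.Prime] (D : Set (SmLam p)) (j a : ℕ) : ℂ :=
  ((p : ℂ) ^ j)⁻¹ * ∑ i ∈ Finset.range (p ^ j),
    if smRoot p j i ∈ D then (((smZeta p j : Circle) : ℂ) ^ (i * a))⁻¹ else 0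

/-- the projector at the level `j` -/
noncomputable def smProjAt (R : SmRep p V) (D : Set (SmLam p)) (j : ℕ) : V × V →ₗ[ℝ] V × V :=
  ∑ a ∈ Finset.range (p ^ j), smCx V (smCoef p D j a) ∘ₗ R.rho2 (a : ℤ_[p])

theorem SmRep.smooth2 (R : SmRep p V) (u : V × V) : ∃ j, u.1 ∈ R.fix j ∧ u.2 ∈ R.fix j := by
  obtain ⟨j, hj⟩ := R.smooth u.1
  obtain ⟨j', hj'⟩ := R.smooth u.2
  exact ⟨max j j', R.fix_mono (le_max_left _ _) hj, R.fix_mono (le_max_right _ _) hj'⟩

/-- a level of a pair -/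
noncomputable def SmRep.lev (R : SmRep p V) (u : V × V) : ℕ := (R.smooth2 u).choose

theorem SmRep.lev_spec (R : SmRep p V) (u : V × V) : u.1 ∈ R.fix (R.lev u) ∧ u.2 ∈ R.fix (R.lev u) :=
  (R.smooth2 u).choose_spec

/-! ### complex scalars, eigenvectors, orthogonality of characters (proofs: helper181) -/

theorem sm_J_apply (u : V × V) : smJ V u = (-u.2, u.1) := rfl

theorem sm_cx_def (z : ℂ) (u : V × V) : smCx V z u = z.re • u + z.im • smJ V u := rfl

theorem sm_cx_apply (z : ℂ) (u : V × V) :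
    smCx V z u = (z.re • u.1 - z.im • u.2, z.re • u.2 + z.im • u.1) := by
  rw [sm_cx_def, sm_J_apply]
  ext
  · simp [sub_eq_add_neg]
  · simp

theorem sm_cx_one (u : V × V) : smCx V 1 u = u := by
  rw [sm_cx_apply]
  simp

theorem sm_cx_zero (u : V × V) : smCx V 0 u = 0 := by
  rw [sm_cx_apply]
  simp

theorem sm_cx_mul (z w : ℂ) (u : V × V) : smCx V (z * w) u = smCx V z (smCx V w u) := by
  rw [sm_cx_apply, sm_cx_apply, sm_cx_apply, Complex.mul_re, Complex.mul_im]
  ext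
  · simp only
    module
  · simp only
    module

theorem sm_cx_add (z w : ℂ) (u : V × V) : smCx V (z + w) u = smCx V z u + smCx V w u := by
  rw [sm_cx_apply, sm_cx_apply, sm_cx_apply, Complex.add_re, Complex.add_im]
  ext
  · simp only [Prod.fst_add]
    module
  · simp only [Prod.snd_add]
    module

theorem sm_cx_sum {ι : Type*} (s : Finset ι) (f : ι → ℂ) (u : V × V) :
    smCx V (∑ i ∈ s, f i) u = ∑ i ∈ s, smCx V (f i) u := by
  classical
  induction s using Finset.induction_on with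
  | empty => simp [sm_cx_zero]
  | insert a s ha ih => rw [Finset.sum_insert ha, Finset.sum_insert ha, sm_cx_add, ih]

theorem sm_rho2_apply (R : SmRep p V) (a : ℤ_[p]) (u : V × V) :
    R.rho2 a u = (R.rho a u.1, R.rho a u.2) := rfl

theorem sm_rho2_zero (R : SmRep p V) (u : V × V) : R.rho2 0 u = u := by
  rw [sm_rho2_apply, R.rho_zero, R.rho_zero]

theorem sm_rho2_add (R : SmRep p V) (a b : ℤ_[p]) (u : V × V) :
    R.rho2 (a + b) u = R.rho2 a (R.rho2 b u) := by
  rw [sm_rho2_apply, sm_rho2_apply, sm_rho2_apply, R.rho_add, R.rho_add]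

theorem sm_rho2_J (R : SmRep p V) (a : ℤ_[p]) (u : V × V) :
    R.rho2 a (smJ V u) = smJ V (R.rho2 a u) := by
  rw [sm_J_apply, sm_J_apply, sm_rho2_apply, sm_rho2_apply, map_neg]

theorem sm_rho2_cx (R : SmRep p V) (a : ℤ_[p]) (z : ℂ) (u : V × V) :
    R.rho2 a (smCx V z u) = smCx V z (R.rho2 a u) := by
  rw [sm_cx_def, sm_cx_def, map_add, map_smul, map_smul, sm_rho2_J]

theorem sm_rho2_fix (R : SmRep p V) {j : ℕ} {u : V × V} (h1 : u.1 ∈ R.fix j) (h2 : u.2 ∈ R.fix j)
    (c : ℤ_[p]) : R.rho2 ((p : ℤ_[p]) ^ j * c) u = u := by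
  rw [sm_rho2_apply, h1 c, h2 c]

/-- an eigenvector of `ρ2(1)` is an eigenvector of all `ρ2(a)`, `a : ℕ` -/
theorem sma_eig_pow (R : SmRep p V) (z : ℂ) (w : V × V) (hw : R.rho2 1 w = smCx V z w) (a : ℕ) :
    R.rho2 (a : ℤ_[p]) w = smCx V (z ^ a) w := by
  induction a with
  | zero => rw [Nat.cast_zero, sm_rho2_zero, pow_zero, sm_cx_one]
  | succ a ih => rw [Nat.cast_succ, sm_rho2_add, hw, sm_rho2_cx, ih, ← sm_cx_mul, pow_succ']

theorem sma_zeta_prim (p : ℕ) [Fact p.Prime] (j : ℕ) :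
    IsPrimitiveRoot ((smZeta p j : Circle) : ℂ) (p ^ j) := by
  have hp : 0 < p := (Fact.out : p.Prime).pos
  refine IsPrimitiveRoot.mk_of_lt _ (by positivity) ?_ ?_
  · rw [← Circle.coe_pow, smZeta_pow p j hp, Circle.coe_one]
  · intro l h0 h1 h
    apply smZeta_pow_ne_one p j l h0 h1
    apply Circle.ext
    rw [Circle.coe_pow, h, Circle.coe_one]

/-- orthogonality of the characters of `ℤ/p^j` -/
theorem sma_orth (p : ℕ) [Fact p.Prime] (j i i₀ : ℕ) (hi : i < p ^ j) (hi₀ : i₀ < p ^ j) :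
    ∑ a ∈ Finset.range (p ^ j),
      (((smZeta p j : Circle) : ℂ) ^ (i * a))⁻¹ * (((smZeta p j : Circle) : ℂ) ^ i₀) ^ a =
      if i = i₀ then (p : ℂ) ^ j else 0 := by
  have hz := sma_zeta_prim p j
  set z : ℂ := ((smZeta p j : Circle) : ℂ) with hzdef
  have hz0 : z ≠ 0 := Circle.coe_ne_zero _
  have hterm : ∀ a : ℕ, (z ^ (i * a))⁻¹ * (z ^ i₀) ^ a = ((z ^ i)⁻¹ * z ^ i₀) ^ a := by
    intro a
    rw [pow_mul, mul_pow, inv_pow]
  simp only [hterm]
  split_ifs with h
  · subst h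
    rw [inv_mul_cancel₀ (pow_ne_zero _ hz0)]
    simp
  · have hq : (z ^ i)⁻¹ * z ^ i₀ ≠ 1 := by
      intro hq
      apply h
      apply hz.pow_inj hi hi₀
      have := congrArg (fun t => z ^ i * t) hq
      simp only [mul_one] at this
      rw [mul_inv_cancel_left₀ (pow_ne_zero _ hz0)] at this
      exact this.symm
    rw [geom_sum_eq hq, mul_pow, inv_pow, ← pow_mul, ← pow_mul, mul_comm i, mul_comm i₀, pow_mul,
      pow_mul, hz.pow_eq_one]
    simp

open Classical in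
/-- the Fourier inversion formula for the coefficients -/
theorem sma_coef_sum (D : Set (SmLam p)) (j : ℕ) (l : SmLam p) (hl : l.1 ^ (p ^ j) = 1) :
    ∑ a ∈ Finset.range (p ^ j), smCoef p D j a * ((l.1 : Circle) : ℂ) ^ a =
      if l ∈ D then 1 else 0 := by
  have hp : 0 < p := (Fact.out : p.Prime).pos
  have hz := sma_zeta_prim p j
  have : NeZero (p ^ j) := ⟨(by positivity : 0 < p ^ j).ne'⟩
  obtain ⟨i₀, hi₀, hzi⟩ := hz.eq_pow_of_pow_eq_one (ξ := ((l.1 : Circle) : ℂ))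
    (by rw [← Circle.coe_pow, hl, Circle.coe_one])
  have hroot : smRoot p j i₀ = l := by
    apply Subtype.ext
    apply Circle.ext
    change ((smZeta p j ^ i₀ : Circle) : ℂ) = _
    rw [Circle.coe_pow, hzi]
  have hn0 : ((p : ℂ) ^ j) ≠ 0 := by
    have : (p : ℂ) ≠ 0 := by exact_mod_cast hp.ne'
    exact pow_ne_zero _ this
  rw [← hzi]
  calc ∑ a ∈ Finset.range (p ^ j), smCoef p D j a * (((smZeta p j : Circle) : ℂ) ^ i₀) ^ a
      = ((p : ℂ) ^ j)⁻¹ * ∑ i ∈ Finset.range (p ^ j), ∑ a ∈ Finset.range (p ^ j),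
          (if smRoot p j i ∈ D then (((smZeta p j : Circle) : ℂ) ^ (i * a))⁻¹ else 0) *
            (((smZeta p j : Circle) : ℂ) ^ i₀) ^ a := by
        rw [Finset.sum_comm, Finset.mul_sum]
        refine Finset.sum_congr rfl fun a _ => ?_
        rw [smCoef, mul_assoc, Finset.sum_mul]
    _ = ((p : ℂ) ^ j)⁻¹ * ∑ i ∈ Finset.range (p ^ j),
          (if i₀ = i then (if smRoot p j i ∈ D then (p : ℂ) ^ j else 0) else 0) := by
        congr 1
        refine Finset.sum_congr rfl fun i hi => ?_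
        by_cases hD : smRoot p j i ∈ D
        · simp only [if_pos hD]
          rw [sma_orth p j i i₀ (Finset.mem_range.1 hi) hi₀]
          simp only [eq_comm]
        · simp only [if_neg hD, zero_mul, Finset.sum_const_zero, ite_self]
    _ = if l ∈ D then 1 else 0 := by
        rw [Finset.sum_ite_eq, if_pos (Finset.mem_range.2 hi₀), hroot]
        split_ifs
        · exact inv_mul_cancel₀ hn0
        · exact mul_zero _

theorem sma_projAt_apply (R : SmRep p V) (D : Set (SmLam p)) (j : ℕ) (u : V × V) :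
    smProjAt R D j u = ∑ a ∈ Finset.range (p ^ j), smCx V (smCoef p D j a) (R.rho2 (a : ℤ_[p]) u) := by
  rw [smProjAt, LinearMap.sum_apply]
  rfl

open Classical in
/-- the projector at the level `j` on an eigenvector -/
theorem sma_projAt_eig (R : SmRep p V) (D : Set (SmLam p)) (j : ℕ) (l : SmLam p)
    (hl : l.1 ^ (p ^ j) = 1) (w : V × V) (hw : R.rho2 1 w = smCx V ((l.1 : Circle) : ℂ) w) :
    smProjAt R D j w = smCx V (if l ∈ D then 1 else 0) w := by
  rw [sma_projAt_apply, ← sma_coef_sum D j l hl, sm_cx_sum]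
  refine Finset.sum_congr rfl fun a _ => ?_
  rw [sma_eig_pow R _ w hw, ← sm_cx_mul]

/-- a vector of level `j` is a sum of eigenvectors for the characters `ζ_j^i` -/
theorem sma_decomp (R : SmRep p V) (j : ℕ) (u : V × V) (h1 : u.1 ∈ R.fix j) (h2 : u.2 ∈ R.fix j) :
    ∃ w : ℕ → V × V,
      (∀ i, R.rho2 1 (w i) = smCx V (((smRoot p j i).1 : Circle) : ℂ) (w i)) ∧
        u = ∑ i ∈ Finset.range (p ^ j), w i := by
  have hp : 0 < p := (Fact.out : p.Prime).pos
  have hz := sma_zeta_prim p j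
  have hroot : ∀ i, (((smRoot p j i).1 : Circle) : ℂ) = ((smZeta p j : Circle) : ℂ) ^ i := by
    intro i
    change ((smZeta p j ^ i : Circle) : ℂ) = _
    rw [Circle.coe_pow]
  set z : ℂ := ((smZeta p j : Circle) : ℂ) with hzdef
  have hz0 : z ≠ 0 := Circle.coe_ne_zero _
  have hn0 : ((p : ℂ) ^ j) ≠ 0 := by
    have : (p : ℂ) ≠ 0 := by exact_mod_cast hp.ne'
    exact pow_ne_zero _ this
  refine ⟨fun i => ∑ a ∈ Finset.range (p ^ j),
    smCx V (((p : ℂ) ^ j)⁻¹ * (z ^ (i * a))⁻¹) (R.rho2 (a : ℤ_[p]) u), fun i => ?_, ?_⟩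
  · rw [hroot]
    simp only [map_sum]
    set g : ℕ → V × V := fun a =>
      smCx V (z ^ i * (((p : ℂ) ^ j)⁻¹ * (z ^ (i * a))⁻¹)) (R.rho2 (a : ℤ_[p]) u) with hg
    have e1 : ∀ a : ℕ, R.rho2 1 (smCx V (((p : ℂ) ^ j)⁻¹ * (z ^ (i * a))⁻¹) (R.rho2 (a : ℤ_[p]) u)) =
        g (a + 1) := by
      intro a
      rw [hg]
      simp only
      rw [sm_rho2_cx, ← sm_rho2_add, Nat.cast_succ, add_comm (1 : ℤ_[p])]
      congr 2
      rw [mul_add, mul_one, pow_add, mul_inv]
      field_simp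
    have e2 : ∀ a : ℕ, smCx V (z ^ i) (smCx V (((p : ℂ) ^ j)⁻¹ * (z ^ (i * a))⁻¹)
        (R.rho2 (a : ℤ_[p]) u)) = g a := by
      intro a
      rw [← sm_cx_mul]
    simp only [e1, e2]
    have e3 : g (p ^ j) = g 0 := by
      rw [hg]
      simp only
      have c1 : ((p ^ j : ℕ) : ℤ_[p]) = (p : ℤ_[p]) ^ j * 1 := by push_cast; ring
      rw [c1, sm_rho2_fix R h1 h2, Nat.cast_zero, sm_rho2_zero, mul_comm i, pow_mul, hz.pow_eq_one,
        one_pow, mul_zero, pow_zero]
    have e4 := Finset.sum_range_succ g (p ^ j)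
    rw [Finset.sum_range_succ', e3] at e4
    exact add_right_cancel e4
  · rw [Finset.sum_comm]
    have e1 : ∀ a ∈ Finset.range (p ^ j), ∑ i ∈ Finset.range (p ^ j),
        smCx V (((p : ℂ) ^ j)⁻¹ * (z ^ (i * a))⁻¹) (R.rho2 (a : ℤ_[p]) u) =
        if 0 = a then R.rho2 (a : ℤ_[p]) u else 0 := by
      intro a ha
      rw [← sm_cx_sum, ← Finset.mul_sum]
      have := sma_orth p j a 0 (Finset.mem_range.1 ha) (by positivity)
      simp only [pow_zero, one_pow, mul_one] at this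
      have e5 : ∑ i ∈ Finset.range (p ^ j), (z ^ (i * a))⁻¹ =
          ∑ i ∈ Finset.range (p ^ j), (z ^ (a * i))⁻¹ :=
        Finset.sum_congr rfl fun i _ => by rw [mul_comm]
      rw [e5, this]
      by_cases h0 : a = 0
      · rw [if_pos h0, if_pos h0.symm, inv_mul_cancel₀ hn0, sm_cx_one]
      · rw [if_neg h0, if_neg (Ne.symm h0), mul_zero, sm_cx_zero]
    rw [Finset.sum_congr rfl e1, Finset.sum_ite_eq, if_pos (Finset.mem_range.2 (by positivity)),
      Nat.cast_zero, sm_rho2_zero]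

theorem sma_projAt_le (R : SmRep p V) (D : Set (SmLam p)) {j j' : ℕ} (hjj : j ≤ j') (u : V × V)
    (h1 : u.1 ∈ R.fix j) (h2 : u.2 ∈ R.fix j) : smProjAt R D j u = smProjAt R D j' u := by
  classical
  have hp : 0 < p := (Fact.out : p.Prime).pos
  obtain ⟨w, hw, hu⟩ := sma_decomp R j u h1 h2
  rw [hu, map_sum, map_sum]
  refine Finset.sum_congr rfl fun i _ => ?_
  have hl : (smRoot p j i).1 ^ (p ^ j) = 1 := by
    change (smZeta p j ^ i) ^ (p ^ j) = 1
    rw [← pow_mul, mul_comm, pow_mul, smZeta_pow p j hp, one_pow]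
  have hl' : (smRoot p j i).1 ^ (p ^ j') = 1 := by
    obtain ⟨e, rfl⟩ := Nat.exists_eq_add_of_le hjj
    rw [pow_add, pow_mul, hl, one_pow]
  rw [sma_projAt_eig R D j _ hl _ (hw i), sma_projAt_eig R D j' _ hl' _ (hw i)]

/-- INDEPENDENCE OF THE LEVEL (by the decomposition into eigenvectors). -/
theorem sma_projAt_indep (R : SmRep p V) (D : Set (SmLam p)) {j j' : ℕ} (u : V × V)
    (h1 : u.1 ∈ R.fix j) (h2 : u.2 ∈ R.fix j) (h1' : u.1 ∈ R.fix j') (h2' : u.2 ∈ R.fix j') :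
    smProjAt R D j u = smProjAt R D j' u := by
  rw [sma_projAt_le R D (le_max_left j j') u h1 h2, sma_projAt_le R D (le_max_right j j') u h1' h2']

/-- THE SPECTRAL PROJECTOR `e(D)` -/
noncomputable def smProj (R : SmRep p V) (D : Set (SmLam p)) : V × V →ₗ[ℝ] V × V where
  toFun u := smProjAt R D (R.lev u) u
  map_add' u v := by
    have hu := R.lev_spec u
    have hv := R.lev_spec v
    have huv := R.lev_spec (u + v)
    have hu1 := R.fix_mono (le_max_left (R.lev u) (R.lev v)) hu.1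
    have hu2 := R.fix_mono (le_max_left (R.lev u) (R.lev v)) hu.2
    have hv1 := R.fix_mono (le_max_right (R.lev u) (R.lev v)) hv.1
    have hv2 := R.fix_mono (le_max_right (R.lev u) (R.lev v)) hv.2
    rw [sma_projAt_indep R D u hu.1 hu.2 hu1 hu2, sma_projAt_indep R D v hv.1 hv.2 hv1 hv2,
      sma_projAt_indep R D (u + v) huv.1 huv.2 ((R.fix _).add_mem hu1 hv1) ((R.fix _).add_mem hu2 hv2),
      map_add]
  map_smul' c u := by
    have hu := R.lev_spec u
    have hcu := R.lev_spec (c • u)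
    rw [sma_projAt_indep R D (c • u) hcu.1 hcu.2 ((R.fix _).smul_mem c hu.1) ((R.fix _).smul_mem c hu.2),
      map_smul]
    rfl

theorem sm_proj_eq (R : SmRep p V) (D : Set (SmLam p)) (j : ℕ) (u : V × V) (h1 : u.1 ∈ R.fix j)
    (h2 : u.2 ∈ R.fix j) : smProj R D u = smProjAt R D j u := by
  have h : smProj R D u = smProjAt R D (R.lev u) u := rfl
  rw [h]
  exact sma_projAt_indep R D u (R.lev_spec u).1 (R.lev_spec u).2 h1 h2

/-- the trivial character -/
noncomputable def smOne (p : ℕ) : SmLam p := ⟨1, 0, one_pow _⟩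

/-- THE PROJECTOR ON THE INVARIANTS -/
noncomputable def smAve (R : SmRep p V) : V →ₗ[ℝ] V :=
  LinearMap.fst ℝ V V ∘ₗ smProj R {smOne p} ∘ₗ LinearMap.inl ℝ V V

/-- the orthogonal sum of two copies of a bilinear form -/
def smB2 (b : V →ₗ[ℝ] V →ₗ[ℝ] ℝ) : (V × V) →ₗ[ℝ] (V × V) →ₗ[ℝ] ℝ :=
  b.compl₁₂ (LinearMap.fst ℝ V V) (LinearMap.fst ℝ V V) + b.compl₁₂ (LinearMap.snd ℝ V V) (LinearMap.snd ℝ V V)

/-- realises the equation lemmas here (unique names) -/
theorem sm_alg_defs_eqns_cite : True := by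
  have := @SmRep.fix.eq_1
  have := @smJ.eq_1
  have := @smCx.eq_1
  have := @SmRep.rho2.eq_1
  have := @smRoot.eq_1
  have := @smCoef.eq_1
  have := @smProjAt.eq_1
  have := @SmRep.lev.eq_1
  have := @smProj.eq_1
  have := @smOne.eq_1
  have := @smAve.eq_1
  have := @smB2.eq_1
  trivial

end Claimed.Agent.R304
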