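/-
Row 304 (S0559, Hilbert-Smith).  Owner: helper89 (statements), helper181 (proofs: by decomposition into eigenvectors of `ρ2(1)`, see `sma_induction`, `sma_proj_eig`; `sm_J_apply`, `sm_cx_*` are now in SmAlgDefs).  PACKAGE SmAlg (~1000 lines, pure algebra; may be split: #Coef = the facts on `smCoef`, #Proj = the rest).

NOTATION.  `n = p^j`, `ζ = ζ_j`, `c_D(a) = smCoef p D j a = n⁻¹ ∑_{i<n, ζ^i ∈ D} ζ^{-ia}`,  `E_D = smProjAt R D j = ∑_{a<n} c_D(a) ρ2(a)` on `W_j = fix j × fix j`.
On `W_j` the operators `ρ2(a)` only depend on `a mod n` (`sma_rho_mod`), `ρ2(a) ρ2(b) = ρ2(a+b)`, they commute with `smCx z`, and `smCx` is a ring homomorphism `ℂ → End`.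
FACTS ON COEFFICIENTS (orthogonality of characters of `ℤ/n`: `∑_{a<n} ζ^{(i-i')a} = n [i = i']` for `i,i' < n`; `IsPrimitiveRoot.geom_sum_eq_zero` or `AddChar.sum_eq_ite`):
 (c1) convolution: `∑_{a+b ≡ s} c_D(a) c_{D'}(b) = c_{D ∩ D'}(s)`;   (c2) `c_{D ∪ D'} = c_D + c_{D'}` for disjoint sets;   (c3) `c_univ(a) = [a ≡ 0]`;
 (c4) `conj c_D(a) = c_D(n - a)`;   (c5) shift, `k ≤ j`: `c_{ζ_k D}(a) = ζ_k^{-a} c_D(a)`  (`ζ_k = ζ_j^{p^{j-k}}`, reindex `i ↦ i + p^{j-k}` mod `n`);  (c6) `c_{{1}}(a) = n⁻¹`.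
CONSEQUENCES: (1) from (c1); (2) from (c2); (3) from (c3); (4), (5) from the formula; (6): `smJ` is skew for `smB2 b`, so `smCx z` has the adjoint `smCx (conj z)`; `ρ2(a)` has the adjoint `ρ2(-a) = ρ2(n-a)` on `W_j`; (c4).
 (7): take `j ≥ k` a level of `u` and of `M u`:  `E_{ζ_k D} M u = ∑_a c_{ζ_k D}(a) ρ2(a) M u = ∑_a ζ_k^{-a} c_D(a) ζ_k^{a} M ρ2(a) u = M E_D u`.
-/
import Claimed.Agent.R304.SmAlgDefs

set_option autoImplicit false

namespace Claimed.Agent.R304

variable {p : ℕ} [Fact p.Prime] {V V' : Type} [AddCommGroup V] [Module ℝ V] [AddCommGroup V'] [Module ℝ V']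

/-! ### eigenvectors -/

/-- INDUCTION PRINCIPLE: every vector is a finite sum of eigenvectors of `ρ2(1)` for characters. -/
theorem sma_induction (R : SmRep p V) {P : V × V → Prop} (h0 : P 0)
    (hadd : ∀ u v, P u → P v → P (u + v))
    (heig : ∀ (l : SmLam p) (w : V × V), R.rho2 1 w = smCx V ((l.1 : Circle) : ℂ) w → P w)
    (u : V × V) : P u := by
  obtain ⟨w, hw, hu⟩ := sma_decomp R (R.lev u) u (R.lev_spec u).1 (R.lev_spec u).2
  rw [hu]
  exact Finset.sum_induction _ P hadd h0 fun i _ => heig _ _ (hw i)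

open Classical in
theorem sma_proj_eig (R : SmRep p V) (D : Set (SmLam p)) (l : SmLam p) (w : V × V)
    (hw : R.rho2 1 w = smCx V ((l.1 : Circle) : ℂ) w) :
    smProj R D w = if l ∈ D then w else 0 := by
  obtain ⟨j₀, hj₀⟩ := l.2
  have hl : l.1 ^ (p ^ (max (R.lev w) j₀)) = 1 := by
    obtain ⟨e, he⟩ := Nat.exists_eq_add_of_le (le_max_right (R.lev w) j₀)
    rw [he, pow_add, pow_mul, hj₀, one_pow]
  rw [sm_proj_eq R D (max (R.lev w) j₀) w (R.fix_mono (le_max_left _ _) (R.lev_spec w).1)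
    (R.fix_mono (le_max_left _ _) (R.lev_spec w).2), sma_projAt_eig R D _ l hl w hw]
  split_ifs
  · exact sm_cx_one w
  · exact sm_cx_zero w

theorem sma_proj_eig_mem (R : SmRep p V) {D : Set (SmLam p)} {l : SmLam p} (hl : l ∈ D) (w : V × V)
    (hw : R.rho2 1 w = smCx V ((l.1 : Circle) : ℂ) w) : smProj R D w = w := by
  rw [sma_proj_eig R D l w hw, if_pos hl]

theorem sma_proj_eig_not_mem (R : SmRep p V) {D : Set (SmLam p)} {l : SmLam p} (hl : l ∉ D)
    (w : V × V) (hw : R.rho2 1 w = smCx V ((l.1 : Circle) : ℂ) w) : smProj R D w = 0 := by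
  rw [sma_proj_eig R D l w hw, if_neg hl]

/-- a linear map which commutes with `i` commutes with the complex scalars -/
theorem sma_map_cx (T : V × V →ₗ[ℝ] V' × V') (hJ : ∀ u, T (smJ V u) = smJ V' (T u)) (z : ℂ)
    (u : V × V) : T (smCx V z u) = smCx V' z (T u) := by
  rw [sm_cx_def, sm_cx_def, map_add, map_smul, map_smul, hJ]

/-! ### the projectors -/

/-- (1) -/
theorem sm_proj_mul (R : SmRep p V) (D D' : Set (SmLam p)) (u : V × V) :
    smProj R D (smProj R D' u) = smProj R (D ∩ D') u := by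
  refine sma_induction R (P := fun u => smProj R D (smProj R D' u) = smProj R (D ∩ D') u)
    (by simp only [map_zero]) (fun u v hu hv => by simp only [map_add, hu, hv]) (fun l w hw => ?_) u
  by_cases h' : l ∈ D'
  · rw [sma_proj_eig_mem R h' w hw]
    by_cases h : l ∈ D
    · rw [sma_proj_eig_mem R h w hw, sma_proj_eig_mem R (⟨h, h'⟩ : l ∈ D ∩ D') w hw]
    · rw [sma_proj_eig_not_mem R h w hw, sma_proj_eig_not_mem R (fun hh => h hh.1) w hw]
  · rw [sma_proj_eig_not_mem R h' w hw, map_zero, sma_proj_eig_not_mem R (fun hh => h' hh.2) w hw]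

/-- (2) -/
theorem sm_proj_union (R : SmRep p V) (D D' : Set (SmLam p)) (h : Disjoint D D') (u : V × V) :
    smProj R (D ∪ D') u = smProj R D u + smProj R D' u := by
  refine sma_induction R (P := fun u => smProj R (D ∪ D') u = smProj R D u + smProj R D' u)
    (by simp only [map_zero, add_zero])
    (fun u v hu hv => by simp only [map_add, hu, hv]; abel) (fun l w hw => ?_) u
  by_cases h1 : l ∈ D
  · have h2 : l ∉ D' := fun h2 => Set.disjoint_left.1 h h1 h2
    rw [sma_proj_eig_mem R (Or.inl h1 : l ∈ D ∪ D') w hw, sma_proj_eig_mem R h1 w hw,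
      sma_proj_eig_not_mem R h2 w hw, add_zero]
  · by_cases h2 : l ∈ D'
    · rw [sma_proj_eig_mem R (Or.inr h2 : l ∈ D ∪ D') w hw, sma_proj_eig_not_mem R h1 w hw,
        sma_proj_eig_mem R h2 w hw, zero_add]
    · rw [sma_proj_eig_not_mem R (fun hh => hh.elim h1 h2 : l ∉ D ∪ D') w hw,
        sma_proj_eig_not_mem R h1 w hw, sma_proj_eig_not_mem R h2 w hw, add_zero]

/-- (3) -/
theorem sm_proj_univ (R : SmRep p V) (u : V × V) : smProj R Set.univ u = u := by
  refine sma_induction R (P := fun u => smProj R Set.univ u = u)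
    (by simp only [map_zero]) (fun u v hu hv => by simp only [map_add, hu, hv]) (fun l w hw => ?_) u
  exact sma_proj_eig_mem R (Set.mem_univ l) w hw

theorem sm_proj_empty (R : SmRep p V) (u : V × V) : smProj R ∅ u = 0 := by
  refine sma_induction R (P := fun u => smProj R ∅ u = 0)
    (by simp only [map_zero]) (fun u v hu hv => by simp only [map_add, hu, hv, add_zero])
    (fun l w hw => ?_) u
  exact sma_proj_eig_not_mem R (Set.notMem_empty l) w hw

/-- (4) naturality -/
theorem sm_proj_nat (R : SmRep p V) (R' : SmRep p V') (T : V × V →ₗ[ℝ] V' × V')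
    (hJ : ∀ u, T (smJ V u) = smJ V' (T u)) (hr : ∀ a u, T (R.rho2 a u) = R'.rho2 a (T u))
    (D : Set (SmLam p)) (u : V × V) : T (smProj R D u) = smProj R' D (T u) := by
  refine sma_induction R (P := fun u => T (smProj R D u) = smProj R' D (T u))
    (by simp only [map_zero]) (fun u v hu hv => by simp only [map_add, hu, hv]) (fun l w hw => ?_) u
  have hw' : R'.rho2 1 (T w) = smCx V' ((l.1 : Circle) : ℂ) (T w) := by
    rw [← hr, hw, sma_map_cx T hJ]
  by_cases h : l ∈ D
  · rw [sma_proj_eig_mem R h w hw, sma_proj_eig_mem R' h _ hw']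
  · rw [sma_proj_eig_not_mem R h w hw, sma_proj_eig_not_mem R' h _ hw', map_zero]

/-- (5) `e(D) u` is a combination of the translates of `u` and `i u` -/
theorem sm_proj_span (R : SmRep p V) (D : Set (SmLam p)) (u : V × V) :
    smProj R D u ∈ Submodule.span ℝ {w | ∃ a, w = R.rho2 a u ∨ w = smJ V (R.rho2 a u)} := by
  rw [sm_proj_eq R D (R.lev u) u (R.lev_spec u).1 (R.lev_spec u).2, sma_projAt_apply]
  refine Submodule.sum_mem _ fun a _ => ?_
  rw [sm_cx_def]
  exact Submodule.add_mem _ (Submodule.smul_mem _ _ (Submodule.subset_span ⟨a, Or.inl rfl⟩))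
    (Submodule.smul_mem _ _ (Submodule.subset_span ⟨a, Or.inr rfl⟩))

theorem sm_B2_apply (b : V →ₗ[ℝ] V →ₗ[ℝ] ℝ) (u v : V × V) :
    smB2 b u v = b u.1 v.1 + b u.2 v.2 := rfl

/-- eigenvectors for different characters are orthogonal for an invariant form -/
theorem sma_orthogonal (R : SmRep p V) (b : V →ₗ[ℝ] V →ₗ[ℝ] ℝ)
    (hb : ∀ a x y, b (R.rho a x) (R.rho a y) = b x y) {l m : SmLam p} (hlm : l ≠ m) (x y : V × V)
    (hx : R.rho2 1 x = smCx V ((l.1 : Circle) : ℂ) x)
    (hy : R.rho2 1 y = smCx V ((m.1 : Circle) : ℂ) y) : smB2 b x y = 0 := by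
  have hinv : ∀ u v : V × V, smB2 b (R.rho2 1 u) (R.rho2 1 v) = smB2 b u v := by
    intro u v
    rw [sm_B2_apply, sm_B2_apply, sm_rho2_apply, sm_rho2_apply, hb, hb]
  set lr : ℝ := (((l.1 : Circle) : ℂ)).re with hlr
  set li : ℝ := (((l.1 : Circle) : ℂ)).im with hli
  set mr : ℝ := (((m.1 : Circle) : ℂ)).re with hmr
  set mi : ℝ := (((m.1 : Circle) : ℂ)).im with hmi
  have hl1 : lr ^ 2 + li ^ 2 = 1 := by
    have := Circle.normSq_coe l.1
    rw [Complex.normSq_apply] at this
    nlinarith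
  have hm1 : mr ^ 2 + mi ^ 2 = 1 := by
    have := Circle.normSq_coe m.1
    rw [Complex.normSq_apply] at this
    nlinarith
  set A : ℝ := b x.1 y.1 + b x.2 y.2 with hA
  set B : ℝ := -b x.2 y.1 + b x.1 y.2 with hB
  -- the two relations
  have r1 : A = (lr * mr + li * mi) * A + (li * mr - lr * mi) * B := by
    have := hinv x y
    rw [hx, hy, sm_cx_apply, sm_cx_apply, sm_B2_apply, sm_B2_apply] at this
    simp only [map_sub, map_add, map_smul, LinearMap.sub_apply, LinearMap.add_apply,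
      LinearMap.smul_apply, smul_eq_mul] at this
    rw [hA, hB]
    linarith
  have r2 : B = (lr * mr + li * mi) * B - (li * mr - lr * mi) * A := by
    have hJx : R.rho2 1 (smJ V x) = smCx V ((l.1 : Circle) : ℂ) (smJ V x) := by
      rw [sm_rho2_J, hx, sm_cx_def, sm_cx_def, map_add, map_smul, map_smul]
    have := hinv (smJ V x) y
    rw [hJx, hy, sm_cx_apply, sm_cx_apply, sm_B2_apply, sm_B2_apply, sm_J_apply] at this
    simp only [map_sub, map_add, map_smul, map_neg, LinearMap.sub_apply, LinearMap.add_apply,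
      LinearMap.smul_apply, LinearMap.neg_apply, smul_eq_mul] at this
    rw [hA, hB]
    linarith
  set θr : ℝ := lr * mr + li * mi with hθr
  set θi : ℝ := li * mr - lr * mi with hθi
  have hne : (1 - θr) ^ 2 + θi ^ 2 ≠ 0 := by
    intro h
    have h1 : 1 - θr = 0 := by nlinarith [sq_nonneg (1 - θr), sq_nonneg θi]
    have h2 : θi = 0 := by nlinarith [sq_nonneg (1 - θr), sq_nonneg θi]
    apply hlm
    apply Subtype.ext
    apply Circle.ext
    apply Complex.ext
    · change lr = mr
      have : lr = θr * mr - θi * mi := by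
        rw [hθr, hθi]
        linear_combination (-lr) * hm1
      rw [this, h2]
      have : θr = 1 := by linarith
      rw [this]
      ring
    · change li = mi
      have : li = θr * mi + θi * mr := by
        rw [hθr, hθi]
        linear_combination (-li) * hm1
      rw [this, h2]
      have : θr = 1 := by linarith
      rw [this]
      ring
  have hfin : ((1 - θr) ^ 2 + θi ^ 2) * A = 0 := by
    have e1 : (1 - θr) * A = θi * B := by linarith
    have e2 : (1 - θr) * B = -θi * A := by linarith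
    calc ((1 - θr) ^ 2 + θi ^ 2) * A = (1 - θr) * ((1 - θr) * A) + θi ^ 2 * A := by ring
      _ = (1 - θr) * (θi * B) + θi ^ 2 * A := by rw [e1]
      _ = θi * ((1 - θr) * B) + θi ^ 2 * A := by ring
      _ = θi * (-θi * A) + θi ^ 2 * A := by rw [e2]
      _ = 0 := by ring
  rw [sm_B2_apply]
  exact (mul_eq_zero.1 hfin).resolve_left hne

/-- (6) self adjointness for invariant forms -/
theorem sm_proj_adj (R : SmRep p V) (b : V →ₗ[ℝ] V →ₗ[ℝ] ℝ) (hb : ∀ a x y, b (R.rho a x) (R.rho a y) = b x y)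
    (D : Set (SmLam p)) (u v : V × V) : smB2 b (smProj R D u) v = smB2 b u (smProj R D v) := by
  refine sma_induction R (P := fun u => smB2 b (smProj R D u) v = smB2 b u (smProj R D v))
    (by simp only [map_zero, LinearMap.zero_apply])
    (fun u u' hu hu' => by simp only [map_add, LinearMap.add_apply, hu, hu']) (fun l x hx => ?_) u
  refine sma_induction R (P := fun v => smB2 b (smProj R D x) v = smB2 b x (smProj R D v))
    (by simp only [map_zero])
    (fun v v' hv hv' => by simp only [map_add, hv, hv']) (fun m y hy => ?_) v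
  by_cases hl : l ∈ D
  · rw [sma_proj_eig_mem R hl x hx]
    by_cases hm : m ∈ D
    · rw [sma_proj_eig_mem R hm y hy]
    · rw [sma_proj_eig_not_mem R hm y hy, map_zero]
      exact sma_orthogonal R b hb (fun h : l = m => hm (h ▸ hl)) x y hx hy
  · rw [sma_proj_eig_not_mem R hl x hx, map_zero, LinearMap.zero_apply]
    by_cases hm : m ∈ D
    · rw [sma_proj_eig_mem R hm y hy]
      exact (sma_orthogonal R b hb (fun h : l = m => hl (h ▸ hm)) x y hx hy).symm
    · rw [sma_proj_eig_not_mem R hm y hy, map_zero]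

theorem smRot_injective (p : ℕ) [Fact p.Prime] (k : ℕ) : Function.Injective (smRot p k) := by
  intro l m h
  apply Subtype.ext
  have := congrArg Subtype.val h
  exact mul_left_cancel this

/-- (7) the shift -/
theorem sm_proj_shift (R : SmRep p V) (k : ℕ) (M : V × V →ₗ[ℝ] V × V) (hJ : ∀ u, M (smJ V u) = smJ V (M u))
    (hM : ∀ a u, R.rho2 a (M u) =
      smCx V (((smZeta p k : Circle) : ℂ) ^ (PadicInt.toZModPow k a).val) (M (R.rho2 a u)))
    (D : Set (SmLam p)) (u : V × V) : smProj R (smRot p k '' D) (M u) = M (smProj R D u) := by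
  have hp : 0 < p := (Fact.out : p.Prime).pos
  refine sma_induction R (P := fun u => smProj R (smRot p k '' D) (M u) = M (smProj R D u))
    (by simp only [map_zero]) (fun u v hu hv => by simp only [map_add, hu, hv]) (fun l w hw => ?_) u
  have hval : ((smZeta p k : Circle) : ℂ) ^ (PadicInt.toZModPow k (1 : ℤ_[p])).val =
      ((smZeta p k : Circle) : ℂ) := by
    rw [map_one, ZMod.val_one_eq_one_mod]
    rcases Nat.eq_zero_or_pos k with rfl | hk
    · have h1 := smZeta_pow p 0 hp
      rw [pow_zero, pow_one] at h1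
      rw [h1]
      simp
    · have : 1 < p ^ k := Nat.one_lt_pow hk.ne' (Fact.out : p.Prime).one_lt
      rw [Nat.mod_eq_of_lt this, pow_one]
  have hw' : R.rho2 1 (M w) = smCx V (((smRot p k l).1 : Circle) : ℂ) (M w) := by
    rw [hM, hval, hw, sma_map_cx M hJ, ← sm_cx_mul]
    congr 2
  by_cases h : l ∈ D
  · rw [sma_proj_eig_mem R h w hw, sma_proj_eig_mem R (Set.mem_image_of_mem _ h) _ hw']
  · rw [sma_proj_eig_not_mem R h w hw,
      sma_proj_eig_not_mem R (fun hh => h ((smRot_injective p k).mem_set_image.1 hh)) _ hw', map_zero]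

/-! ### the average -/

theorem sma_exists_nat (a : ℤ_[p]) (j : ℕ) :
    ∃ (a₀ : ℕ) (c : ℤ_[p]), a = (a₀ : ℤ_[p]) + (p : ℤ_[p]) ^ j * c := by
  obtain ⟨c, hc⟩ := Ideal.mem_span_singleton'.1 (PadicInt.appr_spec j a)
  exact ⟨a.appr j, c, by rw [mul_comm, hc]; ring⟩

theorem sma_coef_one (j a : ℕ) : smCoef p {smOne p} j a = ((p : ℂ) ^ j)⁻¹ := by
  classical
  have hp : 0 < p := (Fact.out : p.Prime).pos
  rw [smCoef, Finset.sum_eq_single 0]
  · have : smRoot p j 0 ∈ ({smOne p} : Set (SmLam p)) := by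
      rw [Set.mem_singleton_iff]
      apply Subtype.ext
      exact pow_zero _
    rw [if_pos this]
    simp
  · intro i hi hi0
    rw [if_neg]
    intro h
    rw [Set.mem_singleton_iff] at h
    exact smZeta_pow_ne_one p j i (Nat.pos_of_ne_zero hi0) (Finset.mem_range.1 hi)
      (congrArg Subtype.val h)
  · intro h
    exact absurd (Finset.mem_range.2 (by positivity)) h

theorem sm_ave_def (R : SmRep p V) (v : V) : smAve R v = (smProj R {smOne p} (v, 0)).1 := rfl

theorem sm_ave_eq (R : SmRep p V) (j : ℕ) (v : V) (hv : v ∈ R.fix j) :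
    smAve R v = ((p : ℝ) ^ j)⁻¹ • ∑ a ∈ Finset.range (p ^ j), R.rho (a : ℤ_[p]) v := by
  have hc : ((p : ℂ) ^ j)⁻¹ = ((((p : ℝ) ^ j)⁻¹ : ℝ) : ℂ) := by push_cast; rfl
  rw [sm_ave_def, sm_proj_eq R _ j (v, 0) hv (R.fix j).zero_mem, sma_projAt_apply, Prod.fst_sum,
    Finset.smul_sum]
  refine Finset.sum_congr rfl fun a _ => ?_
  rw [sma_coef_one, hc, sm_cx_apply, sm_rho2_apply, Complex.ofReal_re, Complex.ofReal_im]
  simp

/-- the image of `e({1})` consists of invariant vectors -/
theorem sma_proj_one_fixed (R : SmRep p V) (u : V × V) :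
    R.rho2 1 (smProj R {smOne p} u) = smProj R {smOne p} u := by
  refine sma_induction R (P := fun u => R.rho2 1 (smProj R {smOne p} u) = smProj R {smOne p} u)
    (by simp only [map_zero]) (fun u v hu hv => by simp only [map_add, hu, hv]) (fun l w hw => ?_) u
  by_cases h : l ∈ ({smOne p} : Set (SmLam p))
  · rw [sma_proj_eig_mem R h w hw, hw]
    rw [Set.mem_singleton_iff] at h
    rw [h]
    change smCx V ((1 : Circle) : ℂ) w = w
    rw [Circle.coe_one, sm_cx_one]
  · rw [sma_proj_eig_not_mem R h w hw, map_zero]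

theorem sma_rho2_of_one (R : SmRep p V) (w : V × V) (h : R.rho2 1 w = w) (a : ℤ_[p]) :
    R.rho2 a w = w := by
  obtain ⟨a₀, c, rfl⟩ := sma_exists_nat a (R.lev w)
  rw [sm_rho2_add, sm_rho2_fix R (R.lev_spec w).1 (R.lev_spec w).2,
    sma_eig_pow R 1 w (by rw [h, sm_cx_one]), one_pow, sm_cx_one]

theorem sma_proj_rho2 (R : SmRep p V) (D : Set (SmLam p)) (a : ℤ_[p]) (u : V × V) :
    smProj R D (R.rho2 a u) = R.rho2 a (smProj R D u) :=
  (sm_proj_nat R R (R.rho2 a) (sm_rho2_J R a)
    (fun b u => by rw [← sm_rho2_add, ← sm_rho2_add, add_comm]) D u).symm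

theorem sm_ave_rho (R : SmRep p V) (a : ℤ_[p]) (v : V) : smAve R (R.rho a v) = smAve R v := by
  have e : (R.rho a v, (0 : V)) = R.rho2 a (v, 0) := by rw [sm_rho2_apply, map_zero]
  rw [sm_ave_def, sm_ave_def, e, sma_proj_rho2, sma_rho2_of_one R _ (sma_proj_one_fixed R _)]

theorem sm_rho_ave (R : SmRep p V) (a : ℤ_[p]) (v : V) : R.rho a (smAve R v) = smAve R v := by
  have := sma_rho2_of_one R _ (sma_proj_one_fixed R (v, 0)) a
  rw [sm_ave_def]
  exact congrArg Prod.fst this

theorem sm_ave_nat (R : SmRep p V) (R' : SmRep p V') (T : V →ₗ[ℝ] V') (hr : ∀ a v, T (R.rho a v) = R'.rho a (T v))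
    (v : V) : T (smAve R v) = smAve R' (T v) := by
  have := sm_proj_nat R R' (T.prodMap T)
    (fun u => by
      rw [sm_J_apply, sm_J_apply]
      simp [LinearMap.prodMap_apply])
    (fun a u => by
      rw [sm_rho2_apply, sm_rho2_apply]
      simp [LinearMap.prodMap_apply, hr]) {smOne p} (v, 0)
  rw [sm_ave_def, sm_ave_def]
  have e : (T.prodMap T) (v, 0) = (T v, 0) := by simp [LinearMap.prodMap_apply]
  rw [e] at this
  rw [← this]
  rfl

/-- a functional which is invariant on a subspace stable under the action is not changed there by averaging -/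
theorem sm_ave_inv (R : SmRep p V) (I : V →ₗ[ℝ] ℝ) (v : V) (h : ∀ a, I (R.rho a v) = I v) :
    I (smAve R v) = I v := by
  have hp : 0 < p := (Fact.out : p.Prime).pos
  obtain ⟨j, hj⟩ := R.smooth v
  rw [sm_ave_eq R j v hj, map_smul, map_sum]
  simp only [h, Finset.sum_const, Finset.card_range, smul_eq_mul, nsmul_eq_mul]
  have : ((p : ℝ) ^ j) ≠ 0 := by positivity
  push_cast
  field_simp

end Claimed.Agent.R304
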