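/-
Row 304 (S0559, Hilbert-Smith).  Owner: helper231.  LAYER S, package `FcGenThm` (prefix `fcp`): generated classes.

* `fcp_gen_le`, `fcp_thick_le`     the induction principles: `FcGen G ≤ P` as soon as `G ≤ P` (`P` any `FcPre`; thick: `P.Summ`).
* `fcp_mk`                         a predicate which contains `0` and is closed under rescaling, cones and (both directions of)
                                   maps with locally acyclic cone satisfies ALL rules of `FcPre` (rotation of cones).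
* `fcp_gen_dual`, `fcp_thick_dual` closure under duals is inherited from the generators.
* `fcp_complement`, `fcp_double`   (COMPLEMENT) `A ∈ FcThick G ⇒ A × Aᶜ ∈ FcGen G` for some `Aᶜ`, and `A × A<-1> ∈ FcGen G`.
-/
import Claimed.Agent.R304.FcFunDefs

set_option autoImplicit false

namespace Claimed.Agent.R304

open Topology

variable {X : Type} [TopologicalSpace X]

theorem fcp_gen_le [T2Space X] (G : FcD X → Prop) (P : FcPre X) (h : ∀ A, G A → P.mem A) :
    ∀ A, FcGen G A → P.mem A := by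
  intro A hA
  induction hA with
  | gen hG => exact h _ hG
  | iso e _ ih => exact P.iso e ih
  | acyc hA => exact P.acyc hA
  | resc c hc _ ih => exact P.resc c hc ih
  | cone f _ _ ihA ihB => exact P.cone f ihA ihB
  | cone_src f _ _ ihB ihC => exact P.cone_src f ihB ihC
  | cone_tgt f _ _ ihA ihC => exact P.cone_tgt f ihA ihC

theorem fcp_thick_le [T2Space X] (G : FcD X → Prop) (P : FcPre X) (hS : P.Summ) (h : ∀ A, G A → P.mem A) :
    ∀ A, FcThick G A → P.mem A := by
  intro A hA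
  induction hA with
  | gen hG => exact h _ hG
  | iso e _ ih => exact P.iso e ih
  | acyc hA => exact P.acyc hA
  | resc c hc _ ih => exact P.resc c hc ih
  | cone f _ _ ihA ihB => exact P.cone f ihA ihB
  | cone_src f _ _ ihB ihC => exact P.cone_src f ihB ihC
  | cone_tgt f _ _ ihA ihC => exact P.cone_tgt f ihA ihC
  | summand _ ih => exact hS _ _ ih

theorem fcp_gen_le_thick [T2Space X] (G : FcD X → Prop) : ∀ A, FcGen G A → FcThick G A :=
  fcp_gen_le G (fcpThick G) (fun _ h => FcThick.gen h)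

theorem fcp_gen_mono [T2Space X] {G G' : FcD X → Prop} (h : ∀ A, G A → FcGen G' A) :
    ∀ A, FcGen G A → FcGen G' A :=
  fcp_gen_le G (fcpGen G') h

theorem fcp_thick_summ [T2Space X] (G : FcD X → Prop) : (fcpThick G).Summ :=
  fun _ _ h => FcThick.summand h

theorem fcp_thick_mono [T2Space X] {G G' : FcD X → Prop} (h : ∀ A, G A → FcThick G' A) :
    ∀ A, FcThick G A → FcThick G' A :=
  fcp_thick_le G (fcpThick G') (fcp_thick_summ G') h

/-- ROTATION.  A predicate containing `0`, closed under rescaling, cones and equivalences (maps with locally acyclic cone,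
in both directions) satisfies all the rules of `FcPre`.
Proof.  iso: `fcp_iso_cone_mem (fcpAcyc X)`.  acyc: `0 → A` is an equivalence (`fcp_cone_from_zero_iff`).
cone_src: `Q (cone (B → cone f))`; `(fcbExtCone f).iHom.cone.p : cone(in) → cone(0 → A<-1>)` is an equivalence (kernel `cone(1_B)`,
`fcp_ext_p_mem_iff`), `A<-1> → cone(0 → A<-1>)` is an equivalence (`fcp_cone_in_iff`).
cone_tgt: `Q (cone (cone f → A<-1>))`; `(fcbExtCone f).pHom.cone.i : cone(B → 0) → cone(out)` is an equivalence (quotient `cone(1)`),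
`cone(B → 0) → B<-1>` is an equivalence (`fcp_cone_out_iff`). -/
theorem fcp_mk (Q : FcD X → Prop) (zero : Q (fcZero X))
    (resc : ∀ (A : FcD X) (c : ℝ), c ≠ 0 → Q A → Q (A.resc c))
    (cone : ∀ {A B : FcD X} (f : FcHom A B), Q A → Q B → Q (fcCone f))
    (fwd : ∀ {A B : FcD X} (u : FcHom A B), (fcCone u).Acyc → Q A → Q B)
    (bwd : ∀ {A B : FcD X} (u : FcHom A B), (fcCone u).Acyc → Q B → Q A) :
    ∃ P : FcPre X, ∀ A, P.mem A ↔ Q A := by
  have iso : ∀ {A B : FcD X}, FcIso A B → Q A → Q B := fun e h =>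
    fwd e.toHom (fcp_iso_cone_mem (fcpAcyc X) e) h
  have unresc : ∀ (A : FcD X), Q (A.resc (-1)) → Q A := fun A h =>
    iso (fcbRescNegNeg A) (resc _ (-1) (by norm_num) h)
  refine ⟨⟨Q, iso, ?_, fun c hc h => resc _ c hc h, cone, ?_, ?_⟩, fun _ => Iff.rfl⟩
  · intro A hA
    exact fwd (fcbZero (fcZero X) A) ((fcp_cone_from_zero_iff (fcpAcyc X) A).2 hA) zero
  · intro A B f hB hC
    have h1 : Q (fcCone (fcbConeIn f)) := cone _ hB hC
    have h2 : Q (fcCone (fcbZero (fcZero X) (A.resc (-1)))) :=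
      fwd (fcbExtCone f).iHom.cone.p
        ((fcp_ext_p_mem_iff (fcpAcyc X) (fcbExtCone f).iHom.cone).2 (fcb_cone_id_acyc B)) h1
    have h3 : Q (A.resc (-1)) :=
      bwd (fcbConeIn (fcbZero (fcZero X) (A.resc (-1))))
        ((fcp_cone_in_iff (fcpAcyc X) _).2 (fcb_zero_acyc X)) h2
    exact unresc A h3
  · intro A B f hA hC
    have h1 : Q (fcCone (fcbConeOut f)) := cone _ hC (resc _ (-1) (by norm_num) hA)
    have h2 : Q (fcCone (fcbZero B (fcZero X))) :=
      bwd (fcbExtCone f).pHom.cone.i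
        ((fcp_ext_i_mem_iff (fcpAcyc X) (fcbExtCone f).pHom.cone).2 (fcb_cone_id_acyc _)) h1
    have h3 : Q (B.resc (-1)) :=
      fwd (fcbConeOut (fcbZero B (fcZero X)))
        ((fcp_cone_out_iff (fcpAcyc X) _).2 (fcb_zero_acyc X)) h2
    exact unresc B h3

/-- closure under duals is inherited from the generators -/
theorem fcp_gen_dual [T2Space X] (G : FcD X → Prop) (h : ∀ A, G A → FcGen G A.dual) :
    ∀ A, FcGen G A → FcGen G A.dual :=
  fcp_gen_le G (fcpGen G).dualPre h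

theorem fcp_dualPre_summ [T2Space X] (P : FcPre X) (hS : P.Summ) : P.dualPre.Summ :=
  fun A B h => hS _ _ (P.iso (fcfDualProd A B) h)

theorem fcp_thick_dual [T2Space X] (G : FcD X → Prop) (h : ∀ A, G A → FcThick G A.dual) :
    ∀ A, FcThick G A → FcThick G A.dual :=
  fcp_thick_le G (fcpThick G).dualPre (fcp_dualPre_summ _ (fcp_thick_summ G)) h

/-- (COMPLEMENT)  Induction on `FcThick`.  gen: `Aᶜ = 0`.  iso/resc: transport.  acyc: `Aᶜ = 0`.
cone `f : A → B`: `cone(f × 0 : A × Aᶜ → B × Bᶜ)` is an extension... `≅ cone f × (Aᶜ<-1> × Bᶜ)`.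
cone_src/cone_tgt: by rotation from the cone case (use `fcp_mk` for the predicate `Q A := ∃ Aᶜ, FcGen G (A × Aᶜ)`; fwd/bwd: `u × 1`).
summand: `(A × B) × Z ≅ A × (B × Z)`. -/
theorem fcp_complement [T2Space X] (G : FcD X → Prop) (A : FcD X) (hA : FcThick G A) :
    ∃ Ac : FcD X, FcGen G (A.prod Ac) := by
  have key : ∀ {A B : FcD X} (u : FcHom A B) (Z : FcD X), (fcCone u).Acyc →
      (fcCone (u.prodMap (fcId Z))).Acyc := fun u Z hu =>
    (fcpAcyc X).iso (fciConeProd u (fcId Z)).symm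
      (fcp_prod_mem (fcpAcyc X) hu (fcb_cone_id_acyc Z))
  obtain ⟨P, hP⟩ := fcp_mk (fun A : FcD X => ∃ Ac : FcD X, FcGen G (A.prod Ac))
    ⟨fcZero X, fcp_prod_mem (fcpGen G) (fcp_zero_mem _) (fcp_zero_mem _)⟩
    (fun A c hc ⟨Ac, h⟩ => ⟨Ac.resc c, (fcpGen G).iso (fciProdResc A Ac c) ((fcpGen G).resc c hc h)⟩)
    (fun {A B} f ⟨Ac, hA⟩ ⟨Bc, hB⟩ => ⟨fcCone (fcbZero Ac Bc),
      (fcpGen G).iso (fciConeProd f (fcbZero Ac Bc)) ((fcpGen G).cone _ hA hB)⟩)
    (fun {A B} u hu ⟨Ac, hA⟩ => ⟨Ac,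
      (fcpGen G).cone_tgt (u.prodMap (fcId Ac)) hA ((fcpGen G).acyc (key u Ac hu))⟩)
    (fun {A B} u hu ⟨Bc, hB⟩ => ⟨Bc,
      (fcpGen G).cone_src (u.prodMap (fcId Bc)) hB ((fcpGen G).acyc (key u Bc hu))⟩)
  have hS : P.Summ := fun A B h => by
    obtain ⟨Z, hZ⟩ := (hP _).1 h
    exact (hP _).2 ⟨B.prod Z, (fcpGen G).iso (fciProdAssoc A B Z) hZ⟩
  exact (hP _).1 (fcp_thick_le G P hS (fun A hG => (hP _).2
    ⟨fcZero X, fcp_prod_mem (fcpGen G) (FcGen.gen hG) (fcp_zero_mem _)⟩) A hA)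

/-- `cone(0 × 1 : A × Aᶜ → A × Aᶜ) ≅ (A<-1> × A) × cone(1_{Aᶜ})`-type extension; `fcp_ext_*`. -/
theorem fcp_double [T2Space X] (G : FcD X → Prop) (A : FcD X) (hA : FcThick G A) :
    FcGen G (A.prod (A.resc (-1))) := by
  obtain ⟨Ac, h⟩ := fcp_complement G A hA
  have h1 : (fcpGen G).mem (fcCone ((fcbZero A A).prodMap (fcId Ac))) := (fcpGen G).cone _ h h
  have h2 : (fcpGen G).mem ((fcCone (fcbZero A A)).prod (fcCone (fcId Ac))) :=
    (fcpGen G).iso (fciConeProd _ _) h1
  have h3 : (fcpGen G).mem (fcCone (fcbZero A A)) := fcp_prod_left _ h2 (fcp_cone_id_mem _ Ac)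
  exact (fcpGen G).iso (fciProdComm _ _) ((fcpGen G).iso (fciConeZero A A) h3)

end Claimed.Agent.R304
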