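/-
Row 304 (S0559, Hilbert-Smith).  Owner: helper231.  LAYER S, package `FcHtp` (prefix `fch`): elementwise tools.

* `fch_sub_acyc`      criterion: an injective support preserving chain map `Φ : C' → C` with `H(C(W)/C'(W)) = 0` for all opens `W` has acyclic cone.
* `fch_mv_square`     MAYER-VIETORIS SQUARE: `cone(A(U ∩ V) → A(V)) → cone(A(U) → A(U ∪ V))` has locally acyclic cone.
* `fch_mv_mem`        `A(U ∩ V), A(U), A(V) ∈ P ⇒ A(U ∪ V) ∈ P`  (any `FcPre`).
* `fch_res_qi`        `A` acyclic off the closed `C ⊆ V` (`V` open)  ⇒  `A(V) → A` has locally acyclic cone.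
* `fch_wild_cut`      `M` acyclic near the frontier of the open set `U'`.
* `fch_fib_trick`     FIB-TRICK.      * `fch_lift`  lifting through a cone.
* `fch_pushDual`      `g_!(A^∨) → (g_! A)^∨` has locally acyclic cone if `A` is acyclic off a compact set.
* `fch_retract`       a homotopy retract is a direct summand up to equivalence.
-/
import Claimed.Agent.R304.FcGenThm
import Claimed.Agent.R304.FcLG

set_option autoImplicit false

namespace Claimed.Agent.R304

open Topology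

variable {X Y : Type} [TopologicalSpace X] [TopologicalSpace Y]

/-- cycle `(c', c)` of the cone over `W`: `d c = - Φ c'`, so `c = d e + Φ c''`; then `(c', c) = D (c'', e)` (injectivity gives `- d c'' = c'`). -/
theorem fch_sub_acyc {C' C : FcD X} (Φ : FcHom C' C) (hinj : ∀ c', Φ.f c' = 0 → c' = 0)
    (hrel : ∀ W, IsOpen W → ∀ c, C.supp c ⊆ W → (∃ c', C'.supp c' ⊆ W ∧ Φ.f c' = C.d c) →
      ∃ e c'', C.supp e ⊆ W ∧ C'.supp c'' ⊆ W ∧ c = C.d e + Φ.f c'') :
    (fcCone Φ).Acyc := by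
  rintro W hW _ ⟨c', c⟩ hm hd
  have hd' : (-(C'.d c'), Φ.f c' + C.d c) = (0 : C'.C × C.C) := hd
  have h2 : Φ.f c' + C.d c = 0 := congrArg Prod.snd hd'
  have hc' : C'.supp c' ⊆ W := Set.subset_union_left.trans hm
  have hc : C.supp c ⊆ W := Set.subset_union_right.trans hm
  obtain ⟨e, c'', he, hc'', hce⟩ := hrel W hW c hc ⟨-c', (C'.supp_neg _).trans hc', by
    rw [map_neg]; exact neg_eq_of_add_eq_zero_right h2⟩
  refine ⟨(c'', e), Set.union_subset hc'' he, ?_⟩
  show (-(C'.d c''), Φ.f c'' + C.d e) = (c', c)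
  refine Prod.ext ?_ ?_
  · show -(C'.d c'') = c'
    have h3 : Φ.f (C'.d c'' + c') = 0 := by
      rw [map_add, Φ.comm]
      have h4 : C.d c = C.d (Φ.f c'') := by rw [hce, map_add, C.d_sq, zero_add]
      rw [← h4, add_comm]; exact h2
    exact neg_eq_of_add_eq_zero_right (hinj _ h3)
  · show Φ.f c'' + C.d e = c
    rw [hce, add_comm]

/-- the Mayer-Vietoris square: the map of cones induced by the inclusions -/
theorem fch_mv_square [T2Space X] (A : FcD X) {U V : Set X} (hU : IsOpen U) (hV : IsOpen V) :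
    (fcCone (fcbConeMap (f := fcbResMono A (Set.subset_union_left : U ⊆ U ∪ V))
      (f' := fcbResMono A (Set.inter_subset_right : U ∩ V ⊆ V))
      (fcbResMono A (Set.inter_subset_left : U ∩ V ⊆ U))
      (fcbResMono A (Set.subset_union_right : V ⊆ U ∪ V)) (fcbHtpyOfEq fun _ => rfl))).Acyc := by
  apply fch_sub_acyc
  · rintro ⟨b, v⟩ h
    have h1 : b.1 = 0 := congrArg (fun z : (A.res U).C × (A.res (U ∪ V)).C => z.1.1) h
    have h2 : v.1 + 0 = 0 := congrArg (fun z : (A.res U).C × (A.res (U ∪ V)).C => z.2.1) h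
    rw [add_zero] at h2
    exact Prod.ext (Subtype.ext h1) (Subtype.ext h2)
  · rintro W hW ⟨u, m⟩ hc ⟨⟨b, v⟩, hbv, hD⟩
    have hu : A.supp u.1 ⊆ W := Set.subset_union_left.trans hc
    have hm : A.supp m.1 ⊆ W := Set.subset_union_right.trans hc
    have hv : A.supp v.1 ⊆ W := Set.subset_union_right.trans hbv
    have hD2 : v.1 + 0 = u.1 + A.d m.1 :=
      congrArg (fun z : (A.res U).C × (A.res (U ∪ V)).C => z.2.1) hD
    rw [add_zero] at hD2
    obtain ⟨m₁, m₂, hmm, h1, h2⟩ := A.toFcObj.decomp (hU.inter hW) (hV.inter hW) m.1 (by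
      intro x hx
      rcases m.2 hx with h | h
      · exact Or.inl ⟨h, hm hx⟩
      · exact Or.inr ⟨h, hm hx⟩)
    have hm1U : A.supp m₁ ⊆ U := fun x hx => (h1 hx).2.1
    have hm1W : A.supp m₁ ⊆ W := fun x hx => (h1 hx).2.2
    have hm2V : A.supp m₂ ⊆ V := fun x hx => (h2 hx).2.1
    have hm2W : A.supp m₂ ⊆ W := fun x hx => (h2 hx).2.2
    have key : u.1 + A.d m₁ = v.1 - A.d m₂ := by
      rw [hD2, hmm, map_add]; abel
    have hkU : A.supp (u.1 + A.d m₁) ⊆ U :=
      (A.supp_add _ _).trans (Set.union_subset u.2 ((A.d_loc _).trans hm1U))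
    have hkV : A.supp (u.1 + A.d m₁) ⊆ V := by
      rw [key]
      exact (A.supp_sub _ _).trans (Set.union_subset v.2 ((A.d_loc _).trans hm2V))
    have hkW : A.supp (u.1 + A.d m₁) ⊆ W :=
      (A.supp_add _ _).trans (Set.union_subset hu ((A.d_loc _).trans hm1W))
    refine ⟨(⟨m₁, hm1U⟩, 0), (⟨u.1 + A.d m₁, Set.subset_inter hkU hkV⟩, ⟨m₂, hm2V⟩), ?_, ?_, ?_⟩
    · show A.supp m₁ ∪ A.supp 0 ⊆ W
      rw [A.supp_zero, Set.union_empty]; exact hm1W
    · exact Set.union_subset hkW hm2W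
    · refine Prod.ext (Subtype.ext ?_) (Subtype.ext ?_)
      · show u.1 = -(A.d m₁) + (u.1 + A.d m₁)
        abel
      · show m.1 = (m₁ + A.d 0) + (m₂ + 0)
        rw [map_zero, add_zero, add_zero]; exact hmm

/-- Mayer-Vietoris for classes -/
theorem fch_mv_mem [T2Space X] (P : FcPre X) (A : FcD X) {U V : Set X} (hU : IsOpen U) (hV : IsOpen V)
    (h0 : P.mem (A.res (U ∩ V))) (h1 : P.mem (A.res U)) (h2 : P.mem (A.res V)) :
    P.mem (A.res (U ∪ V)) := by
  have hc := P.cone (fcbResMono A (Set.inter_subset_right : U ∩ V ⊆ V)) h0 h2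
  have hc' := P.cone_tgt _ hc (P.acyc (fch_mv_square A hU hV))
  exact P.cone_tgt _ h1 hc'

/-- the cone of `A(U) → A(U ∪ V)` is in `P` as soon as `A(U ∩ V)` and `A(V)` are -/
theorem fch_mv_cone_mem [T2Space X] (P : FcPre X) (A : FcD X) {U V : Set X} (hU : IsOpen U)
    (hV : IsOpen V) (h0 : P.mem (A.res (U ∩ V))) (h2 : P.mem (A.res V)) :
    P.mem (fcCone (fcbResMono A (Set.subset_union_left : U ⊆ U ∪ V))) :=
  P.cone_tgt _ (P.cone (fcbResMono A (Set.inter_subset_right : U ∩ V ⊆ V)) h0 h2)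
    (P.acyc (fch_mv_square A hU hV))

/-- `fch_sub_acyc`: `c ∈ A(W)` with `d c ∈ A(V ∩ W)`; `c = c₁ + c₂` subordinate to `(V ∩ W) ∪ (W ∖ C)`; `d c₂ = d c - d c₁` is a cycle
in `A((V ∩ W) ∖ C)`..., `= d n`; `c₂ - n` is a cycle in `A(W ∖ C)`, `= d e`; `c = d e + (c₁ + n)`. -/
theorem fch_res_qi [T2Space X] (A : FcD X) {C V : Set X} (hC : IsClosed C) (hV : IsOpen V)
    (hCV : C ⊆ V) (h : A.AcycOn Cᶜ) : (fcCone (fcResIncl A V)).Acyc := by
  apply fch_sub_acyc
  · intro c' hc'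
    exact Subtype.ext hc'
  · rintro W hW c hc ⟨c', hc'W, hD⟩
    have hD' : c'.1 = A.d c := hD
    obtain ⟨c₁, c₂, hcc, h1, h2⟩ := A.toFcObj.decomp (hV.inter hW) (hW.inter hC.isOpen_compl) c (by
      intro x hx
      by_cases hxC : x ∈ C
      · exact Or.inl ⟨hCV hxC, hc hx⟩
      · exact Or.inr ⟨hc hx, hxC⟩)
    have hc1V : A.supp c₁ ⊆ V := fun x hx => (h1 hx).2.1
    have hc1W : A.supp c₁ ⊆ W := fun x hx => (h1 hx).2.2
    have hc2W : A.supp c₂ ⊆ W := fun x hx => (h2 hx).2.1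
    have hc2C : A.supp c₂ ⊆ Cᶜ := fun x hx => (h2 hx).2.2
    have key : A.d c₂ = c'.1 - A.d c₁ := by
      rw [hD', hcc, map_add]; abel
    have hs : A.supp (A.d c₂) ⊆ (V ∩ W) ∩ Cᶜ := by
      intro x hx
      refine ⟨⟨?_, hc2W (A.d_loc _ hx)⟩, hc2C (A.d_loc _ hx)⟩
      rw [key] at hx
      rcases A.supp_sub _ _ hx with hx | hx
      · exact c'.2 hx
      · exact hc1V (A.d_loc _ hx)
    obtain ⟨n, hn, hdn⟩ := h _ ((hV.inter hW).inter hC.isOpen_compl) Set.inter_subset_right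
      (A.d c₂) hs (A.d_sq _)
    obtain ⟨e, he, hde⟩ := h _ (hW.inter hC.isOpen_compl) Set.inter_subset_right (c₂ - n)
      ((A.supp_sub _ _).trans (Set.union_subset (Set.subset_inter hc2W hc2C)
        (fun x hx => ⟨(hn hx).1.2, (hn hx).2⟩)))
      (by rw [map_sub, hdn, sub_self])
    refine ⟨e, ⟨c₁ + n, (A.supp_add _ _).trans (Set.union_subset hc1V (fun x hx => (hn hx).1.1))⟩,
      he.trans Set.inter_subset_left,
      (A.supp_add _ _).trans (Set.union_subset hc1W (fun x hx => (hn hx).1.2)), ?_⟩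
    show c = A.d e + (c₁ + n)
    rw [hde, hcc]; abel

/-- WILD CUT.  `M` locally acyclic on an open neighbourhood `O` of the frontier of the open set `U'`: then `M(U')` is locally acyclic on
`O ∪ (closure U')ᶜ` and `cone(M(U') → M)` is locally acyclic on `U' ∪ O`.  (`fcf_res_acycAt_iff`, `fcg_acycOn_union`, `fcCone_acycAt`.) -/
theorem fch_wild_cut [T2Space X] (M : FcD X) {U' O : Set X} (hU' : IsOpen U') (hO : IsOpen O)
    (h : M.AcycOn O) :
    (M.res U').AcycOn (O ∪ (closure U')ᶜ) ∧ (fcCone (fcResIncl M U')).AcycOn (U' ∪ O) := by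
  have hresO : (M.res U').AcycOn O := fun W hW hWO =>
    (fcf_res_acycAt_iff M U' W).2 (h _ (hU'.inter hW) (Set.inter_subset_right.trans hWO))
  constructor
  · refine fcg_acycOn_union _ hO isClosed_closure.isOpen_compl hresO ?_
    intro W _ hWc
    refine (fcf_res_acycAt_iff M U' W).2 ?_
    have he : U' ∩ W = ∅ := by
      rw [← Set.subset_empty_iff]
      rintro x ⟨hx1, hx2⟩
      exact hWc hx2 (subset_closure hx1)
    rw [he]
    intro m hm _
    have h0 : m = 0 := (M.supp_empty_iff m).1 (Set.subset_empty_iff.1 hm)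
    exact ⟨0, by rw [M.supp_zero], by rw [h0, map_zero]⟩
  · refine fcg_acycOn_union _ hU' hO ?_ ?_
    · rintro W _ hWU ⟨c', c⟩ hm hd
      have hd' : (-((M.res U').d c'), (fcResIncl M U').f c' + M.d c) = (0 : (M.res U').C × M.C) := hd
      have h2 : c'.1 + M.d c = 0 := congrArg Prod.snd hd'
      have hc : M.supp c ⊆ W := Set.subset_union_right.trans hm
      refine ⟨((⟨c, hc.trans hWU⟩ : (M.res U').C), (0 : M.C)), ?_, ?_⟩
      · show M.supp c ∪ M.supp 0 ⊆ W
        rw [M.supp_zero, Set.union_empty]; exact hc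
      · refine Prod.ext (Subtype.ext ?_) ?_
        · show -(M.d c) = c'.1
          exact (eq_neg_of_add_eq_zero_left h2).symm
        · show c + M.d 0 = c
          rw [map_zero, add_zero]
    · exact fun W hW hWO => fcCone_acycAt _ (hresO W hW hWO) (h W hW hWO)

/-- FIB-TRICK.  `A~ := cone(g : A(O) → E(O))<-1>`, `u : A~ → A(O) → A`; the homotopy is the projection to the `E`-coordinate. -/
theorem fch_fib_trick [T2Space X] {A E : FcD X} (g : FcHom A E) {K O : Set X} (hK : IsClosed K)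
    (hO : IsOpen O) (hKO : K ⊆ O) (hA : A.AcycOn Kᶜ) (hE : E.AcycOn O) :
    ∃ (A' : FcD X) (u : FcHom A' A), (fcCone u).Acyc ∧ Nonempty (FcHtpy (g.comp u) (fcbZero A' E)) := by
  have hEO : (E.res O).Acyc := fun W hW _ =>
    (fcf_res_acycAt_iff E O W).2 (hE _ (hO.inter hW) Set.inter_subset_left)
  have h1 : (fcCone ((fcbConeOut (g.res O)).resc (-1))).Acyc :=
    (fcp_ext_p_mem_iff (fcpAcyc X) ((fcbExtCone (g.res O)).resc (-1))).2
      ((fcpAcyc X).resc (-1) (by norm_num) hEO)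
  have h2 : (fcCone ((fcbRescNegNeg (A.res O)).toHom.comp ((fcbConeOut (g.res O)).resc (-1)))).Acyc :=
    fcp_comp_mem (fcpAcyc X) _ _ h1 (fcp_iso_cone_mem (fcpAcyc X) _)
  refine ⟨(fcCone (g.res O)).resc (-1),
    (fcResIncl A O).comp ((fcbRescNegNeg (A.res O)).toHom.comp ((fcbConeOut (g.res O)).resc (-1))),
    fcp_comp_mem (fcpAcyc X) _ _ h2 (fch_res_qi A hK hO hKO hA), ⟨?_⟩⟩
  refine ⟨-((E.sec O).subtype ∘ₗ LinearMap.snd ℝ (A.res O).C (E.res O).C), ?_, ?_⟩
  · intro m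
    exact (E.supp_neg _).trans Set.subset_union_right
  · rintro ⟨a, e⟩
    show g.f a.1 - 0 = E.d (-e.1) + -(((-1 : ℝ) • (-((A.res O).d a), (g.res O).f a + (E.res O).d e)).2).1
    show g.f a.1 - 0 = E.d (-e.1) + -((-1 : ℝ) • (g.f a.1 + E.d e.1))
    rw [map_neg, neg_one_smul, neg_neg, sub_zero]
    abel

/-- LIFT.  A null-homotopy `s = (s₁, s₂)` of `A → B → cone x` gives the chain map `s₁ : A → B'` and the homotopy `- s₂ : x s₁ ≃ φ`. -/
theorem fch_lift {A B' B : FcD X} (x : FcHom B' B) (φ : FcHom A B)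
    (H : FcHtpy ((fcbConeIn x).comp φ) (fcbZero A (fcCone x))) :
    ∃ φ' : FcHom A B', Nonempty (FcHtpy (x.comp φ') φ) := by
  obtain ⟨S0, hloc, heq0⟩ := H
  have hS : ∃ S : A.C →ₗ[ℝ] (B'.C × B.C), S = S0 := ⟨S0, rfl⟩
  obtain ⟨S, rfl⟩ := hS
  have heq : ∀ m, (((0 : B'.C), φ.f m) : B'.C × B.C) - 0 =
      ((-(B'.d (S m).1), x.f (S m).1 + B.d (S m).2) : B'.C × B.C) + S (A.d m) := heq0
  have h1 : ∀ m, (S (A.d m)).1 = B'.d (S m).1 := fun m => by
    have h' : (0 : B'.C) - 0 = -(B'.d (S m).1) + (S (A.d m)).1 := congrArg Prod.fst (heq m)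
    rw [sub_zero] at h'
    have h'' : B'.d (S m).1 = B'.d (S m).1 + (-(B'.d (S m).1) + (S (A.d m)).1) := by
      rw [← h', add_zero]
    rw [h'']; abel
  have h2 : ∀ m, φ.f m = x.f (S m).1 + B.d (S m).2 + (S (A.d m)).2 := fun m => by
    have h' : φ.f m - 0 = x.f (S m).1 + B.d (S m).2 + (S (A.d m)).2 := congrArg Prod.snd (heq m)
    rwa [sub_zero] at h'
  refine ⟨⟨LinearMap.fst ℝ B'.C B.C ∘ₗ S, fun m => Set.subset_union_left.trans (hloc m), h1⟩, ⟨?_⟩⟩
  refine ⟨-(LinearMap.snd ℝ B'.C B.C ∘ₗ S), fun m =>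
    (B.supp_neg _).trans (Set.subset_union_right.trans (hloc m)), fun m => ?_⟩
  show x.f (S m).1 - φ.f m = B.d (-(S m).2) + -(S (A.d m)).2
  rw [h2 m, map_neg]
  abel

/-- the linear algebra behind `fch_pushDual` -/
theorem fch_pushDual_aux [T2Space X] (A : FcD X) {L Z : Set X} (hL : IsCompact L)
    (hZ : IsClosed Z) (h : A.AcycOn Lᶜ) (φ φ' : Module.Dual ℝ A.C)
    (hφ : ∀ m, Disjoint (A.supp m) Z → φ m = 0) (hφ' : ∀ m, Disjoint (A.supp m) L → φ' m = 0)
    (hd : ∀ m, φ' m = φ (A.d m)) :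
    ∃ ψ χ : Module.Dual ℝ A.C, (∀ m, Disjoint (A.supp m) Z → ψ m = 0) ∧
      (∀ m, Disjoint (A.supp m) (L ∩ Z) → χ m = 0) ∧ ∀ m, φ m = ψ (A.d m) + χ m := by
  have hLo : IsOpen Lᶜ := hL.isClosed.isOpen_compl
  have hZo : IsOpen Zᶜ := hZ.isOpen_compl
  obtain ⟨ψ, hψ⟩ := fc_factor
    ((A.d ∘ₗ (A.sec Lᶜ).subtype).coprod (A.sec Zᶜ).subtype) (φ ∘ₗ (A.sec Lᶜ).subtype ∘ₗ LinearMap.fst ℝ _ _) (by
      rintro ⟨m, n⟩ hmn
      have hmn' : A.d m.1 + n.1 = 0 := hmn
      show φ m.1 = 0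
      have hdm : A.d m.1 = -n.1 := eq_neg_of_add_eq_zero_left hmn'
      have hs : A.supp (A.d m.1) ⊆ Lᶜ ∩ Zᶜ := by
        refine Set.subset_inter ((A.d_loc _).trans m.2) ?_
        rw [hdm]
        exact (A.supp_neg _).trans n.2
      obtain ⟨m', hm', hdm'⟩ := h (Lᶜ ∩ Zᶜ) (hLo.inter hZo) Set.inter_subset_left (A.d m.1) hs
        (A.d_sq _)
      obtain ⟨m'', hm'', hdm''⟩ := h Lᶜ hLo subset_rfl (m.1 - m')
        ((A.supp_sub _ _).trans (Set.union_subset m.2 (hm'.trans Set.inter_subset_left)))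
        (by rw [map_sub, hdm', sub_self])
      have e1 : φ m' = 0 := hφ m' (Set.disjoint_left.2 fun x hx hxZ => (hm' hx).2 hxZ)
      have e2 : φ' m'' = 0 := hφ' m'' (Set.disjoint_left.2 fun x hx hxL => hm'' hx hxL)
      rw [hd, hdm'', map_sub, e1, sub_zero] at e2
      exact e2)
  have hψ1 : ∀ m, A.supp m ⊆ Lᶜ → ψ (A.d m) = φ m := fun m hm => by
    have := hψ (⟨m, hm⟩, 0)
    simpa using this
  have hψ2 : ∀ n, Disjoint (A.supp n) Z → ψ n = 0 := fun n hn => by
    have := hψ (0, ⟨n, fun x hx hxK => Set.disjoint_left.1 hn hx hxK⟩)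
    simpa using this
  refine ⟨ψ, φ - ψ ∘ₗ A.d, hψ2, fun m hm => ?_, fun m => ?_⟩
  · obtain ⟨m₁, m₂, rfl, h1, h2⟩ := A.toFcObj.decomp hLo hZo m (by
      intro x hx
      by_cases hxL : x ∈ L
      · exact Or.inr fun hxZ => Set.disjoint_left.1 hm hx ⟨hxL, hxZ⟩
      · exact Or.inl hxL)
    have a1 : ψ (A.d m₁) = φ m₁ := hψ1 m₁ (h1.trans Set.inter_subset_right)
    have d2 : Disjoint (A.supp m₂) Z := Set.disjoint_left.2 fun x hx hxZ => (h2 hx).2 hxZ
    have a2 : φ m₂ = 0 := hφ m₂ d2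
    have a3 : ψ (A.d m₂) = 0 := hψ2 _ (Set.disjoint_of_subset_left (A.d_loc _) d2)
    show φ (m₁ + m₂) - ψ (A.d (m₁ + m₂)) = 0
    rw [map_add, map_add, map_add, a1, a2, a3]
    ring
  · show φ m = ψ (A.d m) + (φ m - ψ (A.d m))
    ring

/-- `g_!(A^∨) → (g_! A)^∨` is a local quasi-isomorphism if `A` is acyclic off the compact set `K`.
Plan (`fcg_cone_acycAt_iff`).  ONTO: `φ` closed, `Z := g⁻¹(supp_Y φ)`; `fc_factor` for `(m, n) ↦ d m + n` on `A(Kᶜ) × A(Zᶜ)` gives `ψ` with `ψ = 0` on `A(Zᶜ)`,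
`ψ (d m) = φ m` on `A(Kᶜ)` [well defined: `d m ∈ A(Kᶜ ∩ Zᶜ)` is a cycle `= d m'`, `m - m' = d m''` in `A(Kᶜ)`]; `φ - ψ d` vanishes on `A(Kᶜ) + A(Zᶜ) = A((K ∩ Z)ᶜ)`.
INJECTIVE: the same with `K` replaced by `K ∪ supp φ'`. -/
theorem fch_pushDual [T2Space X] [T2Space Y] (g : C(X, Y)) (A : FcD X) {K : Set X} (hK : IsCompact K)
    (h : A.AcycOn Kᶜ) : (fcCone (fcPushDual g A)).Acyc := by
  apply fch_sub_acyc
  · intro c' hc'
    exact Subtype.ext (congrArg (fun z : (A.push g).dual.C => z.1) hc')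
  · rintro W hW c hc ⟨c', hc'W, hD⟩
    have hS : IsCompact ((A.toFcObj.push g).dualSupp c.1) := (A.toFcObj.push g).dual.supp_compact c
    have hL' : IsCompact (A.toFcObj.dualSupp c'.1) := A.toFcObj.dual.supp_compact c'
    obtain ⟨ψ, χ, hψ, hχ, hsum⟩ := fch_pushDual_aux A (hK.union hL')
      (hS.isClosed.preimage g.continuous) (h.mono (Set.compl_subset_compl.2 Set.subset_union_left))
      c.1 c'.1 (fun m hm => (A.toFcObj.push g).dual_apply_eq_zero c.1 m (by
          rw [Set.disjoint_left] at hm ⊢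
          rintro y ⟨x, hx, rfl⟩ hy
          exact hm hx hy))
        (fun m hm => A.toFcObj.dual_apply_eq_zero c'.1 m
          (Set.disjoint_of_subset_right Set.subset_union_right hm))
        (fun m => congrArg (fun z : (A.push g).dual.C => z.1 m) hD)
    have hZc : IsCompact ((K ∪ A.toFcObj.dualSupp c'.1) ∩ g ⁻¹' (A.toFcObj.push g).dualSupp c.1) :=
      (hK.union hL').inter_right (hS.isClosed.preimage g.continuous)
    have hψ' : ∀ m : (A.toFcObj.push g).carrier,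
        Disjoint ((A.toFcObj.push g).supp m) ((A.toFcObj.push g).dualSupp c.1) → ψ m = 0 := by
      intro m hm
      refine hψ m ?_
      rw [Set.disjoint_left] at hm ⊢
      exact fun x hx hxZ => hm (Set.mem_image_of_mem g hx) hxZ
    refine ⟨⟨ψ, _, hS, hψ'⟩, ⟨χ, _, hZc, hχ⟩, ?_, ?_, ?_⟩
    · exact ((A.toFcObj.push g).dualSupp_subset_of_closed ψ hS.isClosed hψ').trans hc
    · rintro y ⟨x, hx, rfl⟩
      exact hc (A.toFcObj.dualSupp_subset_of_closed χ hZc.isClosed hχ hx).2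
    · apply Subtype.ext
      apply LinearMap.ext
      intro m
      exact hsum m

/-- if all supports of `A` lie in one compact set, `g_!(A^∨) → (g_! A)^∨` is an isomorphism -/
theorem fch_pushDual_iso [T2Space X] [T2Space Y] (g : C(X, Y)) (A : FcD X) {K : Set X}
    (hK : IsCompact K) (h : ∀ m, A.supp m ⊆ K) :
    ∃ e : FcIso (A.dual.push g) (A.push g).dual, ∀ φ, e.e φ = (fcPushDual g A).f φ := by
  have hinj : Function.Injective (fcPushDual g A).f := fun a b hab =>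
    Subtype.ext (congrArg (fun z : (A.push g).dual.C => z.1) hab)
  have hsurj : Function.Surjective (fcPushDual g A).f := fun φ => by
    refine ⟨⟨φ.1, K, hK, fun m hm => ?_⟩, rfl⟩
    have h0 : A.supp m = ∅ := by
      rw [← Set.subset_empty_iff]
      exact fun x hx => Set.disjoint_left.1 hm hx (h m hx)
    have h1 : m = 0 := (A.supp_empty_iff m).1 h0
    rw [h1]
    exact map_zero φ.1
  refine ⟨⟨LinearEquiv.ofBijective (fcPushDual g A).f ⟨hinj, hsurj⟩, fun φ => ?_,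
    fun φ => (fcPushDual g A).comm φ⟩, fun φ => rfl⟩
  refine Set.Subset.antisymm ((fcPushDual g A).loc φ) ?_
  rintro y ⟨x, hx, rfl⟩
  rintro ⟨V, ⟨hV, hV'⟩, hxV⟩
  exact hx ⟨g ⁻¹' V, ⟨hV.preimage g.continuous, fun m hm => hV' m (Set.image_subset_iff.2 hm)⟩, hxV⟩

/-- RETRACTS.  `l : M' → N`, `p : N → M`, `p ∘ l` has locally acyclic cone.  Then `(p, in) : N → M × cone l` has locally acyclic cone.
(On every open set: `H(M') → H(N) → H(cone l) → H(M')` is exact and `l_*` is split injective.) -/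
theorem fch_retract {M' N M : FcD X} (l : FcHom M' N) (p : FcHom N M) (h : (fcCone (p.comp l)).Acyc) :
    (fcCone (FcHom.pair p (fcbConeIn l))).Acyc := by
  rintro W hW _ ⟨n0, m, a, n⟩ hs hd
  have hd' : ((-(N.d n0), (p.f n0 + M.d m, ((0 : M'.C) + -(M'.d a), n0 + (l.f a + N.d n)))) :
      N.C × (M.C × (M'.C × N.C))) = 0 := hd
  have e1 : p.f n0 + M.d m = 0 := congrArg (fun z : N.C × (M.C × (M'.C × N.C)) => z.2.1) hd'
  have e2 : (0 : M'.C) + -(M'.d a) = 0 := congrArg (fun z : N.C × (M.C × (M'.C × N.C)) => z.2.2.1) hd'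
  have e3 : n0 + (l.f a + N.d n) = 0 := congrArg (fun z : N.C × (M.C × (M'.C × N.C)) => z.2.2.2) hd'
  have hs' : N.supp n0 ∪ (M.supp m ∪ (M'.supp a ∪ N.supp n)) ⊆ W := hs
  have hm : M.supp m ⊆ W := (Set.subset_union_left.trans Set.subset_union_right).trans hs'
  have ha : M'.supp a ⊆ W :=
    ((Set.subset_union_left.trans Set.subset_union_right).trans Set.subset_union_right).trans hs'
  have hn : N.supp n ⊆ W :=
    ((Set.subset_union_right.trans Set.subset_union_right).trans Set.subset_union_right).trans hs'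
  have da : M'.d a = 0 := by
    rw [zero_add] at e2
    exact neg_eq_zero.1 e2
  have hn0 : n0 = -(l.f a) - N.d n := by
    have : n0 = (n0 + (l.f a + N.d n)) + (-(l.f a) - N.d n) := by abel
    rw [this, e3, zero_add]
  obtain ⟨⟨a', y'⟩, hs2, hd2⟩ := h W hW (Set.subset_univ _) (a, -(m - p.f n))
    (Set.union_subset ha ((M.supp_neg _).trans ((M.supp_sub _ _).trans
      (Set.union_subset hm ((p.loc _).trans hn)))))
    (by
      show (-(M'.d a), p.f (l.f a) + M.d (-(m - p.f n))) = 0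
      rw [da, neg_zero, map_neg, map_sub, ← p.comm]
      refine Prod.ext rfl ?_
      show p.f (l.f a) + -(M.d m - p.f (N.d n)) = 0
      rw [hn0, map_sub, map_neg] at e1
      have : p.f (l.f a) + -(M.d m - p.f (N.d n)) = -(-(p.f (l.f a)) - p.f (N.d n) + M.d m) := by abel
      rw [this, e1, neg_zero])
  have hd2' : (-(M'.d a'), p.f (l.f a') + M.d y') = (a, -(m - p.f n)) := hd2
  have f1 : -(M'.d a') = a := congrArg Prod.fst hd2'
  have f2 : p.f (l.f a') + M.d y' = -(m - p.f n) := congrArg Prod.snd hd2'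
  have ha' : M'.supp a' ⊆ W := Set.subset_union_left.trans hs2
  have hy' : M.supp y' ⊆ W := Set.subset_union_right.trans hs2
  refine ⟨(n - l.f a', (-y', (a', 0))), ?_, ?_⟩
  · show N.supp (n - l.f a') ∪ (M.supp (-y') ∪ (M'.supp a' ∪ N.supp 0)) ⊆ W
    rw [N.supp_zero, Set.union_empty]
    refine Set.union_subset ((N.supp_sub _ _).trans (Set.union_subset hn ((l.loc _).trans ha'))) ?_
    exact Set.union_subset ((M.supp_neg _).trans hy') ha'
  · show ((-(N.d (n - l.f a')), (p.f (n - l.f a') + M.d (-y'),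
      ((0 : M'.C) + -(M'.d a'), (n - l.f a') + (l.f a' + N.d 0)))) : N.C × (M.C × (M'.C × N.C))) =
      (n0, m, a, n)
    refine Prod.ext ?_ (Prod.ext ?_ (Prod.ext ?_ ?_))
    · show -(N.d (n - l.f a')) = n0
      rw [hn0, map_sub, ← l.comm, ← f1, map_neg]
      abel
    · show p.f (n - l.f a') + M.d (-y') = m
      rw [map_sub, map_neg]
      have h3 : p.f n - p.f (l.f a') + -(M.d y') = p.f n - (p.f (l.f a') + M.d y') := by abel
      rw [h3, f2]
      abel
    · show (0 : M'.C) + -(M'.d a') = a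
      rw [zero_add, f1]
    · show (n - l.f a') + (l.f a' + N.d 0) = n
      rw [map_zero]; abel

end Claimed.Agent.R304
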