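/-
Row 304 (S0559, Hilbert-Smith).  Owner: helper89.  DEFINITIONS of the GERM LEMMA (classes of forms on objects which are NOT in `T`).

SITUATION.  `T : FcCls X` the geometric class, `U ⊆ X` an o-p-e-n set, `P_U = T.near U`.  The groups are `h^t(T.near univ; T.near U)`.
A form `y` on an ARBITRARY differential object (e.g. the smooth cochains of Sec. 6) has a class in this group as soon as
  * `y` is nonsingular off a compact set `C ⊆ U`:            `(fcCone y.ad).AcycOn Cᶜ`,
  * `y.M` is approximated off `C` by a member `L` of `T`:     `f : L → y.M`, `(fcCone f).AcycOn Cᶜ`.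
The class is the class of `f^* y`; it does not depend on `(L, f)` (`WtRepMain.lean`).

* `fcOnCls N`      the class of the objects which are locally acyclic on `N` (so the calculus `FcBasic` applies to "equivalences over `N`");
* `fcAllCls X`     the class of all objects;
* `WtCutOK T`      the two properties of `T` which are used (`cpt`, and the cut `CUT''`, proved for `𝔐.T X` in `WtRepCut.lean`);
* `WtRep T U y x`  `x` is a representative of `y`;   `WtGood T U y`  `y` has the two properties above;
* `WtForm.pert`    perturbation of a form by an exact term `h (m, d n) + k h (d m, n)`.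
-/
import Claimed.Agent.R304.WtHypDefs
import Claimed.Agent.R304.FcBasic

set_option autoImplicit false

namespace Claimed.Agent.R304

open Topology

variable {X : Type} [TopologicalSpace X] [T2Space X] {t : ZMod 4}

/-- the class of the objects which are locally acyclic on `N` -/
def fcOnCls (N : Set X) : FcCls X where
  mem := fun A => A.AcycOn N
  iso := fun e h U hU hUO => (h U hU hUO).of_iso e
  acyc := fun h => h.mono (Set.subset_univ _)
  resc := fun _ hc h U hU hUO => (h U hU hUO).resc hc
  cone := fun f hA hB U hU hUO => fcCone_acycAt f (hA U hU hUO) (hB U hU hUO)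
  cone_src := fun f hB hC U hU hUO => fcCone_acycAt_src f (hB U hU hUO) (hC U hU hUO)
  cone_tgt := fun f hA hC U hU hUO => fcCone_acycAt_tgt f (hA U hU hUO) (hC U hU hUO)
  dual := fun h => FcD.AcycOn.dual h

/-- the class of all objects -/
def fcAllCls (X : Type) [TopologicalSpace X] [T2Space X] : FcCls X where
  mem := fun _ => True
  iso := fun _ _ => trivial
  acyc := fun _ => trivial
  resc := fun _ _ _ => trivial
  cone := fun _ _ _ => trivial
  cone_src := fun _ _ _ => trivial
  cone_tgt := fun _ _ _ => trivial
  dual := fun _ => trivial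

/-- the properties of the geometric class which the germ lemma uses -/
structure WtCutOK (T : FcCls X) : Prop where
  /-- every member is locally acyclic off a compact set -/
  cpt : ∀ A, T.mem A → ∃ K : Set X, IsCompact K ∧ A.AcycOn Kᶜ
  /-- (CUT'') a map from a member `A` of `T` to an object which is locally acyclic on a neighbourhood `N` of `Uᶜ` becomes
  null homotopic (by a LOCAL homotopy) after composition with a `P_U`-equivalence `c : L → A`, `L ∈ T` -/
  cut : ∀ (U N : Set X), IsOpen U → IsOpen N → Uᶜ ⊆ N → ∀ (A E : FcD X) (g : FcHom A E), T.mem A → E.AcycOn N →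
    ∃ (L : FcD X) (c : FcHom L A), T.mem L ∧ (T.near U).mem (fcCone c) ∧
      Nonempty (FcHtpy (g.comp c) (fcbZero L E))

/-- `x` represents the form `y` (on an arbitrary object) in `h^t(T.near univ; T.near U)` -/
def WtRep (T : FcCls X) (U : Set X) (y x : WtForm X t) : Prop :=
  x.In (T.near Set.univ) (T.near U) ∧
    ∃ (f : FcHom x.M y.M) (C : Set X), IsCompact C ∧ C ⊆ U ∧ (fcCone f).AcycOn Cᶜ ∧
      ∀ m n, x.b m n = y.b (f.f m) (f.f n)

/-- `y` is nonsingular and approximable by `T` off a compact subset of `U` -/
def WtGood (T : FcCls X) (U : Set X) (y : WtForm X t) : Prop :=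
  ∃ C : Set X, IsCompact C ∧ C ⊆ U ∧ (fcCone y.ad).AcycOn Cᶜ ∧
    ∃ (L : FcD X) (f : FcHom L y.M), T.mem L ∧ (fcCone f).AcycOn Cᶜ

/-- perturbation of a form by an exact term -/
def WtForm.pert (x : WtForm X t) (h : x.M.C →ₗ[ℝ] x.M.C →ₗ[ℝ] ℝ) (hl : FcLoc2 x.M x.M h)
    (hs : ∀ m n, h n m = wtK t * wtE t * h m n) : WtForm X t where
  M := x.M
  b := x.b + h.compl₂ x.M.d + wtK t • h.comp x.M.d
  loc := fun m n hd => by
    show x.b m n + h m (x.M.d n) + wtK t * h (x.M.d m) n = 0
    rw [x.loc m n hd, hl m _ (Set.disjoint_of_subset_right (x.M.d_loc n) hd),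
      hl _ n (Set.disjoint_of_subset_left (x.M.d_loc m) hd)]
    simp
  symm := fun m n => by
    show x.b n m + h n (x.M.d m) + wtK t * h (x.M.d n) m =
      wtE t * (x.b m n + h m (x.M.d n) + wtK t * h (x.M.d m) n)
    rw [x.symm m n, hs (x.M.d m) n, hs m (x.M.d n)]
    have := wtK_sq t
    linear_combination (wtE t * h m (x.M.d n)) * this
  adj := fun m n => by
    show x.b (x.M.d m) n + h (x.M.d m) (x.M.d n) + wtK t * h (x.M.d (x.M.d m)) n =
      wtK t * (x.b m (x.M.d n) + h m (x.M.d (x.M.d n)) + wtK t * h (x.M.d m) (x.M.d n))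
    rw [x.adj m n, x.M.d_sq, x.M.d_sq]
    have := wtK_sq t
    simp only [map_zero, LinearMap.zero_apply, mul_zero, add_zero]
    linear_combination (-(h (x.M.d m) (x.M.d n))) * this

/-- realises the equation lemmas here (unique names) -/
theorem wt_germ_defs_eqns_cite : True := by
  have := @fcOnCls.eq_1
  have := @fcAllCls.eq_1
  have := @WtRep.eq_1
  have := @WtGood.eq_1
  have := @WtForm.pert.eq_1
  trivial

end Claimed.Agent.R304
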