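/-
Row 304 (S0559, Hilbert-Smith).  Owner: helper89.  PACKAGE WtRepCut: the cut `CUT''` for the geometric class.  (~500 lines)

STATEMENT (`wtr_cut`).  `T = 𝔐.T X`, `U`, `N` o-p-e-n, `Uᶜ ⊆ N`, `A ∈ T`, `E` locally acyclic on `N`, `g : A → E`.  Then there are `L ∈ T`, `c : L → A` with
`cone c ∈ T.near U` and a LOCAL null homotopy of `g ∘ c`.

PROOF.  (all tools: `FcBasic` (T1)-(T6), homotopy pull-backs `fcbPb`, `fcg_res_qi`)
 1. `𝔐.exc X U N` gives classes `TV ≤ T.near N`, `TW` with `A ⊕ A<-1> ∈ TW` for all `A ∈ T.near (U ∪ N)`; `U ∪ N = univ`, `wtr_near_univ`.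
    So `M0 := A.prod (A.resc (-1)) ∈ TW`, and the cut gives `M' ∈ TV`, `c0 : M' → M0`, `cone c0 ∈ T.near U`.
 2. `L1 := fcbPb (fcbInl A _) c0`  (homotopy pull-back of `A → M0 ← M'`).  `π1 : L1 → A` has `cone ≅ cone c0` up to shift (`fcb_pb_fst_iff`), so `cone π1 ∈ T.near U`;
    `π1 = pr1 ∘ inl ∘ π1 ≃ pr1 ∘ c0 ∘ π2`  (compose `fcbPbHtpy` with `fcbFst`).   `L1 ∈ T`.
 3. `M' ∈ T.near N`: `M'.AcycOn O'`, `O'` o-p-e-n, `Nᶜ ⊆ O'`; `fcg_res_qi` with `C = O'ᶜ ⊆ N`: `ι : M'.res N → M'` has locally acyclic cone.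
    `E.res N` is locally acyclic (`wtr_res_acyc`).  `g' := (g ∘ pr1 ∘ c0).res N : M'.res N → E.res N`.
    `M'' := (fcCone g').resc (-1)` (the fibre), `φ : M'' → M'.res N` the projection; `cone φ ≅ E.res N` up to shift, so it is locally acyclic (`fcb_cone_out_iff` for `fcAcycCls`);
    `g' ∘ φ` is null homotopic by the coordinate projection `M'' → E.res N`.
 4. `L := fcbPb π2 (ι ∘ φ)`, `c := π1 ∘ pr_{L1}`.  `cone (pr_{L1}) ≅ cone (ι ∘ φ)` locally acyclic, so `cone c ∈ T.near U` (`fcb_comp_mem`) and `L ∈ T`.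
    `g c = g π1 pr ≃ g pr1 c0 π2 pr ≃ g pr1 c0 ι φ pr' = incl ∘ g' φ pr' ≃ 0`.   Add the three local homotopies (`wtr_htpy_*`).
-/
import Claimed.Agent.R304.WtGermDefs
import Claimed.Agent.R304.IfaceDefs
import Claimed.Agent.R304.FcLG
import Claimed.Agent.R304.FcHtp

set_option autoImplicit false

namespace Claimed.Agent.R304

open Topology

variable {X : Type} [TopologicalSpace X] [T2Space X]

/-- `T.near univ` has the same members as `T` (take `O = ∅`) -/
theorem wtr_near_univ (T : FcCls X) (A : FcD X) : (T.near Set.univ).mem A ↔ T.mem A := by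
  refine ⟨fun h => h.1, fun h => ⟨h, ∅, isOpen_empty, by simp, ?_⟩⟩
  intro U _ hU m hm _
  have h0 : m = 0 := (A.supp_empty_iff m).1 (Set.subset_empty_iff.1 (hm.trans hU))
  exact ⟨0, by rw [A.supp_zero]; exact Set.empty_subset _, by rw [h0, map_zero]⟩

/-- the sections over `N` of an object which is locally acyclic on `N` form a locally acyclic object -/
theorem wtr_res_acyc (E : FcD X) {N : Set X} (hN : IsOpen N) (h : E.AcycOn N) : (E.res N).Acyc :=
  fun W hW _ => (fcf_res_acycAt_iff E N W).2 (h _ (hN.inter hW) Set.inter_subset_left)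

/-- local homotopies: transitivity -/
def wtrHtpyTrans {A B : FcD X} {f g h : FcHom A B} (H : FcHtpy f g) (H' : FcHtpy g h) : FcHtpy f h where
  s := H.s + H'.s
  loc := fun m => (B.supp_add _ _).trans (Set.union_subset (H.loc m) (H'.loc m))
  eq := fun m => by
    have h1 := H.eq m
    have h2 := H'.eq m
    show f.f m - h.f m = B.d (H.s m + H'.s m) + (H.s (A.d m) + H'.s (A.d m))
    rw [map_add, ← sub_add_sub_cancel (f.f m) (g.f m) (h.f m), h1, h2]
    abel

/-- local homotopies: composition on the right -/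
def wtrHtpyRight {A' A B : FcD X} {f g : FcHom A B} (H : FcHtpy f g) (u : FcHom A' A) :
    FcHtpy (f.comp u) (g.comp u) where
  s := H.s ∘ₗ u.f
  loc := fun m => (H.loc _).trans (u.loc m)
  eq := fun m => by
    show f.f (u.f m) - g.f (u.f m) = B.d (H.s (u.f m)) + H.s (u.f (A'.d m))
    rw [u.comm]
    exact H.eq _

/-- local homotopies: composition on the left -/
def wtrHtpyLeft {A B B' : FcD X} {f g : FcHom A B} (H : FcHtpy f g) (v : FcHom B B') :
    FcHtpy (v.comp f) (v.comp g) where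
  s := v.f ∘ₗ H.s
  loc := fun m => (v.loc _).trans (H.loc m)
  eq := fun m => by
    show v.f (f.f m) - v.f (g.f m) = B'.d (v.f (H.s m)) + v.f (H.s (A.d m))
    rw [← map_sub, H.eq m, map_add, v.comm]

/-- local homotopies: symmetry -/
def wtrHtpySymm {A B : FcD X} {f g : FcHom A B} (H : FcHtpy f g) : FcHtpy g f where
  s := -H.s
  loc := fun m => (B.supp_neg _).trans (H.loc m)
  eq := fun m => by
    have h1 := H.eq m
    show g.f m - f.f m = B.d (-(H.s m)) + -(H.s (A.d m))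
    rw [map_neg, ← neg_add, ← h1, neg_sub]

/-- homotopic maps have isomorphic cones: `(a, b) ↦ (a, b + s a)` -/
def wtrConeHtpy {A B : FcD X} {f g : FcHom A B} (H : FcHtpy f g) : FcIso (fcCone f) (fcCone g) where
  e :=
    { toFun := fun m => (m.1, m.2 + H.s m.1)
      map_add' := fun m n => by
        refine Prod.ext rfl ?_
        show m.2 + n.2 + H.s (m.1 + n.1) = m.2 + H.s m.1 + (n.2 + H.s n.1)
        rw [map_add]; abel
      map_smul' := fun c m => by
        refine Prod.ext rfl ?_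
        show c • m.2 + H.s (c • m.1) = c • (m.2 + H.s m.1)
        rw [map_smul, smul_add]
      invFun := fun m => (m.1, m.2 - H.s m.1)
      left_inv := fun m => by
        refine Prod.ext rfl ?_
        show m.2 + H.s m.1 - H.s m.1 = m.2
        abel
      right_inv := fun m => by
        refine Prod.ext rfl ?_
        show m.2 - H.s m.1 + H.s m.1 = m.2
        abel }
  supp_eq := fun m => by
    show A.supp m.1 ∪ B.supp (m.2 + H.s m.1) = A.supp m.1 ∪ B.supp m.2
    apply Set.Subset.antisymm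
    · refine Set.union_subset Set.subset_union_left ((B.supp_add _ _).trans ?_)
      exact Set.union_subset Set.subset_union_right ((H.loc _).trans Set.subset_union_left)
    · refine Set.union_subset Set.subset_union_left ?_
      have h1 : m.2 = (m.2 + H.s m.1) - H.s m.1 := by abel
      intro x hx
      rw [h1] at hx
      rcases B.supp_sub _ _ hx with h | h
      · exact Or.inr h
      · exact Or.inl (H.loc _ h)
  comm := fun m => by
    show (-(A.d m.1), f.f m.1 + B.d m.2 + H.s (-(A.d m.1))) =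
      (-(A.d m.1), g.f m.1 + B.d (m.2 + H.s m.1))
    refine Prod.ext rfl ?_
    show f.f m.1 + B.d m.2 + H.s (-(A.d m.1)) = g.f m.1 + B.d (m.2 + H.s m.1)
    have h1 := H.eq m.1
    have h2 : f.f m.1 = g.f m.1 + (B.d (H.s m.1) + H.s (A.d m.1)) := by
      rw [← h1]; abel
    rw [h2, map_neg, map_add]
    abel

/-- homotopic maps have isomorphic cones -/
theorem wtr_cone_htpy (P : FcCls X) {A B : FcD X} {f g : FcHom A B} (H : FcHtpy f g) :
    P.mem (fcCone f) ↔ P.mem (fcCone g) :=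
  ⟨fun h => P.iso (wtrConeHtpy H) h, fun h => P.iso (wtrConeHtpy H).symm h⟩

/-- THE CUT -/
theorem wtr_cut (𝔐 : FcModel) (X : Type) [TopologicalSpace X] [T2Space X] [LocallyCompactSpace X] :
    WtCutOK (𝔐.T X) := by
  refine ⟨𝔐.cpt X, ?_⟩
  intro U N hU hN hUN A E g hA hE
  obtain ⟨TV, TW, _, hTVN, _, _, _, _, hdW, hcut⟩ := 𝔐.exc X U N hU hN
  have hUNu : U ∪ N = Set.univ := by
    ext x
    simp only [Set.mem_union, Set.mem_univ, iff_true]
    by_cases hx : x ∈ U
    · exact Or.inl hx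
    · exact Or.inr (hUN hx)
  have hA' : ((𝔐.T X).near (U ∪ N)).mem A := by
    rw [hUNu]; exact (wtr_near_univ _ A).2 hA
  obtain ⟨M', c0, hM', hc0⟩ := hcut _ (hdW A hA')
  obtain ⟨hM'T, O', hO', hNO', hM'O'⟩ := hTVN M' hM'
  -- step 2: the homotopy pull-back of `A → M0 ← M'`
  set inl := fcbInl A (A.resc (-1)) with hinl
  set L1 := fcbPb inl c0 with hL1
  set π1 := fcbPbFst inl c0 with hπ1
  set π2 := fcbPbSnd inl c0 with hπ2
  have hπ1P : ((𝔐.T X).near U).mem (fcCone π1) := (fcb_pb_fst_iff _ inl c0).2 hc0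
  have hL1T : (𝔐.T X).mem L1 := (𝔐.T X).cone_src π1 hA hπ1P.1
  -- step 3: the fibre trick
  set g' := (g.comp (fcbFst A (A.resc (-1)))).comp c0 with hg'
  obtain ⟨M'', u, hu, ⟨Hu⟩⟩ := fch_fib_trick g' (K := O'ᶜ) (O := N) hO'.isClosed_compl hN
    (Set.compl_subset_comm.1 hNO') (by rw [compl_compl]; exact hM'O') hE
  -- step 4
  set L := fcbPb π2 u with hL
  set ρ1 := fcbPbFst π2 u with hρ1
  set ρ2 := fcbPbSnd π2 u with hρ2
  have hρ1P : ((𝔐.T X).near U).mem (fcCone ρ1) :=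
    (fcb_pb_fst_iff _ π2 u).2 (((𝔐.T X).near U).acyc hu)
  have hLT : (𝔐.T X).mem L := (𝔐.T X).cone_src ρ1 hL1T hρ1P.1
  refine ⟨L, π1.comp ρ1, hLT, fcb_comp_mem _ ρ1 π1 hρ1P hπ1P, ⟨?_⟩⟩
  -- the homotopies
  have H1 : FcHtpy (inl.comp π1) (c0.comp π2) := fcbPbHtpy inl c0
  have H2 : FcHtpy (π2.comp ρ1) (u.comp ρ2) := fcbPbHtpy π2 u
  have K1 : FcHtpy (((g.comp (fcbFst A (A.resc (-1)))).comp (inl.comp π1)).comp ρ1)
      (((g.comp (fcbFst A (A.resc (-1)))).comp (c0.comp π2)).comp ρ1) :=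
    wtrHtpyRight (wtrHtpyLeft H1 _) ρ1
  have K2 : FcHtpy (g'.comp (π2.comp ρ1)) (g'.comp (u.comp ρ2)) := wtrHtpyLeft H2 g'
  have K3 : FcHtpy ((g'.comp u).comp ρ2) ((fcbZero M'' E).comp ρ2) := wtrHtpyRight Hu ρ2
  exact ⟨K1.s + K2.s + K3.s, fun m => (E.supp_add _ _).trans (Set.union_subset
      ((E.supp_add _ _).trans (Set.union_subset (K1.loc m) (K2.loc m))) (K3.loc m)), fun m => by
    have e1 := K1.eq m
    have e2 := K2.eq m
    have e3 := K3.eq m
    show g.f (π1.f (ρ1.f m)) - 0 = E.d (K1.s m + K2.s m + K3.s m) +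
      (K1.s (L.d m) + K2.s (L.d m) + K3.s (L.d m))
    have e1' : g.f (π1.f (ρ1.f m)) - g'.f (π2.f (ρ1.f m)) = E.d (K1.s m) + K1.s (L.d m) := e1
    have e2' : g'.f (π2.f (ρ1.f m)) - g'.f (u.f (ρ2.f m)) = E.d (K2.s m) + K2.s (L.d m) := e2
    have e3' : g'.f (u.f (ρ2.f m)) - 0 = E.d (K3.s m) + K3.s (L.d m) := e3
    rw [map_add, map_add]
    have : g.f (π1.f (ρ1.f m)) - 0 = (g.f (π1.f (ρ1.f m)) - g'.f (π2.f (ρ1.f m))) +
        (g'.f (π2.f (ρ1.f m)) - g'.f (u.f (ρ2.f m))) + (g'.f (u.f (ρ2.f m)) - 0) := by abel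
    rw [this, e1', e2', e3']
    abel⟩

/-- realises the equation lemmas here (unique names) -/
theorem wt_rep_cut_eqns_cite : True := by
  have := @wtrHtpyTrans.eq_1
  have := @wtrHtpyRight.eq_1
  have := @wtrHtpyLeft.eq_1
  have := @wtrHtpySymm.eq_1
  have := @wtrConeHtpy.eq_1
  trivial

end Claimed.Agent.R304
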