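/-
Row 304 (S0559, Hilbert-Smith).  Owner: helper89.  PACKAGE WtRepH: cobordisms from roofs.  (~600 lines)
`T P : FcCls X` arbitrary classes.  `k = wtK t`, `e = wtE t`.

`wtr_hx` (LEMMA HX).  `L ∈ T`, `l₁ : L → M₁`, `l₂ : L → M₂` with cones in `P`, `x₂ ∈ Forms(T;P)`, `h` a local `(k e)`-symmetric bilinear form on `L` with
     `b₁ (l₁ n) (l₁ n') - b₂ (l₂ n) (l₂ n') = h n (d n') + k h (d n) n'`.     Then `x₁ ~ x₂`.
   DATUM on `x₁ ⊥ -x₂`:  `N = L`, `lam = (l₁, l₂)` (`FcHom.pair`), `h`.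
   `S = L × ((M₁ × M₂) × L^∨)`, `D (n,(p₁,p₂),ν) = (- d n, (l₁ n + d p₁, l₂ n + d p₂), h n + k (b₁ p₁ (l₁ ·) - b₂ p₂ (l₂ ·)) - k ν ∘ d)`.
   `F := {n = 0, p₁ = 0}` is a subobject, `F ≅` twisted product of `M₂` and `L^∨<-k>` by `p₂ ↦ - k l₂^∨ (ad₂ p₂)`, i.e. (up to `FcIso`, signs by `fcbConeNeg`, `fcbConeResc`) the cone of
   `l₂^∨ ∘ ad₂ : M₂ → L^∨<k>`;  `cone ad₂ ∈ P`, `cone l₂^∨ ∈ P` (`fcb_dual_cone_*` : the dual of `cone l₂`), so `F ∈ P` (`fcb_comp_mem`).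
   `S / F = {(n, p₁)} = cone l₁ ∈ P`.   `FcExt F S (cone l₁)` with coordinate maps, `fcb_ext_mem`.    (`h` plays no role for `S ∈ P`.)
   This is the proof of (G1c) `wt_rel_of_isom` with one more term; see CbNotes block 3.

`wtr_h` (LEMMA H).  `f_i : M_i → Y` isometric for a form `y` on an ARBITRARY object `Y`, `H : f₁ l₁ ≃ f₂ l₂` a local homotopy.  With `u = f₁ l₁`, `v = f₂ l₂`:
     `h₀ n n' := k y (H n) (u n') + y (v n) (H n')`,   `h := (h₀ + k e h₀ᵀ)/2`.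
   Check: `y(un,un') - y(vn,vn') = y((u-v)n, un') + y(vn,(u-v)n')`, `u - v = dH + Hd`, `y(dHn,un') = k y(Hn,u dn')`, `y(vn,dHn') = k y(v dn,Hn')`; so it equals `h₀ n (d n') + k h₀ (d n) n'`;
   the left side is `e`-symmetric, so the same identity holds for `k e h₀ᵀ`.

`wtr_pert_in`, `wtr_pert_rel` (LEMMA X): `cone(ad_{x.pert h}) ≅ cone(ad_x)` by the shear `(m, μ) ↦ (m, μ + k h m)` (`wtr_cone_htpy`);  `wtr_hx` with `L = M`, `l₁ = l₂ = 1`.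
PROVED (helper211): no gaps in this file.
-/
import Claimed.Agent.R304.WtRepCut
import Claimed.Agent.R304.WtCof

set_option autoImplicit false
set_option linter.unusedSectionVars false

namespace Claimed.Agent.R304

open Topology

variable {X : Type} [TopologicalSpace X] [T2Space X] {t : ZMod 4}

/-- the datum of LEMMA HX -/
def wtrhDat {x₁ x₂ : WtForm X t} {L : FcD X} (l₁ : FcHom L x₁.M) (l₂ : FcHom L x₂.M)
    (h : L.C →ₗ[ℝ] L.C →ₗ[ℝ] ℝ) (hl : FcLoc2 L L h) (hs : ∀ n n', h n' n = wtK t * wtE t * h n n')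
    (he : ∀ n n', x₁.b (l₁.f n) (l₁.f n') - x₂.b (l₂.f n) (l₂.f n') = h n (L.d n') + wtK t * h (L.d n) n') :
    WtDat (x₁.sum x₂.neg) where
  N := L
  lam := FcHom.pair l₁ l₂
  h := h
  h_loc := hl
  h_symm := hs
  h_eq := fun n n' => by
    show x₁.b (l₁.f n) (l₁.f n') + -(x₂.b (l₂.f n) (l₂.f n')) = _
    rw [← sub_eq_add_neg, he]

/-- `θ : M₂<-1> → L^∨<-k>`, `p₂ ↦ -k b₂ p₂ (l₂ ·)` -/
def wtrhTheta {x₂ : WtForm X t} {L : FcD X} (l₂ : FcHom L x₂.M) :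
    FcHom (x₂.M.resc (-1)) (L.dual.resc (-(wtK t))) where
  f := ((-(wtK t)) • ((fcTr l₂).f ∘ₗ fcCurry x₂.b x₂.loc) : x₂.M.C →ₗ[ℝ] L.dual.C)
  loc := fun (p : x₂.M.C) =>
    (L.dual.supp_smul _ _).trans (((fcTr l₂).loc _).trans (fck_curry_loc x₂.b x₂.loc p))
  comm := fun (p : x₂.M.C) => by
    apply fck_dual_ext (A := L)
    intro n
    show (-(wtK t)) * x₂.b ((-1 : ℝ) • x₂.M.d p) (l₂.f n) =
      (-(wtK t)) * ((-(wtK t)) * x₂.b p (l₂.f (L.d n)))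
    rw [map_smul, LinearMap.smul_apply, x₂.adj, l₂.comm, smul_eq_mul]
    ring

theorem wtrh_theta_mem (P : FcCls X) {x₂ : WtForm X t} {L : FcD X} (l₂ : FcHom L x₂.M)
    (h₂ : P.mem (fcCone l₂)) (hx₂ : P.mem (fcCone x₂.ad)) : P.mem (fcCone (wtrhTheta l₂)) := by
  have h1 : P.mem (fcCone (((fcTr l₂).resc (wtK t)).comp x₂.ad)) :=
    fcb_comp_mem P _ _ hx₂ ((fcb_cone_resc_iff P _ (wtK_ne_zero t)).2 (fck_eqv_tr P _ h₂))
  refine (fck_cone_congr P (((fcTr l₂).resc (wtK t)).comp x₂.ad) (wtrhTheta l₂)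
    (LinearEquiv.refl ℝ x₂.M.C) (LinearEquiv.refl ℝ L.dual.C) (fun _ => rfl) (fun _ => rfl) (-1)
    (-(wtK t)) (by norm_num) (neg_ne_zero.2 (wtK_ne_zero t)) (fun _ => rfl)
    (fun (μ : L.dual.C) => ?_) (fun (q : x₂.M.C) => rfl)).2 h1
  show (-(wtK t)) • L.dual.d μ = (-1 : ℝ) • (wtK t • L.dual.d μ)
  rw [smul_smul]; congr 1; ring

section ext

variable {x₁ x₂ : WtForm X t} {L : FcD X} (l₁ : FcHom L x₁.M) (l₂ : FcHom L x₂.M)
    (h : L.C →ₗ[ℝ] L.C →ₗ[ℝ] ℝ) (hl : FcLoc2 L L h) (hs : ∀ n n', h n' n = wtK t * wtE t * h n n')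
    (he : ∀ n n', x₁.b (l₁.f n) (l₁.f n') - x₂.b (l₂.f n) (l₂.f n') = h n (L.d n') + wtK t * h (L.d n) n')

/-- `cone θ → S → cone l₁` -/
def wtrhExt : FcExt (fcCone (wtrhTheta l₂)) (wtrhDat l₁ l₂ h hl hs he).S.M (fcCone l₁) where
  i := ⟨(0 : x₂.M.C × L.dual.C →ₗ[ℝ] L.C).prod
      ((LinearMap.inr ℝ x₁.M.C x₂.M.C ∘ₗ LinearMap.fst ℝ x₂.M.C L.dual.C).prod
        (LinearMap.snd ℝ x₂.M.C L.dual.C)),
    fun (m : x₂.M.C × L.dual.C) => by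
      show L.supp 0 ∪ ((x₁.M.supp 0 ∪ x₂.M.supp m.1) ∪ L.dual.supp m.2) ⊆
        x₂.M.supp m.1 ∪ L.dual.supp m.2
      rw [L.supp_zero, x₁.M.supp_zero, Set.empty_union, Set.empty_union],
    fun (m : x₂.M.C × L.dual.C) => by
      obtain ⟨p, ν⟩ := m
      refine Prod.ext ?_ (Prod.ext (Prod.ext ?_ ?_) ?_)
      · show (0 : L.C) = -(L.d 0)
        rw [map_zero, neg_zero]
      · show (0 : x₁.M.C) = l₁.f 0 + x₁.M.d 0
        rw [map_zero, map_zero, add_zero]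
      · show -((-1 : ℝ) • x₂.M.d p) = l₂.f 0 + x₂.M.d p
        rw [map_zero, zero_add, neg_smul, one_smul, neg_neg]
      · apply fck_dual_ext (A := L)
        intro n'
        show (-(wtK t)) * x₂.b p (l₂.f n') + (-(wtK t)) * fcAp ν (L.d n') =
          h 0 n' + wtK t * (x₁.b 0 (l₁.f n') + -(x₂.b p (l₂.f n'))) - wtK t * fcAp ν (L.d n')
        rw [map_zero, map_zero, LinearMap.zero_apply, LinearMap.zero_apply]
        ring⟩
  p := ⟨(LinearMap.fst ℝ L.C ((x₁.M.C × x₂.M.C) × L.dual.C)).prod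
      (LinearMap.fst ℝ x₁.M.C x₂.M.C ∘ₗ LinearMap.fst ℝ (x₁.M.C × x₂.M.C) L.dual.C ∘ₗ
        LinearMap.snd ℝ L.C ((x₁.M.C × x₂.M.C) × L.dual.C)),
    fun (m : L.C × ((x₁.M.C × x₂.M.C) × L.dual.C)) => by
      show L.supp m.1 ∪ x₁.M.supp m.2.1.1 ⊆
        L.supp m.1 ∪ ((x₁.M.supp m.2.1.1 ∪ x₂.M.supp m.2.1.2) ∪ L.dual.supp m.2.2)
      exact Set.union_subset_union subset_rfl (Set.subset_union_left.trans Set.subset_union_left),
    fun (m : L.C × ((x₁.M.C × x₂.M.C) × L.dual.C)) => rfl⟩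
  r := (LinearMap.snd ℝ x₁.M.C x₂.M.C ∘ₗ LinearMap.fst ℝ (x₁.M.C × x₂.M.C) L.dual.C ∘ₗ
        LinearMap.snd ℝ L.C ((x₁.M.C × x₂.M.C) × L.dual.C)).prod
      (LinearMap.snd ℝ (x₁.M.C × x₂.M.C) L.dual.C ∘ₗ
        LinearMap.snd ℝ L.C ((x₁.M.C × x₂.M.C) × L.dual.C))
  s := (LinearMap.fst ℝ L.C x₁.M.C).prod
      ((LinearMap.inl ℝ x₁.M.C x₂.M.C ∘ₗ LinearMap.snd ℝ L.C x₁.M.C).prod
        (0 : L.C × x₁.M.C →ₗ[ℝ] L.dual.C))
  r_loc := fun (m : L.C × ((x₁.M.C × x₂.M.C) × L.dual.C)) => by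
    show x₂.M.supp m.2.1.2 ∪ L.dual.supp m.2.2 ⊆
      L.supp m.1 ∪ ((x₁.M.supp m.2.1.1 ∪ x₂.M.supp m.2.1.2) ∪ L.dual.supp m.2.2)
    exact (Set.union_subset_union Set.subset_union_right subset_rfl).trans Set.subset_union_right
  s_loc := fun (m : L.C × x₁.M.C) => by
    show L.supp m.1 ∪ ((x₁.M.supp m.2 ∪ x₂.M.supp 0) ∪ L.dual.supp 0) ⊆ L.supp m.1 ∪ x₁.M.supp m.2
    rw [x₂.M.supp_zero, L.dual.supp_zero, Set.union_empty, Set.union_empty]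
  ri := fun _ => rfl
  ps := fun _ => rfl
  sum := fun (m : L.C × ((x₁.M.C × x₂.M.C) × L.dual.C)) => by
    obtain ⟨n, ⟨p₁, p₂⟩, ν⟩ := m
    show ((0 + n, (0 + p₁, p₂ + 0), ν + 0) : L.C × ((x₁.M.C × x₂.M.C) × L.dual.C)) = (n, (p₁, p₂), ν)
    rw [zero_add, zero_add, add_zero, add_zero]

end ext

/-- LEMMA HX -/
theorem wtr_hx (T P : FcCls X) {x₁ x₂ : WtForm X t} (hx₂ : x₂.In T P) {L : FcD X} (hL : T.mem L)
    (l₁ : FcHom L x₁.M) (l₂ : FcHom L x₂.M) (h₁ : P.mem (fcCone l₁)) (h₂ : P.mem (fcCone l₂))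
    (h : L.C →ₗ[ℝ] L.C →ₗ[ℝ] ℝ) (hl : FcLoc2 L L h) (hs : ∀ n n', h n' n = wtK t * wtE t * h n n')
    (he : ∀ n n', x₁.b (l₁.f n) (l₁.f n') - x₂.b (l₂.f n) (l₂.f n') = h n (L.d n') + wtK t * h (L.d n) n') :
    WtRel T P x₁ x₂ :=
  ⟨wtrhDat l₁ l₂ h hl hs he, hL,
    fcb_ext_mem P (wtrhExt l₁ l₂ h hl hs he) h₁ (wtrh_theta_mem P l₂ h₂ hx₂.2)⟩

section lemH

variable {y : WtForm X t} {L : FcD X} {u v : FcHom L y.M} (H : FcHtpy u v)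

/-- `h₀ n n' = k y (H n) (u n') + y (v n) (H n')` -/
def wtrhH0 : L.C →ₗ[ℝ] L.C →ₗ[ℝ] ℝ :=
  wtK t • y.b.compl₁₂ H.s u.f + y.b.compl₁₂ v.f H.s

theorem wtrhH0_apply (n n' : L.C) :
    wtrhH0 H n n' = wtK t * y.b (H.s n) (u.f n') + y.b (v.f n) (H.s n') := rfl

theorem wtrh_H0_loc : FcLoc2 L L (wtrhH0 H) := fun n n' hd => by
  rw [wtrhH0_apply, y.loc _ _ (Set.disjoint_of_subset (H.loc n) (u.loc n') hd),
    y.loc _ _ (Set.disjoint_of_subset (v.loc n) (H.loc n') hd)]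
  simp

theorem wtrh_H0_eq (n n' : L.C) :
    y.b (u.f n) (u.f n') - y.b (v.f n) (v.f n') =
      wtrhH0 H n (L.d n') + wtK t * wtrhH0 H (L.d n) n' := by
  rw [wtrhH0_apply, wtrhH0_apply]
  have e1 : u.f n = v.f n + (y.M.d (H.s n) + H.s (L.d n)) := by
    rw [← H.eq n]; abel
  have e2 : u.f n' = v.f n' + (y.M.d (H.s n') + H.s (L.d n')) := by
    rw [← H.eq n']; abel
  have a1 : y.b (y.M.d (H.s n)) (u.f n') = wtK t * y.b (H.s n) (u.f (L.d n')) := by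
    rw [y.adj, u.comm]
  have a2 : y.b (v.f (L.d n)) (H.s n') = wtK t * y.b (v.f n) (y.M.d (H.s n')) := by
    rw [v.comm, y.adj]
  have s1 : y.b (u.f n) (u.f n') = y.b (v.f n) (u.f n') + (y.b (y.M.d (H.s n)) (u.f n')
      + y.b (H.s (L.d n)) (u.f n')) := by
    conv_lhs => rw [e1]
    rw [map_add, map_add, LinearMap.add_apply, LinearMap.add_apply]
  have s2 : y.b (v.f n) (u.f n') = y.b (v.f n) (v.f n') + (y.b (v.f n) (y.M.d (H.s n'))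
      + y.b (v.f n) (H.s (L.d n'))) := by
    rw [e2, map_add, map_add]
  rw [s1, s2, a1, a2]
  linear_combination (-(y.b (H.s (L.d n)) (u.f n')) - y.b (v.f n) (y.M.d (H.s n'))) * wtK_sq t

/-- the symmetrisation `h = (h₀ + k e h₀ᵀ)/2` -/
noncomputable def wtrhH : L.C →ₗ[ℝ] L.C →ₗ[ℝ] ℝ :=
  (1 / 2 : ℝ) • (wtrhH0 H + (wtK t * wtE t) • (wtrhH0 H).flip)

theorem wtrhH_apply (n n' : L.C) :
    wtrhH H n n' = 1 / 2 * (wtrhH0 H n n' + wtK t * wtE t * wtrhH0 H n' n) := rfl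

theorem wtrh_H_loc : FcLoc2 L L (wtrhH H) := fun n n' hd => by
  rw [wtrhH_apply, wtrh_H0_loc H n n' hd, wtrh_H0_loc H n' n hd.symm]
  simp

theorem wtrh_H_symm (n n' : L.C) : wtrhH H n' n = wtK t * wtE t * wtrhH H n n' := by
  rw [wtrhH_apply, wtrhH_apply]
  linear_combination (-(1 / 2 * wtE t * wtE t * wtrhH0 H n' n)) * wtK_sq t
    - (1 / 2 * wtrhH0 H n' n) * wtE_sq t

theorem wtrh_H_eq (n n' : L.C) :
    y.b (u.f n) (u.f n') - y.b (v.f n) (v.f n') =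
      wtrhH H n (L.d n') + wtK t * wtrhH H (L.d n) n' := by
  rw [wtrhH_apply, wtrhH_apply]
  have h1 := wtrh_H0_eq H n n'
  have h2 := wtrh_H0_eq H n' n
  rw [y.symm (u.f n) (u.f n'), y.symm (v.f n) (v.f n')] at h2
  linear_combination (1 / 2 : ℝ) * h1 + (1 / 2 * wtE t) * h2
    - (1 / 2 * wtE t * wtrhH0 H n' (L.d n)) * wtK_sq t
    - (1 / 2 * (y.b (u.f n) (u.f n') - y.b (v.f n) (v.f n'))) * wtE_sq t

end lemH

/-- LEMMA H -/
theorem wtr_h (T P : FcCls X) {x₁ x₂ y : WtForm X t} (hx₂ : x₂.In T P) {L : FcD X} (hL : T.mem L)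
    (l₁ : FcHom L x₁.M) (l₂ : FcHom L x₂.M) (h₁ : P.mem (fcCone l₁)) (h₂ : P.mem (fcCone l₂))
    (f₁ : WtIsom x₁ y) (f₂ : WtIsom x₂ y) (H : FcHtpy (f₁.f.comp l₁) (f₂.f.comp l₂)) :
    WtRel T P x₁ x₂ := by
  refine wtr_hx T P hx₂ hL l₁ l₂ h₁ h₂ (wtrhH H) (wtrh_H_loc H) (wtrh_H_symm H) (fun n n' => ?_)
  rw [← f₁.isom, ← f₂.isom]
  exact wtrh_H_eq H n n'

/-- the homotopy `ad_{x.pert h} ≃ ad_x` -/
def wtrhPertHtpy (x : WtForm X t) (h : x.M.C →ₗ[ℝ] x.M.C →ₗ[ℝ] ℝ)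
    (hl : FcLoc2 x.M x.M h) (hs : ∀ m n, h n m = wtK t * wtE t * h m n) :
    FcHtpy (x.pert h hl hs).ad x.ad where
  s := (wtK t • fcCurry h hl : x.M.C →ₗ[ℝ] x.M.dual.C)
  loc := fun m => (x.M.dual.supp_smul _ _).trans (fck_curry_loc h hl m)
  eq := fun m => by
    apply fck_dual_ext (A := x.M)
    intro n
    show (x.b m n + h m (x.M.d n) + wtK t * h (x.M.d m) n) - x.b m n =
      wtK t * (wtK t * h m (x.M.d n)) + wtK t * h (x.M.d m) n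
    linear_combination (-(h m (x.M.d n))) * wtK_sq t

/-- LEMMA X, nonsingularity -/
theorem wtr_pert_in (T P : FcCls X) {x : WtForm X t} (hx : x.In T P) (h : x.M.C →ₗ[ℝ] x.M.C →ₗ[ℝ] ℝ)
    (hl : FcLoc2 x.M x.M h) (hs : ∀ m n, h n m = wtK t * wtE t * h m n) : (x.pert h hl hs).In T P :=
  ⟨hx.1, (wtr_cone_htpy P (wtrhPertHtpy x h hl hs)).2 hx.2⟩

/-- LEMMA X, cobordism -/
theorem wtr_pert_rel (T P : FcCls X) {x : WtForm X t} (hx : x.In T P) (h : x.M.C →ₗ[ℝ] x.M.C →ₗ[ℝ] ℝ)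
    (hl : FcLoc2 x.M x.M h) (hs : ∀ m n, h n m = wtK t * wtE t * h m n) :
    WtRel T P (x.pert h hl hs) x := by
  refine wtr_hx T P (x₁ := x.pert h hl hs) hx hx.1 (fcId x.M) (fcId x.M) (fcb_cone_id_mem P _)
    (fcb_cone_id_mem P _) h hl hs (fun n n' => ?_)
  show (x.b n n' + h n (x.M.d n') + wtK t * h (x.M.d n) n') - x.b n n' = _
  ring

/-- nonsingularity only depends on the form up to a `P`-equivalence (converse of `wt_pull_in`):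
`ad_{f^* y} = f^∨ ∘ ad_y ∘ f`, two out of three -/
theorem wtr_in_of_pull (P : FcCls X) {y : WtForm X t} {A : FcD X} (f : FcHom A y.M) (hf : P.mem (fcCone f))
    (h : P.mem (fcCone (y.pull f).ad)) : P.mem (fcCone y.ad) := by
  have e : (y.pull f).ad = ((fcTr f).resc (wtK t)).comp (y.ad.comp f) := FcHom.ext' fun _ => rfl
  rw [e] at h
  exact fcb_comp_right P f y.ad hf (fcb_comp_left P _ _
    ((fcb_cone_resc_iff P _ (wtK_ne_zero t)).2 (fck_eqv_tr P _ hf)) h)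

/-- the form `y (·, σ ·)` for a self adjoint local chain automorphism: nonsingularity (`ad' = ad ∘ σ`) -/
theorem wtr_in_twist (P : FcCls X) {y y' : WtForm X t} (σ : FcIso y'.M y.M) (τ : FcIso y'.M y.M)
    (h : ∀ m n, y'.b m n = y.b (τ.e m) (σ.e n)) (hy : P.mem (fcCone y.ad)) : P.mem (fcCone y'.ad) := by
  have e : y'.ad = ((fcTr σ.toHom).resc (wtK t)).comp (y.ad.comp τ.toHom) := by
    apply FcHom.ext'
    intro m
    apply fck_dual_ext (A := y'.M)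
    intro n
    exact h m n
  rw [e]
  exact fcb_comp_mem P _ _ (fcb_comp_mem P _ _ (fcb_iso_cone_mem P τ) hy)
    ((fcb_cone_resc_iff P _ (wtK_ne_zero t)).2 (fck_eqv_tr P _ (fcb_iso_cone_mem P σ)))

/-- realises the equation lemmas here (unique names) -/
theorem wt_rep_h_eqns_cite : True := by
  have := @wtrhDat.eq_1
  have := @wtrhTheta.eq_1
  have := @wtrhExt.eq_1
  have := @wtrhH0.eq_1
  have := @wtrhH.eq_1
  have := @wtrhPertHtpy.eq_1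
  trivial

end Claimed.Agent.R304
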