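/-
Row 304 (S0559, Hilbert-Smith).  Owner: helper89 (statements), helper246 (proofs, 08:25: free of gaps).  PACKAGE WtRepMain: THE GERM LEMMA.
`T : FcCls X` with `hT : WtCutOK T`;  `U` o-p-e-n;  groups `h^t(T.near univ; T.near U)`.

* `wtr_near_cpt`  : `A ∈ T.near U` ⟹ `A.AcycOn Cᶜ` for a compact `C ⊆ U`:  `A.AcycOn O`, `O ⊇ Uᶜ` o-p-e-n, `A.AcycOn Kᶜ` (`hT.cpt`), `fcg_acycOn_union`, `C = K ∖ O`.
* `wtr_near_of_cpt`: conversely `A ∈ T`, `A.AcycOn Cᶜ`, `C ⊆ U` compact ⟹ `A ∈ T.near U` (`O = Cᶜ`).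
* `wtr_lift` (LL) : `L ∈ T`, `f : L → M`, `g : M' → M`, `(cone g).AcycOn Cᶜ`.  `hT.cut U Cᶜ` for `in ∘ f : L → cone g` gives `c : L' → L` and a local null homotopy `s = (s₁, s₂) : L' → M' × M` of `in f c`:
                    `(0, f c l) = D (s₁ l, s₂ l) + (s₁ d l, s₂ d l) = (- d s₁ l + s₁ d l, g s₁ l + d s₂ l + s₂ d l)`;  so `f' := s₁` is a chain map and `s₂ : f c ≃ g f'`.
* `wtr_good_rep`  : `x = y.pull f`;  `x.In`: `L ∈ T`; `cone(ad_x) ∈ T` (closure properties), `AcycOn Cᶜ` by `wt_pull_in (fcAllCls X) (fcOnCls Cᶜ)`; `wtr_near_of_cpt`.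
* `wtr_unique` (R1): `x₁ →f₁ y.M ←f₂ x₂`.  (LL) with `L = x₁.M`, `f = f₁`, `g = f₂`: `c : L' → x₁.M`, `f' : L' → x₂.M`, `f₁ c ≃ f₂ f'`.  `cone c ∈ P_U`.  `cone f' ∈ T`; over `N = (C₁ ∪ C₂ ∪ C_c)ᶜ`
                    (class `fcOnCls N`): `cone(f₁ c)` ok (`fcb_comp_mem`), so `cone(f₂ f')` (`wtr_cone_htpy`), so `cone f'` (`fcb_comp_left`).  Lemma H (`wtr_h`).
* `wtr_good_pull` : (LL) again: `f : L → y.M`, `g = φ : M' → y.M`; `f' : L' → M'`; `cone f'` acyclic off a compact subset of `U` as above; `cone(ad)` by `wt_pull_in`.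
* `wt_germ_roof`  : `y' = y₁.pull φ₁` is good (`wtr_good_pull`), representative `x'`, `f' : x'.M → M'`.  `x'` represents `y₁` (via `φ₁ f'`).   `x'' := y₂.pull (φ₂ f')` represents `y₂`.
                    `x' ~ x''` by `wtr_hx` with `L = x'.M`, `l₁ = l₂ = 1`, `h` pulled back along `f'`.
* sums / negatives: `f₁ × f₂`, `cone (f₁ × f₂) ≅ cone f₁ × cone f₂`.
-/
import Claimed.Agent.R304.WtRepH

set_option autoImplicit false

namespace Claimed.Agent.R304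

open Topology

variable {X : Type} [TopologicalSpace X] [T2Space X] {t : ZMod 4}

theorem wtr_near_cpt {T : FcCls X} (hT : WtCutOK T) {U : Set X} {A : FcD X} (hA : (T.near U).mem A) :
    ∃ C : Set X, IsCompact C ∧ C ⊆ U ∧ A.AcycOn Cᶜ := by
  obtain ⟨hAT, O, hO, hUO, hAO⟩ := hA
  obtain ⟨K, hK, hAK⟩ := hT.cpt A hAT
  refine ⟨K \ O, hK.diff hO, ?_, ?_⟩
  · rintro x ⟨_, hxO⟩
    by_contra hxU
    exact hxO (hUO hxU)
  · have h := fcg_acycOn_union A hK.isClosed.isOpen_compl hO hAK hAO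
    refine h.mono ?_
    intro x hx
    by_cases hxK : x ∈ K
    · by_cases hxO : x ∈ O
      · exact Or.inr hxO
      · exact absurd ⟨hxK, hxO⟩ hx
    · exact Or.inl hxK

theorem wtr_near_of_cpt (T : FcCls X) {U C : Set X} (hC : IsCompact C) (hCU : C ⊆ U) {A : FcD X}
    (hA : T.mem A) (h : A.AcycOn Cᶜ) : (T.near U).mem A :=
  ⟨hA, Cᶜ, hC.isClosed.isOpen_compl, Set.compl_subset_compl.2 hCU, h⟩

/-- (LL) the lifting lemma -/
theorem wtr_lift {T : FcCls X} (hT : WtCutOK T) {U C : Set X} (hU : IsOpen U) (hC : IsCompact C) (hCU : C ⊆ U)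
    {L M M' : FcD X} (hL : T.mem L) (f : FcHom L M) (g : FcHom M' M) (hg : (fcCone g).AcycOn Cᶜ) :
    ∃ (L' : FcD X) (c : FcHom L' L) (f' : FcHom L' M'), T.mem L' ∧ (T.near U).mem (fcCone c) ∧
      Nonempty (FcHtpy (f.comp c) (g.comp f')) := by
  obtain ⟨L', c, hL', hc, ⟨H⟩⟩ := hT.cut U Cᶜ hU hC.isClosed.isOpen_compl (Set.compl_subset_compl.2 hCU)
    L (fcCone g) ((fcbConeIn g).comp f) hL hg
  let s : L'.C →ₗ[ℝ] M'.C × M.C := H.s
  have hloc : ∀ m, M'.supp (s m).1 ∪ M.supp (s m).2 ⊆ L'.supp m := fun m => H.loc m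
  have heq : ∀ m, (((0 : M'.C), f.f (c.f m)) : M'.C × M.C) - 0 =
      (-(M'.d (s m).1), g.f (s m).1 + M.d (s m).2) + s (L'.d m) := fun m => H.eq m
  have heq1 : ∀ m, (s (L'.d m)).1 = M'.d (s m).1 := fun m => by
    have h1 := congrArg Prod.fst (heq m)
    have h2 : (0 : M'.C) - 0 = -(M'.d (s m).1) + (s (L'.d m)).1 := h1
    rw [sub_zero] at h2
    exact (neg_add_eq_zero.1 h2.symm).symm
  have heq2 : ∀ m, f.f (c.f m) = g.f (s m).1 + M.d (s m).2 + (s (L'.d m)).2 := fun m => by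
    have h1 := congrArg Prod.snd (heq m)
    have h2 : f.f (c.f m) - 0 = g.f (s m).1 + M.d (s m).2 + (s (L'.d m)).2 := h1
    rwa [sub_zero] at h2
  refine ⟨L', c, ⟨LinearMap.fst ℝ M'.C M.C ∘ₗ s, fun m => Set.subset_union_left.trans (hloc m),
    fun m => heq1 m⟩, hL', hc, ⟨⟨LinearMap.snd ℝ M'.C M.C ∘ₗ s,
      fun m => Set.subset_union_right.trans (hloc m), fun m => ?_⟩⟩⟩
  show f.f (c.f m) - g.f (s m).1 = M.d (s m).2 + (s (L'.d m)).2
  rw [heq2 m]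
  abel

/-- the product of two maps, as a map of extensions -/
def wtrmProdExt {A B A' B' : FcD X} (f : FcHom A A') (g : FcHom B B') :
    FcExtHom (fcbExtProd A B) (fcbExtProd A' B') where
  fB := g
  fE := f.prodMap g
  fA := f
  comm_i := fun b => by
    show (f.f 0, g.f b) = ((0 : A'.C), g.f b)
    rw [map_zero]
  comm_p := fun _ => rfl

/-- the product of two `P`-equivalences is a `P`-equivalence -/
theorem wtrm_prodMap_mem (P : FcCls X) {A B A' B' : FcD X} (f : FcHom A A') (g : FcHom B B')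
    (hf : P.mem (fcCone f)) (hg : P.mem (fcCone g)) : P.mem (fcCone (f.prodMap g)) :=
  fcb_extHom_mem P (wtrmProdExt f g) hg hf

/-- the cone of the adjoint of a form on a member of `T` is a member of `T` -/
theorem wtrm_ad_mem (T : FcCls X) (x : WtForm X t) (hx : T.mem x.M) : T.mem (fcCone x.ad) :=
  T.cone x.ad hx (T.resc _ (wtK_ne_zero t) (T.dual hx))

/-- the pull back of a form which is nonsingular over `N` along an equivalence over `N` -/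
theorem wtrm_pull_acyc {N : Set X} {y : WtForm X t} (hy : (fcCone y.ad).AcycOn N) {A : FcD X}
    (f : FcHom A y.M) (hf : (fcCone f).AcycOn N) : (fcCone (y.pull f).ad).AcycOn N :=
  (wt_pull_in (fcAllCls X) (fcOnCls N) (x := y) ⟨trivial, hy⟩ f trivial hf).2

/-- the pull back of a good form along an approximation is a representative -/
theorem wtrm_rep_pull (T : FcCls X) {U C : Set X} (hC : IsCompact C) (hCU : C ⊆ U) {y : WtForm X t}
    (hy : (fcCone y.ad).AcycOn Cᶜ) {L : FcD X} (f : FcHom L y.M) (hL : T.mem L)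
    (hf : (fcCone f).AcycOn Cᶜ) : WtRep T U y (y.pull f) :=
  ⟨⟨(wtr_near_univ T L).2 hL, wtr_near_of_cpt T hC hCU (wtrm_ad_mem T (y.pull f) hL)
    (wtrm_pull_acyc hy f hf)⟩, f, C, hC, hCU, hf, fun _ _ => rfl⟩

/-- a good form has a representative -/
theorem wtr_good_rep (T : FcCls X) {U : Set X} {y : WtForm X t} (h : WtGood T U y) :
    ∃ x, WtRep T U y x := by
  obtain ⟨C, hC, hCU, hy, L, f, hL, hf⟩ := h
  exact ⟨y.pull f, wtrm_rep_pull T hC hCU hy f hL hf⟩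

/-- (LL) with the additional information that the lift is an equivalence off a compact subset of `U` -/
theorem wtrm_lift {T : FcCls X} (hT : WtCutOK T) {U C C' : Set X} (hU : IsOpen U) (hC : IsCompact C)
    (hCU : C ⊆ U) (hC' : IsCompact C') (hCU' : C' ⊆ U)
    {L M M' : FcD X} (hL : T.mem L) (f : FcHom L M) (g : FcHom M' M) (hg : (fcCone g).AcycOn Cᶜ)
    (hf : (fcCone f).AcycOn C'ᶜ) :
    ∃ (L' : FcD X) (c : FcHom L' L) (f' : FcHom L' M') (C'' : Set X), T.mem L' ∧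
      (T.near U).mem (fcCone c) ∧ Nonempty (FcHtpy (f.comp c) (g.comp f')) ∧ IsCompact C'' ∧ C'' ⊆ U ∧
      C ⊆ C'' ∧ C' ⊆ C'' ∧ (fcCone f').AcycOn C''ᶜ := by
  obtain ⟨L', c, f', hL', hc, ⟨H⟩⟩ := wtr_lift hT hU hC hCU hL f g hg
  obtain ⟨Cc, hCc, hCcU, hcc⟩ := wtr_near_cpt hT hc
  refine ⟨L', c, f', C ∪ C' ∪ Cc, hL', hc, ⟨H⟩, (hC.union hC').union hCc,
    Set.union_subset (Set.union_subset hCU hCU') hCcU, Set.subset_union_left.trans Set.subset_union_left,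
    Set.subset_union_right.trans Set.subset_union_left, ?_⟩
  have e1 : (C ∪ C' ∪ Cc)ᶜ ⊆ Cᶜ :=
    Set.compl_subset_compl.2 (Set.subset_union_left.trans Set.subset_union_left)
  have e2 : (C ∪ C' ∪ Cc)ᶜ ⊆ C'ᶜ :=
    Set.compl_subset_compl.2 (Set.subset_union_right.trans Set.subset_union_left)
  have e3 : (C ∪ C' ∪ Cc)ᶜ ⊆ Ccᶜ := Set.compl_subset_compl.2 Set.subset_union_right
  have h1 : (fcOnCls (C ∪ C' ∪ Cc)ᶜ).mem (fcCone (f.comp c)) :=
    fcb_comp_mem (fcOnCls (C ∪ C' ∪ Cc)ᶜ) c f (hcc.mono e3) (hf.mono e2)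
  have h2 : (fcOnCls (C ∪ C' ∪ Cc)ᶜ).mem (fcCone (g.comp f')) :=
    (wtr_cone_htpy (fcOnCls (C ∪ C' ∪ Cc)ᶜ) H).1 h1
  exact fcb_comp_left (fcOnCls (C ∪ C' ∪ Cc)ᶜ) f' g (hg.mono e1) h2

/-- (R1) two representatives are cobordant -/
theorem wtr_unique {T : FcCls X} (hT : WtCutOK T) {U : Set X} (hU : IsOpen U) {y x₁ x₂ : WtForm X t}
    (h₁ : WtRep T U y x₁) (h₂ : WtRep T U y x₂) : WtRel (T.near Set.univ) (T.near U) x₁ x₂ := by
  obtain ⟨hx₁, f₁, C₁, hC₁, hCU₁, hf₁, hb₁⟩ := h₁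
  obtain ⟨hx₂, f₂, C₂, hC₂, hCU₂, hf₂, hb₂⟩ := h₂
  have hM₁ : T.mem x₁.M := (wtr_near_univ T _).1 hx₁.1
  have hM₂ : T.mem x₂.M := (wtr_near_univ T _).1 hx₂.1
  obtain ⟨L', c, f', C'', hL', hc, ⟨H⟩, hC'', hCU'', -, -, hf'⟩ :=
    wtrm_lift hT hU hC₂ hCU₂ hC₁ hCU₁ hM₁ f₁ f₂ hf₂ hf₁
  exact wtr_h (T.near Set.univ) (T.near U) (y := y) hx₂ ((wtr_near_univ T _).2 hL') c f' hc
    (wtr_near_of_cpt T hC'' hCU'' (T.cone f' hL' hM₂) hf')
    ⟨f₁, fun a c => (hb₁ a c).symm⟩ ⟨f₂, fun a c => (hb₂ a c).symm⟩ H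

/-- THE CLASS OF A GOOD FORM -/
noncomputable def wtGerm (T : FcCls X) (U : Set X) (y : WtForm X t) (h : WtGood T U y) :
    WtH (T.near Set.univ) (T.near U) t :=
  wtMk _ _ (wtr_good_rep T h).choose (wtr_good_rep T h).choose_spec.1

/-- (G0) the class is the class of any representative -/
theorem wt_germ_eq {T : FcCls X} (hT : WtCutOK T) {U : Set X} (hU : IsOpen U) {y x : WtForm X t}
    (h : WtGood T U y) (hx : WtRep T U y x) : wtGerm T U y h = wtMk _ _ x hx.1 :=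
  (wtMk_eq_iff _ _ _ _ _ _).2 (wtr_unique hT hU (wtr_good_rep T h).choose_spec hx)

/-! ### good forms -/

/-- (G4) forms on members of `T` -/
theorem wtr_good_self (T : FcCls X) (hT : WtCutOK T) {U : Set X} {y : WtForm X t}
    (hy : y.In (T.near Set.univ) (T.near U)) : WtGood T U y := by
  obtain ⟨C, hC, hCU, h⟩ := wtr_near_cpt hT hy.2
  exact ⟨C, hC, hCU, h, y.M, fcId y.M, (wtr_near_univ T _).1 hy.1,
    (fcb_cone_id_acyc y.M).mono (Set.subset_univ _)⟩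

theorem wtr_good_mono (T : FcCls X) {U U' : Set X} (hUU' : U ⊆ U') {y : WtForm X t} (h : WtGood T U y) :
    WtGood T U' y := by
  obtain ⟨C, hC, hCU, h1, h2⟩ := h
  exact ⟨C, hC, hCU.trans hUU', h1, h2⟩

theorem wtr_good_sum (T : FcCls X) {U : Set X} {y y' : WtForm X t} (h : WtGood T U y) (h' : WtGood T U y') :
    WtGood T U (y.sum y') := by
  obtain ⟨C, hC, hCU, hy, L, f, hL, hf⟩ := h
  obtain ⟨C', hC', hCU', hy', L', f', hL', hf'⟩ := h'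
  have e1 : (C ∪ C')ᶜ ⊆ Cᶜ := Set.compl_subset_compl.2 Set.subset_union_left
  have e2 : (C ∪ C')ᶜ ⊆ C'ᶜ := Set.compl_subset_compl.2 Set.subset_union_right
  exact ⟨C ∪ C', hC.union hC', Set.union_subset hCU hCU',
    (wt_in_sum (fcAllCls X) (fcOnCls (C ∪ C')ᶜ) (x := y) (y := y') ⟨trivial, hy.mono e1⟩
      ⟨trivial, hy'.mono e2⟩).2,
    L.prod L', f.prodMap f', fcb_prod_mem T hL hL',
    wtrm_prodMap_mem (fcOnCls (C ∪ C')ᶜ) f f' (hf.mono e1) (hf'.mono e2)⟩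

theorem wtr_good_neg (T : FcCls X) {U : Set X} {y : WtForm X t} (h : WtGood T U y) : WtGood T U y.neg := by
  obtain ⟨C, hC, hCU, hy, L, f, hL, hf⟩ := h
  exact ⟨C, hC, hCU, (wt_in_neg (fcAllCls X) (fcOnCls Cᶜ) (x := y) ⟨trivial, hy⟩).2, L, f, hL, hf⟩

/-- pull back along an equivalence off a compact subset of `U` -/
theorem wtr_good_pull {T : FcCls X} (hT : WtCutOK T) {U C : Set X} (hU : IsOpen U) (hC : IsCompact C)
    (hCU : C ⊆ U) {y : WtForm X t} (h : WtGood T U y) {M' : FcD X} (φ : FcHom M' y.M)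
    (hφ : (fcCone φ).AcycOn Cᶜ) : WtGood T U (y.pull φ) := by
  obtain ⟨C₀, hC₀, hCU₀, hy, L, f, hL, hf⟩ := h
  obtain ⟨L', c, f', C'', hL', hc, -, hC'', hCU'', hCC'', hC₀C'', hf'⟩ :=
    wtrm_lift hT hU hC hCU hC₀ hCU₀ hL f φ hφ hf
  exact ⟨C'', hC'', hCU'', wtrm_pull_acyc (hy.mono (Set.compl_subset_compl.2 hC₀C'')) φ
    (hφ.mono (Set.compl_subset_compl.2 hCC'')), L', f', hL', hf'⟩

/-- goodness only depends on the underlying object and on nonsingularity -/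
theorem wtr_good_of_obj (T : FcCls X) {U C : Set X} (hC : IsCompact C) (hCU : C ⊆ U) {y y' : WtForm X t}
    (h : WtGood T U y) (e : FcIso y.M y'.M) (hy' : (fcCone y'.ad).AcycOn Cᶜ) : WtGood T U y' := by
  obtain ⟨C₀, hC₀, hCU₀, -, L, f, hL, hf⟩ := h
  have e1 : (C₀ ∪ C)ᶜ ⊆ C₀ᶜ := Set.compl_subset_compl.2 Set.subset_union_left
  have e2 : (C₀ ∪ C)ᶜ ⊆ Cᶜ := Set.compl_subset_compl.2 Set.subset_union_right
  exact ⟨C₀ ∪ C, hC₀.union hC, Set.union_subset hCU₀ hCU, hy'.mono e2, L, e.toHom.comp f, hL,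
    fcb_comp_mem (fcOnCls (C₀ ∪ C)ᶜ) f e.toHom (hf.mono e1) (fcb_iso_cone_mem _ e)⟩

theorem wtr_good_pert (T : FcCls X) {U : Set X} {y : WtForm X t} (h : WtGood T U y)
    (h0 : y.M.C →ₗ[ℝ] y.M.C →ₗ[ℝ] ℝ) (hl : FcLoc2 y.M y.M h0)
    (hs : ∀ m n, h0 n m = wtK t * wtE t * h0 m n) : WtGood T U (y.pert h0 hl hs) := by
  obtain ⟨C, hC, hCU, hy, L, f, hL, hf⟩ := h
  exact ⟨C, hC, hCU, (wtr_pert_in (fcAllCls X) (fcOnCls Cᶜ) (x := y) ⟨trivial, hy⟩ h0 hl hs).2,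
    L, f, hL, hf⟩

/-! ### the calculus of the classes -/

/-- (G4) -/
theorem wt_germ_self {T : FcCls X} (hT : WtCutOK T) {U : Set X} (hU : IsOpen U) {y : WtForm X t}
    (hy : y.In (T.near Set.univ) (T.near U)) (h : WtGood T U y) : wtGerm T U y h = wtMk _ _ y hy :=
  wt_germ_eq hT hU h ⟨hy, fcId y.M, ∅, isCompact_empty, Set.empty_subset _,
    (fcb_cone_id_acyc y.M).mono (Set.subset_univ _), fun _ _ => rfl⟩

/-- (G1) -/
theorem wt_germ_sum {T : FcCls X} (hT : WtCutOK T) {U : Set X} (hU : IsOpen U) {y y' : WtForm X t}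
    (h : WtGood T U y) (h' : WtGood T U y') (h'' : WtGood T U (y.sum y')) :
    wtGerm T U (y.sum y') h'' = wtGerm T U y h + wtGerm T U y' h' := by
  obtain ⟨x, hx⟩ := wtr_good_rep T h
  obtain ⟨x', hx'⟩ := wtr_good_rep T h'
  rw [wt_germ_eq hT hU h hx, wt_germ_eq hT hU h' hx', wtMk_add]
  refine wt_germ_eq hT hU h'' ?_
  obtain ⟨hxI, f, C, hC, hCU, hf, hb⟩ := hx
  obtain ⟨hxI', f', C', hC', hCU', hf', hb'⟩ := hx'
  have e1 : (C ∪ C')ᶜ ⊆ Cᶜ := Set.compl_subset_compl.2 Set.subset_union_left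
  have e2 : (C ∪ C')ᶜ ⊆ C'ᶜ := Set.compl_subset_compl.2 Set.subset_union_right
  refine ⟨wt_in_sum _ _ hxI hxI', f.prodMap f', C ∪ C', hC.union hC', Set.union_subset hCU hCU',
    wtrm_prodMap_mem (fcOnCls (C ∪ C')ᶜ) f f' (hf.mono e1) (hf'.mono e2), fun m n => ?_⟩
  show x.b m.1 n.1 + x'.b m.2 n.2 = y.b (f.f m.1) (f.f n.1) + y'.b (f'.f m.2) (f'.f n.2)
  rw [hb, hb']

/-- (G2) -/
theorem wt_germ_neg {T : FcCls X} (hT : WtCutOK T) {U : Set X} (hU : IsOpen U) {y : WtForm X t}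
    (h : WtGood T U y) (h' : WtGood T U y.neg) : wtGerm T U y.neg h' = - wtGerm T U y h := by
  obtain ⟨x, hx⟩ := wtr_good_rep T h
  rw [wt_germ_eq hT hU h hx, wtMk_neg]
  refine wt_germ_eq hT hU h' ?_
  obtain ⟨hxI, f, C, hC, hCU, hf, hb⟩ := hx
  exact ⟨wt_in_neg _ _ hxI, f, C, hC, hCU, hf, fun m n => congrArg (fun z : ℝ => -z) (hb m n)⟩

/-- (G3)+(G5) ROOF INVARIANCE: two good forms which become equal up to an exact term on a common approximation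
off a compact subset of `U` have the same class -/
theorem wt_germ_roof {T : FcCls X} (hT : WtCutOK T) {U C : Set X} (hU : IsOpen U) (hC : IsCompact C)
    (hCU : C ⊆ U) {y₁ y₂ : WtForm X t} (h₁ : WtGood T U y₁) (h₂ : WtGood T U y₂) {M' : FcD X}
    (φ₁ : FcHom M' y₁.M) (φ₂ : FcHom M' y₂.M) (hφ₁ : (fcCone φ₁).AcycOn Cᶜ) (hφ₂ : (fcCone φ₂).AcycOn Cᶜ)
    (h : M'.C →ₗ[ℝ] M'.C →ₗ[ℝ] ℝ) (hl : FcLoc2 M' M' h) (hs : ∀ m n, h n m = wtK t * wtE t * h m n)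
    (he : ∀ m n, y₁.b (φ₁.f m) (φ₁.f n) - y₂.b (φ₂.f m) (φ₂.f n) = h m (M'.d n) + wtK t * h (M'.d m) n) :
    wtGerm T U y₁ h₁ = wtGerm T U y₂ h₂ := by
  obtain ⟨x', hx'I, f', C', hC', hCU', hf', hb'⟩ := wtr_good_rep T (wtr_good_pull hT hU hC hCU h₁ φ₁ hφ₁)
  obtain ⟨C₂, hC₂, hCU₂, hy₂, -⟩ := id h₂
  have hM : T.mem x'.M := (wtr_near_univ T _).1 hx'I.1
  have e1 : (C ∪ C' ∪ C₂)ᶜ ⊆ Cᶜ :=
    Set.compl_subset_compl.2 (Set.subset_union_left.trans Set.subset_union_left)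
  have e2 : (C ∪ C' ∪ C₂)ᶜ ⊆ C'ᶜ :=
    Set.compl_subset_compl.2 (Set.subset_union_right.trans Set.subset_union_left)
  have e3 : (C ∪ C' ∪ C₂)ᶜ ⊆ C₂ᶜ := Set.compl_subset_compl.2 Set.subset_union_right
  have hCc : IsCompact (C ∪ C' ∪ C₂) := (hC.union hC').union hC₂
  have hCcU : C ∪ C' ∪ C₂ ⊆ U := Set.union_subset (Set.union_subset hCU hCU') hCU₂
  have hr₁ : WtRep T U y₁ x' := ⟨hx'I, φ₁.comp f', C ∪ C' ∪ C₂, hCc, hCcU,
    fcb_comp_mem (fcOnCls (C ∪ C' ∪ C₂)ᶜ) f' φ₁ (hf'.mono e2) (hφ₁.mono e1), fun m n => hb' m n⟩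
  have hr₂ : WtRep T U y₂ (y₂.pull (φ₂.comp f')) := wtrm_rep_pull T hCc hCcU (hy₂.mono e3) _ hM
    (fcb_comp_mem (fcOnCls (C ∪ C' ∪ C₂)ᶜ) f' φ₂ (hf'.mono e2) (hφ₂.mono e1))
  rw [wt_germ_eq hT hU h₁ hr₁, wt_germ_eq hT hU h₂ hr₂, wtMk_eq_iff]
  refine wtr_hx (T.near Set.univ) (T.near U) (x₁ := x') (x₂ := y₂.pull (φ₂.comp f')) hr₂.1 hx'I.1
    (fcId x'.M) (fcId x'.M) (fcb_cone_id_mem _ _) (fcb_cone_id_mem _ _) (h.compl₁₂ f'.f f'.f)
    (fun m n hd => hl _ _ (Set.disjoint_of_subset (f'.loc m) (f'.loc n) hd))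
    (fun n n' => hs _ _) (fun n n' => ?_)
  show x'.b n n' - y₂.b (φ₂.f (f'.f n)) (φ₂.f (f'.f n')) =
    h (f'.f n) (f'.f (x'.M.d n')) + wtK t * h (f'.f (x'.M.d n)) (f'.f n')
  rw [f'.comm, f'.comm, hb']
  exact he _ _

theorem wtr_near_le (T : FcCls X) {U U' : Set X} (h : U ⊆ U') : (T.near U).le (T.near U') := by
  rintro A ⟨hA, O, hO, hUO, hAO⟩
  exact ⟨hA, O, hO, (Set.compl_subset_compl.2 h).trans hUO, hAO⟩

/-- (G7) enlarging `U` -/
theorem wt_germ_mono {T : FcCls X} (hT : WtCutOK T) {U U' : Set X} (hU' : IsOpen U') (hUU' : U ⊆ U')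
    {y : WtForm X t} (h : WtGood T U y) (h' : WtGood T U' y) :
    wtInc (T.near Set.univ).le_refl' (wtr_near_le T hUU') t (wtGerm T U y h) = wtGerm T U' y h' := by
  have hx := (wtr_good_rep T h).choose_spec
  have hx' : WtRep T U' y (wtr_good_rep T h).choose := by
    obtain ⟨hxI, f, C, hC, hCU, hf, hb⟩ := hx
    exact ⟨wt_in_mono (T.near Set.univ).le_refl' (wtr_near_le T hUU') hxI, f, C, hC, hCU.trans hUU', hf, hb⟩
  rw [wt_germ_eq hT hU' h' hx']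
  rfl

/-- realises the equation lemmas here (unique names) -/
theorem wt_rep_main_eqns_cite : True := by
  have := @wtGerm.eq_1
  have := @wtrmProdExt.eq_1
  trivial

end Claimed.Agent.R304
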