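/-
Row 304 (S0559, Hilbert-Smith).  Owner: helper89.  SEC. 6, ABSTRACT FORM: the data which the smooth cochains provide, and the forms `γ_D`.

`Y` = orbit space (compact Hausdorff), `y0` = the image of `∞`, `a` = the push forward to `Y` of the orientation form of the cube (a form on a member of `T(Y)`).
`SmCore p y0 a`  (to be instantiated ONCE, by the smooth Alexander-Spanier cochains with compact support in `O`; file `SmInst.lean`):
   `S`       a differential object over `Y`;   `j : S → a.M` an equivalence off `y0`;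
   `R`       a smooth representation of `ℤ_p` on `S` by LOCAL chain maps (local over the orbit space!);
   `cup`, `sgn` (`(-1)^q`), `gam` (`γ_d`, `WtCubeDefs`)  with the Leibniz rule;  the action is multiplicative;
   `I0`      the integral (`= 1/2 (wcI d).I ∘ j`), `I0 ∘ d = 0`,  `a.b (j x) (j y) = I0 (γ x ∪ y) + e I0 (γ y ∪ x)`;
   `I0_inv`  the group acts trivially on the top cohomology: `I0 (ρ(g) x) = I0 x` for cycles `x`.
DERIVED:
   `K.Ism = I0 ∘ average`          the invariant integral;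
   `K.al`                          the invariant form `α(x,y) = Ism (γ x ∪ y) + e Ism (γ y ∪ x)` on `S`;
   `K.gm D`                        the form `γ_D(u,v) = (α ⊥ α)(u, (2 e(D) - 1) v)` on `S × S` (`= S ⊗ ℂ`).
`SmShift K k W`  the multiplication operators `c = Re β`, `s = Im β`, `β = ζ_k^σ`, of a system of `p^k` sheets over `W ⊆ Y`.
The sorried obligations of this file belong to the package `SmForm#Defs`; all computations are in the header of `SmForm.lean`.
-/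
import Claimed.Agent.R304.SmAlg
import Claimed.Agent.R304.WtRepMain

set_option autoImplicit false

namespace Claimed.Agent.R304

open Topology

/-- THE DATA OF SEC. 6 -/
structure SmCore (p : ℕ) [Fact p.Prime] {Y : Type} [TopologicalSpace Y] [T2Space Y] (y0 : Y) {t : ZMod 4}
    (a : WtForm Y t) where
  /-- the smooth cochains with compact support off `y0` -/
  S : FcD Y
  /-- the comparison with the cube -/
  j : FcHom S a.M
  j_qi : (fcCone j).AcycOn {y0}ᶜ
  /-- the action -/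
  R : SmRep p S.C
  rho_loc : ∀ g, FcLoc S S (R.rho g)
  rho_d : ∀ g x, R.rho g (S.d x) = S.d (R.rho g x)
  /-- the cup product -/
  cup : S.C →ₗ[ℝ] S.C →ₗ[ℝ] S.C
  cup_supp : ∀ x y, S.supp (cup x y) ⊆ S.supp x ∩ S.supp y
  /-- `(-1)^q` -/
  sgn : S.C →ₗ[ℝ] S.C
  /-- the signs `γ_d` -/
  gam : S.C →ₗ[ℝ] S.C
  sgn_loc : FcLoc S S sgn
  gam_loc : FcLoc S S gam
  sgn_sgn : ∀ x, sgn (sgn x) = x
  sgn_d : ∀ x, sgn (S.d x) = - S.d (sgn x)
  gam_d : ∀ x, S.d (gam x) = wtK t • sgn (gam (S.d x))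
  leib : ∀ x y, S.d (cup x y) = cup (S.d x) y + cup (sgn x) (S.d y)
  rho_cup : ∀ g x y, R.rho g (cup x y) = cup (R.rho g x) (R.rho g y)
  rho_gam : ∀ g x, R.rho g (gam x) = gam (R.rho g x)
  /-- the integral -/
  I0 : S.C →ₗ[ℝ] ℝ
  I0_d : ∀ x, I0 (S.d x) = 0
  form : ∀ x y, a.b (j.f x) (j.f y) = I0 (cup (gam x) y) + wtE t * I0 (cup (gam y) x)
  I0_inv : ∀ g x, S.d x = 0 → I0 (R.rho g x) = I0 x

variable {p : ℕ} [Fact p.Prime] {Y : Type} [TopologicalSpace Y] [T2Space Y] {y0 : Y} {t : ZMod 4}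
  {a : WtForm Y t}

/-- the invariant integral -/
noncomputable def SmCore.Ism (K : SmCore p y0 a) : K.S.C →ₗ[ℝ] ℝ := K.I0 ∘ₗ smAve K.R

/-- `F(I)(x,y) = I (γ x ∪ y) + e I (γ y ∪ x)` -/
noncomputable def SmCore.F (K : SmCore p y0 a) (I : K.S.C →ₗ[ℝ] ℝ) : K.S.C →ₗ[ℝ] K.S.C →ₗ[ℝ] ℝ :=
  (K.cup.compr₂ I).comp K.gam + wtE t • ((K.cup.compr₂ I).comp K.gam).flip

theorem SmCore.F_apply (K : SmCore p y0 a) (I : K.S.C →ₗ[ℝ] ℝ) (x y : K.S.C) :
    K.F I x y = I (K.cup (K.gam x) y) + wtE t * I (K.cup (K.gam y) x) := rfl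

/-- the cup product of elements with disjoint supports vanishes -/
theorem SmCore.cup_eq_zero (K : SmCore p y0 a) {x y : K.S.C} (h : Disjoint (K.S.supp x) (K.S.supp y)) :
    K.cup x y = 0 := by
  rw [← K.S.supp_empty_iff, ← Set.subset_empty_iff]
  exact (K.cup_supp x y).trans (Set.disjoint_iff.1 h)

/-- `γ d x = - k d (τ γ x)` -/
theorem SmCore.gam_d' (K : SmCore p y0 a) (x : K.S.C) :
    K.gam (K.S.d x) = -(wtK t • K.S.d (K.sgn (K.gam x))) := by
  have h1 : K.sgn (K.S.d (K.gam x)) = wtK t • K.gam (K.S.d x) := by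
    rw [K.gam_d, map_smul, K.sgn_sgn]
  have h2 : wtK t • K.sgn (K.S.d (K.gam x)) = K.gam (K.S.d x) := by
    rw [h1, smul_smul, wtK_sq, one_smul]
  rw [← h2, K.sgn_d, smul_neg]

/-- `b₁(d x, y) = k b₁(x, d y)` for `b₁(x,y) = I (γ x ∪ y)`, `I ∘ d = 0` -/
theorem SmCore.b1_adj (K : SmCore p y0 a) (I : K.S.C →ₗ[ℝ] ℝ) (hI : ∀ x, I (K.S.d x) = 0) (x y : K.S.C) :
    I (K.cup (K.gam (K.S.d x)) y) = wtK t * I (K.cup (K.gam x) (K.S.d y)) := by
  have hl := K.leib (K.sgn (K.gam x)) y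
  rw [K.sgn_sgn] at hl
  have h0 := hI (K.cup (K.sgn (K.gam x)) y)
  rw [hl, map_add] at h0
  rw [K.gam_d', map_neg, map_smul, LinearMap.neg_apply, LinearMap.smul_apply, map_neg, map_smul,
    smul_eq_mul]
  linear_combination (-(wtK t)) * h0

/-- the form attached to a closed functional -/
noncomputable def SmCore.formOf (K : SmCore p y0 a) (I : K.S.C →ₗ[ℝ] ℝ) (hI : ∀ x, I (K.S.d x) = 0) :
    WtForm Y t where
  M := K.S
  b := K.F I
  loc := fun m n h => by
    rw [K.F_apply, K.cup_eq_zero (Set.disjoint_of_subset_left (K.gam_loc m) h),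
      K.cup_eq_zero (Set.disjoint_of_subset_left (K.gam_loc n) h.symm)]
    simp
  symm := fun x y => by
    rw [K.F_apply, K.F_apply]
    linear_combination (-(I (K.cup (K.gam y) x))) * wtE_sq t
  adj := fun x y => by
    rw [K.F_apply, K.F_apply, K.b1_adj I hI x y, K.b1_adj I hI y x]
    linear_combination (-(wtE t * I (K.cup (K.gam y) (K.S.d x)))) * wtK_sq t

theorem SmCore.Ism_d (K : SmCore p y0 a) (x : K.S.C) : K.Ism (K.S.d x) = 0 := by
  show K.I0 (smAve K.R (K.S.d x)) = 0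
  rw [← sm_ave_nat K.R K.R K.S.d (fun g v => (K.rho_d g v).symm) x, K.I0_d]

/-- THE INVARIANT FORM -/
noncomputable def SmCore.al (K : SmCore p y0 a) : WtForm Y t := K.formOf K.Ism K.Ism_d

/-- the involution `2 e(D) - 1` -/
noncomputable def SmCore.eps (K : SmCore p y0 a) (D : Set (SmLam p)) : K.S.C × K.S.C →ₗ[ℝ] K.S.C × K.S.C :=
  (2 : ℝ) • smProj K.R D - LinearMap.id

theorem SmCore.Ism_rho (K : SmCore p y0 a) (g : ℤ_[p]) (x : K.S.C) : K.Ism (K.R.rho g x) = K.Ism x := by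
  show K.I0 (smAve K.R (K.R.rho g x)) = K.I0 (smAve K.R x)
  rw [sm_ave_rho]

/-- the averaged form is invariant (plain form; `K.al.b = K.F K.Ism` by `rfl`) -/
theorem SmCore.F_inv (K : SmCore p y0 a) (g : ℤ_[p]) (x y : K.S.C) :
    K.F K.Ism (K.R.rho g x) (K.R.rho g y) = K.F K.Ism x y := by
  rw [K.F_apply, K.F_apply, ← K.rho_gam, ← K.rho_gam, ← K.rho_cup, ← K.rho_cup, K.Ism_rho, K.Ism_rho]

theorem SmCore.eps_apply (K : SmCore p y0 a) (D : Set (SmLam p)) (u : K.S.C × K.S.C) :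
    K.eps D u = (2 : ℝ) • smProj K.R D u - u := rfl

theorem smB2_apply {V : Type} [AddCommGroup V] [Module ℝ V] (b : V →ₗ[ℝ] V →ₗ[ℝ] ℝ) (u v : V × V) :
    smB2 b u v = b u.1 v.1 + b u.2 v.2 := rfl

/-- `e(D)` does not increase supports -/
theorem SmCore.proj_loc (K : SmCore p y0 a) (D : Set (SmLam p)) (u : K.S.C × K.S.C) :
    smProj K.R D u ∈ (K.S.sec (K.S.supp u.1 ∪ K.S.supp u.2)).prod (K.S.sec (K.S.supp u.1 ∪ K.S.supp u.2)) := by
  have h : Submodule.span ℝ {w | ∃ g, w = K.R.rho2 g u ∨ w = smJ K.S.C (K.R.rho2 g u)} ≤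
      (K.S.sec (K.S.supp u.1 ∪ K.S.supp u.2)).prod (K.S.sec (K.S.supp u.1 ∪ K.S.supp u.2)) := by
    rw [Submodule.span_le]
    rintro w ⟨g, rfl | rfl⟩
    · exact ⟨(K.rho_loc g u.1).trans Set.subset_union_left, (K.rho_loc g u.2).trans Set.subset_union_right⟩
    · exact ⟨((K.S.supp_neg _).trans (K.rho_loc g u.2)).trans Set.subset_union_right,
        (K.rho_loc g u.1).trans Set.subset_union_left⟩
  exact h (sm_proj_span K.R D u)

/-- `2 e(D) - 1` does not increase supports -/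
theorem SmCore.eps_loc (K : SmCore p y0 a) (D : Set (SmLam p)) (u : K.S.C × K.S.C) :
    K.S.supp (K.eps D u).1 ∪ K.S.supp (K.eps D u).2 ⊆ K.S.supp u.1 ∪ K.S.supp u.2 := by
  have h := K.proj_loc D u
  have h1 : (K.eps D u).1 ∈ K.S.sec (K.S.supp u.1 ∪ K.S.supp u.2) :=
    (K.S.sec _).sub_mem ((K.S.sec _).smul_mem 2 h.1) (Set.subset_union_left : K.S.supp u.1 ⊆ _)
  have h2 : (K.eps D u).2 ∈ K.S.sec (K.S.supp u.1 ∪ K.S.supp u.2) :=
    (K.S.sec _).sub_mem ((K.S.sec _).smul_mem 2 h.2) (Set.subset_union_right : K.S.supp u.2 ⊆ _)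
  exact Set.union_subset h1 h2

/-- `e(D)` commutes with the differential -/
theorem SmCore.proj_d (K : SmCore p y0 a) (D : Set (SmLam p)) (u : K.S.C × K.S.C) :
    smProj K.R D (K.S.d.prodMap K.S.d u) = K.S.d.prodMap K.S.d (smProj K.R D u) :=
  (sm_proj_nat K.R K.R (K.S.d.prodMap K.S.d)
    (fun v => by
      show (K.S.d (-v.2), K.S.d v.1) = (-(K.S.d v.2), K.S.d v.1)
      rw [map_neg])
    (fun g v => by
      show (K.S.d (K.R.rho g v.1), K.S.d (K.R.rho g v.2)) = (K.R.rho g (K.S.d v.1), K.R.rho g (K.S.d v.2))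
      rw [K.rho_d, K.rho_d]) D u).symm

theorem SmCore.eps_d (K : SmCore p y0 a) (D : Set (SmLam p)) (u : K.S.C × K.S.C) :
    K.eps D (K.S.d.prodMap K.S.d u) = K.S.d.prodMap K.S.d (K.eps D u) := by
  rw [K.eps_apply, K.eps_apply, K.proj_d, map_sub, map_smul]

/-- `2 e(D) - 1` is self adjoint for `α ⊥ α` -/
theorem SmCore.eps_adj (K : SmCore p y0 a) (D : Set (SmLam p)) (u v : K.S.C × K.S.C) :
    smB2 (K.F K.Ism) (K.eps D u) v = smB2 (K.F K.Ism) u (K.eps D v) := by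
  rw [K.eps_apply, K.eps_apply, map_sub, map_sub, map_smul, map_smul, LinearMap.sub_apply,
    LinearMap.smul_apply, sm_proj_adj K.R (K.F K.Ism) K.F_inv D u v]

/-- THE FORMS `γ_D` -/
noncomputable def SmCore.gm (K : SmCore p y0 a) (D : Set (SmLam p)) : WtForm Y t where
  M := K.S.prod K.S
  b := (smB2 K.al.b).compl₂ (K.eps D)
  loc := fun (u v : K.S.C × K.S.C) h => by
    have h' : Disjoint (K.S.supp u.1 ∪ K.S.supp u.2) (K.S.supp v.1 ∪ K.S.supp v.2) := h
    exact (K.al.sum K.al).loc u (K.eps D v) (Set.disjoint_of_subset_right (K.eps_loc D v) h')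
  symm := fun (u v : K.S.C × K.S.C) => by
    show smB2 (K.F K.Ism) v (K.eps D u) = wtE t * smB2 (K.F K.Ism) u (K.eps D v)
    rw [← K.eps_adj D u v]
    exact (K.al.sum K.al).symm (K.eps D u) v
  adj := fun (u v : K.S.C × K.S.C) => by
    show smB2 (K.F K.Ism) (K.S.d.prodMap K.S.d u) (K.eps D v) =
      wtK t * smB2 (K.F K.Ism) u (K.eps D (K.S.d.prodMap K.S.d v))
    rw [K.eps_d]
    exact (K.al.sum K.al).adj u (K.eps D v)

/-- the phase `ζ_k^{g mod p^k}` -/
noncomputable def smPhase (p : ℕ) [Fact p.Prime] (k : ℕ) (g : ℤ_[p]) : ℂ :=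
  ((smZeta p k : Circle) : ℂ) ^ (PadicInt.toZModPow k g).val

/-- THE SHIFT OPERATORS of a system of `p^k` sheets over `W` -/
structure SmShift (K : SmCore p y0 a) (k : ℕ) (W : Set Y) where
  /-- multiplication by `Re β` -/
  c : K.S.C →ₗ[ℝ] K.S.C
  /-- multiplication by `Im β` -/
  s : K.S.C →ₗ[ℝ] K.S.C
  c_loc : FcLoc K.S K.S c
  s_loc : FcLoc K.S K.S s
  c_d : ∀ x, K.S.supp x ⊆ W → c (K.S.d x) = K.S.d (c x)
  s_d : ∀ x, K.S.supp x ⊆ W → s (K.S.d x) = K.S.d (s x)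
  sq : ∀ x, K.S.supp x ⊆ W → c (c x) + s (s x) = x
  cs : ∀ x, c (s x) = s (c x)
  c_cup : ∀ x y, K.S.supp x ⊆ W → K.S.supp y ⊆ W → K.cup (c x) y = K.cup x (c y)
  s_cup : ∀ x y, K.S.supp x ⊆ W → K.S.supp y ⊆ W → K.cup (s x) y = K.cup x (s y)
  c_gam : ∀ x, c (K.gam x) = K.gam (c x)
  s_gam : ∀ x, s (K.gam x) = K.gam (s x)
  rho_c : ∀ g x, K.S.supp x ⊆ W →
    K.R.rho g (c x) = (smPhase p k g).re • c (K.R.rho g x) - (smPhase p k g).im • s (K.R.rho g x)
  rho_s : ∀ g x, K.S.supp x ⊆ W →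
    K.R.rho g (s x) = (smPhase p k g).im • c (K.R.rho g x) + (smPhase p k g).re • s (K.R.rho g x)

/-- realises the equation lemmas here (unique names) -/
theorem sm_core_defs_eqns_cite : True := by
  have := @SmCore.Ism.eq_1
  have := @SmCore.F.eq_1
  have := @SmCore.formOf.eq_1
  have := @SmCore.al.eq_1
  have := @SmCore.eps.eq_1
  have := @SmCore.gm.eq_1
  have := @smPhase.eq_1
  trivial

end Claimed.Agent.R304
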