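/-
Row 304 (S0559, Hilbert-Smith).  Owner: helper89.  PACKAGE SmForm (~1500 lines; split: #Defs = obligations of `SmCoreDefs`, #Al = 1-3, #Gm = 4-6, #Shift = 7).
`K : SmCore p y0 a`,  `T : FcCls Y` with `hT : WtCutOK T`,  `U` o-p-e-n, `y0 ∈ U`,  `ha : a.In (T.near univ) (T.near U)`.   `k = wtK t`, `e = wtE t`, `τ = sgn`, `γ = gam`.

0. OBLIGATIONS.  `b₁(x,y) := I(γx ∪ y)`, `I ∘ d = 0`.
   local: disjoint supports ⟹ `supp (γx ∪ y) = ∅` (`cup_supp`, `gam_loc`) ⟹ `γx ∪ y = 0`.     symmetric: by construction (`e² = 1`).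
   adjoint: `gam_d`, `sgn_sgn`, `sgn_d` give `γ d x = k τ d γ x = - k d (τ γ x)`;  Leibniz for `z = τγx`: `d z ∪ y = d (z ∪ y) - γx ∪ d y`;  so `b₁(dx,y) = k b₁(x,dy)`; the same for the flipped term.
   `Ism ∘ d = I0 ∘ d ∘ ave = 0` (`sm_ave_nat` with `T = d`).
   `γ_D`: local because `e(D) v` is a combination of `ρ2(g) v`, `J ρ2(g) v` (`sm_proj_span`, `rho_loc`); symmetric because `e(D)` is self adjoint for `α ⊥ α` (`sm_proj_adj`, `sm_al_inv`);
          adjoint because `e(D)` commutes with `d × d` (`sm_proj_nat`).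
1. `sm_al_inv`   : `ρ(g)` commutes with `γ`, `∪`; `Ism ∘ ρ(g) = Ism` (`sm_ave_rho`).
2. `sm_al_exact` : `Δ := Ism - I0` vanishes on cycles (`sm_ave_inv`, `I0_inv`), so `Δ = η ∘ d` (`fc_factor` for `f = d`).  `h₁(x,y) := η(τγx ∪ y)`, `h := h₁ + e k h₁ᵀ`.
                   `d(γx ∪ y) = k τγ(dx) ∪ y + τγx ∪ dy`, so `Δ(γx ∪ y) = k h₁(dx,y) + h₁(x,dy)`;   `F(Δ)(x,y) = h(x,dy) + k h(dx,y)`;  `h` is local and `(k e)`-symmetric.
3. `sm_al_good`, `sm_al_germ`: `a` is good (`wtr_good_self`); `a.pull j` is good (`wtr_good_pull`, `C = {y0}`); `K.al` has the same object and `ad` differs by the shear (`wtr_good_pert`/`wtr_good_of_obj`);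
                   `wt_germ_roof` with `M' = S`, `φ₁ = 1`, `φ₂ = j`, `h` from 2;  `wt_germ_self`.
4. `sm_gm_good`  : the object of `K.gm D` is that of `K.al.sum K.al` (good: `wtr_good_sum`); `ε_D = 2e(D) - 1` is a local chain involution (`sm_proj_mul`), `wtr_in_twist` (class `fcOnCls Cᶜ`), `wtr_good_of_obj`.
5. `sm_gm_univ`  : `ε_univ = 1` (`sm_proj_univ`): `wt_germ_roof` with `φ₁ = φ₂ = 1`, `h = 0`; `wt_germ_sum`.
6. `sm_gm_add`   : `e = e(D)`, `e' = e(D')`, `e e' = 0`.  `Θ(u₁,u₂) = ((1-e')u₁ + e'u₂, (1-e')u₂ + e'u₁)` is a local chain involution of `(S×S)×(S×S)` and an isometry `γ_D ⊥ γ_{D'} → γ_{D∪D'} ⊥ -γ_univ`: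
                   on `im e'` the operator `2e + 2e' - 1` is `1`, on `im (1-e')` it is `2e - 1`; `im e' ⊥ im (1-e')`.   `wt_germ_roof` (`φ₁ = 1`, `φ₂ = Θ`, `h = 0`), `wt_germ_sum`, `wt_germ_neg`.
7. `sm_gm_shift` : `M(x,y) = (c x - s y, s x + c y)` on `M' = (S.res W) × (S.res W)`, inverse `(x,y) ↦ (c x + s y, - s x + c y)` (`sq`, `cs`); a local chain isomorphism; commutes with `J`;
                   `ρ2(g) M = smCx (phase g) M ρ2(g)` (`rho_c`, `rho_s`), so `e(ζ_k D) M = M e(D)` on `M'` (`sm_proj_shift` for the restricted representation, `sm_proj_nat` for the inclusion);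
                   `c`, `s` are self adjoint for `α` (`c_cup`, `c_gam`), so `M` is an isometry of `α ⊥ α`;   so `γ_{ζ_k D}(Mu,Mv) = γ_D(u,v)`.
                   `wt_germ_roof` with `C = Wᶜ`, `φ₁ = incl`, `φ₂ = incl ∘ M`  (the cone of `S.res W → S` is acyclic on `W`: sections over `W' ⊆ W` agree).
-/
import Claimed.Agent.R304.SmCoreDefs

set_option autoImplicit false

namespace Claimed.Agent.R304

open Topology

variable {p : ℕ} [Fact p.Prime] {Y : Type} [TopologicalSpace Y] [T2Space Y] {y0 : Y} {t : ZMod 4}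
  {a : WtForm Y t}

/-- two forms on the same object with the same bilinear map are equal -/
theorem smf_form_congr {X : Type} [TopologicalSpace X] {t : ZMod 4} {M : FcD X}
    {b b' : M.C →ₗ[ℝ] M.C →ₗ[ℝ] ℝ} (h : b = b') (l s c l' s' c') :
    (⟨M, b, l, s, c⟩ : WtForm X t) = ⟨M, b', l', s', c'⟩ := by
  subst h
  rfl

/-- 1. the averaged form is invariant -/
theorem sm_al_inv (K : SmCore p y0 a) (g : ℤ_[p]) (x y : K.S.C) :
    K.al.b (K.R.rho g x) (K.R.rho g y) = K.al.b x y :=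
  K.F_inv g x y

/-- 2. the averaged form differs from the pull back of the cube form by an exact term -/
theorem sm_al_exact (K : SmCore p y0 a) :
    ∃ h : K.S.C →ₗ[ℝ] K.S.C →ₗ[ℝ] ℝ, FcLoc2 K.S K.S h ∧ (∀ m n, h n m = wtK t * wtE t * h m n) ∧
      ∀ m n, K.al.b m n - a.b (K.j.f m) (K.j.f n) = h m (K.S.d n) + wtK t * h (K.S.d m) n := by
  -- `Δ = Ism - I0` vanishes on cycles, so it factors through `d`
  obtain ⟨η, hη⟩ := fc_factor K.S.d (K.Ism - K.I0) (fun v hv => by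
    show K.I0 (smAve K.R v) - K.I0 v = 0
    rw [sm_ave_inv K.R K.I0 v (fun g => K.I0_inv g v hv), sub_self])
  have hη' : ∀ v, K.Ism v - K.I0 v = η (K.S.d v) := fun v => (hη v).symm
  -- `h₁(x,y) = η (τ γ x ∪ y)`
  let h1 : K.S.C →ₗ[ℝ] K.S.C →ₗ[ℝ] ℝ := (K.cup.compr₂ η).comp (K.sgn ∘ₗ K.gam)
  have h1a : ∀ x y, h1 x y = η (K.cup (K.sgn (K.gam x)) y) := fun _ _ => rfl
  have key : ∀ x y, K.Ism (K.cup (K.gam x) y) - K.I0 (K.cup (K.gam x) y) =
      wtK t * h1 (K.S.d x) y + h1 x (K.S.d y) := by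
    intro x y
    rw [hη', K.leib, K.gam_d, map_smul, LinearMap.smul_apply, map_add, map_smul, smul_eq_mul, h1a, h1a]
  refine ⟨h1 + (wtE t * wtK t) • h1.flip, ?_, ?_, ?_⟩
  · intro m n hd
    show h1 m n + (wtE t * wtK t) * h1 n m = 0
    rw [h1a, h1a, K.cup_eq_zero (Set.disjoint_of_subset_left ((K.sgn_loc _).trans (K.gam_loc m)) hd),
      K.cup_eq_zero (Set.disjoint_of_subset_left ((K.sgn_loc _).trans (K.gam_loc n)) hd.symm)]
    simp
  · intro m n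
    show h1 n m + (wtE t * wtK t) * h1 m n = wtK t * wtE t * (h1 m n + (wtE t * wtK t) * h1 n m)
    linear_combination (-(h1 n m) * (wtK t * wtK t)) * wtE_sq t - (h1 n m) * wtK_sq t
  · refine fun (m n : K.S.C) => ?_
    show K.F K.Ism m n - a.b (K.j.f m) (K.j.f n) =
      (h1 m (K.S.d n) + (wtE t * wtK t) * h1 (K.S.d n) m) +
        wtK t * (h1 (K.S.d m) n + (wtE t * wtK t) * h1 n (K.S.d m))
    rw [K.form, K.F_apply]
    linear_combination key m n + wtE t * key n m - (wtE t * h1 n (K.S.d m)) * wtK_sq t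

/-- 3. -/
theorem sm_al_good (K : SmCore p y0 a) {T : FcCls Y} (hT : WtCutOK T) {U : Set Y} (hU : IsOpen U)
    (hy : y0 ∈ U) (ha : a.In (T.near Set.univ) (T.near U)) : WtGood T U K.al := by
  obtain ⟨h, hl, hs, he⟩ := sm_al_exact K
  have h1 : WtGood T U (a.pull K.j) :=
    wtr_good_pull hT hU isCompact_singleton (Set.singleton_subset_iff.2 hy) (wtr_good_self T hT ha) K.j K.j_qi
  have h2 := wtr_good_pert T h1 h hl hs
  have e : K.al = (a.pull K.j).pert h hl hs := by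
    refine smf_form_congr ?_ _ _ _ _ _ _
    refine LinearMap.ext₂ fun m n => ?_
    show K.al.b m n = a.b (K.j.f m) (K.j.f n) + h m (K.S.d n) + wtK t * h (K.S.d m) n
    linear_combination he m n
  rw [e]
  exact h2

theorem sm_al_germ (K : SmCore p y0 a) {T : FcCls Y} (hT : WtCutOK T) {U : Set Y} (hU : IsOpen U)
    (hy : y0 ∈ U) (ha : a.In (T.near Set.univ) (T.near U)) :
    wtGerm T U K.al (sm_al_good K hT hU hy ha) = wtMk _ _ a ha := by
  obtain ⟨h, hl, hs, he⟩ := sm_al_exact K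
  rw [← wt_germ_self hT hU ha (wtr_good_self T hT ha)]
  exact wt_germ_roof hT hU isCompact_singleton (Set.singleton_subset_iff.2 hy) (sm_al_good K hT hU hy ha)
    (wtr_good_self T hT ha) (M' := K.S) (fcId K.S) K.j
    ((fcb_cone_id_acyc K.S).mono (Set.subset_univ _)) K.j_qi h hl hs he

/-! ### items 4-7: helper lemmas (prefix `smf`) -/

/-- `2 e(D) - 1` is an involution -/
theorem smf_eps_eps (K : SmCore p y0 a) (D : Set (SmLam p)) (u : K.S.C × K.S.C) :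
    K.eps D (K.eps D u) = u := by
  rw [K.eps_apply, K.eps_apply, map_sub, map_smul, sm_proj_mul, Set.inter_self]
  module

/-- `2 e(D) - 1` as an automorphism of `S × S` -/
noncomputable def smfEpsIso (K : SmCore p y0 a) (D : Set (SmLam p)) :
    FcIso (K.S.prod K.S) (K.S.prod K.S) :=
  fckIsoOfLoc (A := K.S.prod K.S) (B := K.S.prod K.S)
    (LinearEquiv.ofInvolutive (K.eps D) (smf_eps_eps K D))
    (fun u => K.eps_loc D u) (fun u => K.eps_loc D u) (fun u => K.eps_d D u)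

/-- the interchange on the image of an idempotent: `(w₁, w₂) ↦ ((1-e) w₁ + e w₂, (1-e) w₂ + e w₁)` -/
def smfSw {V : Type} [AddCommGroup V] [Module ℝ V] (e : V →ₗ[ℝ] V) : (V × V) →ₗ[ℝ] (V × V) :=
  (LinearMap.fst ℝ V V + e ∘ₗ (LinearMap.snd ℝ V V - LinearMap.fst ℝ V V)).prod
    (LinearMap.snd ℝ V V + e ∘ₗ (LinearMap.fst ℝ V V - LinearMap.snd ℝ V V))

theorem smfSw_apply {V : Type} [AddCommGroup V] [Module ℝ V] (e : V →ₗ[ℝ] V) (w : V × V) :
    smfSw e w = (w.1 + e (w.2 - w.1), w.2 + e (w.1 - w.2)) := rfl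

theorem smfSw_sw {V : Type} [AddCommGroup V] [Module ℝ V] (e : V →ₗ[ℝ] V) (he : ∀ m, e (e m) = e m)
    (w : V × V) : smfSw e (smfSw e w) = w := by
  rw [smfSw_apply, smfSw_apply]
  refine Prod.ext ?_ ?_
  · show w.1 + e (w.2 - w.1) + e (w.2 + e (w.1 - w.2) - (w.1 + e (w.2 - w.1))) = w.1
    simp only [map_add, map_sub, he]
    abel
  · show w.2 + e (w.1 - w.2) + e (w.1 + e (w.2 - w.1) - (w.2 + e (w.1 - w.2))) = w.2
    simp only [map_add, map_sub, he]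
    abel

/-- the interchange as an automorphism of `A × A` -/
def smfSwIso (A : FcD Y) (e : A.C →ₗ[ℝ] A.C) (hl : FcLoc A A e) (hd : ∀ m, e (A.d m) = A.d (e m))
    (he : ∀ m, e (e m) = e m) : FcIso (A.prod A) (A.prod A) :=
  have hloc : ∀ w : A.C × A.C, A.supp (smfSw e w).1 ∪ A.supp (smfSw e w).2 ⊆ A.supp w.1 ∪ A.supp w.2 := by
    intro w
    have h1 : A.supp (e (w.2 - w.1)) ⊆ A.supp w.1 ∪ A.supp w.2 :=
      (hl _).trans ((A.supp_sub _ _).trans (Set.union_comm _ _).subset)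
    have h2 : A.supp (e (w.1 - w.2)) ⊆ A.supp w.1 ∪ A.supp w.2 := (hl _).trans (A.supp_sub _ _)
    exact Set.union_subset ((A.supp_add _ _).trans (Set.union_subset Set.subset_union_left h1))
      ((A.supp_add _ _).trans (Set.union_subset Set.subset_union_right h2))
  fckIsoOfLoc (A := A.prod A) (B := A.prod A) (LinearEquiv.ofInvolutive (smfSw e) (smfSw_sw e he))
    hloc hloc (fun (w : A.C × A.C) => by
      show smfSw e (A.d w.1, A.d w.2) = (A.d (smfSw e w).1, A.d (smfSw e w).2)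
      rw [smfSw_apply, smfSw_apply]
      simp only [map_add, map_sub, hd])

/-- the interchange is an isometry `γ_D ⊥ γ_{D'} → γ_{D ∪ D'} ⊥ - γ_univ` (linear algebra) -/
theorem smf_add_aux {V : Type} [AddCommGroup V] [Module ℝ V] (B : V →ₗ[ℝ] V →ₗ[ℝ] ℝ) (e e' : V →ₗ[ℝ] V)
    (he' : ∀ u v, B (e' u) v = B u (e' v)) (h1 : ∀ u, e' (e' u) = e' u) (h2 : ∀ u, e' (e u) = 0)
    (h3 : ∀ u, e (e' u) = 0) (u₁ u₂ v₁ v₂ : V) :
    B (u₁ + e' (u₂ - u₁)) ((2 : ℝ) • (e (v₁ + e' (v₂ - v₁)) + e' (v₁ + e' (v₂ - v₁))) - (v₁ + e' (v₂ - v₁))) -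
        B (u₂ + e' (u₁ - u₂)) (v₂ + e' (v₁ - v₂)) =
      B u₁ ((2 : ℝ) • e v₁ - v₁) + B u₂ ((2 : ℝ) • e' v₂ - v₂) := by
  simp only [map_add, map_sub, map_smul, LinearMap.add_apply, LinearMap.sub_apply, he', h1, h2, h3,
    smul_eq_mul, add_zero, sub_self, map_zero]
  ring

/-- 4. -/
theorem sm_gm_good (K : SmCore p y0 a) {T : FcCls Y} (hT : WtCutOK T) {U : Set Y} (hU : IsOpen U)
    (hy : y0 ∈ U) (ha : a.In (T.near Set.univ) (T.near U)) (D : Set (SmLam p)) : WtGood T U (K.gm D) := by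
  have h2 : WtGood T U (K.al.sum K.al) :=
    wtr_good_sum T (sm_al_good K hT hU hy ha) (sm_al_good K hT hU hy ha)
  obtain ⟨C, hC, hCU, hns, -⟩ := id h2
  refine wtr_good_of_obj T hC hCU h2 (y' := K.gm D) (FcIso.refl (K.S.prod K.S)) ?_
  exact wtr_in_twist (fcOnCls Cᶜ) (y := K.al.sum K.al) (y' := K.gm D) (smfEpsIso K D)
    (FcIso.refl (K.S.prod K.S)) (fun _ _ => rfl) hns

/-- 5. -/
theorem sm_gm_univ (K : SmCore p y0 a) {T : FcCls Y} (hT : WtCutOK T) {U : Set Y} (hU : IsOpen U)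
    (hy : y0 ∈ U) (ha : a.In (T.near Set.univ) (T.near U)) :
    wtGerm T U (K.gm Set.univ) (sm_gm_good K hT hU hy ha Set.univ) = 2 • wtMk _ _ a ha := by
  have hal := sm_al_good K hT hU hy ha
  have h2 : WtGood T U (K.al.sum K.al) := wtr_good_sum T hal hal
  have e1 : wtGerm T U (K.gm Set.univ) (sm_gm_good K hT hU hy ha Set.univ) =
      wtGerm T U (K.al.sum K.al) h2 := by
    refine wt_germ_roof hT hU isCompact_singleton (Set.singleton_subset_iff.2 hy) _ h2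
      (M' := K.S.prod K.S) (fcId (K.S.prod K.S)) (fcId (K.S.prod K.S))
      ((fcb_cone_id_acyc _).mono (Set.subset_univ _)) ((fcb_cone_id_acyc _).mono (Set.subset_univ _))
      0 (fun _ _ _ => rfl) (fun _ _ => by simp) ?_
    refine fun (m n : K.S.C × K.S.C) => ?_
    show smB2 (K.F K.Ism) m (K.eps Set.univ n) - smB2 (K.F K.Ism) m n = 0 + wtK t * 0
    rw [K.eps_apply, sm_proj_univ, two_smul, add_sub_cancel_right]
    simp
  rw [e1, wt_germ_sum hT hU hal hal h2, sm_al_germ K hT hU hy ha, two_smul]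

/-- 6. -/
theorem sm_gm_add (K : SmCore p y0 a) {T : FcCls Y} (hT : WtCutOK T) {U : Set Y} (hU : IsOpen U)
    (hy : y0 ∈ U) (ha : a.In (T.near Set.univ) (T.near U)) (D D' : Set (SmLam p)) (hD : Disjoint D D') :
    wtGerm T U (K.gm D) (sm_gm_good K hT hU hy ha D) + wtGerm T U (K.gm D') (sm_gm_good K hT hU hy ha D') =
      wtGerm T U (K.gm (D ∪ D')) (sm_gm_good K hT hU hy ha (D ∪ D')) -
        wtGerm T U (K.gm Set.univ) (sm_gm_good K hT hU hy ha Set.univ) := by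
  have g1 := sm_gm_good K hT hU hy ha D
  have g2 := sm_gm_good K hT hU hy ha D'
  have g3 := sm_gm_good K hT hU hy ha (D ∪ D')
  have g4 := sm_gm_good K hT hU hy ha Set.univ
  have g4n : WtGood T U (K.gm Set.univ).neg := wtr_good_neg T g4
  have g12 : WtGood T U ((K.gm D).sum (K.gm D')) := wtr_good_sum T g1 g2
  have g34 : WtGood T U ((K.gm (D ∪ D')).sum (K.gm Set.univ).neg) := wtr_good_sum T g3 g4n
  have hDD : D ∩ D' = ∅ := Set.disjoint_iff_inter_eq_empty.1 hD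
  have hDD' : D' ∩ D = ∅ := by rw [Set.inter_comm]; exact hDD
  have hidem : ∀ u : K.S.C × K.S.C, smProj K.R D' (smProj K.R D' u) = smProj K.R D' u := fun u => by
    rw [sm_proj_mul, Set.inter_self]
  let Θ : FcIso ((K.S.prod K.S).prod (K.S.prod K.S)) ((K.S.prod K.S).prod (K.S.prod K.S)) :=
    smfSwIso (K.S.prod K.S) (smProj K.R D') (fun u => Set.union_subset (K.proj_loc D' u).1 (K.proj_loc D' u).2)
      (fun u => K.proj_d D' u) hidem
  have key : wtGerm T U ((K.gm D).sum (K.gm D')) g12 =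
      wtGerm T U ((K.gm (D ∪ D')).sum (K.gm Set.univ).neg) g34 := by
    refine wt_germ_roof hT hU isCompact_singleton (Set.singleton_subset_iff.2 hy) g12 g34
      (M' := (K.S.prod K.S).prod (K.S.prod K.S)) (fcId _) Θ.toHom
      ((fcb_cone_id_acyc _).mono (Set.subset_univ _)) (fcb_iso_cone_mem (fcOnCls {y0}ᶜ) Θ)
      0 (fun _ _ _ => rfl) (fun _ _ => by simp) ?_
    refine fun (m n : (K.S.C × K.S.C) × (K.S.C × K.S.C)) => ?_
    show (smB2 (K.F K.Ism) m.1 (K.eps D n.1) + smB2 (K.F K.Ism) m.2 (K.eps D' n.2)) -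
      (smB2 (K.F K.Ism) (smfSw (smProj K.R D') m).1 (K.eps (D ∪ D') (smfSw (smProj K.R D') n).1) +
        -(smB2 (K.F K.Ism) (smfSw (smProj K.R D') m).2 (K.eps Set.univ (smfSw (smProj K.R D') n).2))) =
      0 + wtK t * 0
    have haux := smf_add_aux (smB2 (K.F K.Ism)) (smProj K.R D) (smProj K.R D')
      (fun u v => sm_proj_adj K.R (K.F K.Ism) K.F_inv D' u v) hidem
      (fun u => by rw [sm_proj_mul, hDD', sm_proj_empty])
      (fun u => by rw [sm_proj_mul, hDD, sm_proj_empty]) m.1 m.2 n.1 n.2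
    rw [K.eps_apply, K.eps_apply, K.eps_apply, K.eps_apply, sm_proj_univ, sm_proj_union K.R D D' hD,
      smfSw_apply, smfSw_apply, two_smul ℝ (n.2 + _), add_sub_cancel_right]
    linear_combination -haux
  rw [wt_germ_sum hT hU g1 g2 g12, wt_germ_sum hT hU g3 g4n g34, wt_germ_neg hT hU g4 g4n] at key
  rw [key, sub_eq_add_neg]

/-- a chain map which is bijective on the sections over the subsets of `W` has a cone which is acyclic on `W` -/
theorem smfs_cone_acycOn {A B : FcD Y} (φ : FcHom A B) (W : Set Y)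
    (hinj : ∀ x, A.supp x ⊆ W → φ.f x = 0 → x = 0)
    (hsurj : ∀ b, B.supp b ⊆ W → ∃ x, A.supp x ⊆ B.supp b ∧ φ.f x = b) : (fcCone φ).AcycOn W := by
  intro W' _ hW'W v hv hd
  have hv' : A.supp v.1 ∪ B.supp v.2 ⊆ W' := hv
  have h2 : φ.f v.1 + B.d v.2 = 0 := congrArg Prod.snd hd
  obtain ⟨x, hx, hxb⟩ := hsurj v.2 ((Set.subset_union_right.trans hv').trans hW'W)
  have hxW' : A.supp x ⊆ W' := hx.trans (Set.subset_union_right.trans hv')
  have h3 : v.1 + A.d x = 0 := by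
    apply hinj
    · exact ((A.supp_add _ _).trans (Set.union_subset (Set.subset_union_left.trans hv')
        ((A.d_loc x).trans hxW'))).trans hW'W
    · rw [map_add, φ.comm, hxb]
      exact h2
  refine ⟨(x, 0), ?_, ?_⟩
  · show A.supp x ∪ B.supp 0 ⊆ W'
    rw [B.supp_zero, Set.union_empty]
    exact hxW'
  · show ((-(A.d x), φ.f x + B.d 0) : A.C × B.C) = v
    refine Prod.ext ?_ ?_
    · show -(A.d x) = v.1
      rw [neg_eq_iff_add_eq_zero, add_comm]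
      exact h3
    · show φ.f x + B.d 0 = v.2
      rw [map_zero, add_zero, hxb]

namespace SmShift

variable {K : SmCore p y0 a} {k : ℕ} {W : Set Y} (Sh : SmShift K k W)

/-- `M (x, y) = (c x - s y, s x + c y)` -/
def mat : K.S.C × K.S.C →ₗ[ℝ] K.S.C × K.S.C :=
  (Sh.c ∘ₗ LinearMap.fst ℝ _ _ - Sh.s ∘ₗ LinearMap.snd ℝ _ _).prod
    (Sh.s ∘ₗ LinearMap.fst ℝ _ _ + Sh.c ∘ₗ LinearMap.snd ℝ _ _)

/-- the inverse `(x, y) ↦ (c x + s y, - s x + c y)` -/
def inv : K.S.C × K.S.C →ₗ[ℝ] K.S.C × K.S.C :=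
  (Sh.c ∘ₗ LinearMap.fst ℝ _ _ + Sh.s ∘ₗ LinearMap.snd ℝ _ _).prod
    (Sh.c ∘ₗ LinearMap.snd ℝ _ _ - Sh.s ∘ₗ LinearMap.fst ℝ _ _)

theorem mat_apply (u : K.S.C × K.S.C) : Sh.mat u = (Sh.c u.1 - Sh.s u.2, Sh.s u.1 + Sh.c u.2) := rfl

theorem inv_apply (u : K.S.C × K.S.C) : Sh.inv u = (Sh.c u.1 + Sh.s u.2, Sh.c u.2 - Sh.s u.1) := rfl

theorem mat_mem (E : Set Y) (u : K.S.C × K.S.C) (h1 : K.S.supp u.1 ⊆ E) (h2 : K.S.supp u.2 ⊆ E) :
    K.S.supp (Sh.mat u).1 ⊆ E ∧ K.S.supp (Sh.mat u).2 ⊆ E :=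
  ⟨(K.S.supp_sub _ _).trans (Set.union_subset ((Sh.c_loc _).trans h1) ((Sh.s_loc _).trans h2)),
    (K.S.supp_add _ _).trans (Set.union_subset ((Sh.s_loc _).trans h1) ((Sh.c_loc _).trans h2))⟩

theorem inv_mem (E : Set Y) (u : K.S.C × K.S.C) (h1 : K.S.supp u.1 ⊆ E) (h2 : K.S.supp u.2 ⊆ E) :
    K.S.supp (Sh.inv u).1 ⊆ E ∧ K.S.supp (Sh.inv u).2 ⊆ E :=
  ⟨(K.S.supp_add _ _).trans (Set.union_subset ((Sh.c_loc _).trans h1) ((Sh.s_loc _).trans h2)),
    (K.S.supp_sub _ _).trans (Set.union_subset ((Sh.c_loc _).trans h2) ((Sh.s_loc _).trans h1))⟩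

theorem mat_inv (u : K.S.C × K.S.C) (h1 : K.S.supp u.1 ⊆ W) (h2 : K.S.supp u.2 ⊆ W) :
    Sh.mat (Sh.inv u) = u := by
  rw [inv_apply, mat_apply]
  refine Prod.ext ?_ ?_
  · show Sh.c (Sh.c u.1 + Sh.s u.2) - Sh.s (Sh.c u.2 - Sh.s u.1) = u.1
    rw [map_add, map_sub, Sh.cs u.2]
    refine Eq.trans ?_ (Sh.sq u.1 h1)
    abel
  · show Sh.s (Sh.c u.1 + Sh.s u.2) + Sh.c (Sh.c u.2 - Sh.s u.1) = u.2
    rw [map_add, map_sub, Sh.cs u.1]
    refine Eq.trans ?_ (Sh.sq u.2 h2)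
    abel

theorem inv_mat (u : K.S.C × K.S.C) (h1 : K.S.supp u.1 ⊆ W) (h2 : K.S.supp u.2 ⊆ W) :
    Sh.inv (Sh.mat u) = u := by
  rw [mat_apply, inv_apply]
  refine Prod.ext ?_ ?_
  · show Sh.c (Sh.c u.1 - Sh.s u.2) + Sh.s (Sh.s u.1 + Sh.c u.2) = u.1
    rw [map_add, map_sub, Sh.cs u.2]
    refine Eq.trans ?_ (Sh.sq u.1 h1)
    abel
  · show Sh.c (Sh.s u.1 + Sh.c u.2) - Sh.s (Sh.c u.1 - Sh.s u.2) = u.2
    rw [map_add, map_sub, Sh.cs u.1]
    refine Eq.trans ?_ (Sh.sq u.2 h2)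
    abel

theorem mat_d (u : K.S.C × K.S.C) (h1 : K.S.supp u.1 ⊆ W) (h2 : K.S.supp u.2 ⊆ W) :
    Sh.mat (K.S.d.prodMap K.S.d u) = K.S.d.prodMap K.S.d (Sh.mat u) := by
  show ((Sh.c (K.S.d u.1) - Sh.s (K.S.d u.2), Sh.s (K.S.d u.1) + Sh.c (K.S.d u.2)) : K.S.C × K.S.C) =
    (K.S.d (Sh.c u.1 - Sh.s u.2), K.S.d (Sh.s u.1 + Sh.c u.2))
  rw [Sh.c_d _ h1, Sh.c_d _ h2, Sh.s_d _ h1, Sh.s_d _ h2, map_sub, map_add]

/-- `c` is self adjoint for `α` on `S(W)` -/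
theorem c_adj (x y : K.S.C) (hx : K.S.supp x ⊆ W) (hy : K.S.supp y ⊆ W) :
    K.F K.Ism (Sh.c x) y = K.F K.Ism x (Sh.c y) := by
  rw [K.F_apply, K.F_apply, ← Sh.c_gam, ← Sh.c_gam, Sh.c_cup _ _ ((K.gam_loc x).trans hx) hy,
    Sh.c_cup _ _ ((K.gam_loc y).trans hy) hx]

theorem s_adj (x y : K.S.C) (hx : K.S.supp x ⊆ W) (hy : K.S.supp y ⊆ W) :
    K.F K.Ism (Sh.s x) y = K.F K.Ism x (Sh.s y) := by
  rw [K.F_apply, K.F_apply, ← Sh.s_gam, ← Sh.s_gam, Sh.s_cup _ _ ((K.gam_loc x).trans hx) hy,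
    Sh.s_cup _ _ ((K.gam_loc y).trans hy) hx]

/-- `M` is an isometry of `α ⊥ α` on `S(W) × S(W)` -/
theorem mat_isom (u v : K.S.C × K.S.C) (hu1 : K.S.supp u.1 ⊆ W) (hu2 : K.S.supp u.2 ⊆ W)
    (hv1 : K.S.supp v.1 ⊆ W) (hv2 : K.S.supp v.2 ⊆ W) :
    smB2 (K.F K.Ism) (Sh.mat u) (Sh.mat v) = smB2 (K.F K.Ism) u v := by
  have cW : ∀ x, K.S.supp x ⊆ W → K.S.supp (Sh.c x) ⊆ W := fun x h => (Sh.c_loc x).trans h
  have sW : ∀ x, K.S.supp x ⊆ W → K.S.supp (Sh.s x) ⊆ W := fun x h => (Sh.s_loc x).trans h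
  rw [smB2_apply, smB2_apply, mat_apply, mat_apply]
  simp only [map_sub, map_add, LinearMap.sub_apply, LinearMap.add_apply]
  rw [Sh.c_adj u.1 _ hu1 (cW _ hv1), Sh.c_adj u.1 _ hu1 (sW _ hv2), Sh.s_adj u.2 _ hu2 (cW _ hv1),
    Sh.s_adj u.2 _ hu2 (sW _ hv2), Sh.s_adj u.1 _ hu1 (sW _ hv1), Sh.s_adj u.1 _ hu1 (cW _ hv2),
    Sh.c_adj u.2 _ hu2 (sW _ hv1), Sh.c_adj u.2 _ hu2 (cW _ hv2), Sh.cs v.1, Sh.cs v.2]
  have e1 : K.F K.Ism u.1 v.1 = K.F K.Ism u.1 (Sh.c (Sh.c v.1)) + K.F K.Ism u.1 (Sh.s (Sh.s v.1)) := by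
    rw [← map_add, Sh.sq v.1 hv1]
  have e2 : K.F K.Ism u.2 v.2 = K.F K.Ism u.2 (Sh.c (Sh.c v.2)) + K.F K.Ism u.2 (Sh.s (Sh.s v.2)) := by
    rw [← map_add, Sh.sq v.2 hv2]
  rw [e1, e2]
  ring

/-- the representation on `S(W)` -/
def resRep (K : SmCore p y0 a) (W : Set Y) : SmRep p (K.S.sec W) where
  rho := fun g => (K.R.rho g).restrict (fun x hx => (K.rho_loc g x).trans hx)
  rho_zero := fun v => Subtype.ext (K.R.rho_zero v.1)
  rho_add := fun g g' v => Subtype.ext (K.R.rho_add g g' v.1)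
  smooth := fun v => by
    obtain ⟨j, hj⟩ := K.R.smooth v.1
    exact ⟨j, fun g => Subtype.ext (hj g)⟩

/-- the inclusion `S(W) × S(W) → S × S` -/
def incl2 (K : SmCore p y0 a) (W : Set Y) : (K.S.sec W) × (K.S.sec W) →ₗ[ℝ] K.S.C × K.S.C :=
  (K.S.sec W).subtype.prodMap (K.S.sec W).subtype

/-- `M` on `S(W) × S(W)` -/
def matRes : (K.S.sec W) × (K.S.sec W) →ₗ[ℝ] (K.S.sec W) × (K.S.sec W) :=
  ((Sh.c.restrict (fun x hx => (Sh.c_loc x).trans hx) : K.S.sec W →ₗ[ℝ] K.S.sec W) ∘ₗ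
      LinearMap.fst ℝ _ _ -
    (Sh.s.restrict (fun x hx => (Sh.s_loc x).trans hx) : K.S.sec W →ₗ[ℝ] K.S.sec W) ∘ₗ
      LinearMap.snd ℝ _ _).prod
  ((Sh.s.restrict (fun x hx => (Sh.s_loc x).trans hx) : K.S.sec W →ₗ[ℝ] K.S.sec W) ∘ₗ
      LinearMap.fst ℝ _ _ +
    (Sh.c.restrict (fun x hx => (Sh.c_loc x).trans hx) : K.S.sec W →ₗ[ℝ] K.S.sec W) ∘ₗ
      LinearMap.snd ℝ _ _)

theorem incl2_matRes (u : (K.S.sec W) × (K.S.sec W)) :
    incl2 K W (Sh.matRes u) = Sh.mat (incl2 K W u) := rfl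

theorem incl2_inj (K : SmCore p y0 a) (W : Set Y) : Function.Injective (incl2 K W) := by
  intro u v h
  exact Prod.ext (Subtype.ext (congrArg Prod.fst h)) (Subtype.ext (congrArg Prod.snd h))

theorem incl2_proj (K : SmCore p y0 a) (W : Set Y) (D : Set (SmLam p))
    (u : (K.S.sec W) × (K.S.sec W)) :
    incl2 K W (smProj (resRep K W) D u) = smProj K.R D (incl2 K W u) :=
  sm_proj_nat (resRep K W) K.R (incl2 K W) (fun _ => rfl) (fun _ _ => rfl) D u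

/-- `e(ζ_k D) M = M e(D)` on `S(W) × S(W)` -/
theorem proj_mat (D : Set (SmLam p)) (u : K.S.C × K.S.C) (h1 : K.S.supp u.1 ⊆ W)
    (h2 : K.S.supp u.2 ⊆ W) :
    smProj K.R (smRot p k '' D) (Sh.mat u) = Sh.mat (smProj K.R D u) := by
  have hsh := sm_proj_shift (resRep K W) k Sh.matRes
    (fun v => by
      apply incl2_inj K W
      show ((Sh.c (-v.2.1) - Sh.s v.1.1, Sh.s (-v.2.1) + Sh.c v.1.1) : K.S.C × K.S.C) =
        (-(Sh.s v.1.1 + Sh.c v.2.1), Sh.c v.1.1 - Sh.s v.2.1)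
      rw [map_neg, map_neg]
      refine Prod.ext ?_ ?_
      · show -(Sh.c v.2.1) - Sh.s v.1.1 = -(Sh.s v.1.1 + Sh.c v.2.1)
        abel
      · show -(Sh.s v.2.1) + Sh.c v.1.1 = Sh.c v.1.1 - Sh.s v.2.1
        abel)
    (fun g v => by
      apply incl2_inj K W
      rw [sm_cx_apply]
      show ((K.R.rho g (Sh.c v.1.1 - Sh.s v.2.1), K.R.rho g (Sh.s v.1.1 + Sh.c v.2.1)) :
          K.S.C × K.S.C) =
        ((smPhase p k g).re • (Sh.c (K.R.rho g v.1.1) - Sh.s (K.R.rho g v.2.1)) -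
            (smPhase p k g).im • (Sh.s (K.R.rho g v.1.1) + Sh.c (K.R.rho g v.2.1)),
          (smPhase p k g).re • (Sh.s (K.R.rho g v.1.1) + Sh.c (K.R.rho g v.2.1)) +
            (smPhase p k g).im • (Sh.c (K.R.rho g v.1.1) - Sh.s (K.R.rho g v.2.1)))
      rw [map_sub, map_add, Sh.rho_c g _ v.1.2, Sh.rho_c g _ v.2.2, Sh.rho_s g _ v.1.2,
        Sh.rho_s g _ v.2.2]
      refine Prod.ext ?_ ?_
      · simp only [smul_sub, smul_add]
        abel
      · simp only [smul_sub, smul_add]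
        abel) D (⟨u.1, h1⟩, ⟨u.2, h2⟩)
  have e := congrArg (incl2 K W) hsh
  rw [incl2_proj, incl2_matRes, incl2_matRes, incl2_proj] at e
  exact e

theorem eps_mat (D : Set (SmLam p)) (u : K.S.C × K.S.C) (h1 : K.S.supp u.1 ⊆ W)
    (h2 : K.S.supp u.2 ⊆ W) : K.eps (smRot p k '' D) (Sh.mat u) = Sh.mat (K.eps D u) := by
  rw [K.eps_apply, K.eps_apply, Sh.proj_mat D u h1 h2, map_sub, map_smul]

/-- `γ_{ζ_k D} (M u, M v) = γ_D (u, v)` on `S(W) × S(W)` -/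
theorem gm_mat (D : Set (SmLam p)) (u v : K.S.C × K.S.C) (hu1 : K.S.supp u.1 ⊆ W)
    (hu2 : K.S.supp u.2 ⊆ W) (hv1 : K.S.supp v.1 ⊆ W) (hv2 : K.S.supp v.2 ⊆ W) :
    smB2 (K.F K.Ism) (Sh.mat u) (K.eps (smRot p k '' D) (Sh.mat v)) =
      smB2 (K.F K.Ism) u (K.eps D v) := by
  have h := (K.eps_loc D v).trans (Set.union_subset hv1 hv2)
  rw [Sh.eps_mat D v hv1 hv2, Sh.mat_isom u _ hu1 hu2 (Set.subset_union_left.trans h)
    (Set.subset_union_right.trans h)]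

/-- the inclusion as a chain map -/
def phi2 (K : SmCore p y0 a) (W : Set Y) : FcHom ((K.S.res W).prod (K.S.res W)) (K.S.prod K.S) where
  f := incl2 K W
  loc := fun _ => subset_rfl
  comm := fun _ => rfl

/-- `incl ∘ M` as a chain map -/
def phi1 : FcHom ((K.S.res W).prod (K.S.res W)) (K.S.prod K.S) where
  f := Sh.mat ∘ₗ incl2 K W
  loc := fun u => by
    have h := Sh.mat_mem (K.S.supp u.1.1 ∪ K.S.supp u.2.1) (incl2 K W u) Set.subset_union_left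
      Set.subset_union_right
    exact Set.union_subset h.1 h.2
  comm := fun u => Sh.mat_d (incl2 K W u) u.1.2 u.2.2

theorem phi2_acyc (K : SmCore p y0 a) (W : Set Y) : (fcCone (phi2 K W)).AcycOn W := by
  refine smfs_cone_acycOn (phi2 K W) W (fun x _ h => incl2_inj K W (h.trans (map_zero _).symm)) ?_
  intro b hb
  have hb' : K.S.supp b.1 ∪ K.S.supp b.2 ⊆ W := hb
  exact ⟨(⟨b.1, Set.subset_union_left.trans hb'⟩, ⟨b.2, Set.subset_union_right.trans hb'⟩),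
    subset_rfl, rfl⟩

theorem phi1_acyc : (fcCone Sh.phi1).AcycOn W := by
  refine smfs_cone_acycOn Sh.phi1 W (fun x _ h => ?_) ?_
  · apply incl2_inj K W
    have h' : Sh.mat (incl2 K W x) = 0 := h
    rw [← Sh.inv_mat (incl2 K W x) x.1.2 x.2.2, h', map_zero]
    rfl
  · intro b hb
    have hb' : K.S.supp b.1 ∪ K.S.supp b.2 ⊆ W := hb
    have h := Sh.inv_mem (K.S.supp b.1 ∪ K.S.supp b.2) b Set.subset_union_left Set.subset_union_right
    refine ⟨(⟨(Sh.inv b).1, h.1.trans hb'⟩, ⟨(Sh.inv b).2, h.2.trans hb'⟩),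
      Set.union_subset h.1 h.2, ?_⟩
    exact Sh.mat_inv b (Set.subset_union_left.trans hb') (Set.subset_union_right.trans hb')

end SmShift

theorem smfs_eqns_cite : True := by
  have := @SmShift.mat.eq_1
  have := @SmShift.inv.eq_1
  have := @SmShift.resRep.eq_1
  have := @SmShift.incl2.eq_1
  have := @SmShift.matRes.eq_1
  have := @SmShift.phi2.eq_1
  have := @SmShift.phi1.eq_1
  trivial

/-- 7. -/
theorem sm_gm_shift (K : SmCore p y0 a) {T : FcCls Y} (hT : WtCutOK T) {U : Set Y} (hU : IsOpen U)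
    (hy : y0 ∈ U) (ha : a.In (T.near Set.univ) (T.near U)) (k : ℕ) (W : Set Y) (hW : IsOpen W)
    (hWc : IsCompact Wᶜ) (hWU : Wᶜ ⊆ U) (Sh : SmShift K k W) (D : Set (SmLam p)) :
    wtGerm T U (K.gm (smRot p k '' D)) (sm_gm_good K hT hU hy ha _) =
      wtGerm T U (K.gm D) (sm_gm_good K hT hU hy ha D) := by
  refine wt_germ_roof hT hU hWc hWU (sm_gm_good K hT hU hy ha _) (sm_gm_good K hT hU hy ha D)
    (M' := (K.S.res W).prod (K.S.res W)) Sh.phi1 (SmShift.phi2 K W)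
    (by rw [compl_compl]; exact Sh.phi1_acyc) (by rw [compl_compl]; exact SmShift.phi2_acyc K W)
    0 (fun _ _ _ => rfl) (fun _ _ => by simp) ?_
  intro m n
  have h := Sh.gm_mat D (SmShift.incl2 K W m) (SmShift.incl2 K W n) m.1.2 m.2.2 n.1.2 n.2.2
  show smB2 (K.F K.Ism) (Sh.mat (SmShift.incl2 K W m))
      (K.eps (smRot p k '' D) (Sh.mat (SmShift.incl2 K W n))) -
    smB2 (K.F K.Ism) (SmShift.incl2 K W m) (K.eps D (SmShift.incl2 K W n)) = _
  rw [h]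
  simp

/-! ### the character classes over the orbit space -/

/-- `zY_D = [γ_D] + [γ_univ]` -/
noncomputable def smZ (K : SmCore p y0 a) {T : FcCls Y} (hT : WtCutOK T) {U : Set Y} (hU : IsOpen U)
    (hy : y0 ∈ U) (ha : a.In (T.near Set.univ) (T.near U)) (D : Set (SmLam p)) :
    WtH (T.near Set.univ) (T.near U) t :=
  wtGerm T U (K.gm D) (sm_gm_good K hT hU hy ha D) +
    wtGerm T U (K.gm Set.univ) (sm_gm_good K hT hU hy ha Set.univ)

theorem sm_z_add (K : SmCore p y0 a) {T : FcCls Y} (hT : WtCutOK T) {U : Set Y} (hU : IsOpen U)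
    (hy : y0 ∈ U) (ha : a.In (T.near Set.univ) (T.near U)) (D D' : Set (SmLam p)) (hD : Disjoint D D') :
    smZ K hT hU hy ha (D ∪ D') = smZ K hT hU hy ha D + smZ K hT hU hy ha D' := by
  have h := sm_gm_add K hT hU hy ha D D' hD
  unfold smZ
  rw [add_add_add_comm, h]
  abel

theorem sm_z_univ (K : SmCore p y0 a) {T : FcCls Y} (hT : WtCutOK T) {U : Set Y} (hU : IsOpen U)
    (hy : y0 ∈ U) (ha : a.In (T.near Set.univ) (T.near U)) :
    smZ K hT hU hy ha Set.univ = 4 • wtMk _ _ a ha := by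
  unfold smZ
  rw [sm_gm_univ K hT hU hy ha, ← add_smul]

theorem sm_z_shift (K : SmCore p y0 a) {T : FcCls Y} (hT : WtCutOK T) {U : Set Y} (hU : IsOpen U)
    (hy : y0 ∈ U) (ha : a.In (T.near Set.univ) (T.near U)) (k : ℕ) (W : Set Y) (hW : IsOpen W)
    (hWc : IsCompact Wᶜ) (hWU : Wᶜ ⊆ U) (Sh : SmShift K k W) (D : Set (SmLam p)) :
    smZ K hT hU hy ha (smRot p k '' D) = smZ K hT hU hy ha D := by
  unfold smZ
  rw [sm_gm_shift K hT hU hy ha k W hW hWc hWU Sh D]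

theorem sm_z_mono (K : SmCore p y0 a) {T : FcCls Y} (hT : WtCutOK T) {U U' : Set Y} (hU : IsOpen U)
    (hU' : IsOpen U') (hUU' : U ⊆ U') (hy : y0 ∈ U) (ha : a.In (T.near Set.univ) (T.near U))
    (ha' : a.In (T.near Set.univ) (T.near U')) (D : Set (SmLam p)) :
    wtInc (T.near Set.univ).le_refl' (wtr_near_le T hUU') t (smZ K hT hU hy ha D) =
      smZ K hT hU' (hUU' hy) ha' D := by
  unfold smZ
  rw [map_add, wt_germ_mono hT hU' hUU' _ (sm_gm_good K hT hU' (hUU' hy) ha' D),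
    wt_germ_mono hT hU' hUU' _ (sm_gm_good K hT hU' (hUU' hy) ha' Set.univ)]

/-- realises the equation lemmas here (unique names) -/
theorem sm_form_eqns_cite : True := by
  have := @smZ.eq_1
  have := @smfEpsIso.eq_1
  have := @smfSw.eq_1
  have := @smfSwIso.eq_1
  trivial

end Claimed.Agent.R304
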