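/-
Row 304 (S0559, Hilbert-Smith).  Owner: helper89 (statements), helper13 (proofs).  SORRY-FREE.  PACKAGE SmChar (~700 lines, no mathematics: unfolding of `wtiTheory`, functoriality): `SmCore` + `SmShift` ⟹ `EhChar (wtiTheory 𝔐) (wtiCube 𝔐)`.

`P = OnePoint O`, `Y = SmOrb B.plus` (compact Hausdorff), `q = smQ B.plus`, `y0 = q ∞`, `c = smCollapse d O hO`, `f = q ∘ c : cube → Y`,  `a = smA 𝔐 d O hO B = f_!(cube form)`.
For an invariant test `t : P → X`, `t ∞ ∈ U`:  `tbar = smBar B.plus t ht : Y → X`, `U' = tbar ⁻¹' U ∋ y0`,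
      `z t U D := (tbar)_* (smZ K .. U' .. D)`      (`wtiPush 𝔐 d tbar : wtiQ 𝔐 d Y ⊤ U' → wtiQ 𝔐 d X ⊤ U`;  `wtiP 𝔐 Y ⊤ = (𝔐.T Y).near univ` by `rfl`).
FIELDS.
* `mult = 4`.
* `z_add`   : `sm_z_add`, `map_add`.
* `z_univ`  : `sm_z_univ`, `sm_a_mk` (with `W' = f ⁻¹' U' ⊇ W`), `wti_kap_mono` / `wti_push_comp` to pass from `W'` to the given `W`;  `tbar ∘ f = t ∘ c` (`sm_bar_comp`).
* `z_push`  : `(g ∘ t)bar = g ∘ tbar` (both are lifts of the same function: `ContinuousMap.ext`, `Quotient.ind`);  `U'₁ = tbar⁻¹U ⊆ U'₂ = (g tbar)⁻¹U'`;  `sm_z_mono` + `wtPush_id` (`wtInc` = push along the identity) + `wti_push_comp`.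
* `z_shift` : `W = q '' (↑ '' V)` is o-p-e-n (`sm_q_open`, `OnePoint.isOpenEmbedding_coe`), `Wᶜ` is compact (closed in a compact space); `Wᶜ ⊆ U'`: a point `q x ∉ W` has `x ∉ ↑ '' V`, so `tbar (q x) = t x = t ∞ ∈ U`.   `sm_z_shift`.
* `sm_a_in` : `wti_cube_in 𝔐 d d rfl W' _` and `wt_push_in f (wti_pushOK 𝔐 f ..)`;   `f` maps the boundary of the cube to `y0` because `O` lies in the o-p-e-n box (`smColl_of_not_mem`).
-/
import Claimed.Agent.R304.SmForm
import Claimed.Agent.R304.SmOrb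
import Claimed.Agent.R304.WtInstCube
import Claimed.Agent.R304.NmIface

set_option autoImplicit false

namespace Claimed.Agent.R304

open Topology TopologicalSpace

variable {p : ℕ} [Fact p.Prime]

/-- the orbit space of a compact Hausdorff space is Hausdorff (same instance as in `SmCochDefs`) -/
theorem sm_char_t2 {P : Type} [TopologicalSpace P] [CompactSpace P] [T2Space P] (A : S5Act p P) :
    T2Space (SmOrb A) := sm_orb_t2 A

/-- the orbit space of a compact space is compact -/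
instance smOrbCompact {P : Type} [TopologicalSpace P] [CompactSpace P] (A : S5Act p P) :
    CompactSpace (SmOrb A) := sm_orb_compact A

attribute [local instance] sm_char_t2

/-- the map `cube → orbit space` -/
noncomputable def smF (d : ℕ) (O : Set (EuclideanSpace ℝ (Fin d))) (hO : IsOpen O) (B : S5Act p O) :
    C(EhCb d, SmOrb B.plus) := (smQ B.plus).comp (smCollapse d O hO)

/-- the push forward to the orbit space of the orientation form of the cube -/
noncomputable def smA (𝔐 : FcModel) (d : ℕ) (O : Set (EuclideanSpace ℝ (Fin d))) (hO : IsOpen O)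
    [LocallyCompactSpace O] (B : S5Act p O) : WtForm (SmOrb B.plus) (((d : ℕ) : ℤ) : ZMod 4) :=
  ((𝔐.cube d).cast (wti_cast_nat rfl)).push (smF d O hO B)

theorem sm_f_bd (d : ℕ) (O : Set (EuclideanSpace ℝ (Fin d))) (hO : IsOpen O)
    (hbox : O ⊆ nmBox d (fun _ => -1) (fun _ => 1)) (B : S5Act p O) (x : EhCb d) (hx : x ∈ ehCbBd d) :
    smF d O hO B x = smQf B.plus OnePoint.infty := by
  have hx' : smVec d x ∉ O := by
    intro h
    obtain ⟨i, hi⟩ := hx
    have h2 := hbox h i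
    have h3 : (smVec d x) i = (x i : ℝ) := rfl
    rw [h3] at h2
    have h4 : |(x i : ℝ)| < 1 := abs_lt.2 h2
    exact absurd hi h4.ne
  show smQf B.plus (smColl d O x) = _
  rw [smColl_of_not_mem d O x hx']

theorem sm_a_in (𝔐 : FcModel) (d : ℕ) (O : Set (EuclideanSpace ℝ (Fin d))) (hO : IsOpen O)
    [LocallyCompactSpace O] (hbox : O ⊆ nmBox d (fun _ => -1) (fun _ => 1)) (B : S5Act p O)
    (U : Set (SmOrb B.plus)) (hU : IsOpen U) (hy : smQf B.plus OnePoint.infty ∈ U) :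
    (smA 𝔐 d O hO B).In ((𝔐.T (SmOrb B.plus)).near Set.univ) ((𝔐.T (SmOrb B.plus)).near U) := by
  have hW : ehCbBd d ⊆ ((Opens.comap (smF d O hO B) ⟨U, hU⟩ : Opens (EhCb d)) : Set (EhCb d)) := by
    intro x hx
    show smF d O hO B x ∈ U
    rw [sm_f_bd d O hO hbox B x hx]
    exact hy
  exact wt_push_in (smF d O hO B)
    (wti_pushOK 𝔐 (smF d O hO B) (V := ⊤) (U := Opens.comap (smF d O hO B) ⟨U, hU⟩) (V' := ⊤) (U' := ⟨U, hU⟩)
      (fun _ _ => trivial) (fun _ h => h))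
    (wti_cube_in 𝔐 d d rfl _ hW)

/-- the classes `z_D(t)` -/
noncomputable def smCharZ (𝔐 : FcModel) (d : ℕ) (O : Set (EuclideanSpace ℝ (Fin d))) (hO : IsOpen O)
    [LocallyCompactSpace O] (hbox : O ⊆ nmBox d (fun _ => -1) (fun _ => 1)) (B : S5Act p O)
    (K : SmCore p (smQf B.plus OnePoint.infty) (smA 𝔐 d O hO B))
    {X : Type} [TopologicalSpace X] [EhSp X] (s : C(SmOrb B.plus, X)) (U : Opens X)
    (hU : s (smQf B.plus OnePoint.infty) ∈ U) (D : Set (SmLam p)) : wtiQ 𝔐 (d : ℤ) X ⊤ U :=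
  wtiPush 𝔐 (d : ℤ) s (V := ⊤) (U := Opens.comap s U) (V' := ⊤) (U' := U) (fun _ _ => trivial) (fun _ h => h)
    (smZ K (wtr_cut 𝔐 (SmOrb B.plus)) (Opens.comap s U).isOpen hU
      (sm_a_in 𝔐 d O hO hbox B _ (Opens.comap s U).isOpen hU) D)

theorem sm_charZ_add (𝔐 : FcModel) (d : ℕ) (O : Set (EuclideanSpace ℝ (Fin d))) (hO : IsOpen O)
    [LocallyCompactSpace O] (hbox : O ⊆ nmBox d (fun _ => -1) (fun _ => 1)) (B : S5Act p O)
    (K : SmCore p (smQf B.plus OnePoint.infty) (smA 𝔐 d O hO B))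
    {X : Type} [TopologicalSpace X] [EhSp X] (s : C(SmOrb B.plus, X)) (U : Opens X)
    (hU : s (smQf B.plus OnePoint.infty) ∈ U) (D D' : Set (SmLam p)) (hD : Disjoint D D') :
    smCharZ 𝔐 d O hO hbox B K s U hU (D ∪ D') =
      smCharZ 𝔐 d O hO hbox B K s U hU D + smCharZ 𝔐 d O hO hbox B K s U hU D' := by
  have h := sm_z_add K (wtr_cut 𝔐 (SmOrb B.plus)) (Opens.comap s U).isOpen hU
    (sm_a_in 𝔐 d O hO hbox B _ (Opens.comap s U).isOpen hU) D D' hD
  exact (congrArg (wtiPush 𝔐 (d : ℤ) s (V := ⊤) (U := Opens.comap s U) (V' := ⊤) (U' := U)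
    (fun _ _ => trivial) (fun _ h => h)) h).trans (map_add _ _ _)

theorem sm_charZ_univ (𝔐 : FcModel) (d : ℕ) (O : Set (EuclideanSpace ℝ (Fin d))) (hO : IsOpen O)
    [LocallyCompactSpace O] (hbox : O ⊆ nmBox d (fun _ => -1) (fun _ => 1)) (B : S5Act p O)
    (K : SmCore p (smQf B.plus OnePoint.infty) (smA 𝔐 d O hO B))
    {X : Type} [TopologicalSpace X] [EhSp X] (s : C(SmOrb B.plus, X)) (U : Opens X)
    (hU : s (smQf B.plus OnePoint.infty) ∈ U) (W : Opens (EhCb d)) (hW : ehCbBd d ⊆ (W : Set (EhCb d)))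
    (hf : Set.MapsTo (s.comp (smF d O hO B)) (W : Set (EhCb d)) (U : Set X)) :
    smCharZ 𝔐 d O hO hbox B K s U hU Set.univ =
      4 • wtiPush 𝔐 (d : ℤ) (s.comp (smF d O hO B)) (V := ⊤) (V' := ⊤) (fun _ _ => trivial) hf
        (wtiKap 𝔐 d (d : ℤ) rfl W hW) := by
  have h := sm_z_univ K (wtr_cut 𝔐 (SmOrb B.plus)) (Opens.comap s U).isOpen hU
    (sm_a_in 𝔐 d O hO hbox B _ (Opens.comap s U).isOpen hU)
  refine (congrArg (wtiPush 𝔐 (d : ℤ) s (V := ⊤) (U := Opens.comap s U) (V' := ⊤) (U' := U)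
    (fun _ _ => trivial) (fun _ h => h)) h).trans ((map_nsmul _ _ _).trans (congrArg (fun z => 4 • z) ?_))
  exact wti_push_comp 𝔐 (d : ℤ) (smF d O hO B) s (V := ⊤) (U := W) (V' := ⊤) (U' := Opens.comap s U)
    (V'' := ⊤) (U'' := U) (fun _ _ => trivial) (fun _ h => hf h) (fun _ _ => trivial) (fun _ h => h)
    (fun _ _ => trivial) hf (wtiKap 𝔐 d (d : ℤ) rfl W hW)

theorem sm_charZ_push (𝔐 : FcModel) (d : ℕ) (O : Set (EuclideanSpace ℝ (Fin d))) (hO : IsOpen O)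
    [LocallyCompactSpace O] (hbox : O ⊆ nmBox d (fun _ => -1) (fun _ => 1)) (B : S5Act p O)
    (K : SmCore p (smQf B.plus OnePoint.infty) (smA 𝔐 d O hO B))
    {X X' : Type} [TopologicalSpace X] [EhSp X] [TopologicalSpace X'] [EhSp X'] (s : C(SmOrb B.plus, X))
    (U : Opens X) (hU : s (smQf B.plus OnePoint.infty) ∈ U) (g : C(X, X')) (U' : Opens X')
    (hg : Set.MapsTo g (U : Set X) (U' : Set X')) (hU' : (g.comp s) (smQf B.plus OnePoint.infty) ∈ U')
    (D : Set (SmLam p)) :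
    wtiPush 𝔐 (d : ℤ) g (V := ⊤) (V' := ⊤) (fun _ _ => trivial) hg (smCharZ 𝔐 d O hO hbox B K s U hU D) =
      smCharZ 𝔐 d O hO hbox B K (g.comp s) U' hU' D := by
  have hUU : ((Opens.comap s U : Opens (SmOrb B.plus)) : Set (SmOrb B.plus)) ⊆
      ((Opens.comap (g.comp s) U' : Opens (SmOrb B.plus)) : Set (SmOrb B.plus)) := fun _ h => hg h
  have h := sm_z_mono K (wtr_cut 𝔐 (SmOrb B.plus)) (Opens.comap s U).isOpen
    (Opens.comap (g.comp s) U').isOpen hUU hU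
    (sm_a_in 𝔐 d O hO hbox B _ (Opens.comap s U).isOpen hU)
    (sm_a_in 𝔐 d O hO hbox B _ (Opens.comap (g.comp s) U').isOpen hU') D
  have h2 := wtPush_id (wti_pushOK 𝔐 (ContinuousMap.id (SmOrb B.plus)) (V := ⊤) (U := Opens.comap s U)
    (V' := ⊤) (U' := Opens.comap (g.comp s) U') (fun _ _ => trivial) hUU)
    ((𝔐.T (SmOrb B.plus)).near Set.univ).le_refl' (wtr_near_le (𝔐.T (SmOrb B.plus)) hUU)
    (((d : ℕ) : ℤ) : ZMod 4)
    (smZ K (wtr_cut 𝔐 (SmOrb B.plus)) (Opens.comap s U).isOpen hU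
      (sm_a_in 𝔐 d O hO hbox B _ (Opens.comap s U).isOpen hU) D)
  have h3 := wti_push_comp 𝔐 (d : ℤ) s g (V := ⊤) (U := Opens.comap s U) (V' := ⊤) (U' := U)
    (V'' := ⊤) (U'' := U') (fun _ _ => trivial) (fun _ h => h) (fun _ _ => trivial) hg
    (fun _ _ => trivial) hUU
    (smZ K (wtr_cut 𝔐 (SmOrb B.plus)) (Opens.comap s U).isOpen hU
      (sm_a_in 𝔐 d O hO hbox B _ (Opens.comap s U).isOpen hU) D)
  have h4 := wti_push_comp 𝔐 (d : ℤ) (ContinuousMap.id (SmOrb B.plus)) (g.comp s) (V := ⊤)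
    (U := Opens.comap s U) (V' := ⊤) (U' := Opens.comap (g.comp s) U')
    (V'' := ⊤) (U'' := U') (fun _ _ => trivial) hUU (fun _ _ => trivial) (fun _ h => h)
    (fun _ _ => trivial) hUU
    (smZ K (wtr_cut 𝔐 (SmOrb B.plus)) (Opens.comap s U).isOpen hU
      (sm_a_in 𝔐 d O hO hbox B _ (Opens.comap s U).isOpen hU) D)
  refine h3.trans (h4.symm.trans ?_)
  exact congrArg (wtiPush 𝔐 (d : ℤ) (g.comp s) (V := ⊤) (U := Opens.comap (g.comp s) U') (V' := ⊤) (U' := U')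
    (fun _ _ => trivial) (fun _ h => h)) (h2.trans h)

theorem sm_charZ_shift (𝔐 : FcModel) (d : ℕ) (O : Set (EuclideanSpace ℝ (Fin d))) (hO : IsOpen O)
    [LocallyCompactSpace O] (hbox : O ⊆ nmBox d (fun _ => -1) (fun _ => 1)) (B : S5Act p O)
    (K : SmCore p (smQf B.plus OnePoint.infty) (smA 𝔐 d O hO B))
    {X : Type} [TopologicalSpace X] [EhSp X] (s : C(SmOrb B.plus, X)) (U : Opens X)
    (hU : s (smQf B.plus OnePoint.infty) ∈ U) (k : ℕ) (W : Set (SmOrb B.plus)) (hW : IsOpen W)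
    (hWU : ∀ y, y ∉ W → s y ∈ U) (Sh : SmShift K k W) (D : Set (SmLam p)) :
    smCharZ 𝔐 d O hO hbox B K s U hU (smRot p k '' D) = smCharZ 𝔐 d O hO hbox B K s U hU D := by
  have h := sm_z_shift K (wtr_cut 𝔐 (SmOrb B.plus)) (Opens.comap s U).isOpen hU
    (sm_a_in 𝔐 d O hO hbox B _ (Opens.comap s U).isOpen hU) k W hW hW.isClosed_compl.isCompact
    (fun y hy => hWU y hy) Sh D
  exact congrArg (wtiPush 𝔐 (d : ℤ) s (V := ⊤) (U := Opens.comap s U) (V' := ⊤) (U' := U)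
    (fun _ _ => trivial) (fun _ h => h)) h

/-- THE GLUE -/
theorem sm_char_of_core (𝔐 : FcModel) (d : ℕ) (O : Set (EuclideanSpace ℝ (Fin d))) (hO : IsOpen O)
    [LocallyCompactSpace O] (hbox : O ⊆ nmBox d (fun _ => -1) (fun _ => 1)) (B : S5Act p O)
    (K : SmCore p (smQf B.plus OnePoint.infty) (smA 𝔐 d O hO B))
    (hK : ∀ (k : ℕ) (V : Set O) (σ : O → ZMod (p ^ k)), S5Sheet B k V σ →
      Nonempty (SmShift K k (smQf B.plus '' ((↑) '' V : Set (OnePoint O))))) :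
    Nonempty (EhChar (wtiTheory 𝔐) (wtiCube 𝔐) d O hO B) := by
  refine ⟨{
    z := fun {X} _ _ t ht U hU D => smCharZ 𝔐 d O hO hbox B K (smBar B.plus t ht) U hU D
    mult := 4
    mult_pos := by norm_num
    z_add := fun {X} _ _ t ht U hU D D' hD =>
      sm_charZ_add 𝔐 d O hO hbox B K (smBar B.plus t ht) U hU D D' hD
    z_univ := fun {X} _ _ t ht U hU W hW hf =>
      sm_charZ_univ 𝔐 d O hO hbox B K (smBar B.plus t ht) U hU W hW hf
    z_push := ?_
    z_shift := ?_ }⟩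
  · intro X X' _ _ _ _ t ht U hU g U' hg ht' hU' D
    have e : smBar B.plus (g.comp t) ht' = g.comp (smBar B.plus t ht) := by
      apply ContinuousMap.ext
      intro y
      obtain ⟨x, rfl⟩ := sm_q_surj B.plus y
      rfl
    have h := sm_charZ_push 𝔐 d O hO hbox B K (smBar B.plus t ht) U hU g U' hg hU' D
    refine h.trans ?_
    have key : ∀ (s s' : C(SmOrb B.plus, X')) (hs : s = s') (h1 : s (smQf B.plus OnePoint.infty) ∈ U')
        (h2 : s' (smQf B.plus OnePoint.infty) ∈ U'),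
        smCharZ 𝔐 d O hO hbox B K s U' h1 D = smCharZ 𝔐 d O hO hbox B K s' U' h2 D := by
      intro s s' hs h1 h2
      subst hs
      rfl
    exact key _ _ e.symm _ _
  · intro X _ _ t ht U hU k V σ hS hconst D
    obtain ⟨Sh⟩ := hK k V σ hS
    refine sm_charZ_shift 𝔐 d O hO hbox B K (smBar B.plus t ht) U hU k _ ?_ ?_ Sh D
    · exact sm_q_open B.plus _ (OnePoint.isOpenEmbedding_coe.isOpenMap _ hS.isOpen)
    · intro y hy
      obtain ⟨x, rfl⟩ := sm_q_surj B.plus y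
      have hx : x ∉ ((↑) '' V : Set (OnePoint O)) := fun h => hy ⟨x, h, rfl⟩
      show t x ∈ U
      rw [hconst x hx]
      exact hU

/-- realises the equation lemmas here (unique names) -/
theorem sm_char_eqns_cite : True := by
  have := @smF.eq_1
  have := @smA.eq_1
  have := @smCharZ.eq_1
  trivial

end Claimed.Agent.R304
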