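/-
Row 304 (S0559).  Owner: helper138 (statements), helper13 (proofs).  SORRY-FREE.  PACKAGE S5Sheets: finite quotient sheets (paper Lemma 5.6), WITHOUT orbit spaces.
-/
import Claimed.Agent.R304.S5Act
import Claimed.Agent.R304.S5GeoDefs

set_option autoImplicit false

namespace Claimed.Agent.R304

open Topology

variable {p : ℕ} [Fact p.Prime]

theorem s5_small_stab {W : Type} [TopologicalSpace W] [T2Space W] [Nonempty W] (A : S5Act p W)
    (hA : A.Faithful) (k : ℕ) :
    ∃ x : W, ∀ a : ℤ_[p], A.act a x = x → (p : ℤ_[p]) ^ k ∣ a := by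
  cases k with
  | zero =>
    obtain ⟨x⟩ := (inferInstance : Nonempty W)
    exact ⟨x, fun a _ => by simp⟩
  | succ k' =>
    by_contra hcon
    have hall : ∀ x : W, A.act ((p : ℤ_[p]) ^ k') x = x := by
      intro x
      have hx : ¬ ∀ a : ℤ_[p], A.act a x = x → (p : ℤ_[p]) ^ (k' + 1) ∣ a := fun h => hcon ⟨x, h⟩
      obtain ⟨a, ha⟩ := not_forall.1 hx
      obtain ⟨hfix, hnd⟩ := Classical.not_imp.1 ha
      have hmem : a ∈ s5Fixer A {x} := by
        intro y hy
        rw [Set.mem_singleton_iff.1 hy]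
        exact hfix
      have := s5_closed_contains _ (s5_fixer_closed A {x}) a hmem k' hnd 1 x rfl
      rwa [mul_one] at this
    have h0 := hA _ hall
    exact absurd h0 (pow_ne_zero _ (by exact_mod_cast (Fact.out : p.Prime).ne_zero))

theorem s5_orbit_pieces {W : Type} [TopologicalSpace W] [T2Space W] (A : S5Act p W) (k : ℕ) (x : W)
    (hx : ∀ a : ℤ_[p], A.act a x = x → (p : ℤ_[p]) ^ k ∣ a) :
    (∀ i : ZMod (p ^ k), IsCompact {y | ∃ a : ℤ_[p], PadicInt.toZModPow k a = i ∧ A.act a x = y}) ∧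
      ∀ i i' : ZMod (p ^ k), i ≠ i' →
        Disjoint {y | ∃ a : ℤ_[p], PadicInt.toZModPow k a = i ∧ A.act a x = y}
          {y | ∃ a : ℤ_[p], PadicInt.toZModPow k a = i' ∧ A.act a x = y} := by
  constructor
  · intro i
    have hcl : IsClosed {a : ℤ_[p] | PadicInt.toZModPow k a = i} :=
      ((s5_toZModPow_locConst (p := p) k).isClopen_fiber i).1
    have e : {y | ∃ a : ℤ_[p], PadicInt.toZModPow k a = i ∧ A.act a x = y} =
        (fun a : ℤ_[p] => A.act a x) '' {a : ℤ_[p] | PadicInt.toZModPow k a = i} := rfl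
    rw [e]
    exact hcl.isCompact.image (A.cont.comp (continuous_id.prodMk continuous_const))
  · intro i i' hne
    rw [Set.disjoint_left]
    rintro y ⟨a, ha, rfl⟩ ⟨a', ha', haa⟩
    apply hne
    have hfix : A.act (-a + a') x = x := by
      rw [A.act_add, haa, A.act_neg_act]
    have := (s5_toZModPow_eq_zero k _).2 (hx _ hfix)
    rw [map_add, map_neg, ha, ha'] at this
    exact (neg_add_eq_zero.1 this)

theorem s5_separate {W : Type*} [TopologicalSpace W] [T2Space W] {ι : Type*} [Finite ι]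
    (Cc : ι → Set W) (hc : ∀ i, IsCompact (Cc i)) (hd : ∀ i i', i ≠ i' → Disjoint (Cc i) (Cc i')) :
    ∃ U : ι → Set W, (∀ i, IsOpen (U i)) ∧ (∀ i, Cc i ⊆ U i) ∧
      ∀ i i', i ≠ i' → Disjoint (U i) (U i') := by
  classical
  have hpair : ∀ i i', ∃ P Q : Set W, IsOpen P ∧ IsOpen Q ∧ Cc i ⊆ P ∧ Cc i' ⊆ Q ∧ (i ≠ i' → Disjoint P Q) := by
    intro i i'
    by_cases h : i = i'
    · exact ⟨Set.univ, Set.univ, isOpen_univ, isOpen_univ, Set.subset_univ _, Set.subset_univ _,
        fun h' => absurd h h'⟩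
    · obtain ⟨P, Q, hP, hQ, h1, h2, h3⟩ := SeparatedNhds.of_isCompact_isCompact (hc i) (hc i') (hd i i' h)
      exact ⟨P, Q, hP, hQ, h1, h2, fun _ => h3⟩
  choose P Q hP hQ hCP hCQ hPQ using hpair
  refine ⟨fun i => ⋂ i', (P i i' ∩ Q i' i), ?_, ?_, ?_⟩
  · intro i
    exact isOpen_iInter_of_finite fun i' => (hP i i').inter (hQ i' i)
  · intro i
    exact Set.subset_iInter fun i' => Set.subset_inter (hCP i i') (hCQ i' i)
  · intro i i' hne
    refine (hPQ i i' hne).mono ?_ ?_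
    · exact (Set.iInter_subset _ i').trans Set.inter_subset_left
    · exact (Set.iInter_subset _ i).trans Set.inter_subset_right

theorem s5_sheet_open {W : Type} [TopologicalSpace W] (A : S5Act p W) (k : ℕ)
    (U : ZMod (p ^ k) → Set W) (hU : ∀ i, IsOpen (U i)) (i : ZMod (p ^ k)) :
    IsOpen {w | ∀ a : ℤ_[p], A.act a w ∈ U (PadicInt.toZModPow k a + i)} := by
  have hS : IsOpen {q : ℤ_[p] × W | A.act q.1 q.2 ∈ U (PadicInt.toZModPow k q.1 + i)} := by
    have e : {q : ℤ_[p] × W | A.act q.1 q.2 ∈ U (PadicInt.toZModPow k q.1 + i)} =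
        ⋃ c : ZMod (p ^ k), ({a : ℤ_[p] | PadicInt.toZModPow k a = c} ×ˢ (Set.univ : Set W)) ∩
          (fun q : ℤ_[p] × W => A.act q.1 q.2) ⁻¹' U (c + i) := by
      ext ⟨a, w⟩
      simp only [Set.mem_iUnion, Set.mem_inter_iff, Set.mem_prod, Set.mem_univ, and_true, Set.mem_preimage]
      constructor
      · intro h
        exact ⟨_, rfl, h⟩
      · rintro ⟨c, hc, h⟩
        have hc' : PadicInt.toZModPow k a = c := hc
        show A.act a w ∈ U (PadicInt.toZModPow k a + i)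
        rw [hc']
        exact h
    rw [e]
    refine isOpen_iUnion fun c => IsOpen.inter ?_ ((hU _).preimage A.cont)
    exact (((s5_toZModPow_locConst (p := p) k).isClopen_fiber c).2).prod isOpen_univ
  have hcl : IsClosed (Prod.snd '' {q : ℤ_[p] × W | A.act q.1 q.2 ∈ U (PadicInt.toZModPow k q.1 + i)}ᶜ) :=
    isClosedMap_snd_of_compactSpace _ hS.isClosed_compl
  have e : {w | ∀ a : ℤ_[p], A.act a w ∈ U (PadicInt.toZModPow k a + i)} =
      (Prod.snd '' {q : ℤ_[p] × W | A.act q.1 q.2 ∈ U (PadicInt.toZModPow k q.1 + i)}ᶜ)ᶜ := by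
    ext w
    constructor
    · rintro h ⟨⟨a, w'⟩, hq, rfl⟩
      exact hq (h a)
    · intro h a
      by_contra hcon
      exact h ⟨(a, w), hcon, rfl⟩
  rw [e]
  exact hcl.isOpen_compl

theorem s5_sheets {W : Type} [TopologicalSpace W] [T2Space W] [Nonempty W] (A : S5Act p W)
    (hA : A.Faithful) (k : ℕ) :
    ∃ (V : Set W) (σ : W → ZMod (p ^ k)), V.Nonempty ∧ S5Sheet A k V σ := by
  classical
  have : NeZero (p ^ k) := ⟨pow_ne_zero _ (Fact.out : p.Prime).ne_zero⟩
  obtain ⟨x, hx⟩ := s5_small_stab A hA k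
  obtain ⟨hcomp, hdisj⟩ := s5_orbit_pieces A k x hx
  obtain ⟨U, hUo, hCU, hUd⟩ := s5_separate _ hcomp hdisj
  set N : ZMod (p ^ k) → Set W := fun i => {w | ∀ a : ℤ_[p], A.act a w ∈ U (PadicInt.toZModPow k a + i)} with hN
  have hNo : ∀ i, IsOpen (N i) := fun i => s5_sheet_open A k U hUo i
  have hNd : ∀ i i' w, w ∈ N i → w ∈ N i' → i = i' := by
    intro i i' w h h'
    by_contra hne
    have h0 := h 0
    have h0' := h' 0
    rw [A.act_zero, map_zero, zero_add] at h0 h0'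
    exact Set.disjoint_left.1 (hUd i i' hne) h0 h0'
  have hxN : x ∈ N 0 := by
    intro a
    rw [add_zero]
    exact hCU _ ⟨a, rfl, rfl⟩
  have hact : ∀ (b : ℤ_[p]) i w, w ∈ N i → A.act b w ∈ N (i + PadicInt.toZModPow k b) := by
    intro b i w hw a
    rw [← A.act_add]
    have := hw (a + b)
    rw [map_add, add_assoc, add_comm (PadicInt.toZModPow k b) i] at this
    exact this
  set σ : W → ZMod (p ^ k) := fun w => if h : ∃ i, w ∈ N i then h.choose else 0 with hσ
  have hσN : ∀ i w, w ∈ N i → σ w = i := by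
    intro i w hw
    have hex : ∃ i, w ∈ N i := ⟨i, hw⟩
    simp only [hσ, dif_pos hex]
    exact hNd _ _ w hex.choose_spec hw
  refine ⟨⋃ i, N i, σ, ⟨x, Set.mem_iUnion.2 ⟨0, hxN⟩⟩, ?_, ?_, ?_, ?_⟩
  · exact isOpen_iUnion hNo
  · intro a w hw
    obtain ⟨i, hi⟩ := Set.mem_iUnion.1 hw
    exact Set.mem_iUnion.2 ⟨_, hact a i w hi⟩
  · intro w hw
    obtain ⟨i, hi⟩ := Set.mem_iUnion.1 hw
    filter_upwards [(hNo i).mem_nhds hi] with w' hw'
    rw [hσN i w' hw', hσN i w hi]
  · intro a w hw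
    obtain ⟨i, hi⟩ := Set.mem_iUnion.1 hw
    rw [hσN i w hi, hσN _ _ (hact a i w hi)]

end Claimed.Agent.R304
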