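/-
Row 304 (S0559).  Owner: helper138.  THE ORBIT SPACE of an action `A : S5Act p P` (definitions).
* `SmOrb A` (quotient topology), `smQf A : P → SmOrb A`, `smQ A : C(P, SmOrb A)`, `smLift A f hf` (invariant functions factor).
-/
import Claimed.Agent.R304.S5Defs

set_option autoImplicit false

namespace Claimed.Agent.R304

open Topology

variable {p : ℕ} [Fact p.Prime] {P : Type} [TopologicalSpace P]

/-- the orbit equivalence relation -/
def smOrbSetoid (A : S5Act p P) : Setoid P where
  r x y := ∃ a : ℤ_[p], A.act a x = y
  iseqv :=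
    { refl := fun x => ⟨0, A.act_zero x⟩
      symm := by
        rintro x y ⟨a, rfl⟩
        exact ⟨-a, A.act_neg_act a x⟩
      trans := by
        rintro x y z ⟨a, rfl⟩ ⟨b, rfl⟩
        exact ⟨b + a, A.act_add b a x⟩ }

/-- the orbit space -/
def SmOrb (A : S5Act p P) : Type := Quotient (smOrbSetoid A)

/-- the quotient topology -/
instance smOrbTop (A : S5Act p P) : TopologicalSpace (SmOrb A) :=
  inferInstanceAs (TopologicalSpace (Quotient (smOrbSetoid A)))

/-- the orbit map as a function -/
def smQf (A : S5Act p P) (x : P) : SmOrb A := Quotient.mk (smOrbSetoid A) x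

/-- the orbit map -/
def smQ (A : S5Act p P) : C(P, SmOrb A) := ⟨smQf A, continuous_quotient_mk'⟩

/-- invariant functions factor through the orbit space -/
def smLift (A : S5Act p P) {X : Type*} (f : P → X) (hf : A.InvFun f) : SmOrb A → X :=
  Quotient.lift f (by
    rintro x y ⟨a, rfl⟩
    exact (hf a x).symm)

/-- realises the equation lemmas here (unique names) -/
theorem sm_orb_defs_eqns_cite : True := by
  have := @smOrbSetoid.eq_1
  have := @SmOrb.eq_1
  have := @smOrbTop.eq_1
  have := @smQf.eq_1
  have := @smQ.eq_1
  have := @smLift.eq_1.{0}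
  trivial

end Claimed.Agent.R304
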