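/-
Row 304 (S0559).  Owner: helper138 (statements), helper255 (proofs).  SORRY-FREE.  PACKAGE SmOrb: point set topology of the orbit space `SmOrb A` of `A : S5Act p P`.
The orbit map is an o-p-e-n (and, for compact `P`, closed) quotient map; `SmOrb A` is compact Hausdorff if `P` is; invariant continuous maps factor.
-/
import Claimed.Agent.R304.SmOrbDefs
import Claimed.Agent.R304.S5Act
import Claimed.Agent.R304.S5Sheets

set_option autoImplicit false

namespace Claimed.Agent.R304

open Topology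

variable {p : ℕ} [Fact p.Prime] {P : Type} [TopologicalSpace P]

theorem sm_q_eq_iff (A : S5Act p P) (x y : P) : smQf A x = smQf A y ↔ ∃ a : ℤ_[p], A.act a x = y :=
  Quotient.eq (r := smOrbSetoid A)

theorem sm_q_act (A : S5Act p P) (a : ℤ_[p]) (x : P) : smQf A (A.act a x) = smQf A x :=
  ((sm_q_eq_iff A x (A.act a x)).2 ⟨a, rfl⟩).symm

theorem sm_q_surj (A : S5Act p P) : Function.Surjective (smQf A) := Quotient.mk_surjective

theorem sm_q_cont (A : S5Act p P) : Continuous (smQf A) := continuous_quotient_mk'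

theorem sm_q_quot (A : S5Act p P) : IsQuotientMap (smQf A) := isQuotientMap_quotient_mk'

/-- the saturation of a set -/
theorem sm_q_preimage_image (A : S5Act p P) (S : Set P) : smQf A ⁻¹' (smQf A '' S) = s5Sat A S := by
  ext y
  constructor
  · rintro ⟨x, hx, hxy⟩
    obtain ⟨a, ha⟩ := (sm_q_eq_iff A x y).1 hxy
    exact ⟨a, x, hx, ha⟩
  · rintro ⟨a, x, hx, rfl⟩
    exact ⟨x, hx, (sm_q_act A a x).symm⟩

theorem sm_q_preimage_image_of_inv (A : S5Act p P) (S : Set P) (hS : A.InvSet S) :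
    smQf A ⁻¹' (smQf A '' S) = S := by
  rw [sm_q_preimage_image]
  exact Set.Subset.antisymm (s5_sat_subset_inv A S S hS (Set.Subset.refl S)) (s5_sat_subset A S)

theorem sm_q_preimage_inv (A : S5Act p P) (E : Set (SmOrb A)) : A.InvSet (smQf A ⁻¹' E) :=
  fun a x hx => by
    show smQf A (A.act a x) ∈ E
    rw [sm_q_act]
    exact hx

/-- Plan: `sm_q_preimage_image`, `s5_sat_open`, `IsQuotientMap.isOpen_preimage`. -/
theorem sm_q_open (A : S5Act p P) : IsOpenMap (smQf A) := by
  intro U hU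
  rw [← (sm_q_quot A).isOpen_preimage, sm_q_preimage_image]
  exact s5_sat_open A U hU

theorem sm_orb_compact [CompactSpace P] (A : S5Act p P) : CompactSpace (SmOrb A) :=
  Quotient.compactSpace

/-- Plan: `t2Space_iff_of_isOpenQuotientMap` (the orbit map is an o-p-e-n quotient map): the set `{(x,y) | q x = q y}` is the image of the compact set `ℤ_p × P` under the continuous map `(a,x) ↦ (x, a·x)`,
hence compact, hence closed in the Hausdorff space `P × P`.  (Without compactness of `P`: it is the image of a closed set under the proper map..; only the compact case is needed.) -/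
theorem sm_orb_t2 [CompactSpace P] [T2Space P] (A : S5Act p P) : T2Space (SmOrb A) := by
  have hq : IsOpenQuotientMap (smQf A) := ⟨sm_q_surj A, sm_q_cont A, sm_q_open A⟩
  rw [t2Space_iff_of_isOpenQuotientMap hq]
  have e : {q : P × P | smQf A q.1 = smQf A q.2}
      = (fun r : ℤ_[p] × P => (r.2, A.act r.1 r.2)) '' Set.univ := by
    ext ⟨x, y⟩
    constructor
    · intro h
      obtain ⟨a, ha⟩ := (sm_q_eq_iff A x y).1 h
      exact ⟨(a, x), trivial, by rw [← ha]⟩
    · rintro ⟨⟨a, x'⟩, _, h⟩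
      obtain ⟨rfl, rfl⟩ := Prod.mk.inj h
      exact (sm_q_act A a x').symm
  rw [e]
  exact (isCompact_univ.image (continuous_snd.prodMk A.cont)).isClosed

theorem sm_lift_q (A : S5Act p P) {X : Type*} (f : P → X) (hf : A.InvFun f) (x : P) :
    smLift A f hf (smQf A x) = f x := rfl

theorem sm_lift_cont (A : S5Act p P) {X : Type*} [TopologicalSpace X] (f : P → X) (hf : A.InvFun f)
    (hc : Continuous f) : Continuous (smLift A f hf) :=
  Continuous.quotient_lift hc _

/-- the factorisation of an invariant test -/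
def smBar (A : S5Act p P) {X : Type*} [TopologicalSpace X] (t : C(P, X)) (ht : A.InvFun t) :
    C(SmOrb A, X) := ⟨smLift A t ht, sm_lift_cont A t ht t.continuous⟩

theorem sm_bar_eqns_cite : True := by
  have := @smBar.eq_1.{0}
  trivial

theorem sm_bar_comp (A : S5Act p P) {X : Type*} [TopologicalSpace X] (t : C(P, X)) (ht : A.InvFun t) :
    (smBar A t ht).comp (smQ A) = t := rfl

/-- an orbit inside an o-p-e-n set has an invariant o-p-e-n neighbourhood inside it.  Plan: `{x | ∀ a, a·x ∈ U}` is o-p-e-n (tube lemma, `s5_tube` / complement = projection of a closed set along the compact `ℤ_p`). -/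
theorem sm_inv_nhd (A : S5Act p P) (U : Set P) (hU : IsOpen U) :
    IsOpen {x | ∀ a : ℤ_[p], A.act a x ∈ U} ∧ A.InvSet {x | ∀ a : ℤ_[p], A.act a x ∈ U} := by
  constructor
  · have hS : IsOpen {q : ℤ_[p] × P | A.act q.1 q.2 ∈ U} := hU.preimage A.cont
    have hcl : IsClosed (Prod.snd '' {q : ℤ_[p] × P | A.act q.1 q.2 ∈ U}ᶜ) :=
      isClosedMap_snd_of_compactSpace _ hS.isClosed_compl
    have e : {x | ∀ a : ℤ_[p], A.act a x ∈ U} = (Prod.snd '' {q : ℤ_[p] × P | A.act q.1 q.2 ∈ U}ᶜ)ᶜ := by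
      ext w
      constructor
      · rintro h ⟨⟨a, w'⟩, hq, rfl⟩
        exact hq (h a)
      · intro h a
        by_contra hcon
        exact h ⟨(a, w), hcon, rfl⟩
    rw [e]
    exact hcl.isOpen_compl
  · intro a x hx b
    rw [← A.act_add]
    exact hx (b + a)

/-- SMALL PIECES OF AN ORBIT.  `F = q⁻¹(y)`, covered by o-p-e-n sets `M x ∋ x`.  There are `l`, finitely many points `z i ∈ F` and pairwise disjoint o-p-e-n sets `N i ∋ z i`, invariant under `p^l ℤ_p`, covering `F`, each contained in some `M x`, `x ∈ F`.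
Plan: for `x ∈ F` continuity of the action at `(0,x)` gives `l_x` and an o-p-e-n `M' x ∋ x` with `p^{l_x} ℤ_p · M' x ⊆ M x`; finitely many `M' x` cover the compact `F`; `l = max l_x`.  The orbit `F` is the union of the `≤ p^l` compact sets
`F_c = (c + p^l ℤ_p)·x₀`; two of them are equal or disjoint; each lies in some `M x` (it meets some `M' x`).  Separate the distinct ones by disjoint o-p-e-n sets (`s5_separate`), intersect with `M x`, pass to the
`p^l ℤ_p`-invariant interior (`sm_inv_nhd` for `A.rescale l`). -/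
theorem sm_orbit_pieces [CompactSpace P] [T2Space P] (A : S5Act p P) (y : SmOrb A) (M : P → Set P)
    (hM : ∀ x, smQf A x = y → IsOpen (M x) ∧ x ∈ M x) :
    ∃ (l n : ℕ) (z : Fin n → P) (N : Fin n → Set P), (∀ i, smQf A (z i) = y) ∧ (∀ i, z i ∈ N i) ∧
      (∀ i, IsOpen (N i)) ∧ (∀ i, (A.rescale l).InvSet (N i)) ∧
      (∀ i i', i ≠ i' → Disjoint (N i) (N i')) ∧ (∀ x, smQf A x = y → ∃ i, x ∈ N i) ∧
      ∀ i, ∃ x, smQf A x = y ∧ N i ⊆ M x := by
  classical
  obtain ⟨x₀, hx₀⟩ := sm_q_surj A y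
  set φ : ℤ_[p] → P := fun a => A.act a x₀ with hφ
  have hφc : Continuous φ := A.cont.comp (continuous_id.prodMk continuous_const)
  have hφy : ∀ a, smQf A (φ a) = y := fun a => (sm_q_act A a x₀).trans hx₀
  have hFφ : ∀ x, smQf A x = y → ∃ a, φ a = x := fun x hx => (sm_q_eq_iff A x₀ x).1 (hx₀.trans hx.symm)
  -- a Lebesgue number of the cover of `ℤ_p`
  obtain ⟨δ, hδ, hleb⟩ := lebesgue_number_lemma_of_metric (s := (Set.univ : Set ℤ_[p]))
    (c := fun i : ℤ_[p] => φ ⁻¹' (M (φ i))) isCompact_univ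
    (fun i => (hM _ (hφy i)).1.preimage hφc) (fun a _ => Set.mem_iUnion.2 ⟨a, (hM _ (hφy a)).2⟩)
  obtain ⟨l, hl⟩ := PadicInt.exists_pow_neg_lt p hδ
  have hclose : ∀ a b : ℤ_[p], PadicInt.toZModPow l a = PadicInt.toZModPow l b → b ∈ Metric.ball a δ := by
    intro a b hab
    rw [Metric.mem_ball, dist_eq_norm]
    refine lt_of_le_of_lt ?_ hl
    rw [PadicInt.norm_le_pow_iff_mem_span_pow, Ideal.mem_span_singleton]
    apply (s5_toZModPow_eq_zero l _).1
    rw [map_sub, hab, sub_self]
  have : NeZero (p ^ l) := ⟨pow_ne_zero _ (Fact.out : p.Prime).ne_zero⟩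
  -- the pieces of the orbit
  set Fc : ZMod (p ^ l) → Set P := fun c => {x | ∃ a : ℤ_[p], PadicInt.toZModPow l a = c ∧ φ a = x} with hFc
  have hFcomp : ∀ c, IsCompact (Fc c) := by
    intro c
    have hcl : IsClosed {a : ℤ_[p] | PadicInt.toZModPow l a = c} :=
      ((s5_toZModPow_locConst (p := p) l).isClopen_fiber c).1
    have e : Fc c = φ '' {a : ℤ_[p] | PadicInt.toZModPow l a = c} := rfl
    rw [e]
    exact hcl.isCompact.image hφc
  have hFsub : ∀ c c', (Fc c ∩ Fc c').Nonempty → Fc c ⊆ Fc c' := by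
    rintro c c' ⟨w, ⟨a, ha, haw⟩, ⟨a', ha', haw'⟩⟩ x ⟨b, hb, rfl⟩
    refine ⟨b - a + a', by rw [map_add, map_sub, ha, hb, ha', sub_self, zero_add], ?_⟩
    show A.act (b - a + a') x₀ = A.act b x₀
    have h1 : A.act a' x₀ = A.act a x₀ := haw'.trans haw.symm
    rw [A.act_add, h1, ← A.act_add, sub_add_cancel]
  have hFne : ∀ c, (Fc c).Nonempty := by
    intro c
    obtain ⟨a, ha⟩ := ZMod.ringHom_surjective (PadicInt.toZModPow (p := p) l) c
    exact ⟨φ a, a, ha, rfl⟩
  have hFinv : ∀ c, (A.rescale l).InvSet (Fc c) := by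
    rintro c b x ⟨a, ha, rfl⟩
    refine ⟨(p : ℤ_[p]) ^ l * b + a, ?_, ?_⟩
    · rw [map_add, (s5_toZModPow_eq_zero l _).2 (Dvd.intro _ rfl), zero_add, ha]
    · exact A.act_add _ _ _
  have hFM : ∀ c, ∃ x, smQf A x = y ∧ Fc c ⊆ M x := by
    intro c
    obtain ⟨a, ha⟩ := ZMod.ringHom_surjective (PadicInt.toZModPow (p := p) l) c
    obtain ⟨i, hi⟩ := hleb a trivial
    refine ⟨φ i, hφy i, ?_⟩
    rintro x ⟨b, hb, rfl⟩
    exact hi (hclose a b (ha.trans hb.symm))
  -- the distinct pieces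
  have hfin : Finite (Set.range Fc) := Set.finite_range Fc
  have hT : ∀ t : Set.range Fc, ∃ c, Fc c = t.1 := fun t => t.2
  choose cT hcT using hT
  obtain ⟨U, hUo, hCU, hUd⟩ := s5_separate (fun t : Set.range Fc => t.1)
    (fun t => by rw [← hcT t]; exact hFcomp _)
    (fun t t' hne => by
      rw [Set.disjoint_iff_inter_eq_empty]
      by_contra hcon
      have hcon' : (t.1 ∩ t'.1).Nonempty := Set.nonempty_iff_ne_empty.2 hcon
      apply hne
      apply Subtype.ext
      rw [← hcT t, ← hcT t'] at hcon' ⊢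
      exact Set.Subset.antisymm (hFsub _ _ hcon') (hFsub _ _ (by rwa [Set.inter_comm])))
  choose xT hxT hxM using fun t : Set.range Fc => hFM (cT t)
  choose zT hzT using fun t : Set.range Fc => hFne (cT t)
  set NT : Set.range Fc → Set P := fun t => {x | ∀ a : ℤ_[p], (A.rescale l).act a x ∈ U t ∩ M (xT t)} with hNT
  have hNo : ∀ t, IsOpen (NT t) ∧ (A.rescale l).InvSet (NT t) := fun t =>
    sm_inv_nhd (A.rescale l) _ ((hUo t).inter (hM _ (hxT t)).1)
  have hFN : ∀ t, Fc (cT t) ⊆ NT t := by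
    intro t x hx a
    have h1 := hFinv (cT t) a x hx
    refine ⟨hCU t ?_, hxM t h1⟩
    show _ ∈ t.1
    rw [← hcT t]
    exact h1
  have hNsub : ∀ t, NT t ⊆ U t ∩ M (xT t) := by
    intro t x hx
    have := hx 0
    rwa [(A.rescale l).act_zero] at this
  obtain ⟨n, ⟨e⟩⟩ := Finite.exists_equiv_fin (Set.range Fc)
  refine ⟨l, n, fun i => zT (e.symm i), fun i => NT (e.symm i), ?_, ?_, ?_, ?_, ?_, ?_, ?_⟩
  · intro i
    obtain ⟨a, _, ha⟩ := hzT (e.symm i)
    show smQf A (zT (e.symm i)) = y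
    rw [← ha]
    exact hφy a
  · intro i
    exact hFN _ (hzT _)
  · intro i
    exact (hNo _).1
  · intro i
    exact (hNo _).2
  · intro i i' hne
    refine (hUd (e.symm i) (e.symm i') (fun h => hne (e.symm.injective h))).mono ?_ ?_
    · exact (hNsub _).trans Set.inter_subset_left
    · exact (hNsub _).trans Set.inter_subset_left
  · intro x hx
    obtain ⟨a, rfl⟩ := hFφ x hx
    set t : Set.range Fc := ⟨Fc (PadicInt.toZModPow l a), Set.mem_range_self _⟩ with ht
    refine ⟨e t, ?_⟩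
    show φ a ∈ NT (e.symm (e t))
    rw [e.symm_apply_apply]
    apply hFN t
    rw [hcT t]
    exact ⟨a, rfl, rfl⟩
  · intro i
    exact ⟨xT (e.symm i), hxT _, (hNsub _).trans Set.inter_subset_right⟩

end Claimed.Agent.R304
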