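/-
Row 304 (S0559).  Owner: helper138 (statements), helper255 (proofs; helper lemmas `smd_*`).  SMOOTH COCHAINS (definitions).  `P` compact Hausdorff, `A : S5Act p P`, `Y = SmOrb A`, `q = smQ A`.

* `smInv A j n`   : raw cochains of degree `n` which are invariant under `p^j ℤ_p` SEPARATELY in each of the `n+1` variables;
* `smRaw A n`     : the union over `j` ("smooth cochains");
* `smSub M N ..`  : the sub-object of a differential object `M : FcD X` on a submodule `N` stable under `d` and under a family of Urysohn operators;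
* `smSpan A`      : the span in `asObj P` of the `asEl` of smooth cochains;
* `smS A : FcD Y` : the sub-object of `(asObj P).push q` on `smSpan A`;  `smIncl A : FcHom (smS A) ((asObj P).push q)`;
* `smAct A a`     : the action `a^*` on `smS A`;
* `asMul0 f n`, `asObjMulL P f` : multiplication by a function of the zeroth variable (raw / on `asObj P`);
* `smMul A V f ..`: multiplication by `f(x_0)`, `f` locally constant and `p^k ℤ_p`-invariant on the invariant o-p-e-n set `V`, on `(smS A).res (q '' V)`.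
All obligations of the definitions are PROVED (this file has no gap of its own; it cites statements of AsObj.lean / AsObjDefs.lean).
-/
import Claimed.Agent.R304.SmOrb
import Claimed.Agent.R304.AsCup

set_option autoImplicit false

namespace Claimed.Agent.R304

open Topology

/-! ### general lemmas on `asTMap`, `asTD` (helper255) -/

section Gen

variable {X Y : Type} [TopologicalSpace X] [TopologicalSpace Y]

/-- `asTMap` on a homogeneous element -/
theorem smd_tMap_lof (T : ∀ q, AsQ X q →ₗ[ℝ] AsQ Y q) (q : ℕ) (u : AsQ X q) :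
    asTMap T (DirectSum.lof ℝ ℕ (fun q => AsQ X q) q u) = DirectSum.lof ℝ ℕ (fun q => AsQ Y q) q (T q u) := by
  unfold asTMap
  rw [DirectSum.toModule_lof]
  rfl

/-- components of `asTMap` -/
theorem smd_tMap_apply (T : ∀ q, AsQ X q →ₗ[ℝ] AsQ Y q) (m : AsT X) (q : ℕ) :
    (asTMap T m) q = T q (m q) := by
  induction m using DirectSum.induction_on with
  | zero => simp
  | of i u =>
    have h := smd_tMap_lof T i u
    rw [DirectSum.lof_eq_of, DirectSum.lof_eq_of] at h
    rw [h]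
    by_cases hiq : i = q
    · subst hiq
      rw [DirectSum.of_eq_same, DirectSum.of_eq_same]
    · rw [DirectSum.of_eq_of_ne _ _ _ (Ne.symm hiq), DirectSum.of_eq_of_ne _ _ _ (Ne.symm hiq), map_zero]
  | add m m' h h' =>
    rw [map_add, DirectSum.add_apply, DirectSum.add_apply, h, h', map_add]

theorem smd_tD_lof (q : ℕ) (u : AsQ X q) :
    asTD X (DirectSum.lof ℝ ℕ (fun q => AsQ X q) q u) = DirectSum.lof ℝ ℕ (fun q => AsQ X q) (q + 1) (asQD X q u) := by
  unfold asTD
  rw [DirectSum.toModule_lof]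
  rfl

theorem smd_tD_apply_succ (m : AsT X) (q : ℕ) : (asTD X m) (q + 1) = asQD X q (m q) := by
  induction m using DirectSum.induction_on with
  | zero => simp
  | of i u =>
    have h := smd_tD_lof i u
    rw [DirectSum.lof_eq_of, DirectSum.lof_eq_of] at h
    rw [h]
    by_cases hiq : i = q
    · subst hiq
      rw [DirectSum.of_eq_same, DirectSum.of_eq_same]
    · rw [DirectSum.of_eq_of_ne _ _ _ (fun h' => hiq (Nat.succ_injective h').symm),
        DirectSum.of_eq_of_ne _ _ _ (Ne.symm hiq), map_zero]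
  | add m m' h h' =>
    rw [map_add, DirectSum.add_apply, DirectSum.add_apply, h, h', map_add]

theorem smd_tD_apply_zero (m : AsT X) : (asTD X m) 0 = 0 := by
  induction m using DirectSum.induction_on with
  | zero => simp
  | of i u =>
    have h := smd_tD_lof i u
    rw [DirectSum.lof_eq_of, DirectSum.lof_eq_of] at h
    rw [h, DirectSum.of_eq_of_ne _ _ _ (Nat.succ_ne_zero i).symm]
  | add m m' h h' =>
    rw [map_add, DirectSum.add_apply, h, h', add_zero]

/-- `asTMap` of maps induced by raw maps, on `asEl` -/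
theorem smd_tMap_el (R : ∀ q, AsC ℝ X q →ₗ[ℝ] AsC ℝ Y q) (hc : ∀ q, ∀ φ ∈ asCc X q, R q φ ∈ asCc Y q)
    (hn : ∀ q, ∀ φ ∈ asNull ℝ X q, R q φ ∈ asNull ℝ Y q) (q : ℕ) (φ : AsC ℝ X q)
    (hφ : IsCompact (asSupp φ)) :
    asTMap (fun q => asQMap (R q) (hc q) (hn q)) (asEl X q φ hφ) = asEl Y q (R q φ) (hc q φ hφ) :=
  smd_tMap_lof _ q _

/-- supports, degree by degree -/
theorem smd_supp_subset (F : Set X → Set Y) (hF : Monotone F) (m : AsT X) (m' : AsT Y)
    (h : ∀ q, asQSupp (m' q) ⊆ F (asQSupp (m q))) : asTSupp m' ⊆ F (asTSupp m) := by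
  intro y hy
  obtain ⟨q, hq⟩ := Set.mem_iUnion.1 hy
  exact hF (Set.subset_iUnion (fun q => asQSupp (m q)) q) (h q hq)

/-- supports of `asTMap` of maps induced by raw maps -/
theorem smd_tMap_supp (R : ∀ q, AsC ℝ X q →ₗ[ℝ] AsC ℝ Y q) (hc : ∀ q, ∀ φ ∈ asCc X q, R q φ ∈ asCc Y q)
    (hn : ∀ q, ∀ φ ∈ asNull ℝ X q, R q φ ∈ asNull ℝ Y q) (F : Set X → Set Y) (hF : Monotone F)
    (hs : ∀ q (φ : AsC ℝ X q), asSupp (R q φ) ⊆ F (asSupp φ)) (m : AsT X) :
    asTSupp (asTMap (fun q => asQMap (R q) (hc q) (hn q)) m) ⊆ F (asTSupp m) := by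
  refine smd_supp_subset F hF m _ (fun q => ?_)
  rw [smd_tMap_apply]
  obtain ⟨φ, hφ⟩ := as_qMk_surj X q (m q)
  rw [← hφ, as_qMap_mk, as_qSupp_mk, as_qSupp_mk]
  exact hs q φ.1

end Gen

variable {p : ℕ} [Fact p.Prime] {P : Type} [TopologicalSpace P]

/-- cochains invariant under `p^j ℤ_p` separately in each variable -/
def smInv (A : S5Act p P) (j n : ℕ) : Submodule ℝ (AsC ℝ P n) where
  carrier := {φ | ∀ (a : Fin (n + 1) → ℤ_[p]) (x : Fin (n + 1) → P),
    φ (fun i => A.act ((p : ℤ_[p]) ^ j * a i) (x i)) = φ x}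
  zero_mem' := fun _ _ => rfl
  add_mem' := by
    intro φ ψ hφ hψ a x
    show φ _ + ψ _ = φ x + ψ x
    rw [hφ a x, hψ a x]
  smul_mem' := by
    intro c φ hφ a x
    show c * φ _ = c * φ x
    rw [hφ a x]

theorem sm_inv_mono (A : S5Act p P) (n : ℕ) {j j' : ℕ} (h : j ≤ j') : smInv A j n ≤ smInv A j' n := by
  intro φ hφ a x
  obtain ⟨e, rfl⟩ := Nat.exists_eq_add_of_le h
  have := hφ (fun i => (p : ℤ_[p]) ^ e * a i) x
  simpa [pow_add, mul_assoc] using this

/-- smooth cochains -/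
def smRaw (A : S5Act p P) (n : ℕ) : Submodule ℝ (AsC ℝ P n) where
  carrier := {φ | ∃ j, φ ∈ smInv A j n}
  zero_mem' := ⟨0, (smInv A 0 n).zero_mem⟩
  add_mem' := by
    rintro φ ψ ⟨j, hφ⟩ ⟨j', hψ⟩
    exact ⟨max j j', (smInv A (max j j') n).add_mem (sm_inv_mono A n (le_max_left _ _) hφ)
      (sm_inv_mono A n (le_max_right _ _) hψ)⟩
  smul_mem' := by
    rintro c φ ⟨j, hφ⟩
    exact ⟨j, (smInv A j n).smul_mem c hφ⟩

/-- the sub-object of a differential object on a submodule which is stable under `d` and under suitable Urysohn operators -/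
def smSub {X : Type} [TopologicalSpace X] (M : FcD X) (N : Submodule ℝ M.C)
    (hd : ∀ m ∈ N, M.d m ∈ N)
    (hury : ∀ E : Set X, ∃ π : M.C →ₗ[ℝ] M.C, (∀ m ∈ N, π m ∈ N) ∧
      ∀ m, M.supp (π m) ⊆ M.supp m ∩ closure E ∧ M.supp (m - π m) ⊆ M.supp m ∩ closure Eᶜ) :
    FcD X where
  carrier := N
  acg := inferInstance
  mod := inferInstance
  supp := fun m => M.supp m.1
  supp_compact := fun m => M.supp_compact _
  supp_closed := fun m => M.supp_closed _
  supp_empty_iff := fun m => by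
    rw [M.supp_empty_iff]; exact (Submodule.coe_eq_zero (p := N) (x := m))
  supp_add := fun m m' => M.supp_add _ _
  supp_smul := fun c m => M.supp_smul c _
  ury := fun E => by
    obtain ⟨π, h1, h2⟩ := hury E
    exact ⟨π.restrict h1, fun m => h2 m.1⟩
  d := M.d.restrict hd
  d_loc := fun m => M.d_loc _
  d_sq := fun m => Subtype.ext (M.d_sq _)

/-- the inclusion of a sub-object -/
def smSubIncl {X : Type} [TopologicalSpace X] (M : FcD X) (N : Submodule ℝ M.C)
    (hd : ∀ m ∈ N, M.d m ∈ N)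
    (hury : ∀ E : Set X, ∃ π : M.C →ₗ[ℝ] M.C, (∀ m ∈ N, π m ∈ N) ∧
      ∀ m, M.supp (π m) ⊆ M.supp m ∩ closure E ∧ M.supp (m - π m) ⊆ M.supp m ∩ closure Eᶜ) :
    FcHom (smSub M N hd hury) M :=
  ⟨N.subtype, fun _ => subset_rfl, fun _ => rfl⟩

/-- the span of the smooth cochains in `asObj P` -/
noncomputable def smSpan (A : S5Act p P) : Submodule ℝ (asObj P).C :=
  Submodule.span ℝ {m | ∃ (n : ℕ) (φ : AsC ℝ P n) (hφ : IsCompact (asSupp φ)),
    φ ∈ smRaw A n ∧ m = asEl P n φ hφ}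

theorem smd_el_mem (A : S5Act p P) (n : ℕ) (φ : AsC ℝ P n) (hφ : IsCompact (asSupp φ)) (h : φ ∈ smRaw A n) :
    asEl P n φ hφ ∈ smSpan A :=
  Submodule.subset_span ⟨n, φ, hφ, h, rfl⟩

/-- a linear map which maps the generators into the span preserves the span -/
theorem smd_span_map (A : S5Act p P) (L : (asObj P).C →ₗ[ℝ] (asObj P).C)
    (h : ∀ (n : ℕ) (φ : AsC ℝ P n) (hφ : IsCompact (asSupp φ)), φ ∈ smRaw A n → L (asEl P n φ hφ) ∈ smSpan A)
    (m : (asObj P).C) (hm : m ∈ smSpan A) : L m ∈ smSpan A := by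
  have hle : smSpan A ≤ (smSpan A).comap L := by
    refine Submodule.span_le.2 ?_
    rintro _ ⟨n, φ, hφ, hr, rfl⟩
    exact h n φ hφ hr
  exact hle hm

theorem smd_inv_d (A : S5Act p P) (j n : ℕ) (φ : AsC ℝ P n) (h : φ ∈ smInv A j n) :
    asD ℝ P n φ ∈ smInv A j (n + 1) := by
  intro a x
  rw [as_d_apply, as_d_apply]
  refine Finset.sum_congr rfl (fun i _ => ?_)
  congr 1
  exact h (fun k => a (i.succAbove k)) (fun k => x (i.succAbove k))

theorem smd_inv_cut (A : S5Act p P) (E : Set P) (hE : A.InvSet E) (j n : ℕ) (φ : AsC ℝ P n)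
    (h : φ ∈ smInv A j n) : asCut ℝ E n φ ∈ smInv A j n := by
  classical
  intro a x
  rw [as_cut_apply, as_cut_apply, h a x]
  have hiff : A.act ((p : ℤ_[p]) ^ j * a 0) (x 0) ∈ E ↔ x 0 ∈ E :=
    ⟨fun hx => by
      have := hE (-((p : ℤ_[p]) ^ j * a 0)) _ hx
      rwa [A.act_neg_act] at this, fun hx => hE _ _ hx⟩
  simp only [hiff]

theorem smd_inv_act (A : S5Act p P) (b : ℤ_[p]) (j n : ℕ) (φ : AsC ℝ P n) (h : φ ∈ smInv A j n) :
    asPull ℝ (A.act b) n φ ∈ smInv A j n := by
  intro a x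
  show φ (fun i => A.act b (A.act ((p : ℤ_[p]) ^ j * a i) (x i))) = φ (fun i => A.act b (x i))
  have e : (fun i => A.act b (A.act ((p : ℤ_[p]) ^ j * a i) (x i)))
      = fun i => A.act ((p : ℤ_[p]) ^ j * a i) (A.act b (x i)) := by
    funext i
    exact s5_act_comm A _ _ _
  rw [e]
  exact h a _

/-- `δ` preserves separate invariance (each face of a tuple is a tuple).  Plan: `Submodule.span_induction`, `as_el_d`. -/
theorem sm_span_d (A : S5Act p P) (m : (asObj P).C) (hm : m ∈ smSpan A) :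
    (asObj P).d m ∈ smSpan A := by
  refine smd_span_map A (asObj P).d (fun n φ hφ h => ?_) m hm
  rw [as_el_d]
  obtain ⟨j, hj⟩ := h
  exact smd_el_mem A _ _ _ ⟨j, smd_inv_d A j n φ hj⟩

/-- multiplication by a function of the zeroth variable -/
def asMul0 {P : Type} (f : P → ℝ) (n : ℕ) : AsC ℝ P n →ₗ[ℝ] AsC ℝ P n where
  toFun φ := fun x => f (x 0) * φ x
  map_add' φ ψ := by
    funext x
    simp [mul_add]
  map_smul' c φ := by
    funext x
    simp [mul_left_comm]

theorem as_supp_mul0 (f : P → ℝ) {n : ℕ} (φ : AsC ℝ P n) : asSupp (asMul0 f n φ) ⊆ asSupp φ := by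
  intro x hx hc
  obtain ⟨N, hN, h⟩ := hc
  refine hx ⟨N, hN, fun t ht => ?_⟩
  show f (t 0) * φ t = 0
  rw [h t ht, mul_zero]

theorem smd_inv_mul0 (A : S5Act p P) (g : P → ℝ) (k : ℕ)
    (hg : ∀ (a : ℤ_[p]) (x : P), g (A.act ((p : ℤ_[p]) ^ k * a) x) = g x) (j n : ℕ) (φ : AsC ℝ P n)
    (h : φ ∈ smInv A j n) : asMul0 g n φ ∈ smInv A (max j k) n := by
  intro a x
  show g (A.act ((p : ℤ_[p]) ^ (max j k) * a 0) (x 0)) * φ _ = g (x 0) * φ x
  rw [sm_inv_mono A n (le_max_left j k) h a x]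
  congr 1
  obtain ⟨e, he⟩ := Nat.exists_eq_add_of_le (le_max_right j k)
  rw [he, pow_add, mul_assoc]
  exact hg _ _

/-- multiplication by a function of the zeroth variable on `asObj P` -/
noncomputable def asObjMulL (P : Type) [TopologicalSpace P] (f : P → ℝ) :
    (asObj P).C →ₗ[ℝ] (asObj P).C :=
  asTMap (fun n => asQMap (asMul0 f n)
    (fun φ h => as_cc_of_supp_subset φ _ h (as_supp_mul0 f φ))
    (fun φ h => as_null_of_supp_subset φ _ h (as_supp_mul0 f φ)))

variable [CompactSpace P] [T2Space P]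

/-- the orbit space of a compact Hausdorff space is Hausdorff -/
instance smOrbT2 (A : S5Act p P) : T2Space (SmOrb A) := sm_orb_t2 A

/-- the Urysohn operators `1_{q⁻¹E}(x_0)` preserve smooth cochains.
Plan: `π = asTMap (asQCut P (q ⁻¹' E))`; `q ⁻¹' E` is invariant, so the cut preserves `smInv A j n`; supports: `as_supp_cut`, `as_supp_sub_cut`, `q '' closure (q ⁻¹' E) ⊆ closure E` (`image_closure_subset_closure_image`),
`(interior (q⁻¹E))ᶜ = closure (q⁻¹Eᶜ)`. -/
theorem sm_span_ury (A : S5Act p P) (E : Set (SmOrb A)) :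
    ∃ π : ((asObj P).push (smQ A)).C →ₗ[ℝ] ((asObj P).push (smQ A)).C,
      (∀ m ∈ smSpan A, π m ∈ smSpan A) ∧
      ∀ m, ((asObj P).push (smQ A)).supp (π m) ⊆ ((asObj P).push (smQ A)).supp m ∩ closure E ∧
        ((asObj P).push (smQ A)).supp (m - π m) ⊆ ((asObj P).push (smQ A)).supp m ∩ closure Eᶜ := by
  have hcl : ∀ F : Set (SmOrb A), smQ A '' closure (smQ A ⁻¹' F) ⊆ closure F := fun F =>
    (image_closure_subset_closure_image (smQ A).continuous).trans
      (closure_mono (Set.image_preimage_subset (smQ A) F))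
  let L : (asObj P).C →ₗ[ℝ] (asObj P).C := asTMap (fun q => asQCut P (smQ A ⁻¹' E) q)
  refine ⟨L, ?_, fun m => ⟨?_, ?_⟩⟩
  · refine smd_span_map A L (fun n φ hφ h => ?_)
    obtain ⟨j, hj⟩ := h
    have e : L (asEl P n φ hφ) = asEl P n (asCut ℝ (smQ A ⁻¹' E) n φ)
        (as_cc_of_supp_subset φ _ hφ (fun _ hx => (as_supp_cut (smQ A ⁻¹' E) φ hx).1)) :=
      smd_tMap_lof _ n _
    rw [e]
    exact smd_el_mem A _ _ _ ⟨j, smd_inv_cut A _ (sm_q_preimage_inv A E) j n φ hj⟩
  · have h1 : asTSupp (asTMap (fun q => asQCut P (smQ A ⁻¹' E) q) (m : AsT P))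
        ⊆ asTSupp (m : AsT P) ∩ closure (smQ A ⁻¹' E) :=
      smd_tMap_supp (fun q => asCut ℝ (smQ A ⁻¹' E) q) _ _ (fun S => S ∩ closure (smQ A ⁻¹' E))
        (fun S S' h => Set.inter_subset_inter_left _ h) (fun q φ => as_supp_cut _ φ) m
    rintro y ⟨x, hx, rfl⟩
    exact ⟨⟨x, (h1 hx).1, rfl⟩, hcl E ⟨x, (h1 hx).2, rfl⟩⟩
  · have h1' : ∀ m : AsT P, asTSupp (m - asTMap (fun q => asQCut P (smQ A ⁻¹' E) q) m)
        ⊆ asTSupp m ∩ closure (smQ A ⁻¹' Eᶜ) := by
      intro m
      refine smd_supp_subset (fun S => S ∩ closure (smQ A ⁻¹' Eᶜ))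
        (fun S S' h => Set.inter_subset_inter_left _ h) m _ (fun q => ?_)
      rw [DirectSum.sub_apply, smd_tMap_apply]
      obtain ⟨φ, hφ⟩ := as_qMk_surj P q (m q)
      rw [← hφ]
      have e : asQCut P (smQ A ⁻¹' E) q (asQMk P q φ) = asQMk P q ⟨asCut ℝ (smQ A ⁻¹' E) q φ.1,
          as_cc_of_supp_subset φ.1 _ φ.2 (fun _ hx => (as_supp_cut (smQ A ⁻¹' E) φ.1 hx).1)⟩ := rfl
      rw [e, ← map_sub, as_qSupp_mk, as_qSupp_mk]
      intro x hx
      have h2 := as_supp_sub_cut (smQ A ⁻¹' E) φ.1 hx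
      refine ⟨h2.1, ?_⟩
      have h3 : x ∈ (interior (smQ A ⁻¹' E))ᶜ := h2.2
      rw [← closure_compl] at h3
      exact h3
    have h1 := h1' m
    rintro y ⟨x, hx, rfl⟩
    exact ⟨⟨x, (h1 hx).1, rfl⟩, hcl Eᶜ ⟨x, (h1 hx).2, rfl⟩⟩

/-- THE SMOOTH COCHAINS as a differential object over the orbit space -/
noncomputable def smS (A : S5Act p P) : FcD (SmOrb A) :=
  smSub ((asObj P).push (smQ A)) (smSpan A) (sm_span_d A) (sm_span_ury A)

/-- the inclusion of the smooth cochains -/
noncomputable def smIncl (A : S5Act p P) : FcHom (smS A) ((asObj P).push (smQ A)) :=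
  smSubIncl ((asObj P).push (smQ A)) (smSpan A) (sm_span_d A) (sm_span_ury A)

/-- `a^*` on `asObj P` -/
noncomputable def smActL (A : S5Act p P) (a : ℤ_[p]) : (asObj P).C →ₗ[ℝ] (asObj P).C :=
  asObjPullL (A.act a) (s5_act_cont A a).isProperMap

/-- Plan: `a^*` of a cochain in `smInv A j n` is in `smInv A j n` (the group is commutative: `s5_act_comm`). -/
theorem sm_span_act (A : S5Act p P) (a : ℤ_[p]) (m : (asObj P).C) (hm : m ∈ smSpan A) :
    smActL A a m ∈ smSpan A := by
  refine smd_span_map A (smActL A a) (fun n φ hφ h => ?_) m hm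
  obtain ⟨j, hj⟩ := h
  have e : smActL A a (asEl P n φ hφ) = asEl P n (asPull ℝ (A.act a) n φ)
      (as_pull_compact (A.act a) (s5_act_cont A a).isProperMap n φ hφ) :=
    smd_tMap_lof _ n _
  rw [e]
  exact smd_el_mem A _ _ _ ⟨j, smd_inv_act A a j n φ hj⟩

/-- the action on the smooth cochains -/
noncomputable def smAct (A : S5Act p P) (a : ℤ_[p]) : FcHom (smS A) (smS A) where
  f := (smActL A a).restrict (sm_span_act A a)
  loc := by
    intro m
    have h := (asObjPull (⟨A.act a, s5_act_cont A a⟩ : C(P, P)) (s5_act_cont A a).isProperMap).loc m.1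
    rintro y ⟨x, hx, rfl⟩
    refine ⟨A.act a x, h ⟨x, hx, rfl⟩, ?_⟩
    exact sm_q_act A a x
  comm := by
    intro m
    apply Subtype.ext
    exact (asObjPull (⟨A.act a, s5_act_cont A a⟩ : C(P, P)) (s5_act_cont A a).isProperMap).comm m.1

/-- admissible multipliers: `V` invariant and o-p-e-n, `f` locally constant on `V` and invariant under `p^k ℤ_p` on `V` -/
structure SmFun (A : S5Act p P) (V : Set P) (k : ℕ) (f : P → ℝ) : Prop where
  inv : A.InvSet V
  isOpen : IsOpen V
  locConst : ∀ x ∈ V, ∀ᶠ x' in 𝓝 x, f x' = f x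
  ginv : ∀ (a : ℤ_[p]), ∀ x ∈ V, f (A.act ((p : ℤ_[p]) ^ k * a) x) = f x

omit [CompactSpace P] [T2Space P] in
theorem smd_ind_inv (A : S5Act p P) (V : Set P) (k : ℕ) (f : P → ℝ) (h : SmFun A V k f) (a : ℤ_[p]) (x : P) :
    Set.indicator V f (A.act ((p : ℤ_[p]) ^ k * a) x) = Set.indicator V f x := by
  by_cases hx : x ∈ V
  · rw [Set.indicator_of_mem hx, Set.indicator_of_mem (h.inv _ _ hx), h.ginv a x hx]
  · have hx' : A.act ((p : ℤ_[p]) ^ k * a) x ∉ V := by
      intro hc
      have := h.inv (-((p : ℤ_[p]) ^ k * a)) _ hc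
      rw [A.act_neg_act] at this
      exact hx this
    rw [Set.indicator_of_notMem hx, Set.indicator_of_notMem hx']

/-- Plan: `Set.indicator V f` is invariant under `p^k ℤ_p` on all of `P`; so `asMul0` maps `smInv A j n` to `smInv A (max j k) n`. -/
theorem sm_span_mul (A : S5Act p P) (V : Set P) (k : ℕ) (f : P → ℝ) (h : SmFun A V k f)
    (m : (asObj P).C) (hm : m ∈ smSpan A) : asObjMulL P (Set.indicator V f) m ∈ smSpan A := by
  refine smd_span_map A (asObjMulL P (Set.indicator V f)) (fun n φ hφ hr => ?_) m hm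
  obtain ⟨j, hj⟩ := hr
  have e : asObjMulL P (Set.indicator V f) (asEl P n φ hφ) = asEl P n (asMul0 (Set.indicator V f) n φ)
      (as_cc_of_supp_subset φ _ hφ (as_supp_mul0 _ φ)) :=
    smd_tMap_lof _ n _
  rw [e]
  exact smd_el_mem A _ _ _ ⟨max j k, smd_inv_mul0 A _ k (smd_ind_inv A V k f h) j n φ hj⟩

/-- multiplication on all of `smS A` (local and linear; a chain map only on elements supported in `V`) -/
noncomputable def smMulL (A : S5Act p P) (V : Set P) (k : ℕ) (f : P → ℝ) (h : SmFun A V k f) :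
    (smS A).C →ₗ[ℝ] (smS A).C :=
  (asObjMulL P (Set.indicator V f)).restrict (sm_span_mul A V k f h)

theorem sm_mulL_supp (A : S5Act p P) (V : Set P) (k : ℕ) (f : P → ℝ) (h : SmFun A V k f)
    (m : (smS A).C) : (smS A).supp (smMulL A V k f h m) ⊆ (smS A).supp m := by
  have h1 : asTSupp (asObjMulL P (Set.indicator V f) m.1) ⊆ asTSupp m.1 :=
    smd_tMap_supp (fun q => asMul0 (Set.indicator V f) q) _ _ (fun S => S) (fun S S' h => h)
      (fun q φ => as_supp_mul0 _ φ) m.1
  exact Set.image_mono h1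

omit [CompactSpace P] [T2Space P] in
/-- the raw computation: `f δφ - δ(f φ)` is null if `f` is locally constant on the o-p-e-n set `V ⊇ asSupp φ` -/
theorem smd_mul_comm_raw (V : Set P) (f : P → ℝ) (hV : IsOpen V) (hf : ∀ x ∈ V, ∀ᶠ x' in 𝓝 x, f x' = f x)
    (q : ℕ) (φ : AsC ℝ P q) (hφ : asSupp φ ⊆ V) :
    asSupp (asMul0 (Set.indicator V f) (q + 1) (asD ℝ P q φ) - asD ℝ P q (asMul0 (Set.indicator V f) q φ)) = ∅ := by
  rw [Set.eq_empty_iff_forall_notMem]
  intro z
  rw [as_not_mem_supp]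
  have key : ∀ t : Fin (q + 2) → P,
      (asMul0 (Set.indicator V f) (q + 1) (asD ℝ P q φ) - asD ℝ P q (asMul0 (Set.indicator V f) q φ)) t
        = (Set.indicator V f (t 0) - Set.indicator V f (t 1)) * φ (fun j => t (Fin.succAbove 0 j)) := by
    intro t
    show Set.indicator V f (t 0) * asD ℝ P q φ t - asD ℝ P q (asMul0 (Set.indicator V f) q φ) t = _
    have hA : asD ℝ P q φ t = φ (fun j => t (Fin.succAbove 0 j))
        + ∑ i : Fin (q + 1), (-1 : ℝ) ^ ((i.succ : Fin (q + 2)) : ℕ) * φ (fun j => t (i.succ.succAbove j)) := by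
      rw [as_d_apply, Fin.sum_univ_succ]
      simp
    have hB : asD ℝ P q (asMul0 (Set.indicator V f) q φ) t
        = Set.indicator V f (t 1) * φ (fun j => t (Fin.succAbove 0 j))
        + ∑ i : Fin (q + 1), Set.indicator V f (t 0) *
            ((-1 : ℝ) ^ ((i.succ : Fin (q + 2)) : ℕ) * φ (fun j => t (i.succ.succAbove j))) := by
      rw [as_d_apply, Fin.sum_univ_succ]
      congr 1
      · show (-1 : ℝ) ^ ((0 : Fin (q + 2)) : ℕ) * (Set.indicator V f (t (Fin.succAbove 0 0)) * _) = _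
        have e2 : (Fin.succAbove (0 : Fin (q + 2)) 0) = 1 := rfl
        rw [e2]
        simp
      · refine Finset.sum_congr rfl (fun i _ => ?_)
        show _ * (Set.indicator V f (t (i.succ.succAbove 0)) * _) = _
        rw [Fin.succ_succAbove_zero]
        ring
    rw [hA, hB, ← Finset.mul_sum]
    ring
  by_cases hz : z ∈ V
  · refine ⟨V ∩ {x' | f x' = f z}, Filter.inter_mem (hV.mem_nhds hz) (hf z hz), fun t ht => ?_⟩
    rw [key, Set.indicator_of_mem (ht 0).1, Set.indicator_of_mem (ht 1).1, (ht 0).2, (ht 1).2, sub_self, zero_mul]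
  · have hz' : AsVan φ z := (as_not_mem_supp φ z).1 (fun h => hz (hφ h))
    obtain ⟨N, hN, h⟩ := hz'
    refine ⟨N, hN, fun t ht => ?_⟩
    rw [key, h _ (fun j => ht _), mul_zero]

omit [CompactSpace P] [T2Space P] in
/-- multiplication commutes with `d` on elements supported in `V` (`asObjMulL` unfolded) -/
theorem smd_mul_comm (V : Set P) (f : P → ℝ) (hV : IsOpen V) (hf : ∀ x ∈ V, ∀ᶠ x' in 𝓝 x, f x' = f x)
    (m : AsT P) (hm : asTSupp m ⊆ V) :
    asTMap (fun n => asQMap (asMul0 (Set.indicator V f) n)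
        (fun φ h => as_cc_of_supp_subset φ _ h (as_supp_mul0 _ φ))
        (fun φ h => as_null_of_supp_subset φ _ h (as_supp_mul0 _ φ))) (asTD P m)
      = asTD P (asTMap (fun n => asQMap (asMul0 (Set.indicator V f) n)
        (fun φ h => as_cc_of_supp_subset φ _ h (as_supp_mul0 _ φ))
        (fun φ h => as_null_of_supp_subset φ _ h (as_supp_mul0 _ φ))) m) := by
  apply DFinsupp.ext
  intro q
  cases q with
  | zero => rw [smd_tMap_apply, smd_tD_apply_zero, smd_tD_apply_zero, map_zero]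
  | succ q =>
    rw [smd_tMap_apply, smd_tD_apply_succ, smd_tD_apply_succ, smd_tMap_apply]
    obtain ⟨φ, hφ⟩ := as_qMk_surj P q (m q)
    have hs : asSupp φ.1 ⊆ V := by
      rw [← as_qSupp_mk, hφ]
      exact (Set.subset_iUnion (fun q => asQSupp (m q)) q).trans hm
    rw [← hφ]
    unfold asQD
    rw [as_qMap_mk, as_qMap_mk, as_qMap_mk, as_qMap_mk, as_qMk_eq_iff]
    exact smd_mul_comm_raw V f hV hf q φ.1 hs

/-- multiplication by `f(x_0)` as a chain map on the smooth cochains supported in `V`.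
`comm`: `δ (f φ) - f δ φ = ∑_{i = 0} (f(x_1) - f(x_0)) φ(x_1, ..)` vanishes near the points of `V` (`f` locally constant) and near the points off `asSupp φ`. -/
noncomputable def smMul (A : S5Act p P) (V : Set P) (k : ℕ) (f : P → ℝ) (h : SmFun A V k f) :
    FcHom ((smS A).res (smQ A '' V)) ((smS A).res (smQ A '' V)) where
  f := (smMulL A V k f h).restrict (fun m hm => (sm_mulL_supp A V k f h m).trans hm)
  loc := fun m => sm_mulL_supp A V k f h m.1
  comm := by
    intro m
    apply Subtype.ext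
    apply Subtype.ext
    have hV : asTSupp m.1.1 ⊆ V := by
      have h1 : smQ A '' asTSupp m.1.1 ⊆ smQ A '' V := m.2
      intro x hx
      have h2 : x ∈ smQf A ⁻¹' (smQf A '' V) := h1 ⟨x, hx, rfl⟩
      rwa [sm_q_preimage_image_of_inv A V h.inv] at h2
    exact smd_mul_comm V f h.isOpen h.locConst m.1.1 hV

/-- realises the equation lemmas here (unique names) -/
theorem sm_coch_defs_eqns_cite : True := by
  have := @smInv.eq_1
  have := @smRaw.eq_1
  have := @smSub.eq_1
  have := @smSubIncl.eq_1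
  have := @smSpan.eq_1
  have := @asMul0.eq_1
  have := @asObjMulL.eq_1
  have := @smS.eq_1
  have := @smIncl.eq_1
  have := @smActL.eq_1
  have := @smAct.eq_1
  have := @smMulL.eq_1
  have := @smMul.eq_1
  trivial

end Claimed.Agent.R304
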