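/-
Row 304 (S0559).  Owner: helper138.  PACKAGE SmCoch (~900 lines): the calculus of the smooth cochains `smS A` (`SmCochDefs.lean`):
components, cup products, the action (a SMOOTH representation of `ℤ_p`), multipliers and their commutation rules.
Everything is checked on generators `asEl P n φ _`, `φ ∈ smInv A j n` (`Submodule.span_induction`) with the raw formulas.
-/
import Claimed.Agent.R304.SmCochDefs

set_option autoImplicit false

namespace Claimed.Agent.R304

open Topology

variable {p : ℕ} [Fact p.Prime] {P : Type} [TopologicalSpace P]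

theorem sm_el_mem (A : S5Act p P) (n : ℕ) (φ : AsC ℝ P n) (hφ : IsCompact (asSupp φ))
    (h : φ ∈ smRaw A n) : asEl P n φ hφ ∈ smSpan A :=
  Submodule.subset_span ⟨n, φ, hφ, h, rfl⟩

/-- induction over the span of the smooth cochains -/
theorem sm_span_induction (A : S5Act p P) (pr : (asObj P).C → Prop) (h0 : pr 0)
    (hadd : ∀ a b, pr a → pr b → pr (a + b)) (hsmul : ∀ (c : ℝ) a, pr a → pr (c • a))
    (hel : ∀ (n : ℕ) (φ : AsC ℝ P n) (hφ : IsCompact (asSupp φ)), φ ∈ smRaw A n →
      pr (asEl P n φ hφ))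
    (m : (asObj P).C) (hm : m ∈ smSpan A) : pr m := by
  unfold smSpan at hm
  induction hm using Submodule.span_induction with
  | mem x hx =>
    obtain ⟨n, φ, hφ, h, rfl⟩ := hx
    exact hel n φ hφ h
  | zero => exact h0
  | add x y _ _ hx hy => exact hadd x y hx hy
  | smul c x _ hx => exact hsmul c x hx

/-- a linear map which maps the generators to smooth elements preserves smoothness -/
theorem sm_span_map (A : S5Act p P) (T : (asObj P).C →ₗ[ℝ] (asObj P).C)
    (hel : ∀ (n : ℕ) (φ : AsC ℝ P n) (hφ : IsCompact (asSupp φ)), φ ∈ smRaw A n →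
      T (asEl P n φ hφ) ∈ smSpan A)
    (m : (asObj P).C) (hm : m ∈ smSpan A) : T m ∈ smSpan A := by
  refine sm_span_induction A (fun m => T m ∈ smSpan A) ?_ ?_ ?_ hel m hm
  · rw [map_zero]
    exact (smSpan A).zero_mem
  · intro a b ha hb
    rw [map_add]
    exact (smSpan A).add_mem ha hb
  · intro c a ha
    rw [map_smul]
    exact (smSpan A).smul_mem c ha

theorem sm_zero_compact (n : ℕ) : IsCompact (asSupp (0 : AsC ℝ P n)) := (asCc P n).zero_mem

theorem sm_el_zero (n : ℕ) (h : IsCompact (asSupp (0 : AsC ℝ P n))) : asEl P n 0 h = 0 := by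
  have hc : IsCompact (asSupp ((0 : ℝ) • (0 : AsC ℝ P n))) := by
    rw [zero_smul]
    exact h
  exact (as_el_congr n _ _ h hc (zero_smul ℝ _).symm).trans
    ((as_el_smul n 0 (0 : AsC ℝ P n) h hc).trans (zero_smul ℝ _))

/-- the homogeneous components of a smooth element are `asEl`s of smooth cochains -/
theorem sm_span_pr_el (A : S5Act p P) (m : (asObj P).C) (hm : m ∈ smSpan A) (n : ℕ) :
    ∃ (φ : AsC ℝ P n) (hφ : IsCompact (asSupp φ)), φ ∈ smRaw A n ∧ asObjPr P n m = asEl P n φ hφ := by
  refine sm_span_induction A (fun m => ∃ (φ : AsC ℝ P n) (hφ : IsCompact (asSupp φ)),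
    φ ∈ smRaw A n ∧ asObjPr P n m = asEl P n φ hφ) ?_ ?_ ?_ ?_ m hm
  · exact ⟨0, sm_zero_compact n, (smRaw A n).zero_mem, by rw [map_zero, sm_el_zero]⟩
  · rintro a b ⟨φ, hφ, h1, h2⟩ ⟨ψ, hψ, h3, h4⟩
    have hc : IsCompact (asSupp (φ + ψ)) := (asCc P n).add_mem hφ hψ
    exact ⟨φ + ψ, hc, (smRaw A n).add_mem h1 h3, by rw [map_add, h2, h4, as_el_add n φ ψ hφ hψ hc]⟩
  · rintro c a ⟨φ, hφ, h1, h2⟩
    have hc : IsCompact (asSupp (c • φ)) := (asCc P n).smul_mem c hφ
    exact ⟨c • φ, hc, (smRaw A n).smul_mem c h1, by rw [map_smul, h2, as_el_smul n c φ hφ hc]⟩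
  · intro n' φ hφ h
    by_cases hn : n = n'
    · subst hn
      exact ⟨φ, hφ, h, as_obj_pr_el_same n φ hφ⟩
    · exact ⟨0, sm_zero_compact n, (smRaw A n).zero_mem, by
        rw [as_obj_pr_el_ne n n' hn φ hφ, sm_el_zero]⟩

theorem sm_span_pr (A : S5Act p P) (m : (asObj P).C) (hm : m ∈ smSpan A) (n : ℕ) :
    asObjPr P n m ∈ smSpan A := by
  obtain ⟨φ, hφ, h1, h2⟩ := sm_span_pr_el A m hm n
  rw [h2]
  exact sm_el_mem A n φ hφ h1

theorem sm_span_sgn (A : S5Act p P) (m : (asObj P).C) (hm : m ∈ smSpan A) :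
    asObjSgn P m ∈ smSpan A := by
  refine sm_span_map A (asObjSgn P) ?_ m hm
  intro n φ hφ h
  rw [as_obj_sgn_el]
  exact (smSpan A).smul_mem _ (sm_el_mem A n φ hφ h)

/-- raw: the cup product of `smInv A j n` and `smInv A j n'` lies in `smInv A j (n + n')` (the variable `x_n` is used twice, with the same group element) -/
theorem sm_inv_cup (A : S5Act p P) (j n n' : ℕ) (φ : AsC ℝ P n) (ψ : AsC ℝ P n')
    (hφ : φ ∈ smInv A j n) (hψ : ψ ∈ smInv A j n') : asCup ℝ P n n' φ ψ ∈ smInv A j (n + n') := by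
  intro a x
  rw [as_cup_apply, as_cup_apply]
  have h1 := hφ (asFront n n' a) (asFront n n' x)
  have h2 := hψ (asBack n n' a) (asBack n n' x)
  rw [← h1, ← h2]
  rfl

theorem sm_span_cup (A : S5Act p P) (x y : (asObj P).C) (hx : x ∈ smSpan A) (hy : y ∈ smSpan A) :
    asObjCup P x y ∈ smSpan A := by
  refine sm_span_map A ((asObjCup P).flip y) ?_ x hx
  intro n φ hφ h
  rw [LinearMap.flip_apply]
  refine sm_span_map A (asObjCup P (asEl P n φ hφ)) ?_ y hy
  intro n' ψ hψ h'
  rw [as_objCup_el]
  obtain ⟨j, hj⟩ := h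
  obtain ⟨j', hj'⟩ := h'
  exact sm_el_mem A _ _ _ ⟨max j j', sm_inv_cup A (max j j') n n' φ ψ
    (sm_inv_mono A n (le_max_left _ _) hj) (sm_inv_mono A n' (le_max_right _ _) hj')⟩

theorem sm_span_one [CompactSpace P] (A : S5Act p P) : asObjOne P ∈ smSpan A :=
  sm_el_mem A 0 (asOne ℝ P) as_one_compact ⟨0, fun _ _ => rfl⟩

/-- pull backs of cochains on a test space along an invariant map are smooth (invariant under all of `ℤ_p` in each variable) -/
theorem sm_span_pull [CompactSpace P] {X : Type} [TopologicalSpace X] [T2Space X] (A : S5Act p P)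
    (t : C(P, X)) (ht : A.InvFun t) (m : (asObj X).C) :
    asObjPullL t t.continuous.isProperMap m ∈ smSpan A := by
  refine as_obj_induction (fun m => asObjPullL t t.continuous.isProperMap m ∈ smSpan A) ?_ ?_ ?_ m
  · rw [map_zero]
    exact (smSpan A).zero_mem
  · intro a b ha hb
    rw [map_add]
    exact (smSpan A).add_mem ha hb
  · intro n φ hφ
    rw [as_objPullL_el]
    refine sm_el_mem A n _ _ ⟨0, fun a x => ?_⟩
    show φ (fun i => t (A.act _ (x i))) = φ (fun i => t (x i))
    congr 1
    funext i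
    exact ht _ _

variable [CompactSpace P] [T2Space P]

/-! ### the action -/

theorem sm_act_coe (A : S5Act p P) (a : ℤ_[p]) (m : (smS A).C) :
    (smIncl A).f ((smAct A a).f m) = smActL A a ((smIncl A).f m) := rfl

theorem sm_actL_el (A : S5Act p P) (a : ℤ_[p]) (n : ℕ) (φ : AsC ℝ P n) (hφ : IsCompact (asSupp φ)) :
    smActL A a (asEl P n φ hφ) = asEl P n (asPull ℝ (A.act a) n φ)
      (as_pull_compact _ (s5_act_cont A a).isProperMap n φ hφ) :=
  as_objPullL_el (A.act a) (s5_act_cont A a).isProperMap n φ hφ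

theorem sm_actL_zero (A : S5Act p P) (m : (asObj P).C) : smActL A 0 m = m := by
  refine as_obj_induction (fun m => smActL A 0 m = m) ?_ ?_ ?_ m
  · rw [map_zero]
  · intro a b ha hb
    rw [map_add, ha, hb]
  · intro n φ hφ
    rw [sm_actL_el]
    apply as_el_congr
    funext x
    show φ (fun i => A.act 0 (x i)) = φ x
    congr 1
    funext i
    exact A.act_zero _

theorem sm_actL_add (A : S5Act p P) (a b : ℤ_[p]) (m : (asObj P).C) :
    smActL A (a + b) m = smActL A a (smActL A b m) := by
  refine as_obj_induction (fun m => smActL A (a + b) m = smActL A a (smActL A b m)) ?_ ?_ ?_ m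
  · simp only [map_zero]
  · intro x y hx hy
    simp only [map_add, hx, hy]
  · intro n φ hφ
    rw [sm_actL_el, sm_actL_el, sm_actL_el]
    apply as_el_congr
    funext x
    show φ (fun i => A.act (a + b) (x i)) = φ (fun i => A.act b (A.act a (x i)))
    congr 1
    funext i
    rw [add_comm, A.act_add]

theorem sm_actL_d (A : S5Act p P) (a : ℤ_[p]) (m : (asObj P).C) :
    smActL A a ((asObj P).d m) = (asObj P).d (smActL A a m) := by
  refine as_obj_induction (fun m => smActL A a ((asObj P).d m) = (asObj P).d (smActL A a m))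
    ?_ ?_ ?_ m
  · simp only [map_zero]
  · intro x y hx hy
    simp only [map_add, hx, hy]
  · intro n φ hφ
    rw [as_el_d, sm_actL_el, sm_actL_el, as_el_d]
    exact as_el_congr _ _ _ _ _ (as_pull_d (A.act a) n φ)

theorem sm_actL_cup (A : S5Act p P) (a : ℤ_[p]) (x y : (asObj P).C) :
    smActL A a (asObjCup P x y) = asObjCup P (smActL A a x) (smActL A a y) :=
  as_objCup_pull (A.act a) (s5_act_cont A a).isProperMap x y

theorem sm_actL_supp_le (A : S5Act p P) (a : ℤ_[p]) (m : (asObj P).C) :
    (asObj P).supp (smActL A a m) ⊆ A.act a ⁻¹' (asObj P).supp m := by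
  intro x hx
  exact (asObjPull (⟨A.act a, s5_act_cont A a⟩ : C(P, P)) (s5_act_cont A a).isProperMap).loc m
    (Set.mem_image_of_mem _ hx)

/-- the support in `P` is moved by the homeomorphism -/
theorem sm_actL_supp (A : S5Act p P) (a : ℤ_[p]) (m : (asObj P).C) :
    (asObj P).supp (smActL A a m) = A.act a ⁻¹' (asObj P).supp m := by
  refine Set.Subset.antisymm (sm_actL_supp_le A a m) ?_
  intro x hx
  have h := sm_actL_supp_le A (-a) (smActL A a m)
  rw [← sm_actL_add, neg_add_cancel, sm_actL_zero] at h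
  have := h hx
  rwa [Set.mem_preimage, A.act_neg_act] at this

/-- the support in the orbit space does not change -/
theorem sm_act_supp (A : S5Act p P) (a : ℤ_[p]) (m : (smS A).C) :
    (smS A).supp ((smAct A a).f m) = (smS A).supp m := by
  have key : ∀ x : (asObj P).C,
      smQ A '' (asObj P).supp (smActL A a x) = smQ A '' (asObj P).supp x := by
    intro x
    rw [sm_actL_supp]
    ext y
    constructor
    · rintro ⟨x, hx, rfl⟩
      exact ⟨A.act a x, hx, sm_q_act A a x⟩
    · rintro ⟨x, hx, rfl⟩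
      refine ⟨A.act (-a) x, ?_, sm_q_act A (-a) x⟩
      rw [Set.mem_preimage, s5_act_act_neg]
      exact hx
  exact key m.1

/-- THE REPRESENTATION IS SMOOTH: every element is fixed by an o-p-e-n subgroup.  Plan: a finite sum of generators; a generator in `smInv A j n` is fixed by the diagonal action of `p^j ℤ_p`; take the maximum of the `j`. -/
theorem sm_act_smooth (A : S5Act p P) (m : (smS A).C) :
    ∃ j : ℕ, ∀ a : ℤ_[p], (smAct A ((p : ℤ_[p]) ^ j * a)).f m = m := by
  have mono : ∀ (x : (asObj P).C) (j j' : ℕ), j ≤ j' →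
      (∀ a : ℤ_[p], smActL A ((p : ℤ_[p]) ^ j * a) x = x) →
      ∀ a : ℤ_[p], smActL A ((p : ℤ_[p]) ^ j' * a) x = x := by
    intro x j j' h hx a
    obtain ⟨e, rfl⟩ := Nat.exists_eq_add_of_le h
    rw [pow_add, mul_assoc]
    exact hx _
  have key : ∃ j : ℕ, ∀ a : ℤ_[p], smActL A ((p : ℤ_[p]) ^ j * a) m.1 = m.1 := by
    refine sm_span_induction A (fun x => ∃ j : ℕ, ∀ a : ℤ_[p],
      smActL A ((p : ℤ_[p]) ^ j * a) x = x) ?_ ?_ ?_ ?_ m.1 m.2
    · exact ⟨0, fun a => map_zero _⟩
    · rintro x y ⟨j, hj⟩ ⟨j', hj'⟩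
      refine ⟨max j j', fun a => ?_⟩
      rw [map_add, mono x j _ (le_max_left _ _) hj a, mono y j' _ (le_max_right _ _) hj' a]
    · rintro c x ⟨j, hj⟩
      exact ⟨j, fun a => by rw [map_smul, hj a]⟩
    · rintro n φ hφ ⟨j, hj⟩
      refine ⟨j, fun a => ?_⟩
      rw [sm_actL_el]
      apply as_el_congr
      funext x
      exact hj (fun _ => a) x
  obtain ⟨j, hj⟩ := key
  exact ⟨j, fun a => Subtype.ext (hj a)⟩

/-! ### multipliers -/

theorem sm_fun_const (A : S5Act p P) (V : Set P) (hV : A.InvSet V) (hVo : IsOpen V) (c : ℝ) :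
    SmFun A V 0 (fun _ => c) :=
  ⟨hV, hVo, fun _ _ => Filter.Eventually.of_forall fun _ => rfl, fun _ _ _ => rfl⟩

theorem sm_fun_mul (A : S5Act p P) (V : Set P) (k : ℕ) (f g : P → ℝ) (hf : SmFun A V k f)
    (hg : SmFun A V k g) : SmFun A V k (fun x => f x * g x) := by
  refine ⟨hf.inv, hf.isOpen, fun x hx => ?_, fun a x hx => ?_⟩
  · filter_upwards [hf.locConst x hx, hg.locConst x hx] with y h1 h2
    rw [h1, h2]
  · show f _ * g _ = f x * g x
    rw [hf.ginv a x hx, hg.ginv a x hx]

theorem sm_fun_add (A : S5Act p P) (V : Set P) (k : ℕ) (f g : P → ℝ) (hf : SmFun A V k f)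
    (hg : SmFun A V k g) : SmFun A V k (fun x => f x + g x) := by
  refine ⟨hf.inv, hf.isOpen, fun x hx => ?_, fun a x hx => ?_⟩
  · filter_upwards [hf.locConst x hx, hg.locConst x hx] with y h1 h2
    rw [h1, h2]
  · show f _ + g _ = f x + g x
    rw [hf.ginv a x hx, hg.ginv a x hx]

theorem sm_fun_act (A : S5Act p P) (V : Set P) (k : ℕ) (f : P → ℝ) (hf : SmFun A V k f) (a : ℤ_[p]) :
    SmFun A V k (fun x => f (A.act a x)) := by
  refine ⟨hf.inv, hf.isOpen, fun x hx => ?_, fun b x hx => ?_⟩
  · exact (s5_act_cont A a).continuousAt.eventually (hf.locConst (A.act a x) (hf.inv a x hx))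
  · show f (A.act a (A.act _ x)) = f (A.act a x)
    rw [s5_act_comm, hf.ginv b _ (hf.inv a x hx)]

omit [CompactSpace P] [T2Space P] in
theorem sm_mul0_compact (f : P → ℝ) (n : ℕ) (φ : AsC ℝ P n) (hφ : IsCompact (asSupp φ)) :
    IsCompact (asSupp (asMul0 f n φ)) :=
  hφ.of_isClosed_subset (as_supp_closed _) (as_supp_mul0 f φ)

omit [CompactSpace P] [T2Space P] in
/-- the multiplier on the elements -/
theorem sm_objMulL_el (f : P → ℝ) (n : ℕ) (φ : AsC ℝ P n) (hφ : IsCompact (asSupp φ)) :
    asObjMulL P f (asEl P n φ hφ) = asEl P n (asMul0 f n φ) (sm_mul0_compact f n φ hφ) :=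
  DirectSum.toModule_lof (M := fun q => AsQ P q) (N := AsT P) ℝ
    (φ := fun n => (DirectSum.lof ℝ ℕ (fun q => AsQ P q) n).comp (asQMap (asMul0 f n)
      (fun φ h => as_cc_of_supp_subset φ _ h (as_supp_mul0 f φ))
      (fun φ h => as_null_of_supp_subset φ _ h (as_supp_mul0 f φ)))) n
    (asQMk P n ⟨φ, hφ⟩)

omit [CompactSpace P] [T2Space P] in
/-- induction over the elements of `asObj P` supported in `S` -/
theorem sm_obj_induction_supp (S : Set P) (pr : (asObj P).C → Prop) (h0 : pr 0)
    (hadd : ∀ a b, pr a → pr b → pr (a + b))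
    (hel : ∀ (n : ℕ) (φ : AsC ℝ P n) (hφ : IsCompact (asSupp φ)), asSupp φ ⊆ S →
      pr (asEl P n φ hφ))
    (m : (asObj P).C) (hm : (asObj P).supp m ⊆ S) : pr m := by
  have key : ∀ N : ℕ, pr (∑ q ∈ Finset.range N, asObjPr P q m) := by
    intro N
    induction N with
    | zero => simpa using h0
    | succ n ih =>
      rw [Finset.sum_range_succ]
      refine hadd _ _ ih ?_
      obtain ⟨φ, hφ, h⟩ := as_obj_pr_el n m
      have hs := as_obj_pr_supp n m
      rw [h, as_el_supp] at hs
      rw [h]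
      exact hel n φ hφ (hs.trans hm)
  obtain ⟨N, hN⟩ := as_obj_sum_pr m
  rw [hN]
  exact key N

omit [CompactSpace P] [T2Space P] in
theorem sm_objMulL_mul (f g : P → ℝ) (m : (asObj P).C) :
    asObjMulL P f (asObjMulL P g m) = asObjMulL P (fun x => f x * g x) m := by
  refine as_obj_induction (fun m => asObjMulL P f (asObjMulL P g m) =
    asObjMulL P (fun x => f x * g x) m) ?_ ?_ ?_ m
  · simp only [map_zero]
  · intro a b ha hb
    simp only [map_add, ha, hb]
  · intro n φ hφ
    rw [sm_objMulL_el, sm_objMulL_el, sm_objMulL_el]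
    apply as_el_congr
    funext x
    show f (x 0) * (g (x 0) * φ x) = f (x 0) * g (x 0) * φ x
    ring

omit [CompactSpace P] [T2Space P] in
theorem sm_objMulL_add (f g : P → ℝ) (m : (asObj P).C) :
    asObjMulL P (fun x => f x + g x) m = asObjMulL P f m + asObjMulL P g m := by
  refine as_obj_induction (fun m => asObjMulL P (fun x => f x + g x) m =
    asObjMulL P f m + asObjMulL P g m) ?_ ?_ ?_ m
  · simp only [map_zero, add_zero]
  · intro a b ha hb
    simp only [map_add, ha, hb]
    abel
  · intro n φ hφ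
    rw [sm_objMulL_el, sm_objMulL_el, sm_objMulL_el]
    have hc := (asCc P n).add_mem (sm_mul0_compact f n φ hφ) (sm_mul0_compact g n φ hφ)
    rw [← as_el_add n _ _ _ _ hc]
    apply as_el_congr
    funext x
    show (f (x 0) + g (x 0)) * φ x = f (x 0) * φ x + g (x 0) * φ x
    ring

theorem sm_mulL_mul (A : S5Act p P) (V : Set P) (k : ℕ) (f g : P → ℝ) (hf : SmFun A V k f)
    (hg : SmFun A V k g) (m : (smS A).C) :
    smMulL A V k f hf (smMulL A V k g hg m) = smMulL A V k (fun x => f x * g x) (sm_fun_mul A V k f g hf hg) m := by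
  apply Subtype.ext
  have e : Set.indicator V (fun x => f x * g x) =
      fun x => Set.indicator V f x * Set.indicator V g x := by
    funext x
    by_cases hx : x ∈ V <;> simp [hx]
  have := sm_objMulL_mul (Set.indicator V f) (Set.indicator V g) m.1
  rw [← e] at this
  exact this

theorem sm_mulL_add (A : S5Act p P) (V : Set P) (k : ℕ) (f g : P → ℝ) (hf : SmFun A V k f)
    (hg : SmFun A V k g) (m : (smS A).C) :
    smMulL A V k (fun x => f x + g x) (sm_fun_add A V k f g hf hg) m =
      smMulL A V k f hf m + smMulL A V k g hg m := by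
  apply Subtype.ext
  have e : Set.indicator V (fun x => f x + g x) =
      fun x => Set.indicator V f x + Set.indicator V g x := by
    funext x
    by_cases hx : x ∈ V <;> simp [hx]
  have := sm_objMulL_add (Set.indicator V f) (Set.indicator V g) m.1
  rw [← e] at this
  exact this

omit [CompactSpace P] [T2Space P] in
theorem sm_objMulL_const (V : Set P) (hV : IsOpen V) (c : ℝ) (m : (asObj P).C)
    (hm : (asObj P).supp m ⊆ V) : asObjMulL P (Set.indicator V (fun _ => c)) m = c • m := by
  refine sm_obj_induction_supp V (fun m => asObjMulL P (Set.indicator V (fun _ => c)) m = c • m)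
    ?_ ?_ ?_ m hm
  · simp only [map_zero, smul_zero]
  · intro a b ha hb
    simp only [map_add, ha, hb, smul_add]
  · intro n φ hφ hs
    have hc : IsCompact (asSupp (c • φ)) := (asCc P n).smul_mem c hφ
    rw [sm_objMulL_el, ← as_el_smul n c φ hφ hc, as_el_eq_iff]
    rw [Set.eq_empty_iff_forall_notMem]
    intro z
    rw [as_not_mem_supp]
    by_cases hz : z ∈ V
    · refine as_van_sub_of_eqOn _ _ z V (hV.mem_nhds hz) (fun t ht => ?_)
      show Set.indicator V (fun _ => c) (t 0) * φ t = c * φ t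
      rw [Set.indicator_of_mem (ht 0)]
    · have hz' : z ∉ asSupp φ := fun h => hz (hs h)
      rw [as_not_mem_supp] at hz'
      obtain ⟨N, hN, h0⟩ := hz'
      refine as_van_sub_of_eqOn _ _ z N hN (fun t ht => ?_)
      show Set.indicator V (fun _ => c) (t 0) * φ t = c * φ t
      rw [h0 t ht, mul_zero, mul_zero]

/-- multiplication by the constant `c` on elements supported in `V` -/
theorem sm_mulL_const (A : S5Act p P) (V : Set P) (k : ℕ) (c : ℝ) (h : SmFun A V k (fun _ => c))
    (m : (smS A).C) (hm : (smS A).supp m ⊆ smQ A '' V) : smMulL A V k (fun _ => c) h m = c • m := by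
  apply Subtype.ext
  have hm' : ∀ x : (asObj P).C, smQ A '' (asObj P).supp x ⊆ smQ A '' V → (asObj P).supp x ⊆ V := by
    intro x hx z hz
    obtain ⟨v, hv, hvz⟩ := hx (Set.mem_image_of_mem _ hz)
    obtain ⟨a, rfl⟩ := (sm_q_eq_iff A v z).1 hvz
    exact h.inv a v hv
  exact sm_objMulL_const V h.isOpen c m.1 (hm' m.1 hm)

/-- TWISTING: `a^* (f m) = (f ∘ a) (a^* m)` -/
theorem sm_act_mulL (A : S5Act p P) (V : Set P) (k : ℕ) (f : P → ℝ) (hf : SmFun A V k f) (a : ℤ_[p])
    (m : (smS A).C) :
    (smAct A a).f (smMulL A V k f hf m) =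
      smMulL A V k (fun x => f (A.act a x)) (sm_fun_act A V k f hf a) ((smAct A a).f m) := by
  apply Subtype.ext
  have key : ∀ x : (asObj P).C, smActL A a (asObjMulL P (Set.indicator V f) x) =
      asObjMulL P (Set.indicator V (fun x => f (A.act a x))) (smActL A a x) := by
    intro x
    refine as_obj_induction (fun x => smActL A a (asObjMulL P (Set.indicator V f) x) =
      asObjMulL P (Set.indicator V (fun x => f (A.act a x))) (smActL A a x)) ?_ ?_ ?_ x
    · simp only [map_zero]
    · intro u v hu hv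
      simp only [map_add, hu, hv]
    · intro n φ hφ
      rw [sm_objMulL_el, sm_actL_el, sm_actL_el, sm_objMulL_el]
      apply as_el_congr
      funext t
      show Set.indicator V f (A.act a (t 0)) * φ (fun i => A.act a (t i)) =
        Set.indicator V (fun x => f (A.act a x)) (t 0) * φ (fun i => A.act a (t i))
      congr 1
      by_cases ht : t 0 ∈ V
      · rw [Set.indicator_of_mem ht, Set.indicator_of_mem (hf.inv a _ ht)]
      · have ht' : A.act a (t 0) ∉ V := by
          intro h
          apply ht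
          have := hf.inv (-a) _ h
          rwa [A.act_neg_act] at this
        rw [Set.indicator_of_notMem ht, Set.indicator_of_notMem ht']
  exact key m.1

/-- `(f x) ∪ y = f (x ∪ y)` (identically, already for raw cochains) -/
theorem sm_mul_cup_left (f : P → ℝ) (x y : (asObj P).C) :
    asObjCup P (asObjMulL P f x) y = asObjMulL P f (asObjCup P x y) := by
  revert y
  refine as_obj_induction (fun x => ∀ y, asObjCup P (asObjMulL P f x) y =
    asObjMulL P f (asObjCup P x y)) ?_ ?_ ?_ x
  · intro y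
    simp only [map_zero, LinearMap.zero_apply]
  · intro a b ha hb y
    simp only [map_add, LinearMap.add_apply, ha y, hb y]
  · intro n φ hφ y
    refine as_obj_induction (fun y => asObjCup P (asObjMulL P f (asEl P n φ hφ)) y =
      asObjMulL P f (asObjCup P (asEl P n φ hφ) y)) ?_ ?_ ?_ y
    · simp only [map_zero]
    · intro a b ha hb
      simp only [map_add, ha, hb]
    · intro n' ψ hψ
      rw [sm_objMulL_el, as_objCup_el, as_objCup_el, sm_objMulL_el]
      apply as_el_congr
      funext t
      show f (t 0) * φ (asFront n n' t) * ψ (asBack n n' t) =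
        f (t 0) * (φ (asFront n n' t) * ψ (asBack n n' t))
      ring

/-- `x ∪ (f y) = f (x ∪ y)` modulo null cochains if `f` is locally constant near the support of `y`.
Plan: raw: the difference is `(f(x_n) - f(x_0)) φ(x_0..x_n) ψ(x_n..)`; it vanishes near the points where `f` is locally constant and near the points off `asSupp ψ`. -/
theorem sm_mul_cup_right (f : P → ℝ) (x y : (asObj P).C)
    (hloc : ∀ z ∈ (asObj P).supp y, ∀ᶠ z' in 𝓝 z, f z' = f z) :
    asObjCup P x (asObjMulL P f y) = asObjMulL P f (asObjCup P x y) := by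
  refine sm_obj_induction_supp {z | ∀ᶠ z' in 𝓝 z, f z' = f z}
    (fun y => asObjCup P x (asObjMulL P f y) = asObjMulL P f (asObjCup P x y)) ?_ ?_ ?_ y hloc
  · simp only [map_zero]
  · intro a b ha hb
    simp only [map_add, ha, hb]
  · intro n' ψ hψ hs
    refine as_obj_induction (fun x => asObjCup P x (asObjMulL P f (asEl P n' ψ hψ)) =
      asObjMulL P f (asObjCup P x (asEl P n' ψ hψ))) ?_ ?_ ?_ x
    · simp only [map_zero, LinearMap.zero_apply]
    · intro a b ha hb
      simp only [map_add, LinearMap.add_apply, ha, hb]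
    · intro n φ hφ
      rw [sm_objMulL_el, as_objCup_el, as_objCup_el, sm_objMulL_el, as_el_eq_iff,
        Set.eq_empty_iff_forall_notMem]
      intro z
      rw [as_not_mem_supp]
      by_cases hz : z ∈ asSupp ψ
      · refine as_van_sub_of_eqOn _ _ z _ (hs hz) (fun t ht => ?_)
        show φ (asFront n n' t) * (f (asBack n n' t 0) * ψ (asBack n n' t)) =
          f (t 0) * (φ (asFront n n' t) * ψ (asBack n n' t))
        have h1 : f (asBack n n' t 0) = f z := ht _
        have h2 : f (t 0) = f z := ht 0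
        rw [h1, h2]
        ring
      · rw [as_not_mem_supp] at hz
        obtain ⟨N, hN, h0⟩ := hz
        refine as_van_sub_of_eqOn _ _ z N hN (fun t ht => ?_)
        show φ (asFront n n' t) * (f (asBack n n' t 0) * ψ (asBack n n' t)) =
          f (t 0) * (φ (asFront n n' t) * ψ (asBack n n' t))
        rw [h0 (asBack n n' t) (fun i => ht _)]
        ring

/-- the multiplier commutes with `d` on elements near whose support `f` is locally constant -/
theorem sm_mul_d (f : P → ℝ) (y : (asObj P).C)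
    (hloc : ∀ z ∈ (asObj P).supp y, ∀ᶠ z' in 𝓝 z, f z' = f z) :
    (asObj P).d (asObjMulL P f y) = asObjMulL P f ((asObj P).d y) := by
  refine sm_obj_induction_supp {z | ∀ᶠ z' in 𝓝 z, f z' = f z}
    (fun y => (asObj P).d (asObjMulL P f y) = asObjMulL P f ((asObj P).d y)) ?_ ?_ ?_ y hloc
  · simp only [map_zero]
  · intro a b ha hb
    simp only [map_add, ha, hb]
  · intro n φ hφ hs
    rw [sm_objMulL_el, as_el_d, as_el_d, sm_objMulL_el, as_el_eq_iff,
      Set.eq_empty_iff_forall_notMem]
    intro z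
    rw [as_not_mem_supp]
    by_cases hz : z ∈ asSupp φ
    · refine as_van_sub_of_eqOn _ _ z _ (hs hz) (fun t ht => ?_)
      show asD ℝ P n (asMul0 f n φ) t = f (t 0) * asD ℝ P n φ t
      rw [as_d_apply, as_d_apply, Finset.mul_sum]
      refine Finset.sum_congr rfl (fun i _ => ?_)
      show (-1 : ℝ) ^ (i : ℕ) * (f (t (i.succAbove 0)) * φ (fun j => t (i.succAbove j))) =
        f (t 0) * ((-1 : ℝ) ^ (i : ℕ) * φ (fun j => t (i.succAbove j)))
      have h1 : f (t (i.succAbove 0)) = f z := ht _
      have h2 : f (t 0) = f z := ht 0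
      rw [h1, h2]
      ring
    · rw [as_not_mem_supp] at hz
      obtain ⟨N, hN, h0⟩ := hz
      refine as_van_sub_of_eqOn _ _ z N hN (fun t ht => ?_)
      show asD ℝ P n (asMul0 f n φ) t = f (t 0) * asD ℝ P n φ t
      rw [as_d_apply, as_d_apply, Finset.mul_sum]
      refine Finset.sum_congr rfl (fun i _ => ?_)
      show (-1 : ℝ) ^ (i : ℕ) * (f (t (i.succAbove 0)) * φ (fun j => t (i.succAbove j))) =
        f (t 0) * ((-1 : ℝ) ^ (i : ℕ) * φ (fun j => t (i.succAbove j)))
      rw [h0 (fun j => t (i.succAbove j)) (fun j => ht _)]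
      ring

end Claimed.Agent.R304
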