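/-
Row 304 (S0559).  Owner: helper138 (statements), helper156 (proofs).  PACKAGE SmQi: THE INCLUSION OF THE SMOOTH COCHAINS IS A LOCAL QUASI-ISOMORPHISM OVER THE ORBIT SPACE:
      `sm_qi : (fcCone (smIncl A)).Acyc`            (`P` compact Hausdorff, `A : S5Act p P`, everything over `Y = SmOrb A`).
METHOD.  The local-to-global principle `as_lg1_open` (`AsLG.lean`) over the compact Hausdorff space `Y` for the QUOTIENT complex `smFcQ A`, `M n = AsC ℝ P n ⧸ smRaw A n`, with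
`supp [φ] = smBad A φ` = the set of orbits near which `φ` does NOT agree with a smooth cochain.  Stalks: the cone homotopy `∑_i 1_{N_i}(x_0) · ins(z_i)` on small pieces of an orbit (`sm_orbit_pieces`) preserves smooth cochains.
-/
import Claimed.Agent.R304.SmCoch
import Claimed.Agent.R304.AsLG

set_option autoImplicit false

namespace Claimed.Agent.R304

open Topology

variable {p : ℕ} [Fact p.Prime] {P : Type} [TopologicalSpace P]

/-- `φ` agrees with a smooth cochain near the orbit `y` -/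
def SmNear (A : S5Act p P) {n : ℕ} (φ : AsC ℝ P n) (y : SmOrb A) : Prop :=
  ∃ ψ ∈ smRaw A n, ∀ x, smQf A x = y → AsVan (φ - ψ) x

/-- the orbits near which `φ` is not smooth -/
def smBad (A : S5Act p P) {n : ℕ} (φ : AsC ℝ P n) : Set (SmOrb A) := {y | ¬ SmNear A φ y}

/-- a representative of a class modulo smooth cochains -/
noncomputable def smRep (A : S5Act p P) {n : ℕ} (m : AsC ℝ P n ⧸ smRaw A n) : AsC ℝ P n :=
  (Submodule.mkQ_surjective (smRaw A n) m).choose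

theorem smq_rep_mk (A : S5Act p P) {n : ℕ} (m : AsC ℝ P n ⧸ smRaw A n) :
    (smRaw A n).mkQ (smRep A m) = m := (Submodule.mkQ_surjective (smRaw A n) m).choose_spec

theorem smq_inv_d (A : S5Act p P) (j n : ℕ) (φ : AsC ℝ P n) (h : φ ∈ smInv A j n) :
    asD ℝ P n φ ∈ smInv A j (n + 1) := by
  intro a x
  rw [as_d_apply, as_d_apply]
  refine Finset.sum_congr rfl fun i _ => ?_
  rw [h (fun l => a (i.succAbove l)) (fun l => x (i.succAbove l))]

theorem sm_raw_d (A : S5Act p P) (n : ℕ) : smRaw A n ≤ (smRaw A (n + 1)).comap (asD ℝ P n) := by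
  rintro φ ⟨j, hj⟩
  exact ⟨j, smq_inv_d A j n φ hj⟩

/-- membership in a set invariant under `p^l ℤ_p` -/
theorem smq_invSet_iff (A : S5Act p P) (l : ℕ) (N : Set P) (hN : (A.rescale l).InvSet N) (a : ℤ_[p])
    (x : P) : A.act ((p : ℤ_[p]) ^ l * a) x ∈ N ↔ x ∈ N := by
  constructor
  · intro h
    have := hN (-a) _ h
    have e : (A.rescale l).act (-a) (A.act ((p : ℤ_[p]) ^ l * a) x) = x := by
      show A.act ((p : ℤ_[p]) ^ l * -a) (A.act ((p : ℤ_[p]) ^ l * a) x) = x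
      rw [← A.act_add, mul_neg, neg_add_cancel, A.act_zero]
    rwa [e] at this
  · exact fun h => hN a x h

/-- the cut by a set invariant under `p^l ℤ_p` preserves smooth cochains -/
theorem smq_inv_cut (A : S5Act p P) (l j n : ℕ) (N : Set P) (hN : (A.rescale l).InvSet N)
    (φ : AsC ℝ P n) (h : φ ∈ smInv A j n) : asCut ℝ N n φ ∈ smInv A (max j l) n := by
  classical
  intro a x
  have h' := sm_inv_mono A n (le_max_left j l) h
  rw [as_cut_apply, as_cut_apply, h' a x]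
  obtain ⟨e, he⟩ := Nat.exists_eq_add_of_le (le_max_right j l)
  have hiff : A.act ((p : ℤ_[p]) ^ (max j l) * a 0) (x 0) ∈ N ↔ x 0 ∈ N := by
    rw [he, pow_add, mul_assoc]
    exact smq_invSet_iff A l N hN _ _
  by_cases hx : x 0 ∈ N
  · rw [if_pos hx, if_pos (hiff.2 hx)]
  · rw [if_neg hx, if_neg (fun hc => hx (hiff.1 hc))]

theorem smq_raw_cut_inv (A : S5Act p P) (l n : ℕ) (N : Set P) (hN : (A.rescale l).InvSet N)
    (φ : AsC ℝ P n) (h : φ ∈ smRaw A n) : asCut ℝ N n φ ∈ smRaw A n := by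
  obtain ⟨j, hj⟩ := h
  exact ⟨_, smq_inv_cut A l j n N hN φ hj⟩

theorem sm_raw_cut (A : S5Act p P) (E : Set (SmOrb A)) (n : ℕ) :
    smRaw A n ≤ (smRaw A n).comap (asCut ℝ (smQf A ⁻¹' E) n) := by
  intro φ hφ
  refine smq_raw_cut_inv A 0 n _ ?_ φ hφ
  intro a x hx
  exact sm_q_preimage_inv A E _ x hx

theorem sm_near_congr (A : S5Act p P) {n : ℕ} (φ φ' : AsC ℝ P n) (h : φ - φ' ∈ smRaw A n)
    (y : SmOrb A) : SmNear A φ y ↔ SmNear A φ' y := by
  constructor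
  · rintro ⟨ψ, hψ, hv⟩
    refine ⟨ψ - (φ - φ'), (smRaw A n).sub_mem hψ h, fun x hx => ?_⟩
    have e : φ' - (ψ - (φ - φ')) = φ - ψ := by abel
    rw [e]
    exact hv x hx
  · rintro ⟨ψ, hψ, hv⟩
    refine ⟨ψ + (φ - φ'), (smRaw A n).add_mem hψ h, fun x hx => ?_⟩
    have e : φ - (ψ + (φ - φ')) = φ' - ψ := by abel
    rw [e]
    exact hv x hx

theorem sm_bad_congr (A : S5Act p P) {n : ℕ} (φ φ' : AsC ℝ P n) (h : φ - φ' ∈ smRaw A n) :
    smBad A φ = smBad A φ' := by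
  ext y
  exact not_congr (sm_near_congr A φ φ' h y)

theorem sm_bad_rep (A : S5Act p P) {n : ℕ} (φ : AsC ℝ P n) :
    smBad A (smRep A ((smRaw A n).mkQ φ)) = smBad A φ := by
  apply sm_bad_congr
  exact (Submodule.Quotient.eq _).1 (smq_rep_mk A ((smRaw A n).mkQ φ))

theorem sm_bad_subset (A : S5Act p P) {n : ℕ} (φ : AsC ℝ P n) : smBad A φ ⊆ smQf A '' asSupp φ := by
  intro y hy
  by_contra hc
  refine hy ⟨0, (smRaw A n).zero_mem, fun x hx => ?_⟩
  rw [sub_zero, ← as_not_mem_supp]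
  exact fun hx' => hc ⟨x, hx', hx⟩

/-- `SmNear` in terms of supports -/
theorem smq_near_iff (A : S5Act p P) {n : ℕ} (φ : AsC ℝ P n) (y : SmOrb A) :
    SmNear A φ y ↔ ∃ ψ ∈ smRaw A n, y ∉ smQf A '' asSupp (φ - ψ) := by
  constructor
  · rintro ⟨ψ, hψ, h⟩
    refine ⟨ψ, hψ, ?_⟩
    rintro ⟨x, hx, rfl⟩
    exact hx (h x rfl)
  · rintro ⟨ψ, hψ, h⟩
    refine ⟨ψ, hψ, fun x hx => ?_⟩
    rw [← as_not_mem_supp]
    exact fun hx' => h ⟨x, hx', hx⟩

theorem smq_bad_of_raw (A : S5Act p P) {n : ℕ} (φ : AsC ℝ P n) (h : φ ∈ smRaw A n) :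
    smBad A φ = ∅ := by
  rw [sm_bad_congr A φ 0 (by simpa using h), ← Set.subset_empty_iff]
  refine (sm_bad_subset A 0).trans ?_
  rw [as_supp_zero, Set.image_empty]

theorem smq_bad_add (A : S5Act p P) {n : ℕ} (φ φ' : AsC ℝ P n) :
    smBad A (φ + φ') ⊆ smBad A φ ∪ smBad A φ' := by
  intro y hy
  by_contra hc
  rw [Set.mem_union, not_or] at hc
  obtain ⟨ψ, hψ, h⟩ := not_not.1 hc.1
  obtain ⟨ψ', hψ', h'⟩ := not_not.1 hc.2
  refine hy ⟨ψ + ψ', (smRaw A n).add_mem hψ hψ', fun x hx => ?_⟩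
  have e : φ + φ' - (ψ + ψ') = (φ - ψ) + (φ' - ψ') := by abel
  rw [e]
  exact as_van_add _ _ x (h x hx) (h' x hx)

theorem smq_bad_neg (A : S5Act p P) {n : ℕ} (φ : AsC ℝ P n) : smBad A (-φ) ⊆ smBad A φ := by
  intro y hy hc
  obtain ⟨ψ, hψ, h⟩ := hc
  refine hy ⟨-ψ, (smRaw A n).neg_mem hψ, fun x hx => ?_⟩
  have e : -φ - -ψ = -(φ - ψ) := by abel
  rw [e]
  exact as_van_neg _ x (h x hx)

theorem smq_bad_d (A : S5Act p P) {n : ℕ} (φ : AsC ℝ P n) :
    smBad A (asD ℝ P n φ) ⊆ smBad A φ := by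
  intro y hy hc
  obtain ⟨ψ, hψ, h⟩ := hc
  refine hy ⟨asD ℝ P n ψ, sm_raw_d A n hψ, fun x hx => ?_⟩
  rw [← map_sub]
  exact as_van_d _ x (h x hx)

/-- supports in the orbit space of a cut -/
theorem smq_supp_cut (A : S5Act p P) (E : Set (SmOrb A)) {n : ℕ} (χ : AsC ℝ P n) :
    smQf A '' asSupp (asCut ℝ (smQf A ⁻¹' E) n χ) ⊆ smQf A '' asSupp χ ∩ closure E := by
  rintro _ ⟨x, hx, rfl⟩
  have h := as_supp_cut (smQf A ⁻¹' E) χ hx
  exact ⟨⟨x, h.1, rfl⟩, (sm_q_cont A).closure_preimage_subset E h.2⟩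

theorem smq_supp_sub_cut (A : S5Act p P) (E : Set (SmOrb A)) {n : ℕ} (χ : AsC ℝ P n) :
    smQf A '' asSupp (χ - asCut ℝ (smQf A ⁻¹' E) n χ) ⊆ (smQf A '' asSupp χ) \ interior E := by
  rintro _ ⟨x, hx, rfl⟩
  have h := as_supp_sub_cut (smQf A ⁻¹' E) χ hx
  exact ⟨⟨x, h.1, rfl⟩, fun hi => h.2 (preimage_interior_subset_interior_preimage (sm_q_cont A) hi)⟩

theorem smq_bad_cut (A : S5Act p P) (E : Set (SmOrb A)) {n : ℕ} (φ : AsC ℝ P n) :
    smBad A (asCut ℝ (smQf A ⁻¹' E) n φ) ⊆ smBad A φ ∩ closure E := by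
  intro y hy
  refine ⟨fun hc => hy ?_, ?_⟩
  · obtain ⟨ψ, hψ, h⟩ := (smq_near_iff A φ y).1 hc
    refine (smq_near_iff A _ y).2 ⟨_, sm_raw_cut A E n hψ, fun hc' => h ?_⟩
    rw [← map_sub] at hc'
    exact (smq_supp_cut A E _ hc').1
  · exact (smq_supp_cut A E φ (sm_bad_subset A _ hy)).2

theorem smq_bad_sub_cut (A : S5Act p P) (E : Set (SmOrb A)) {n : ℕ} (φ : AsC ℝ P n) :
    smBad A (φ - asCut ℝ (smQf A ⁻¹' E) n φ) ⊆ smBad A φ \ interior E := by
  intro y hy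
  refine ⟨fun hc => hy ?_, ?_⟩
  · obtain ⟨ψ, hψ, h⟩ := (smq_near_iff A φ y).1 hc
    refine (smq_near_iff A _ y).2 ⟨ψ - asCut ℝ (smQf A ⁻¹' E) n ψ,
      (smRaw A n).sub_mem hψ (sm_raw_cut A E n hψ), fun hc' => h ?_⟩
    have e : φ - asCut ℝ (smQf A ⁻¹' E) n φ - (ψ - asCut ℝ (smQf A ⁻¹' E) n ψ) =
        (φ - ψ) - asCut ℝ (smQf A ⁻¹' E) n (φ - ψ) := by
      rw [map_sub]; abel
    rw [e] at hc'
    exact (smq_supp_sub_cut A E _ hc').1
  · exact (smq_supp_sub_cut A E φ (sm_bad_subset A _ hy)).2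

/-- the image in the orbit space of the support of a cochain is closed -/
theorem smq_supp_closed [CompactSpace P] [T2Space P] (A : S5Act p P) {n : ℕ} (χ : AsC ℝ P n) :
    IsClosed (smQf A '' asSupp χ) :=
  ((as_supp_closed χ).isCompact.image (sm_q_cont A)).isClosed

theorem smq_bad_closed_aux [CompactSpace P] [T2Space P] (A : S5Act p P) {n : ℕ} (φ : AsC ℝ P n) :
    IsClosed (smBad A φ) := by
  have e : smBad A φ = ⋂ ψ : smRaw A n, smQf A '' asSupp (φ - ψ.1) := by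
    ext y
    rw [Set.mem_iInter]
    constructor
    · intro hy ψ
      by_contra hc
      exact hy ((smq_near_iff A φ y).2 ⟨ψ.1, ψ.2, hc⟩)
    · intro h hc
      obtain ⟨ψ, hψ, hn⟩ := (smq_near_iff A φ y).1 hc
      exact hn (h ⟨ψ, hψ⟩)
  rw [e]
  exact isClosed_iInter fun ψ => smq_supp_closed A _

theorem smq_bad_rep_of (A : S5Act p P) {n : ℕ} (m : AsC ℝ P n ⧸ smRaw A n) (φ : AsC ℝ P n)
    (h : (smRaw A n).mkQ φ = m) : smBad A (smRep A m) = smBad A φ := by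
  subst h
  exact sm_bad_rep A φ

/-- all cochains modulo smooth cochains, as a complex with supports in the orbit space.
OBLIGATIONS: `sm_bad_congr` makes the support independent of the representative; `supp_closed` = `sm_bad_closed`; `supp_add`, `supp_neg`, `supp_d` from the corresponding facts for `AsVan`;
`supp_cut`, `supp_sub_cut`: near an orbit outside `closure E` the cut vanishes, near an orbit in `interior E` it is the identity (`q` is continuous and o-p-e-n), and the cut of a smooth cochain is smooth. -/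
noncomputable def smFcQ [CompactSpace P] [T2Space P] (A : S5Act p P) : AsFc ℝ (SmOrb A) where
  M n := AsC ℝ P n ⧸ smRaw A n
  acg := fun _ => inferInstance
  mod := fun _ => inferInstance
  d n := Submodule.mapQ _ _ (asD ℝ P n) (sm_raw_d A n)
  d_d n m := by
    obtain ⟨φ, rfl⟩ := Submodule.mkQ_surjective _ m
    show (smRaw A (n + 2)).mkQ (asD ℝ P (n + 1) (asD ℝ P n φ)) = 0
    rw [as_d_d, map_zero]
  supp n m := smBad A (smRep A m)
  supp_closed n m := smq_bad_closed_aux A _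
  supp_zero n := by
    rw [smq_bad_rep_of A 0 0 (map_zero _)]
    exact smq_bad_of_raw A 0 (Submodule.zero_mem _)
  supp_add n m m' := by
    rw [smq_bad_rep_of A (m + m') (smRep A m + smRep A m') (by rw [map_add, smq_rep_mk, smq_rep_mk])]
    exact smq_bad_add A _ _
  supp_neg n m := by
    rw [smq_bad_rep_of A (-m) (-smRep A m) (by rw [map_neg, smq_rep_mk])]
    exact smq_bad_neg A _
  supp_d n m := by
    rw [smq_bad_rep_of A (Submodule.mapQ _ _ (asD ℝ P n) (sm_raw_d A n) m) (asD ℝ P n (smRep A m))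
      (by conv_rhs => rw [← smq_rep_mk A m]
          rfl)]
    exact smq_bad_d A _
  cut n E m := Submodule.mapQ _ _ (asCut ℝ (smQf A ⁻¹' E) n) (sm_raw_cut A E n) m
  supp_cut n E m := by
    rw [smq_bad_rep_of A (Submodule.mapQ _ _ (asCut ℝ (smQf A ⁻¹' E) n) (sm_raw_cut A E n) m)
      (asCut ℝ (smQf A ⁻¹' E) n (smRep A m))
      (by conv_rhs => rw [← smq_rep_mk A m]
          rfl)]
    exact smq_bad_cut A E _
  supp_sub_cut n E m := by
    rw [smq_bad_rep_of A (m - Submodule.mapQ _ _ (asCut ℝ (smQf A ⁻¹' E) n) (sm_raw_cut A E n) m)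
      (smRep A m - asCut ℝ (smQf A ⁻¹' E) n (smRep A m))
      (by conv_rhs => rw [← smq_rep_mk A m]
          rfl)]
    exact smq_bad_sub_cut A E _

theorem sm_qi_eqns_cite : True := by
  have := @SmNear.eq_1
  have := @smBad.eq_1
  have := @smRep.eq_1
  have := @smFcQ.eq_1
  trivial

/-- the homotopy on small pieces -/
noncomputable def smHt {l : ℕ} (z : Fin l → P) (N : Fin l → Set P) (n : ℕ) :
    AsC ℝ P (n + 1) →ₗ[ℝ] AsC ℝ P n :=
  ∑ i, (asCut ℝ (N i) n).comp (asIns ℝ (z i) n)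

theorem sm_ht_eqns_cite : True := by
  have := @smHt.eq_1
  trivial

/-- a sum of cuts by disjoint sets, evaluated on a tuple which starts in one of them -/
theorem smq_sum_cut_apply {r : ℕ} (N : Fin r → Set P) (hdis : ∀ i i', i ≠ i' → Disjoint (N i) (N i'))
    (n : ℕ) (f : Fin r → AsC ℝ P n) (i : Fin r) (t : Fin (n + 1) → P) (ht : t 0 ∈ N i) :
    (∑ i', asCut ℝ (N i') n (f i')) t = f i t := by
  classical
  rw [Finset.sum_apply, Finset.sum_eq_single i]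
  · rw [as_cut_apply, if_pos ht]
  · intro i' _ hi'
    rw [as_cut_apply, if_neg]
    exact fun hc => Set.disjoint_left.1 (hdis i' i hi') hc ht
  · intro h
    exact absurd (Finset.mem_univ i) h

theorem smq_ht_eq {r : ℕ} (z : Fin r → P) (N : Fin r → Set P) (n : ℕ) (φ : AsC ℝ P (n + 1)) :
    smHt z N n φ = ∑ i, asCut ℝ (N i) n (asIns ℝ (z i) n φ) := by
  unfold smHt
  rw [LinearMap.sum_apply]
  rfl

theorem smq_ht_apply {r : ℕ} (z : Fin r → P) (N : Fin r → Set P)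
    (hdis : ∀ i i', i ≠ i' → Disjoint (N i) (N i')) (n : ℕ) (φ : AsC ℝ P (n + 1)) (i : Fin r)
    (t : Fin (n + 1) → P) (ht : t 0 ∈ N i) : smHt z N n φ t = φ (Fin.cons (z i) t) := by
  rw [smq_ht_eq, smq_sum_cut_apply N hdis n _ i t ht]
  rfl

theorem smq_inv_ins (A : S5Act p P) (j n : ℕ) (z : P) (φ : AsC ℝ P (n + 1))
    (h : φ ∈ smInv A j (n + 1)) : asIns ℝ z n φ ∈ smInv A j n := by
  intro a x
  show φ (Fin.cons z (fun i => A.act ((p : ℤ_[p]) ^ j * a i) (x i))) = φ (Fin.cons z x)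
  rw [← h (Fin.cons 0 a) (Fin.cons z x)]
  congr 1
  funext i
  refine Fin.cases ?_ (fun i' => ?_) i
  · simp [A.act_zero]
  · simp

theorem smq_raw_ins (A : S5Act p P) (n : ℕ) (z : P) (φ : AsC ℝ P (n + 1))
    (h : φ ∈ smRaw A (n + 1)) : asIns ℝ z n φ ∈ smRaw A n := by
  obtain ⟨j, hj⟩ := h
  exact ⟨j, smq_inv_ins A j n z φ hj⟩

variable [CompactSpace P] [T2Space P]

/-- (Q1) Plan: `W = {x | AsVan (φ - ψ) x}` is o-p-e-n and contains the orbit; `{x | ∀ a, a·x ∈ W}` is an invariant o-p-e-n neighbourhood (`sm_inv_nhd`), its image is an o-p-e-n neighbourhood of `y` (`sm_q_open`) consisting of good orbits. -/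
theorem sm_bad_closed (A : S5Act p P) {n : ℕ} (φ : AsC ℝ P n) : IsClosed (smBad A φ) :=
  smq_bad_closed_aux A φ

/-- the homotopy preserves smooth cochains.  Plan: `asIns z` of a cochain in `smInv A j (n+1)` is in `smInv A j n`; the cut by a `p^l ℤ_p`-invariant set maps `smInv A j n` to `smInv A (max j l) n`. -/
theorem sm_ht_raw (A : S5Act p P) (l : ℕ) {r : ℕ} (z : Fin r → P) (N : Fin r → Set P)
    (hN : ∀ i, (A.rescale l).InvSet (N i)) (n : ℕ) (ψ : AsC ℝ P (n + 1)) (hψ : ψ ∈ smRaw A (n + 1)) :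
    smHt z N n ψ ∈ smRaw A n := by
  rw [smq_ht_eq]
  exact Submodule.sum_mem _ fun i _ => smq_raw_cut_inv A l n (N i) (hN i) _ (smq_raw_ins A n (z i) ψ hψ)

/-- the homotopy identity on tuples inside one piece.  Plan: for `x_• ∈ N i` all cuts are `1` on the piece `i` and `0` on the others (disjointness); `as_ins_d`. -/
theorem sm_ht_d {r : ℕ} (z : Fin r → P) (N : Fin r → Set P)
    (hdis : ∀ i i', i ≠ i' → Disjoint (N i) (N i')) (n : ℕ) (φ : AsC ℝ P (n + 1)) (i : Fin r)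
    (x : Fin (n + 2) → P) (hx : ∀ j, x j ∈ N i) :
    asD ℝ P n (smHt z N n φ) x + smHt z N (n + 1) (asD ℝ P (n + 1) φ) x = φ x := by
  have h1 : asD ℝ P n (smHt z N n φ) x = asD ℝ P n (asIns ℝ (z i) n φ) x := by
    rw [as_d_apply, as_d_apply]
    refine Finset.sum_congr rfl fun k _ => ?_
    rw [smq_ht_apply z N hdis n φ i _ (hx _)]
    rfl
  have h2 : smHt z N (n + 1) (asD ℝ P (n + 1) φ) x = asIns ℝ (z i) (n + 1) (asD ℝ P (n + 1) φ) x := by
    rw [smq_ht_apply z N hdis (n + 1) _ i _ (hx _)]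
    rfl
  rw [h1, h2]
  exact congrFun (as_ins_d (z i) n φ) x

theorem smq_fcq_supp_mk (A : S5Act p P) {n : ℕ} (φ : AsC ℝ P n) :
    (smFcQ A).supp n ((smRaw A n).mkQ φ) = smBad A φ := sm_bad_rep A φ

/-- small pieces of an orbit near which a cochain vanishes -/
theorem smq_stalk_pieces (A : S5Act p P) (y : SmOrb A) {n : ℕ} (χ : AsC ℝ P n)
    (h : ∀ x, smQf A x = y → AsVan χ x) :
    ∃ (l r : ℕ) (z : Fin r → P) (N : Fin r → Set P), (∀ i, z i ∈ N i) ∧ (∀ i, IsOpen (N i)) ∧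
      (∀ i, (A.rescale l).InvSet (N i)) ∧ (∀ i i', i ≠ i' → Disjoint (N i) (N i')) ∧
      (∀ x, smQf A x = y → ∃ i, x ∈ N i) ∧
      ∀ i (t : Fin (n + 1) → P), (∀ k, t k ∈ N i) → χ t = 0 := by
  have hex : ∀ x, ∃ M : Set P, smQf A x = y →
      (IsOpen M ∧ x ∈ M) ∧ ∀ t : Fin (n + 1) → P, (∀ k, t k ∈ M) → χ t = 0 := by
    intro x
    by_cases hx : smQf A x = y
    · obtain ⟨N, hN, hv⟩ := h x hx
      obtain ⟨U, hUN, hU, hxU⟩ := mem_nhds_iff.1 hN
      exact ⟨U, fun _ => ⟨⟨hU, hxU⟩, fun t ht => hv t fun k => hUN (ht k)⟩⟩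
    · exact ⟨Set.univ, fun hc => absurd hc hx⟩
  choose M hM using hex
  obtain ⟨l, r, z, N, _, h2, h3, h4, h5, h6, h7⟩ := sm_orbit_pieces A y M fun x hx => (hM x hx).1
  refine ⟨l, r, z, N, h2, h3, h4, h5, h6, fun i t ht => ?_⟩
  obtain ⟨x, hx, hsub⟩ := h7 i
  exact (hM x hx).2 t fun k => hsub (ht k)

/-- (Q3) STALKS.  Plan.  `y` an orbit, `δ φ ≡ ψ'` near `F = q⁻¹ y`, `ψ'` smooth: for `x ∈ F` an o-p-e-n `M x ∋ x` with `δ φ = ψ'` on `(M x)`-tuples.  `l, z, N` from `sm_orbit_pieces`.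
Degree `n+1`: `a = smHt z N n φ`; on `N i`-tuples `φ - δ a = smHt (δ φ) = smHt ψ'` (`sm_ht_d`; `z i ∈ N i ⊆ M x`), and `smHt ψ'` is smooth (`sm_ht_raw`).
Degree `0`: on `N i`: `φ(x) = φ(z i) + ψ'(z i, x)`; so `φ ≡ ∑_i 1_{N i}(x) (φ(z i) + ψ'(z i, x))` near `F`, a smooth `0`-cochain.
(Unfold `AsFc.Acyc`, `smFcQ`; pass to representatives with `sm_bad_rep`, `sm_bad_congr`.) -/
theorem sm_stalk (A : S5Act p P) (y : SmOrb A) (n : ℕ) : (smFcQ A).Acyc {y} n := by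
  cases n with
  | zero =>
    intro m hm
    obtain ⟨φ, rfl⟩ := Submodule.mkQ_surjective _ m
    have hm' : Disjoint (smBad A (asD ℝ P 0 φ)) {y} := by
      rw [← smq_fcq_supp_mk]
      exact hm
    rw [smq_fcq_supp_mk, Set.disjoint_singleton_right]
    rw [Set.disjoint_singleton_right] at hm'
    obtain ⟨ψ', hψ', hv⟩ := not_not.1 hm'
    obtain ⟨l, r, z, N, h2, h3, h4, h5, h6, h7⟩ := smq_stalk_pieces A y _ hv
    refine not_not.2 ⟨∑ i, asCut ℝ (N i) 0 (φ (fun _ => z i) • asOne ℝ P + asIns ℝ (z i) 0 ψ'), ?_, ?_⟩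
    · refine Submodule.sum_mem _ fun i _ => smq_raw_cut_inv A l 0 (N i) (h4 i) _ ?_
      refine (smRaw A 0).add_mem ((smRaw A 0).smul_mem _ ⟨0, fun _ _ => rfl⟩) (smq_raw_ins A 0 (z i) ψ' hψ')
    · intro x hx
      obtain ⟨i, hi⟩ := h6 x hx
      refine as_van_sub_of_eqOn _ _ x (N i) ((h3 i).mem_nhds hi) fun t ht => ?_
      rw [smq_sum_cut_apply N h5 0 _ i t (ht 0)]
      have e1 := congrFun (as_ins_d_zero (k := ℝ) (z i) φ) t
      have e2 : (asD ℝ P 0 φ - ψ') (Fin.cons (z i) t) = 0 := by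
        refine h7 i _ fun k => ?_
        refine Fin.cases ?_ (fun k' => ?_) k
        · exact h2 i
        · exact ht k'
      have e3 : asD ℝ P 0 φ (Fin.cons (z i) t) = ψ' (Fin.cons (z i) t) := sub_eq_zero.1 e2
      have e4 : asD ℝ P 0 φ (Fin.cons (z i) t) = φ t - (φ (fun _ => z i) • asOne ℝ P) t := e1
      show φ t = (φ (fun _ => z i) • asOne ℝ P) t + ψ' (Fin.cons (z i) t)
      rw [← e3, e4]
      ring
  | succ n =>
    intro m hm
    obtain ⟨φ, rfl⟩ := Submodule.mkQ_surjective _ m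
    have hm' : Disjoint (smBad A (asD ℝ P (n + 1) φ)) {y} := by
      rw [← smq_fcq_supp_mk]
      exact hm
    rw [Set.disjoint_singleton_right] at hm'
    obtain ⟨ψ', hψ', hv⟩ := not_not.1 hm'
    obtain ⟨l, r, z, N, h2, h3, h4, h5, h6, h7⟩ := smq_stalk_pieces A y _ hv
    refine ⟨(smRaw A n).mkQ (smHt z N n φ), ?_⟩
    change Disjoint ((smFcQ A).supp (n + 1)
      ((smRaw A (n + 1)).mkQ (φ - asD ℝ P n (smHt z N n φ)))) {y}
    rw [smq_fcq_supp_mk, Set.disjoint_singleton_right]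
    refine not_not.2 ⟨smHt z N (n + 1) ψ', sm_ht_raw A l z N h4 (n + 1) ψ' hψ', fun x hx => ?_⟩
    obtain ⟨i, hi⟩ := h6 x hx
    refine as_van_sub_of_eqOn _ _ x (N i) ((h3 i).mem_nhds hi) fun t ht => ?_
    have e1 := sm_ht_d z N h5 n φ i t ht
    have e2 : (asD ℝ P (n + 1) φ - ψ') (Fin.cons (z i) t) = 0 := by
      refine h7 i _ fun k => ?_
      refine Fin.cases ?_ (fun k' => ?_) k
      · exact h2 i
      · exact ht k'
    have e3 : asD ℝ P (n + 1) φ (Fin.cons (z i) t) = ψ' (Fin.cons (z i) t) := sub_eq_zero.1 e2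
    rw [smq_ht_apply z N h5 (n + 1) _ i t (ht 0)] at e1
    rw [smq_ht_apply z N h5 (n + 1) _ i t (ht 0), ← e3]
    show φ t - asD ℝ P n (smHt z N n φ) t = _
    rw [← e1]
    ring

/-- (Q4) GLOBALISATION over a closed set `K` of good orbits.
Plan: for `y ∈ K` a smooth `ψ_y` and (Q1) an o-p-e-n `O_y ∋ y` of orbits near which `φ ≡ ψ_y`; shrink to `O'_y` with `closure O'_y ⊆ O_y` (regularity); finitely many `O'_i` cover the compact `K`; `E_i = O'_i \ ⋃_{i' < i} O'_{i'}` (ARBITRARY sets are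
allowed as cut-offs); `ψ = ∑_i asCut (q⁻¹ E_i) ψ_i` is smooth.  Near `x ∈ q⁻¹ K`: take a neighbourhood which avoids `q⁻¹ closure E_i` for the `i` with `q x ∉ closure E_i`, lies in `q⁻¹ ⋃ O'_i`, and on whose tuples `φ = ψ_i` for the other `i`;
for a tuple `x_•` in it, `x_0 ∈ q⁻¹ E_i` for exactly one `i`, so `ψ(x_•) = ψ_i(x_•) = φ(x_•)`.
(PROOF AS WRITTEN: compactness induction; two smooth approximations are glued by one cut-off.) -/
theorem sm_global (A : S5Act p P) {n : ℕ} (φ : AsC ℝ P n) (K : Set (SmOrb A)) (hK : IsClosed K)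
    (h : Disjoint (smBad A φ) K) :
    ∃ ψ ∈ smRaw A n, ∀ x, smQf A x ∈ K → AsVan (φ - ψ) x := by
  have := sm_orb_compact A
  have key : ∃ ψ ∈ smRaw A n, Disjoint (closure K) (smQf A '' asSupp (φ - ψ)) := by
    refine hK.isCompact.induction_on
      (p := fun S => ∃ ψ ∈ smRaw A n, Disjoint (closure S) (smQf A '' asSupp (φ - ψ))) ?_ ?_ ?_ ?_
    · exact ⟨0, Submodule.zero_mem _, by simp⟩
    · rintro s t hst ⟨ψ, hψ, hd⟩
      exact ⟨ψ, hψ, hd.mono_left (closure_mono hst)⟩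
    · rintro s t ⟨ψ, hψ, hd⟩ ⟨ψ', hψ', hd'⟩
      have hB := smq_supp_closed A (φ - ψ)
      have hB' := smq_supp_closed A (φ - ψ')
      obtain ⟨E, hE, hCE, hEc⟩ := normal_exists_closure_subset
        (s := closure s ∩ smQf A '' asSupp (φ - ψ')) (t := (closure t ∩ smQf A '' asSupp (φ - ψ))ᶜ)
        (isClosed_closure.inter hB') (isClosed_closure.inter hB).isOpen_compl
        (fun y hy hy' => Set.disjoint_left.1 hd hy.1 hy'.2)
      refine ⟨asCut ℝ (smQf A ⁻¹' E) n ψ + (ψ' - asCut ℝ (smQf A ⁻¹' E) n ψ'),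
        (smRaw A n).add_mem (sm_raw_cut A E n hψ) ((smRaw A n).sub_mem hψ' (sm_raw_cut A E n hψ')), ?_⟩
      have e : φ - (asCut ℝ (smQf A ⁻¹' E) n ψ + (ψ' - asCut ℝ (smQf A ⁻¹' E) n ψ')) =
          asCut ℝ (smQf A ⁻¹' E) n (φ - ψ) + ((φ - ψ') - asCut ℝ (smQf A ⁻¹' E) n (φ - ψ')) := by
        rw [map_sub, map_sub]
        abel
      rw [e, closure_union, Set.disjoint_left]
      rintro y hy ⟨x, hx, rfl⟩
      rcases as_supp_add _ _ hx with hx | hx
      · have h1 := smq_supp_cut A E (φ - ψ) ⟨x, hx, rfl⟩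
        rcases hy with hy | hy
        · exact Set.disjoint_left.1 hd hy h1.1
        · exact hEc h1.2 ⟨hy, h1.1⟩
      · have h1 := smq_supp_sub_cut A E (φ - ψ') ⟨x, hx, rfl⟩
        rcases hy with hy | hy
        · exact h1.2 (by rw [hE.interior_eq]; exact hCE ⟨hy, h1.1⟩)
        · exact Set.disjoint_left.1 hd' hy h1.1
    · intro y hy
      obtain ⟨ψ, hψ, hn⟩ := (smq_near_iff A φ y).1 (not_not.1 (Set.disjoint_right.1 h hy))
      obtain ⟨L, hL, hLn, hd⟩ := as_closed_nhd _ (smq_supp_closed A (φ - ψ)) y hn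
      exact ⟨L, mem_nhdsWithin_of_mem_nhds hLn, ψ, hψ, by rw [hL.closure_eq]; exact hd.symm⟩
  obtain ⟨ψ, hψ, hd⟩ := key
  refine ⟨ψ, hψ, fun x hx => ?_⟩
  rw [← as_not_mem_supp]
  exact fun hx' => Set.disjoint_left.1 hd (subset_closure hx) ⟨x, hx', rfl⟩

/-- a cochain which agrees with a smooth one modulo null cochains has no bad orbits -/
theorem smq_bad_of_null (A : S5Act p P) {n : ℕ} (χ σ : AsC ℝ P n) (hσ : σ ∈ smRaw A n)
    (h : asSupp (χ - σ) = ∅) : smBad A χ = ∅ := by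
  rw [← Set.subset_empty_iff]
  intro y hy
  refine hy ((smq_near_iff A χ y).2 ⟨σ, hσ, ?_⟩)
  rw [h, Set.image_empty]
  exact Set.notMem_empty y

/-- no bad orbits: smooth modulo null cochains -/
theorem smq_null_of_bad (A : S5Act p P) {n : ℕ} (χ : AsC ℝ P n) (h : smBad A χ = ∅) :
    ∃ ψ ∈ smRaw A n, asSupp (χ - ψ) = ∅ := by
  obtain ⟨ψ, hψ, hv⟩ := sm_global A χ Set.univ isClosed_univ (by rw [h]; exact Set.empty_disjoint _)
  refine ⟨ψ, hψ, ?_⟩
  rw [← Set.subset_empty_iff]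
  intro x hx
  exact hx (hv x (Set.mem_univ _))

/-- (Q5) degree `0`.  Plan: `as_lg1_zero` (or pointwise `sm_stalk` in degree `0`), then (Q4) with `K = univ`. -/
theorem sm_qi_zero (A : S5Act p P) (φ : AsC ℝ P 0) (σ : AsC ℝ P 1) (hσ : σ ∈ smRaw A 1)
    (hd : asSupp (asD ℝ P 0 φ - σ) = ∅) : ∃ ψ ∈ smRaw A 0, asSupp (φ - ψ) = ∅ := by
  have := sm_orb_compact A
  apply smq_null_of_bad
  rw [← smq_fcq_supp_mk]
  apply as_lg1_zero (smFcQ A) (fun x q => sm_stalk A x q)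
  change (smFcQ A).supp 1 ((smRaw A 1).mkQ (asD ℝ P 0 φ)) = ∅
  rw [smq_fcq_supp_mk]
  exact smq_bad_of_null A _ σ hσ hd

/-- (Q6) THE RAW STATEMENT: `H((AS/S)(U)) = 0`.
Plan: `as_lg1_open` for `smFcQ A` (`sm_stalk`), `m = [φ]` (`smBad φ ⊆ q '' asSupp φ ⊆ U`, `smBad (δ φ) = smBad σ = ∅`): `a₀` with `smBad a₀ ⊆ U`, `smBad (φ - δ a₀) = ∅`.
(Q4) for `a₀` and `K = Uᶜ`: `ψ₀` smooth, `a = a₀ - ψ₀` vanishes near `q⁻¹ K`, so `q '' asSupp a ⊆ U`; `φ - δ a = (φ - δ a₀) + δ ψ₀` has no bad orbits; (Q4) with `K = univ` gives `ψ`. -/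
theorem sm_qi_raw (A : S5Act p P) (U : Set (SmOrb A)) (hU : IsOpen U) (n : ℕ) (φ : AsC ℝ P (n + 1))
    (hφ : smQf A '' asSupp φ ⊆ U) (σ : AsC ℝ P (n + 2)) (hσ : σ ∈ smRaw A (n + 2))
    (hd : asSupp (asD ℝ P (n + 1) φ - σ) = ∅) :
    ∃ (a : AsC ℝ P n) (ψ : AsC ℝ P (n + 1)), smQf A '' asSupp a ⊆ U ∧ ψ ∈ smRaw A (n + 1) ∧
      asSupp (φ - asD ℝ P n a - ψ) = ∅ := by
  have := sm_orb_compact A
  obtain ⟨a, ha, hb⟩ := as_lg1_open (smFcQ A) (fun x q => sm_stalk A x q) U hU n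
    ((smRaw A (n + 1)).mkQ φ) (by rw [smq_fcq_supp_mk]; exact (sm_bad_subset A φ).trans hφ) (by
      change (smFcQ A).supp (n + 2) ((smRaw A (n + 2)).mkQ (asD ℝ P (n + 1) φ)) = ∅
      rw [smq_fcq_supp_mk]
      exact smq_bad_of_null A _ σ hσ hd)
  obtain ⟨a₀, rfl⟩ := Submodule.mkQ_surjective _ a
  change (smFcQ A).supp (n + 1) ((smRaw A (n + 1)).mkQ (φ - asD ℝ P n a₀)) = ∅ at hb
  rw [smq_fcq_supp_mk] at ha hb
  obtain ⟨ψ₀, hψ₀, hv⟩ := sm_global A a₀ Uᶜ hU.isClosed_compl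
    (Set.disjoint_left.2 fun y hy hy' => hy' (ha hy))
  have hbad : smBad A (φ - asD ℝ P n (a₀ - ψ₀)) = ∅ := by
    rw [sm_bad_congr A _ (φ - asD ℝ P n a₀) ?_, hb]
    have e : φ - asD ℝ P n (a₀ - ψ₀) - (φ - asD ℝ P n a₀) = asD ℝ P n ψ₀ := by
      rw [map_sub]
      abel
    rw [e]
    exact sm_raw_d A n hψ₀
  obtain ⟨ψ, hψ, hn⟩ := smq_null_of_bad A _ hbad
  refine ⟨a₀ - ψ₀, ψ, ?_, hψ, hn⟩
  rintro _ ⟨x, hx, rfl⟩
  by_contra hc
  exact hx (hv x hc)

/-- the same for elements of `asObj P`: an element `m` supported over `U` whose boundary is smooth is smooth modulo a boundary.  Plan: components (`as_obj_sum_pr`, `sm_span_pr_el`), (Q5), (Q6). -/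
theorem sm_qi_el (A : S5Act p P) (U : Set (SmOrb A)) (hU : IsOpen U) (m : (asObj P).C)
    (hm : smQ A '' (asObj P).supp m ⊆ U) (hd : (asObj P).d m ∈ smSpan A) :
    ∃ (a s : (asObj P).C), smQ A '' (asObj P).supp a ⊆ U ∧ s ∈ smSpan A ∧ m = s + (asObj P).d a := by
  have hcomp : ∀ {n : ℕ} (χ : AsC ℝ P n), IsCompact (asSupp χ) := fun χ => (as_supp_closed χ).isCompact
  have hpc : ∀ n, ∃ a s : (asObj P).C, smQ A '' (asObj P).supp a ⊆ U ∧ s ∈ smSpan A ∧
      asObjPr P n m = s + (asObj P).d a := by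
    intro n
    obtain ⟨φ, hφ, hφm⟩ := as_obj_pr_el n m
    obtain ⟨σ, hσ, hσr, hσm⟩ := sm_span_pr_el A _ hd (n + 1)
    have h1 : asSupp (asD ℝ P n φ - σ) = ∅ := by
      rw [← as_el_eq_iff (n + 1) _ _ (as_d_compact n φ hφ) hσ, ← as_el_d n φ hφ, ← hφm, ← as_obj_pr_d, hσm]
    have hsupp : smQf A '' asSupp φ ⊆ U := by
      rw [← as_el_supp n φ hφ, ← hφm]
      exact (Set.image_mono (as_obj_pr_supp n m)).trans hm
    cases n with
    | zero =>
      obtain ⟨ψ, hψ, hn⟩ := sm_qi_zero A φ σ hσr h1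
      refine ⟨0, asEl P 0 ψ (hcomp ψ), ?_, sm_el_mem A 0 ψ _ hψ, ?_⟩
      · rw [(asObj P).supp_zero, Set.image_empty]
        exact Set.empty_subset _
      · rw [map_zero, add_zero, hφm, as_el_eq_iff]
        exact hn
    | succ n =>
      obtain ⟨a, ψ, ha, hψ, hn⟩ := sm_qi_raw A U hU n φ hsupp σ hσr h1
      refine ⟨asEl P n a (hcomp a), asEl P (n + 1) ψ (hcomp ψ), ?_, sm_el_mem A (n + 1) ψ _ hψ, ?_⟩
      · rw [as_el_supp]
        exact ha
      · rw [hφm, as_el_d, ← as_el_add (n + 1) ψ (asD ℝ P n a) _ _ (hcomp _), as_el_eq_iff]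
        have e : φ - (ψ + asD ℝ P n a) = φ - asD ℝ P n a - ψ := by abel
        rw [e]
        exact hn
  choose a s h1 h2 h3 using hpc
  obtain ⟨N, hN⟩ := as_obj_sum_pr m
  refine ⟨∑ q ∈ Finset.range N, a q, ∑ q ∈ Finset.range N, s q, ?_, Submodule.sum_mem _ fun q _ => h2 q, ?_⟩
  · exact Submodule.sum_mem (((asObj P).push (smQ A)).sec U) (fun q _ => h1 q)
  · rw [map_sum, ← Finset.sum_add_distrib]
    conv_lhs => rw [hN]
    exact Finset.sum_congr rfl fun q _ => h3 q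

/-- **EXPORT.**  Plan: a cycle `(s, m)` of the cone over `U`: `d s = 0`, `s + d m = 0`; so `d m = - s` is smooth; `sm_qi_el`: `m = s' + d a`; then `D (s', a)`... : with the conventions of `fcCone` (`D (x, b) = (- d x, x + d b)`):
`D (- s', ... )`: take `(x, b) = (s', a)`: `D (s', a) = (- d s', s' + d a) = (- d m, m) = (s, m)`.  Supports: `supp s' ⊆ supp m ∪ supp (d a) ⊆ U`. -/
theorem sm_qi (A : S5Act p P) : (fcCone (smIncl A)).Acyc := by
  intro U hU _
  have core : ∀ s₀ m₀ : (asObj P).C, s₀ ∈ smSpan A → s₀ + (asObj P).d m₀ = 0 →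
      smQ A '' (asObj P).supp m₀ ⊆ U → ∃ s' a : (asObj P).C, s' ∈ smSpan A ∧
        smQ A '' (asObj P).supp s' ⊆ U ∧ smQ A '' (asObj P).supp a ⊆ U ∧
        -((asObj P).d s') = s₀ ∧ s' + (asObj P).d a = m₀ := by
    intro s₀ m₀ hs₀ hd2 hm
    have hdm : (asObj P).d m₀ = -s₀ := by
      rw [eq_neg_iff_add_eq_zero, add_comm]
      exact hd2
    obtain ⟨a, s', ha, hs', hm'⟩ := sm_qi_el A U hU m₀ hm (by rw [hdm]; exact (smSpan A).neg_mem hs₀)
    have e : s' = m₀ - (asObj P).d a := by rw [hm']; abel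
    refine ⟨s', a, hs', ?_, ha, ?_, hm'.symm⟩
    · rw [e]
      refine (Set.image_mono ((asObj P).supp_sub _ _)).trans ?_
      rw [Set.image_union]
      exact Set.union_subset hm ((Set.image_mono ((asObj P).d_loc a)).trans ha)
    · rw [e, map_sub, (asObj P).d_sq, sub_zero, hdm, neg_neg]
  rintro ⟨s, m⟩ hsupp hd
  have hd' : (-((smS A).d s), (smIncl A).f s + ((asObj P).push (smQ A)).d m) =
      (0 : (smS A).C × ((asObj P).push (smQ A)).C) := hd
  obtain ⟨s', a, hs', h1, h2, h3, h4⟩ := core s.1 m s.2 (congrArg Prod.snd hd')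
    (Set.subset_union_right.trans hsupp)
  refine ⟨(⟨s', hs'⟩, a), Set.union_subset h1 h2, ?_⟩
  show (-((smS A).d ⟨s', hs'⟩), (smIncl A).f ⟨s', hs'⟩ + ((asObj P).push (smQ A)).d a) = (s, m)
  exact Prod.ext (Subtype.ext h3) h4

/-- consequence: after pushing forward along the factorisation `t̄` of an invariant test.  Plan: `AcycAt` of a push forward over `U'` is `AcycAt` over `t̄ ⁻¹' U'`; the cone of the pushed map is the push of the cone (same modules). -/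
theorem sm_qi_push (A : S5Act p P) {X : Type} [TopologicalSpace X] [T2Space X] (g : C(SmOrb A, X)) :
    (fcCone ((smIncl A).push g)).Acyc := by
  intro U hU _ m hm hd
  have hm1 : g '' (smS A).supp m.1 ⊆ U := Set.subset_union_left.trans hm
  have hm2 : g '' ((asObj P).push (smQ A)).supp m.2 ⊆ U := Set.subset_union_right.trans hm
  obtain ⟨m', hm', hd'⟩ := sm_qi A (g ⁻¹' U) (hU.preimage g.continuous) (Set.subset_univ _) m
    (Set.union_subset (Set.image_subset_iff.1 hm1) (Set.image_subset_iff.1 hm2)) hd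
  refine ⟨m', ?_, hd'⟩
  exact Set.union_subset (Set.image_subset_iff.2 (Set.subset_union_left.trans hm'))
    (Set.image_subset_iff.2 (Set.subset_union_right.trans hm'))

end Claimed.Agent.R304
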