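/-
Row 304 (S0559, Hilbert-Smith).  Owner: helper138.  DEFINITIONS for the Newman packages `Nm*.lean`.
-/
import Claimed.Agent.R304.NmIface

set_option autoImplicit false

namespace Claimed.Agent.R304

open Topology

/-- `X` is homeomorphic to an o-p-e-n subset of `ℝ^n` -/
def NmEucl (n : ℕ) (X : Type) [TopologicalSpace X] : Prop :=
  ∃ e : X → EuclideanSpace ℝ (Fin n), IsOpenEmbedding e

/-- the orbit equivalence relation of a self map (an equivalence relation for every `g`) -/
def nmOrbRel {N : Type} (g : N → N) : Setoid N where
  r x y := ∃ i j : ℕ, g^[i] x = g^[j] y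
  iseqv :=
    { refl := fun _ => ⟨0, 0, rfl⟩
      symm := by
        rintro x y ⟨i, j, h⟩
        exact ⟨j, i, h.symm⟩
      trans := by
        rintro x y z ⟨i, j, h⟩ ⟨i', j', h'⟩
        refine ⟨i' + i, j + j', ?_⟩
        rw [Function.iterate_add_apply, h, ← Function.iterate_add_apply, add_comm i' j,
          Function.iterate_add_apply, h', ← Function.iterate_add_apply] }

/-- the orbit space of a self map -/
def NmOrb {N : Type} (g : N → N) : Type := Quotient (nmOrbRel g)

/-- the quotient topology on the orbit space -/
instance nmOrbTop {N : Type} [TopologicalSpace N] (g : N → N) : TopologicalSpace (NmOrb g) :=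
  inferInstanceAs (TopologicalSpace (Quotient (nmOrbRel g)))

/-- the orbit map -/
def nmOrbMk {N : Type} (g : N → N) (x : N) : NmOrb g := Quotient.mk (nmOrbRel g) x

/-- descent of an invariant function to the orbit space -/
def nmOrbLift {N T : Type} (g : N → N) (f : N → T) (hf : ∀ x, f (g x) = f x) : NmOrb g → T :=
  Quotient.lift (s := nmOrbRel g) f (by
    have key : ∀ (i : ℕ) (x : N), f (g^[i] x) = f x := by
      intro i
      induction i with
      | zero => intro x; rfl
      | succ i ih => intro x; rw [Function.iterate_succ_apply, ih, hf]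
    rintro x y ⟨i, j, h⟩
    rw [← key i x, h, key j y])

/-- a set all of whose translates `g^[i] '' V`, `i < p`, are pairwise disjoint -/
def NmWander {N : Type} (g : N → N) (p : ℕ) (V : Set N) : Prop :=
  ∀ i < p, ∀ j < p, i ≠ j → Disjoint (g^[i] '' V) (g^[j] '' V)

/-- realises the equation lemmas here (unique names) -/
theorem nm_defs_eqns_cite : True := by
  have := @NmEucl.eq_1
  have := @nmOrbRel.eq_1
  have := @NmOrb.eq_1
  have := @nmOrbTop.eq_1
  have := @nmOrbMk.eq_1
  have := @nmOrbLift.eq_1
  have := @NmWander.eq_1
  trivial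

end Claimed.Agent.R304
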