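/-
Row 304 (S0559).  Owner: helper138 (statements), helper13 (proofs).  SORRY-FREE.  PACKAGE NmBasic: formal consequences of the interface `NmCoh`.
Everything is a short diagram chase with `base_change`, functoriality, `of_isEmpty`, `exact_mid`.
No topology beyond "a homeomorphism is proper and an embedding onto an o-p-e-n set".
-/
import Claimed.Agent.R304.NmDefs

set_option autoImplicit false

namespace Claimed.Agent.R304

open Topology

variable {k : Type} [Field k] (C : NmCoh k)

/-- `ext` only depends on the function (the proofs are propositions); convenience for rewriting -/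
theorem nm_ext_congr (q : ℕ) {U X : Type} [TopologicalSpace U] [TopologicalSpace X]
    (j j' : U → X) (hj : IsOpenEmbedding j) (hj' : IsOpenEmbedding j') (h : j = j') (u : C.H q U) :
    C.ext q j hj u = C.ext q j' hj' u := by
  subst h; rfl

theorem nm_pull_congr (q : ℕ) {X Y : Type} [TopologicalSpace X] [TopologicalSpace Y]
    (f f' : X → Y) (hf : IsProperMap f) (hf' : IsProperMap f') (h : f = f') (u : C.H q Y) :
    C.pull q f hf u = C.pull q f' hf' u := by
  subst h; rfl

theorem nm_ext_homeo (q : ℕ) {X Y : Type} [TopologicalSpace X] [TopologicalSpace Y]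
    [T2Space X] [LocallyCompactSpace X] [T2Space Y] [LocallyCompactSpace Y] (h : X ≃ₜ Y)
    (u : C.H q X) :
    C.ext q h h.isOpenEmbedding u = C.pull q h.symm h.symm.isProperMap u := by
  have := C.base_change q (id : Y → Y) h h.symm (id : Y → Y) isProperMap_id h.isOpenEmbedding
    h.symm.isProperMap IsOpenEmbedding.id (fun v => (h.apply_symm_apply v).symm) (by
      rw [Set.range_id, h.surjective.range_eq, Set.preimage_univ]) u
  rwa [C.pull_id, C.ext_id] at this

theorem nm_pull_homeo_bij (q : ℕ) {X Y : Type} [TopologicalSpace X] [TopologicalSpace Y]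
    [T2Space X] [LocallyCompactSpace X] [T2Space Y] [LocallyCompactSpace Y] (h : X ≃ₜ Y) :
    Function.Bijective (C.pull q h h.isProperMap) := by
  have key : ∀ {X Y : Type} [TopologicalSpace X] [TopologicalSpace Y]
      [T2Space X] [LocallyCompactSpace X] [T2Space Y] [LocallyCompactSpace Y] (h : X ≃ₜ Y) (u : C.H q X),
      C.pull q h h.isProperMap (C.pull q h.symm h.symm.isProperMap u) = u := by
    intro X Y _ _ _ _ _ _ h u
    rw [← C.pull_comp q h h.symm h.isProperMap h.symm.isProperMap u]
    rw [nm_pull_congr C q (h.symm ∘ h) id _ isProperMap_id (funext h.symm_apply_apply) u, C.pull_id]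
  constructor
  · intro a b hab
    have := congrArg (C.pull q h.symm h.symm.isProperMap) hab
    have ka := key h.symm a
    have kb := key h.symm b
    rw [Homeomorph.symm_symm] at ka kb
    rw [ka, kb] at this
    exact this
  · intro u
    exact ⟨_, key h u⟩

theorem nm_ext_homeo_bij (q : ℕ) {X Y : Type} [TopologicalSpace X] [TopologicalSpace Y]
    [T2Space X] [LocallyCompactSpace X] [T2Space Y] [LocallyCompactSpace Y] (h : X ≃ₜ Y) :
    Function.Bijective (C.ext q h h.isOpenEmbedding) := by
  have : (C.ext q h h.isOpenEmbedding : C.H q X → C.H q Y) = C.pull q h.symm h.symm.isProperMap :=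
    funext (nm_ext_homeo C q h)
  rw [this]
  exact nm_pull_homeo_bij C q h.symm

/-- vanishing is invariant under homeomorphisms -/
theorem nm_vanish_homeo (q : ℕ) {X Y : Type} [TopologicalSpace X] [TopologicalSpace Y]
    [T2Space X] [LocallyCompactSpace X] [T2Space Y] [LocallyCompactSpace Y] (h : X ≃ₜ Y)
    (hX : ∀ u : C.H q X, u = 0) : ∀ u : C.H q Y, u = 0 := by
  intro u
  apply (nm_pull_homeo_bij C q h).1
  rw [hX (C.pull q h h.isProperMap u), map_zero]

theorem nm_pull_ext_disjoint (q : ℕ) {U X Z : Type} [TopologicalSpace U] [TopologicalSpace X]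
    [TopologicalSpace Z] [T2Space X] [LocallyCompactSpace X] [T2Space U] [LocallyCompactSpace U]
    [T2Space Z] [LocallyCompactSpace Z] (j : U → X) (f : Z → X) (hj : IsOpenEmbedding j)
    (hf : IsProperMap f) (hd : Disjoint (Set.range j) (Set.range f)) (u : C.H q U) :
    C.pull q f hf (C.ext q j hj u) = 0 := by
  have hp : IsProperMap (Empty.elim : Empty → U) :=
    (IsClosedEmbedding.of_isEmbedding_isClosedMap (.of_subsingleton _) (fun s _ => by
      have : Empty.elim '' s = (∅ : Set U) := by
        ext x
        simp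
      rw [this]
      exact isClosed_empty)).isProperMap
  have := C.base_change q f j (Empty.elim : Empty → U) (Empty.elim : Empty → Z) hf hj hp
    (IsOpenEmbedding.of_isEmpty _) (fun v => v.elim) (by
      ext z
      simp only [Set.mem_range, IsEmpty.exists_iff, Set.mem_preimage, false_iff, not_exists]
      intro x hx
      exact Set.disjoint_left.1 hd ⟨x, hx⟩ ⟨z, rfl⟩) u
  rw [this, C.of_isEmpty q Empty (C.pull q _ hp u), map_zero]

theorem nm_pull_ext_self (q : ℕ) {U X : Type} [TopologicalSpace U] [TopologicalSpace X]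
    [T2Space X] [LocallyCompactSpace X] [T2Space U] [LocallyCompactSpace U]
    (j : U → X) (hj : IsOpenEmbedding j) (hp : IsProperMap j) (u : C.H q U) :
    C.pull q j hp (C.ext q j hj u) = u := by
  have := C.base_change q j j (id : U → U) (id : U → U) hp hj isProperMap_id IsOpenEmbedding.id
    (fun _ => rfl) (by rw [Set.range_id, Set.preimage_range]) u
  rwa [C.pull_id, C.ext_id] at this

/-- an embedding onto a clopen set is proper -/
theorem nm_proper_of_clopen {U X : Type} [TopologicalSpace U] [TopologicalSpace X]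
    (j : U → X) (hj : IsOpenEmbedding j) (hc : IsClosed (Set.range j)) : IsProperMap j :=
  (IsClosedEmbedding.mk hj.isEmbedding hc).isProperMap

/-- two complementary clopen pieces detect the zero class -/
theorem nm_two_pieces (q : ℕ) {A B X : Type} [TopologicalSpace A] [TopologicalSpace B] [TopologicalSpace X]
    [T2Space X] [LocallyCompactSpace X] [T2Space A] [LocallyCompactSpace A]
    [T2Space B] [LocallyCompactSpace B] (jA : A → X) (iB : B → X) (hjA : IsOpenEmbedding jA)
    (hpA : IsProperMap jA) (hiB : IsClosedEmbedding iB) (hr : Set.range jA = (Set.range iB)ᶜ)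
    (c : C.H q X) (hA : C.pull q jA hpA c = 0) (hB : C.pull q iB hiB.isProperMap c = 0) : c = 0 := by
  obtain ⟨w, hw⟩ := C.exact_mid q jA iB hjA hiB hr c hB
  rw [← hw, nm_pull_ext_self] at hA
  rw [← hw, hA, map_zero]

/-- a class which vanishes on all pieces of a finite clopen partition is zero -/
theorem nm_zero_of_pieces (q : ℕ) {X : Type} [TopologicalSpace X] [T2Space X] [LocallyCompactSpace X]
    {ι : Type} [Fintype ι] (U : ι → Type) [∀ i, TopologicalSpace (U i)] [∀ i, T2Space (U i)]
    [∀ i, LocallyCompactSpace (U i)] (j : ∀ i, U i → X) (hj : ∀ i, IsOpenEmbedding (j i))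
    (hp : ∀ i, IsProperMap (j i))
    (hd : ∀ i i', i ≠ i' → Disjoint (Set.range (j i)) (Set.range (j i')))
    (hcov : (⋃ i, Set.range (j i)) = Set.univ) (v : C.H q X)
    (hv : ∀ i, C.pull q (j i) (hp i) v = 0) : v = 0 := by
  classical
  let Z : Finset ι → Set X := fun s => ⋃ i ∈ s, Set.range (j i)
  have hZc : ∀ s, IsClosed (Z s) := fun s =>
    s.finite_toSet.isClosed_biUnion (fun i _ => (hp i).isClosed_range)
  have hZo : ∀ s, IsOpen (Z s) := fun s => isOpen_biUnion fun i _ => (hj i).isOpen_range
  have T : ∀ s : Finset ι, C.pull q (Subtype.val : Z s → X) (hZc s).isProperMap_subtypeVal v = 0 := by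
    intro s
    induction s using Finset.induction_on with
    | empty =>
      have : IsEmpty (Z ∅) := ⟨fun x => by
        have := x.2
        simp [Z] at this⟩
      exact C.of_isEmpty q _ _
    | insert a s ha ih =>
      have := (hZc (insert a s)).locallyCompactSpace
      have := (hZc s).locallyCompactSpace
      have hmemA : ∀ x : U a, j a x ∈ Z (insert a s) := fun x =>
        Set.mem_biUnion (Finset.mem_insert_self a s) ⟨x, rfl⟩
      have hsub : Z s ⊆ Z (insert a s) := Set.biUnion_subset_biUnion_left (fun i hi => Finset.mem_insert_of_mem hi)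
      let jA : U a → Z (insert a s) := fun x => ⟨j a x, hmemA x⟩
      let iB : Z s → Z (insert a s) := Set.inclusion hsub
      have hjA : IsOpenEmbedding jA :=
        (IsOpenEmbedding.of_comp_iff jA (hZo (insert a s)).isOpenEmbedding_subtypeVal).1 (hj a)
      have hcA : IsClosedEmbedding jA :=
        (IsClosedEmbedding.of_comp_iff (hZc (insert a s)).isClosedEmbedding_subtypeVal).1
          (IsClosedEmbedding.mk (hj a).isEmbedding (hp a).isClosed_range)
      have hiB : IsClosedEmbedding iB :=
        (IsClosedEmbedding.of_comp_iff (hZc (insert a s)).isClosedEmbedding_subtypeVal).1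
          (hZc s).isClosedEmbedding_subtypeVal
      have hr : Set.range jA = (Set.range iB)ᶜ := by
        ext x
        constructor
        · rintro ⟨y, rfl⟩ ⟨z, hz⟩
          have hz1 : (z : X) = j a y := congrArg Subtype.val hz
          obtain ⟨i, hi, hzi⟩ := Set.mem_iUnion₂.1 z.2
          have hne : a ≠ i := fun h => ha (h ▸ hi)
          exact Set.disjoint_left.1 (hd a i hne) ⟨y, rfl⟩ (hz1 ▸ hzi)
        · intro hx
          obtain ⟨i, hi, hxi⟩ := Set.mem_iUnion₂.1 x.2
          rcases Finset.mem_insert.1 hi with rfl | hi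
          · obtain ⟨y, hy⟩ := hxi
            exact ⟨y, Subtype.ext hy⟩
          · exact absurd ⟨⟨x.1, Set.mem_biUnion hi hxi⟩, rfl⟩ hx
      apply nm_two_pieces C q jA iB hjA hcA.isProperMap hiB hr
      · rw [← C.pull_comp q jA Subtype.val hcA.isProperMap (hZc (insert a s)).isProperMap_subtypeVal v]
        exact hv a
      · rw [← C.pull_comp q iB Subtype.val hiB.isProperMap (hZc (insert a s)).isProperMap_subtypeVal v]
        exact ih
  have hZu : Z Finset.univ = Set.univ := by
    rw [← hcov]
    simp [Z]
  have := (hZc Finset.univ).locallyCompactSpace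
  let φ : Z Finset.univ ≃ₜ X := (Homeomorph.setCongr hZu).trans (Homeomorph.Set.univ X)
  apply (nm_pull_homeo_bij C q φ).1
  rw [map_zero]
  exact T Finset.univ

theorem nm_clopen_sum (q : ℕ) {X : Type} [TopologicalSpace X] [T2Space X] [LocallyCompactSpace X]
    {ι : Type} [Fintype ι] (U : ι → Type) [∀ i, TopologicalSpace (U i)] [∀ i, T2Space (U i)]
    [∀ i, LocallyCompactSpace (U i)] (j : ∀ i, U i → X) (hj : ∀ i, IsOpenEmbedding (j i))
    (hp : ∀ i, IsProperMap (j i))
    (hd : ∀ i i', i ≠ i' → Disjoint (Set.range (j i)) (Set.range (j i')))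
    (hcov : (⋃ i, Set.range (j i)) = Set.univ) (u : C.H q X) :
    u = ∑ i, C.ext q (j i) (hj i) (C.pull q (j i) (hp i) u) := by
  classical
  rw [← sub_eq_zero]
  apply nm_zero_of_pieces C q U j hj hp hd hcov
  intro i
  rw [map_sub, map_sum, Finset.sum_eq_single i, nm_pull_ext_self, sub_self]
  · intro i' _ hne
    exact nm_pull_ext_disjoint C q (j i') (j i) (hj i') (hp i) (hd i' i hne) _
  · intro h
    exact absurd (Finset.mem_univ i) h

theorem nm_slice_proper {X : Type} [TopologicalSpace X] (t : unitInterval) :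
    IsClosedEmbedding fun x : X => (x, t) := by
  refine ⟨isEmbedding_prodMkLeft t, ?_⟩
  have : Set.range (fun x : X => (x, t)) = Prod.snd ⁻¹' {t} := by
    ext ⟨x, s⟩
    constructor
    · rintro ⟨y, hy⟩
      exact (congrArg Prod.snd hy).symm
    · intro hs
      have hs' : s = t := hs
      exact ⟨x, by rw [hs']⟩
  rw [this]
  exact isClosed_singleton.preimage continuous_snd

theorem nm_htpy_aux (q : ℕ) {X T : Type} [TopologicalSpace X] [TopologicalSpace T]
    [T2Space X] [LocallyCompactSpace X] [T2Space T] [LocallyCompactSpace T]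
    (M : Set (X × unitInterval)) (hM : IsOpen M) (h : M → T) (hh : IsProperMap h) (t : unitInterval)
    (ht : {x : X | (x, t) ∈ M} → T) (hht : IsProperMap ht) (et : ∀ x, ht x = h ⟨(x.1, t), x.2⟩)
    (ot : IsOpenEmbedding (Subtype.val : {x : X | (x, t) ∈ M} → X)) (w : C.H q T) :
    C.pull q (fun x : X => (x, t)) (nm_slice_proper t).isProperMap
      (C.ext q (Subtype.val : M → X × unitInterval) hM.isOpenEmbedding_subtypeVal (C.pull q h hh w)) =
      C.ext q Subtype.val ot (C.pull q ht hht w) := by
  have := hM.locallyCompactSpace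
  have := ot.locallyCompactSpace
  let f' : {x : X | (x, t) ∈ M} → M := fun x => ⟨(x.1, t), x.2⟩
  have hf'c : Continuous f' := (continuous_subtype_val.prodMk continuous_const).subtype_mk _
  have hf'i : Function.Injective f' := fun a b hab =>
    Subtype.ext (congrArg (fun z : M => z.1.1) hab)
  have hf'cl : IsClosedMap f' := (nm_slice_proper (X := X) t).isClosedMap.restrictPreimage M
  have hf' : IsProperMap f' := isProperMap_of_isClosedMap_of_inj hf'c hf'i hf'cl
  have := C.base_change q (fun x : X => (x, t)) (Subtype.val : M → X × unitInterval) f' Subtype.val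
    (nm_slice_proper t).isProperMap hM.isOpenEmbedding_subtypeVal hf' ot (fun _ => rfl) (by
      rw [Subtype.range_coe, Subtype.range_coe]
      rfl) (C.pull q h hh w)
  rw [this, ← C.pull_comp q f' h hf' hh w]
  congr 1
  exact nm_pull_congr C q _ _ _ _ (funext fun x => (et x).symm) w

theorem nm_htpy (q : ℕ) {X T : Type} [TopologicalSpace X] [TopologicalSpace T]
    [T2Space X] [LocallyCompactSpace X] [T2Space T] [LocallyCompactSpace T]
    (M : Set (X × unitInterval)) (hM : IsOpen M) (h : M → T) (hh : IsProperMap h)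
    (h0 : {x : X | (x, (0 : unitInterval)) ∈ M} → T) (h1 : {x : X | (x, (1 : unitInterval)) ∈ M} → T)
    (hh0 : IsProperMap h0) (hh1 : IsProperMap h1)
    (e0 : ∀ x, h0 x = h ⟨(x.1, 0), x.2⟩) (e1 : ∀ x, h1 x = h ⟨(x.1, 1), x.2⟩)
    (o0 : IsOpenEmbedding (Subtype.val : {x : X | (x, (0 : unitInterval)) ∈ M} → X))
    (o1 : IsOpenEmbedding (Subtype.val : {x : X | (x, (1 : unitInterval)) ∈ M} → X))
    (w : C.H q T) :
    C.ext q Subtype.val o0 (C.pull q h0 hh0 w) = C.ext q Subtype.val o1 (C.pull q h1 hh1 w) := by
  rw [← nm_htpy_aux C q M hM h hh 0 h0 hh0 e0 o0 w, ← nm_htpy_aux C q M hM h hh 1 h1 hh1 e1 o1 w]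
  exact C.htpy q X _ _ _

end Claimed.Agent.R304
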