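/-
Row 304 (S0559).  Owner: helper138 (statements), helper13 (proofs).  SORRY-FREE.  PACKAGE NmEuclid: cohomology (any `C : NmCoh k`) of spaces which are
homeomorphic to o-p-e-n subsets of `ℝ^n` (`NmEucl n X`) and of spaces covered by such charts.

EXPORTS: `nm_vanish` (no cohomology above `n`), `nm_span` (`H^n` of an `n`-manifold is spanned by charts),
`nm_top_surj`, `nm_top_finrank` (`H^n` of a connected `N` is a line, reached from every nonempty o-p-e-n subset),
`nm_pull_period` (a map of period `p` acts trivially on that line in characteristic `p`).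
-/
import Claimed.Agent.R304.NmBasic

set_option autoImplicit false

namespace Claimed.Agent.R304

open Topology

variable {k : Type} [Field k] (C : NmCoh k)

/-! ### elementary topology -/

theorem nm_eucl_t2 {n : ℕ} {X : Type} [TopologicalSpace X] (h : NmEucl n X) : T2Space X := by
  obtain ⟨e, he⟩ := h
  exact he.isEmbedding.t2Space

theorem nm_eucl_lc {n : ℕ} {X : Type} [TopologicalSpace X] (h : NmEucl n X) :
    LocallyCompactSpace X := by
  obtain ⟨e, he⟩ := h
  exact he.locallyCompactSpace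

theorem nm_eucl_of_emb {n : ℕ} {U X : Type} [TopologicalSpace U] [TopologicalSpace X]
    (h : NmEucl n X) (j : U → X) (hj : IsOpenEmbedding j) : NmEucl n U := by
  obtain ⟨e, he⟩ := h
  exact ⟨e ∘ j, he.comp hj⟩

theorem nm_ball_subset_box (n : ℕ) :
    Metric.ball (0 : EuclideanSpace ℝ (Fin n)) 1 ⊆ nmBox n (fun _ => -1) (fun _ => 1) := by
  intro y hy i
  rw [Metric.mem_ball, dist_zero_right] at hy
  have h2 : ‖y i‖ ≤ ‖y‖ := PiLp.norm_apply_le y i
  rw [Real.norm_eq_abs] at h2
  exact abs_lt.1 (lt_of_le_of_lt h2 hy)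

theorem nm_eucl_bdd {n : ℕ} {X : Type} [TopologicalSpace X] (h : NmEucl n X) :
    ∃ e : X → EuclideanSpace ℝ (Fin n), IsOpenEmbedding e ∧
      Set.range e ⊆ nmBox n (fun _ => -1) (fun _ => 1) := by
  obtain ⟨e, he⟩ := h
  refine ⟨Subtype.val ∘ (Homeomorph.unitBall (E := EuclideanSpace ℝ (Fin n))) ∘ e,
    Metric.isOpen_ball.isOpenEmbedding_subtypeVal.comp (Homeomorph.unitBall.isOpenEmbedding.comp he), ?_⟩
  rintro _ ⟨x, rfl⟩
  exact nm_ball_subset_box n (Homeomorph.unitBall (e x)).2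

theorem nm_box_isOpen (n : ℕ) (a b : Fin n → ℝ) : IsOpen (nmBox n a b) := by
  have : nmBox n a b = ⋂ i, {x : EuclideanSpace ℝ (Fin n) | a i < x i ∧ x i < b i} := by
    ext x
    simp [nmBox]
  rw [this]
  refine isOpen_iInter_of_finite fun i => ?_
  have hc : Continuous fun x : EuclideanSpace ℝ (Fin n) => x i := by fun_prop
  exact (isOpen_lt continuous_const hc).inter (isOpen_lt hc continuous_const)

theorem nm_box_inter (n : ℕ) (a b a' b' : Fin n → ℝ) :
    nmBox n a b ∩ nmBox n a' b' = nmBox n (a ⊔ a') (b ⊓ b') := by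
  ext x
  constructor
  · rintro ⟨h, h'⟩ i
    exact ⟨sup_lt_iff.2 ⟨(h i).1, (h' i).1⟩, lt_inf_iff.2 ⟨(h i).2, (h' i).2⟩⟩
  · intro h
    exact ⟨fun i => ⟨(sup_lt_iff.1 (h i).1).1, (lt_inf_iff.1 (h i).2).1⟩,
      fun i => ⟨(sup_lt_iff.1 (h i).1).2, (lt_inf_iff.1 (h i).2).2⟩⟩

/-- boxes form a basis -/
theorem nm_box_basis (n : ℕ) (O : Set (EuclideanSpace ℝ (Fin n))) (hO : IsOpen O)
    (x : EuclideanSpace ℝ (Fin n)) (hx : x ∈ O) :
    ∃ a b : Fin n → ℝ, x ∈ nmBox n a b ∧ nmBox n a b ⊆ O := by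
  have hO' : IsOpen ((fun f : Fin n → ℝ => (WithLp.toLp 2 f : EuclideanSpace ℝ (Fin n))) ⁻¹' O) :=
    hO.preimage (PiLp.continuous_toLp 2 _)
  obtain ⟨ε, hε, hball⟩ := Metric.isOpen_iff.1 hO' (fun i => x i) hx
  refine ⟨fun i => x i - ε, fun i => x i + ε, fun i => ⟨by linarith, by linarith⟩, ?_⟩
  intro y hy
  have : (fun i => y i) ∈ Metric.ball (fun i => x i) ε := by
    rw [Metric.mem_ball, dist_pi_lt_iff hε]
    intro i
    rw [Real.dist_eq, abs_lt]
    exact ⟨by linarith [(hy i).1], by linarith [(hy i).2]⟩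
  exact hball this

/-! ### nested boxes -/

/-- slices of a level preserving embedding onto an o-p-e-n subset -/
theorem nm_slice_openEmb {T X : Type} [TopologicalSpace T] [TopologicalSpace X]
    (J : T × unitInterval → X) (hJ : IsOpenEmbedding (fun z : T × unitInterval => (J z, z.2)))
    (t : unitInterval) : IsOpenEmbedding fun y => J (y, t) := by
  apply IsOpenEmbedding.of_continuous_injective_isOpenMap
  · exact (continuous_fst.comp hJ.continuous).comp (continuous_id.prodMk continuous_const)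
  · intro y y' h
    have h' : J (y, t) = J (y', t) := h
    have : ((y, t) : T × unitInterval) = (y', t) := hJ.injective (by
      show (J (y, t), t) = (J (y', t), t)
      rw [h'])
    exact congrArg Prod.fst this
  · intro W hW
    have e : (fun y => J (y, t)) '' W =
        (fun x : X => (x, t)) ⁻¹' ((fun z : T × unitInterval => (J z, z.2)) '' (W ×ˢ Set.univ)) := by
      ext x
      constructor
      · rintro ⟨y, hy, rfl⟩
        exact ⟨(y, t), ⟨hy, trivial⟩, rfl⟩
      · rintro ⟨⟨y, s⟩, ⟨hy, _⟩, h⟩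
        have h2 : s = t := congrArg Prod.snd h
        have h1 : J (y, s) = x := congrArg Prod.fst h
        subst h2
        exact ⟨y, hy, h1⟩
    rw [e]
    exact (hJ.isOpenMap _ (hW.prod isOpen_univ)).preimage (continuous_id.prodMk continuous_const)

/-- isotopy invariance of the extension by zero -/
theorem nm_ext_isotopy (q : ℕ) {T X : Type} [TopologicalSpace T] [TopologicalSpace X]
    [T2Space X] [LocallyCompactSpace X] [T2Space T] [LocallyCompactSpace T]
    (J : T × unitInterval → X) (hJ : IsOpenEmbedding (fun z : T × unitInterval => (J z, z.2)))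
    (h0 : IsOpenEmbedding fun y => J (y, 0)) (h1 : IsOpenEmbedding fun y => J (y, 1)) (w : C.H q T) :
    C.ext q (fun y => J (y, 0)) h0 w = C.ext q (fun y => J (y, 1)) h1 w := by
  have hfst : IsProperMap (Prod.fst : T × unitInterval → T) := isProperMap_fst_of_compactSpace
  have key : ∀ (t : unitInterval) (ht : IsOpenEmbedding fun y => J (y, t)),
      C.pull q (fun x : X => (x, t)) (nm_slice_proper t).isProperMap
        (C.ext q _ hJ (C.pull q Prod.fst hfst w)) = C.ext q (fun y => J (y, t)) ht w := by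
    intro t ht
    have := C.base_change q (fun x : X => (x, t)) (fun z : T × unitInterval => (J z, z.2))
      (fun y : T => (y, t)) (fun y => J (y, t)) (nm_slice_proper t).isProperMap hJ
      (nm_slice_proper t).isProperMap ht (fun _ => rfl) (by
        ext x
        constructor
        · rintro ⟨y, rfl⟩
          exact ⟨(y, t), rfl⟩
        · rintro ⟨⟨y, s⟩, h⟩
          have h2 : s = t := congrArg Prod.snd h
          have h1 : J (y, s) = x := congrArg Prod.fst h
          subst h2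
          exact ⟨y, h1⟩) (C.pull q Prod.fst hfst w)
    rw [this, ← C.pull_comp q (fun y : T => (y, t)) Prod.fst (nm_slice_proper t).isProperMap hfst w]
    congr 1
    exact (nm_pull_congr C q _ id _ isProperMap_id rfl w).trans (C.pull_id q T w)
  rw [← key 0 h0, ← key 1 h1]
  exact C.htpy q X _ _ _

/-- a continuous family of coordinatewise affine isomorphisms -/
theorem nm_affine_family (n : ℕ) (α l : Fin n → unitInterval → ℝ) (hα : ∀ i, Continuous (α i))
    (hl : ∀ i, Continuous (l i)) (h0 : ∀ i s, l i s ≠ 0) :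
    ∃ Φ : EuclideanSpace ℝ (Fin n) × unitInterval ≃ₜ EuclideanSpace ℝ (Fin n) × unitInterval,
      ∀ y s, Φ (y, s) = (WithLp.toLp 2 (fun i => α i s + y i * l i s), s) := by
  refine ⟨{ toFun := fun z => (WithLp.toLp 2 (fun i => α i z.2 + z.1 i * l i z.2), z.2)
            invFun := fun z => (WithLp.toLp 2 (fun i => (z.1 i - α i z.2) / l i z.2), z.2)
            left_inv := ?_
            right_inv := ?_
            continuous_toFun := ?_
            continuous_invFun := ?_ }, fun _ _ => rfl⟩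
  · rintro ⟨y, s⟩
    refine Prod.ext ?_ rfl
    ext i
    show (α i s + y i * l i s - α i s) / l i s = y i
    have := h0 i s
    field_simp
    ring
  · rintro ⟨y, s⟩
    refine Prod.ext ?_ rfl
    ext i
    show α i s + (y i - α i s) / l i s * l i s = y i
    have := h0 i s
    field_simp
    ring
  · refine Continuous.prodMk ((PiLp.continuous_toLp 2 _).comp (continuous_pi fun i => ?_)) continuous_snd
    have h1 : Continuous fun z : EuclideanSpace ℝ (Fin n) × unitInterval => z.1 i := by fun_prop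
    exact ((hα i).comp continuous_snd).add (h1.mul ((hl i).comp continuous_snd))
  · refine Continuous.prodMk ((PiLp.continuous_toLp 2 _).comp (continuous_pi fun i => ?_)) continuous_snd
    have h1 : Continuous fun z : EuclideanSpace ℝ (Fin n) × unitInterval => z.1 i := by fun_prop
    exact (h1.sub ((hα i).comp continuous_snd)).div ((hl i).comp continuous_snd) (fun z => h0 i z.2)

/-- a nonempty box inside a box: comparison of the corners -/
theorem nm_box_corners (n : ℕ) (a b a' b' : Fin n → ℝ) (hab' : ∀ i, a' i < b' i)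
    (h : nmBox n a' b' ⊆ nmBox n a b) (i : Fin n) : a i ≤ a' i ∧ b' i ≤ b i := by
  classical
  have hpt : ∀ t, a' i < t → t < b' i → a i < t ∧ t < b i := by
    intro t h1 h2
    have hmem : (WithLp.toLp 2 (Function.update (fun j => (a' j + b' j) / 2) i t) : EuclideanSpace ℝ (Fin n)) ∈
        nmBox n a' b' := by
      intro j
      show a' j < Function.update (fun j => (a' j + b' j) / 2) i t j ∧
        Function.update (fun j => (a' j + b' j) / 2) i t j < b' j
      by_cases hj : j = i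
      · subst hj
        rw [Function.update_self]
        exact ⟨h1, h2⟩
      · rw [Function.update_of_ne hj]
        have := hab' j
        constructor <;> linarith
    have := h hmem i
    have e : (WithLp.toLp 2 (Function.update (fun j => (a' j + b' j) / 2) i t) : EuclideanSpace ℝ (Fin n)) i = t := by
      show Function.update (fun j => (a' j + b' j) / 2) i t i = t
      rw [Function.update_self]
    rwa [e] at this
  have hi := hab' i
  constructor
  · by_contra hcon
    have hcon' : a' i < a i := not_le.1 hcon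
    have hm : a' i < min (a i) (b' i) := lt_min hcon' hi
    have := (hpt ((a' i + min (a i) (b' i)) / 2) (by linarith) (by
      have := min_le_right (a i) (b' i)
      linarith)).1
    have := min_le_left (a i) (b' i)
    linarith
  · by_contra hcon
    have hcon' : b i < b' i := not_le.1 hcon
    have hm : max (b i) (a' i) < b' i := max_lt hcon' hi
    have := (hpt ((b' i + max (b i) (a' i)) / 2) (by
      have := le_max_right (b i) (a' i)
      linarith) (by linarith)).2
    have := le_max_left (b i) (a' i)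
    linarith

theorem nm_box_lc (n : ℕ) (a b : Fin n → ℝ) : LocallyCompactSpace (nmBox n a b) :=
  (nm_box_isOpen n a b).locallyCompactSpace

theorem nm_box_nested (n : ℕ) (a b a' b' : Fin n → ℝ) (hab' : ∀ i, a' i < b' i)
    (h : nmBox n a' b' ⊆ nmBox n a b) (hemb : IsOpenEmbedding (Set.inclusion h)) :
    Function.Bijective (C.ext n (Set.inclusion h) hemb) := by
  have hcor := nm_box_corners n a b a' b' hab' h
  have hc : ∀ i, 0 < b' i - a' i := fun i => sub_pos.2 (hab' i)
  set ρ : Fin n → ℝ := fun i => (b i - a i) / (b' i - a' i) with hρ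
  have hρ1 : ∀ i, 1 ≤ ρ i := fun i => by
    simp only [hρ]
    rw [one_le_div (hc i)]
    linarith [(hcor i).1, (hcor i).2]
  have hρc : ∀ i, (b' i - a' i) * ρ i = b i - a i := fun i => by
    simp only [hρ]
    have := (hc i).ne'
    field_simp
  let l : Fin n → unitInterval → ℝ := fun i s => 1 + (s : ℝ) * (ρ i - 1)
  let α : Fin n → unitInterval → ℝ := fun i s => (1 - (s : ℝ)) * a' i + (s : ℝ) * a i - a' i * l i s
  have hlpos : ∀ i s, 0 < l i s := fun i s => by
    have h1 := hρ1 i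
    have h2 := s.2.1
    have : 0 ≤ (s : ℝ) * (ρ i - 1) := mul_nonneg h2 (by linarith)
    show 0 < 1 + (s : ℝ) * (ρ i - 1)
    linarith
  have hlc : ∀ i, Continuous (l i) := fun i => by
    show Continuous fun s : unitInterval => 1 + (s : ℝ) * (ρ i - 1)
    fun_prop
  have hαc : ∀ i, Continuous (α i) := fun i => by
    show Continuous fun s : unitInterval => (1 - (s : ℝ)) * a' i + (s : ℝ) * a i - a' i * (1 + (s : ℝ) * (ρ i - 1))
    fun_prop
  obtain ⟨Φ, hΦ⟩ := nm_affine_family n α l hαc hlc (fun i s => (hlpos i s).ne')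
  have hmaps : ∀ (y : nmBox n a' b') (s : unitInterval),
      (WithLp.toLp 2 (fun i => α i s + (y : EuclideanSpace ℝ (Fin n)) i * l i s) : EuclideanSpace ℝ (Fin n)) ∈
        nmBox n a b := by
    intro y s i
    show a i < α i s + y.1 i * l i s ∧ α i s + y.1 i * l i s < b i
    have h1 := (y.2 i).1
    have h2 := (y.2 i).2
    have s0 := s.2.1
    have s1 := s.2.2
    have e : α i s + y.1 i * l i s = (1 - (s : ℝ)) * a' i + (s : ℝ) * a i + (y.1 i - a' i) * l i s := by
      simp only [α]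
      ring
    rw [e]
    constructor
    · have h3 : 0 < (y.1 i - a' i) * l i s := mul_pos (sub_pos.2 h1) (hlpos i s)
      have h4 : 0 ≤ (1 - (s : ℝ)) * (a' i - a i) := mul_nonneg (by linarith) (by linarith [(hcor i).1])
      nlinarith
    · have h3 : (y.1 i - a' i) * l i s < (b' i - a' i) * l i s :=
        mul_lt_mul_of_pos_right (by linarith) (hlpos i s)
      have e2 : (b' i - a' i) * l i s = (1 - (s : ℝ)) * (b' i - a' i) + (s : ℝ) * (b i - a i) := by
        rw [← hρc i]
        simp only [l]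
        ring
      have h4 : 0 ≤ (1 - (s : ℝ)) * (b i - b' i) := mul_nonneg (by linarith) (by linarith [(hcor i).2])
      nlinarith
  let J : nmBox n a' b' × unitInterval → nmBox n a b := fun z => ⟨_, hmaps z.1 z.2⟩
  have hJ : IsOpenEmbedding (fun z : nmBox n a' b' × unitInterval => (J z, z.2)) := by
    have hg : IsOpenEmbedding (Prod.map Subtype.val id :
        nmBox n a b × unitInterval → EuclideanSpace ℝ (Fin n) × unitInterval) :=
      (nm_box_isOpen n a b).isOpenEmbedding_subtypeVal.prodMap IsOpenEmbedding.id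
    have hg' : IsOpenEmbedding (Prod.map Subtype.val id :
        nmBox n a' b' × unitInterval → EuclideanSpace ℝ (Fin n) × unitInterval) :=
      (nm_box_isOpen n a' b').isOpenEmbedding_subtypeVal.prodMap IsOpenEmbedding.id
    apply (IsOpenEmbedding.of_comp_iff _ hg).1
    have : (Prod.map Subtype.val id : nmBox n a b × unitInterval → EuclideanSpace ℝ (Fin n) × unitInterval) ∘
        (fun z : nmBox n a' b' × unitInterval => (J z, z.2)) = Φ ∘ Prod.map Subtype.val id := by
      funext z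
      exact (hΦ z.1.1 z.2).symm
    rw [this]
    exact Φ.isOpenEmbedding.comp hg'
  have := nm_box_lc n a b
  have := nm_box_lc n a' b'
  have h0 := nm_slice_openEmb J hJ 0
  have h1 := nm_slice_openEmb J hJ 1
  have e0 : (fun y => J (y, 0)) = Set.inclusion h := by
    funext y
    apply Subtype.ext
    ext i
    show α i 0 + y.1 i * l i 0 = y.1 i
    simp [α, l]
  have hρpos : ∀ i, 0 < ρ i := fun i => lt_of_lt_of_le one_pos (hρ1 i)
  have hsurj : Function.Surjective (fun y => J (y, 1)) := by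
    intro x
    refine ⟨⟨WithLp.toLp 2 (fun i => a' i + (x.1 i - a i) / ρ i), ?_⟩, ?_⟩
    · intro i
      show a' i < a' i + (x.1 i - a i) / ρ i ∧ a' i + (x.1 i - a i) / ρ i < b' i
      have h1 := (x.2 i).1
      have h2 := (x.2 i).2
      constructor
      · have : 0 < (x.1 i - a i) / ρ i := div_pos (sub_pos.2 h1) (hρpos i)
        linarith
      · have : (x.1 i - a i) / ρ i < b' i - a' i := by
          rw [div_lt_iff₀ (hρpos i), hρc i]
          linarith
        linarith
    · apply Subtype.ext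
      ext i
      show α i 1 + (a' i + (x.1 i - a i) / ρ i) * l i 1 = x.1 i
      have := (hρpos i).ne'
      simp only [α, l, Set.Icc.coe_one]
      field_simp
      ring
  let φ : nmBox n a' b' ≃ₜ nmBox n a b :=
    (Equiv.ofBijective _ ⟨h1.injective, hsurj⟩).toHomeomorphOfIsInducing h1.isInducing
  have hfun : (C.ext n (Set.inclusion h) hemb : C.H n (nmBox n a' b') → C.H n (nmBox n a b)) =
      C.ext n φ φ.isOpenEmbedding := by
    funext w
    rw [nm_ext_congr C n (Set.inclusion h) (fun y => J (y, 0)) hemb h0 e0.symm w,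
      nm_ext_isotopy C n J hJ h0 h1 w]
    rfl
  rw [hfun]
  exact nm_ext_homeo_bij C n φ

/-! ### vanishing above the dimension -/

theorem nm_incl_openEmb {X : Type} [TopologicalSpace X] {S S' : Set X} (h : S ⊆ S') (hS : IsOpen S) :
    IsOpenEmbedding (Set.inclusion h) :=
  ⟨.inclusion h, by
    rw [Set.range_inclusion]
    exact hS.preimage continuous_subtype_val⟩

/-- Mayer-Vietoris for two o-p-e-n subsets -/
theorem nm_mv_sets (q : ℕ) {X : Type} [TopologicalSpace X] [T2Space X] [LocallyCompactSpace X]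
    (S₁ S₂ : Set X) (h₁ : IsOpen S₁) (h₂ : IsOpen S₂)
    (h₁₂ : ∀ w : C.H (q + 1) (S₁ ∩ S₂ : Set X), w = 0) (u : C.H q (S₁ ∪ S₂ : Set X)) :
    ∃ (u₁ : C.H q S₁) (u₂ : C.H q S₂),
      u = C.ext q (Set.inclusion Set.subset_union_left) (nm_incl_openEmb _ h₁) u₁ +
        C.ext q (Set.inclusion Set.subset_union_right) (nm_incl_openEmb _ h₂) u₂ := by
  have := (h₁.union h₂).locallyCompactSpace
  have := h₁.locallyCompactSpace
  have := h₂.locallyCompactSpace
  have := (h₁.inter h₂).locallyCompactSpace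
  have hsub : S₁ ∩ S₂ ⊆ S₁ ∪ S₂ := fun x hx => Or.inl hx.1
  refine C.mv_surj q (Set.inclusion Set.subset_union_left) (Set.inclusion Set.subset_union_right)
    (Set.inclusion hsub) (nm_incl_openEmb _ h₁) (nm_incl_openEmb _ h₂) (nm_incl_openEmb _ (h₁.inter h₂))
    ?_ ?_ h₁₂ u
  · rw [Set.range_inclusion, Set.range_inclusion]
    ext x
    simp only [Set.mem_union, Set.mem_univ, iff_true]
    exact x.2
  · rw [Set.range_inclusion, Set.range_inclusion, Set.range_inclusion]
    rfl

theorem nm_vanish_union (q : ℕ) {X : Type} [TopologicalSpace X] [T2Space X] [LocallyCompactSpace X]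
    (S₁ S₂ : Set X) (h₁ : IsOpen S₁) (h₂ : IsOpen S₂) (v₁ : ∀ u : C.H q S₁, u = 0)
    (v₂ : ∀ u : C.H q S₂, u = 0) (v₁₂ : ∀ w : C.H (q + 1) (S₁ ∩ S₂ : Set X), w = 0)
    (u : C.H q (S₁ ∪ S₂ : Set X)) : u = 0 := by
  obtain ⟨u₁, u₂, hu⟩ := nm_mv_sets C q S₁ S₂ h₁ h₂ v₁₂ u
  rw [hu, v₁ u₁, v₂ u₂, map_zero, map_zero, add_zero]

theorem nm_vanish_boxes_aux (n m : ℕ) : ∀ (s : Finset ((Fin n → ℝ) × (Fin n → ℝ))), s.card ≤ m →
    ∀ q, n < q → ∀ u : C.H q (⋃ c ∈ s, nmBox n c.1 c.2 : Set (EuclideanSpace ℝ (Fin n))), u = 0 := by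
  classical
  have hempty : ∀ q, ∀ u : C.H q (⋃ c ∈ (∅ : Finset ((Fin n → ℝ) × (Fin n → ℝ))), nmBox n c.1 c.2 :
      Set (EuclideanSpace ℝ (Fin n))), u = 0 := by
    intro q u
    have : IsEmpty (⋃ c ∈ (∅ : Finset ((Fin n → ℝ) × (Fin n → ℝ))), nmBox n c.1 c.2 :
        Set (EuclideanSpace ℝ (Fin n))) := ⟨fun x => by
      have := x.2
      simp at this⟩
    exact C.of_isEmpty q _ u
  induction m with
  | zero =>
    intro s hs q _
    have : s = ∅ := Finset.card_eq_zero.1 (Nat.le_zero.1 hs)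
    subst this
    exact hempty q
  | succ m ih =>
    intro s hs q hq
    rcases s.eq_empty_or_nonempty with rfl | ⟨c₀, hc₀⟩
    · exact hempty q
    · have hs' : (s.erase c₀).card ≤ m := by
        rw [Finset.card_erase_of_mem hc₀]
        omega
      have e : (⋃ c ∈ s, nmBox n c.1 c.2 : Set (EuclideanSpace ℝ (Fin n))) =
          (⋃ c ∈ s.erase c₀, nmBox n c.1 c.2) ∪ nmBox n c₀.1 c₀.2 := by
        conv_lhs => rw [← Finset.insert_erase hc₀]
        rw [Finset.set_biUnion_insert, Set.union_comm]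
      have e2 : (⋃ c ∈ s.erase c₀, nmBox n c.1 c.2 : Set (EuclideanSpace ℝ (Fin n))) ∩ nmBox n c₀.1 c₀.2 =
          ⋃ c ∈ (s.erase c₀).image (fun c => (c.1 ⊔ c₀.1, c.2 ⊓ c₀.2)), nmBox n c.1 c.2 := by
        rw [Set.iUnion₂_inter, Finset.set_biUnion_finset_image]
        simp only [nm_box_inter]
      rw [e]
      apply nm_vanish_union C q (⋃ c ∈ s.erase c₀, nmBox n c.1 c.2) (nmBox n c₀.1 c₀.2)
        (isOpen_biUnion fun c _ => nm_box_isOpen n c.1 c.2) (nm_box_isOpen n _ _)
        (ih _ hs' q hq) (C.box_vanish n q _ _ hq)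
      rw [e2]
      exact ih _ (le_trans Finset.card_image_le hs') (q + 1) (by omega)

theorem nm_vanish_boxes (n : ℕ) (s : Finset ((Fin n → ℝ) × (Fin n → ℝ))) (q : ℕ) (hq : n < q)
    (u : C.H q (⋃ c ∈ s, nmBox n c.1 c.2 : Set (EuclideanSpace ℝ (Fin n)))) : u = 0 :=
  nm_vanish_boxes_aux C n s.card s le_rfl q hq u

/-- a subset of a subset -/
theorem nm_sub_homeo {X : Type} [TopologicalSpace X] (O S : Set X) (h : S ⊆ O) :
    Nonempty (((Subtype.val : O → X) ⁻¹' S : Set O) ≃ₜ S) :=
  ⟨{ toFun := fun x => ⟨x.1.1, x.2⟩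
     invFun := fun y => ⟨⟨y.1, h y.2⟩, y.2⟩
     left_inv := fun _ => rfl
     right_inv := fun _ => rfl
     continuous_toFun := (continuous_subtype_val.comp continuous_subtype_val).subtype_mk _
     continuous_invFun := (continuous_subtype_val.subtype_mk _).subtype_mk _ }⟩

theorem nm_vanish_open (n : ℕ) (O : Set (EuclideanSpace ℝ (Fin n))) (hO : IsOpen O) (q : ℕ)
    (hq : n < q) (u : C.H q O) : u = 0 := by
  classical
  have := hO.locallyCompactSpace
  let ι : Type := {s : Finset ((Fin n → ℝ) × (Fin n → ℝ)) // ∀ c ∈ s, nmBox n c.1 c.2 ⊆ O}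
  have : Nonempty ι := ⟨⟨∅, fun c hc => absurd hc (Finset.notMem_empty c)⟩⟩
  let S : ι → Set (EuclideanSpace ℝ (Fin n)) := fun s => ⋃ c ∈ s.1, nmBox n c.1 c.2
  have hSo : ∀ s, IsOpen (S s) := fun s => isOpen_biUnion fun c _ => nm_box_isOpen n c.1 c.2
  have hSO : ∀ s, S s ⊆ O := fun s => Set.iUnion₂_subset s.2
  obtain ⟨s, w, hw⟩ := C.cont q O ι (fun s => (Subtype.val : O → _) ⁻¹' S s)
    (fun s => (hSo s).preimage continuous_subtype_val) (by
      intro s t
      refine ⟨⟨s.1 ∪ t.1, fun c hc => ?_⟩, ?_, ?_⟩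
      · rcases Finset.mem_union.1 hc with h | h
        · exact s.2 c h
        · exact t.2 c h
      · exact Set.preimage_mono (Set.biUnion_subset_biUnion_left fun c hc => Finset.mem_union_left _ hc)
      · exact Set.preimage_mono (Set.biUnion_subset_biUnion_left fun c hc => Finset.mem_union_right _ hc)) (by
      ext x
      simp only [Set.mem_iUnion, Set.mem_univ, iff_true]
      obtain ⟨a, b, hx, hab⟩ := nm_box_basis n O hO x.1 x.2
      refine ⟨⟨{(a, b)}, fun c hc => ?_⟩, ?_⟩
      · rw [Finset.mem_singleton.1 hc]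
        exact hab
      · exact Set.mem_biUnion (Finset.mem_singleton_self _) hx) u
  obtain ⟨φ⟩ := nm_sub_homeo O (S s) (hSO s)
  have := (hSo s).locallyCompactSpace
  have := ((hSo s).preimage (continuous_subtype_val : Continuous (Subtype.val : O → _))).locallyCompactSpace
  have hw0 : w = 0 := nm_vanish_homeo C q φ.symm (nm_vanish_boxes C n s.1 q hq) w
  rw [← hw, hw0, map_zero]

/-- EXPORT -/
theorem nm_vanish {n : ℕ} {X : Type} [TopologicalSpace X] (h : NmEucl n X) (q : ℕ) (hq : n < q)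
    (u : C.H q X) : u = 0 := by
  have := nm_eucl_t2 h
  have := nm_eucl_lc h
  obtain ⟨e, he⟩ := h
  have := he.isOpen_range.locallyCompactSpace
  exact nm_vanish_homeo C q he.isEmbedding.toHomeomorph.symm (nm_vanish_open C n _ he.isOpen_range q hq) u

/-! ### manifolds are spanned by charts -/

theorem nm_span_step (n : ℕ) {X : Type} [TopologicalSpace X] [T2Space X] [LocallyCompactSpace X]
    (P : Submodule k (C.H n X)) (S₁ S₂ : Set X) (h₁ : IsOpen S₁) (h₂ : IsOpen S₂) (hE : NmEucl n S₂)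
    (v₁ : ∀ q, n < q → ∀ u : C.H q S₁, u = 0)
    (p₁ : ∀ w : C.H n S₁, C.ext n Subtype.val h₁.isOpenEmbedding_subtypeVal w ∈ P)
    (p₂ : ∀ w : C.H n S₂, C.ext n Subtype.val h₂.isOpenEmbedding_subtypeVal w ∈ P)
    (hU : IsOpen (S₁ ∪ S₂)) :
    (∀ q, n < q → ∀ u : C.H q (S₁ ∪ S₂ : Set X), u = 0) ∧
      ∀ w : C.H n (S₁ ∪ S₂ : Set X), C.ext n Subtype.val hU.isOpenEmbedding_subtypeVal w ∈ P := by
  have hE₁₂ : NmEucl n (S₁ ∩ S₂ : Set X) :=
    nm_eucl_of_emb hE (Set.inclusion Set.inter_subset_right) (nm_incl_openEmb _ (h₁.inter h₂))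
  have := hU.locallyCompactSpace
  have := h₁.locallyCompactSpace
  have := h₂.locallyCompactSpace
  constructor
  · intro q hq
    exact nm_vanish_union C q S₁ S₂ h₁ h₂ (v₁ q hq) (nm_vanish C hE q hq) (nm_vanish C hE₁₂ (q + 1) (by omega))
  · intro w
    obtain ⟨u₁, u₂, hw⟩ := nm_mv_sets C n S₁ S₂ h₁ h₂ (nm_vanish C hE₁₂ (n + 1) (by omega)) w
    rw [hw, map_add, ← C.ext_comp n _ Subtype.val (nm_incl_openEmb _ h₁) hU.isOpenEmbedding_subtypeVal u₁,
      ← C.ext_comp n _ Subtype.val (nm_incl_openEmb _ h₂) hU.isOpenEmbedding_subtypeVal u₂]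
    exact P.add_mem (p₁ u₁) (p₂ u₂)

theorem nm_span_finset (n : ℕ) {X : Type} [TopologicalSpace X] [T2Space X] [LocallyCompactSpace X]
    (P : Submodule k (C.H n X)) {ι : Type} (W : ι → Set X) (hW : ∀ i, IsOpen (W i))
    (hE : ∀ i, NmEucl n (W i))
    (hP : ∀ i (w : C.H n (W i)), C.ext n Subtype.val (hW i).isOpenEmbedding_subtypeVal w ∈ P)
    (s : Finset ι) : ∀ (hU : IsOpen (⋃ i ∈ s, W i)),
    (∀ q, n < q → ∀ u : C.H q (⋃ i ∈ s, W i : Set X), u = 0) ∧
      ∀ w : C.H n (⋃ i ∈ s, W i : Set X), C.ext n Subtype.val hU.isOpenEmbedding_subtypeVal w ∈ P := by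
  classical
  induction s using Finset.induction_on with
  | empty =>
    intro hU
    have : IsEmpty (⋃ i ∈ (∅ : Finset ι), W i : Set X) := ⟨fun x => by
      have := x.2
      simp at this⟩
    refine ⟨fun q _ u => C.of_isEmpty q _ u, fun w => ?_⟩
    rw [C.of_isEmpty n _ w, map_zero]
    exact P.zero_mem
  | insert a s _ ih =>
    rw [Finset.set_biUnion_insert, Set.union_comm]
    intro hU
    have hs : IsOpen (⋃ i ∈ s, W i) := isOpen_biUnion fun i _ => hW i
    exact nm_span_step C n P _ _ hs (hW a) (hE a) (ih hs).1 (ih hs).2 (hP a) hU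

theorem nm_span_fin (n : ℕ) {X : Type} [TopologicalSpace X] [T2Space X] [LocallyCompactSpace X]
    (P : Submodule k (C.H n X))
    (m : ℕ) (W : Fin m → Set X) (hW : ∀ i, IsOpen (W i)) (hE : ∀ i, NmEucl n (W i))
    (hP : ∀ i (w : C.H n (W i)), C.ext n Subtype.val (hW i).isOpenEmbedding_subtypeVal w ∈ P)
    (hU : IsOpen (⋃ i, W i)) :
    (∀ q, n < q → ∀ u : C.H q (⋃ i, W i : Set X), u = 0) ∧
      ∀ w : C.H n (⋃ i, W i : Set X), C.ext n Subtype.val hU.isOpenEmbedding_subtypeVal w ∈ P := by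
  have e : (⋃ i, W i) = ⋃ i ∈ (Finset.univ : Finset (Fin m)), W i := by simp
  revert hU
  rw [e]
  exact nm_span_finset C n P W hW hE hP Finset.univ

theorem nm_span (n : ℕ) {X : Type} [TopologicalSpace X] [T2Space X] [LocallyCompactSpace X]
    {ι : Type} (U : ι → Type) [∀ i, TopologicalSpace (U i)] (c : ∀ i, U i → X)
    (hc : ∀ i, IsOpenEmbedding (c i)) (hE : ∀ i, NmEucl n (U i))
    (hcov : (⋃ i, Set.range (c i)) = Set.univ) :
    (∀ q, n < q → ∀ u : C.H q X, u = 0) ∧
      ∀ P : Submodule k (C.H n X), (∀ i (w : C.H n (U i)), C.ext n (c i) (hc i) w ∈ P) → P = ⊤ := by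
  classical
  have hWo : ∀ i, IsOpen (Set.range (c i)) := fun i => (hc i).isOpen_range
  have hWE : ∀ i, NmEucl n (Set.range (c i)) := fun i =>
    nm_eucl_of_emb (hE i) _ (hc i).isEmbedding.toHomeomorph.symm.isOpenEmbedding
  have hSo : ∀ s : Finset ι, IsOpen (⋃ i ∈ s, Set.range (c i)) := fun s => isOpen_biUnion fun i _ => hWo i
  have hdir : Directed (· ⊆ ·) (fun s : Finset ι => ⋃ i ∈ s, Set.range (c i)) := by
    intro s t
    exact ⟨s ∪ t, Set.biUnion_subset_biUnion_left fun i hi => Finset.mem_union_left _ hi,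
      Set.biUnion_subset_biUnion_left fun i hi => Finset.mem_union_right _ hi⟩
  have hcov' : (⋃ s : Finset ι, ⋃ i ∈ s, Set.range (c i)) = Set.univ := by
    ext x
    simp only [Set.mem_iUnion, Set.mem_univ, iff_true]
    have hx : x ∈ ⋃ i, Set.range (c i) := by
      rw [hcov]
      trivial
    obtain ⟨i, hi⟩ := Set.mem_iUnion.1 hx
    exact ⟨{i}, i, Finset.mem_singleton_self i, hi⟩
  constructor
  · intro q hq u
    obtain ⟨s, w, hw⟩ := C.cont q X (Finset ι) _ hSo hdir hcov' u
    have := (nm_span_finset C n ⊤ _ hWo hWE (fun _ _ => Submodule.mem_top) s (hSo s)).1 q hq w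
    rw [← hw, this, map_zero]
  · intro P hP
    have hP' : ∀ i (w : C.H n (Set.range (c i))),
        C.ext n Subtype.val (hWo i).isOpenEmbedding_subtypeVal w ∈ P := by
      intro i w
      have := nm_eucl_t2 (hE i)
      have := nm_eucl_lc (hE i)
      have := (hWo i).locallyCompactSpace
      obtain ⟨w', rfl⟩ := (nm_ext_homeo_bij C n (hc i).isEmbedding.toHomeomorph).2 w
      rw [← C.ext_comp n _ Subtype.val (hc i).isEmbedding.toHomeomorph.isOpenEmbedding
        (hWo i).isOpenEmbedding_subtypeVal w']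
      exact hP i w'
    rw [eq_top_iff]
    intro u _
    obtain ⟨s, w, hw⟩ := C.cont n X (Finset ι) _ hSo hdir hcov' u
    rw [← hw]
    exact (nm_span_finset C n P _ hWo hWE hP' s (hSo s)).2 w

/-! ### the top cohomology of a connected chart -/

/-- a chart restricts to homeomorphisms over subsets of its range -/
theorem nm_chart_homeo {n : ℕ} {N : Type} [TopologicalSpace N] (e : N → EuclideanSpace ℝ (Fin n))
    (he : IsOpenEmbedding e) (B : Set (EuclideanSpace ℝ (Fin n))) (hB : B ⊆ Set.range e) :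
    ∃ φ : (e ⁻¹' B : Set N) ≃ₜ B, ∀ x, ((φ x : B) : EuclideanSpace ℝ (Fin n)) = e x := by
  have ho : IsOpenEmbedding (B.restrictPreimage e) := he.restrictPreimage B
  have hs : Function.Surjective (B.restrictPreimage e) := by
    rintro ⟨y, hy⟩
    obtain ⟨x, rfl⟩ := hB hy
    exact ⟨⟨x, hy⟩, rfl⟩
  exact ⟨(Equiv.ofBijective _ ⟨ho.injective, hs⟩).toHomeomorphOfContinuousOpen ho.continuous ho.isOpenMap,
    fun _ => rfl⟩

/-- the extension along the preimages of nested boxes is bijective -/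
theorem nm_chart_nested (n : ℕ) {N : Type} [TopologicalSpace N] (e : N → EuclideanSpace ℝ (Fin n))
    (he : IsOpenEmbedding e) (a b a' b' : Fin n → ℝ) (hab' : ∀ i, a' i < b' i)
    (h : nmBox n a' b' ⊆ nmBox n a b) (hB : nmBox n a b ⊆ Set.range e)
    (hι : IsOpenEmbedding (Set.inclusion (Set.preimage_mono h : e ⁻¹' nmBox n a' b' ⊆ e ⁻¹' nmBox n a b))) :
    Function.Bijective (C.ext n _ hι) := by
  have := he.isEmbedding.t2Space
  have := he.locallyCompactSpace
  have ho : IsOpen (e ⁻¹' nmBox n a b) := (nm_box_isOpen n a b).preimage he.continuous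
  have ho' : IsOpen (e ⁻¹' nmBox n a' b') := (nm_box_isOpen n a' b').preimage he.continuous
  have := ho.locallyCompactSpace
  have := ho'.locallyCompactSpace
  have := nm_box_lc n a b
  have := nm_box_lc n a' b'
  obtain ⟨φ, hφ⟩ := nm_chart_homeo e he _ hB
  obtain ⟨φ', hφ'⟩ := nm_chart_homeo e he _ (h.trans hB)
  have hin := nm_incl_openEmb h (nm_box_isOpen n a' b')
  have hsq : ∀ w, C.ext n φ φ.isOpenEmbedding (C.ext n _ hι w) =
      C.ext n (Set.inclusion h) hin (C.ext n φ' φ'.isOpenEmbedding w) := by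
    intro w
    rw [← C.ext_comp n _ φ hι φ.isOpenEmbedding w, ← C.ext_comp n φ' _ φ'.isOpenEmbedding hin w]
    apply nm_ext_congr
    funext x
    apply Subtype.ext
    show ((φ _ : nmBox n a b) : EuclideanSpace ℝ (Fin n)) = ((φ' x : nmBox n a' b') : EuclideanSpace ℝ (Fin n))
    rw [hφ, hφ']
  have b1 := nm_ext_homeo_bij C n φ
  have b2 := nm_ext_homeo_bij C n φ'
  have b3 := nm_box_nested C n a b a' b' hab' h hin
  constructor
  · intro w w' hw
    apply b2.1
    apply b3.1
    rw [← hsq, ← hsq, hw]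
  · intro v
    obtain ⟨x, hx⟩ := b3.2 (C.ext n φ φ.isOpenEmbedding v)
    obtain ⟨w, rfl⟩ := b2.2 x
    refine ⟨w, b1.1 ?_⟩
    rw [hsq, hx]

theorem nm_line_nested (n : ℕ) {N : Type} [TopologicalSpace N] (e : N → EuclideanSpace ℝ (Fin n))
    (he : IsOpenEmbedding e) (a b a' b' : Fin n → ℝ) (hab' : ∀ i, a' i < b' i)
    (h : nmBox n a' b' ⊆ nmBox n a b) (hB : nmBox n a b ⊆ Set.range e)
    (o : IsOpenEmbedding (Subtype.val : e ⁻¹' nmBox n a b → N))
    (o' : IsOpenEmbedding (Subtype.val : e ⁻¹' nmBox n a' b' → N)) :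
    LinearMap.range (C.ext n Subtype.val o') = LinearMap.range (C.ext n Subtype.val o) := by
  have := he.isEmbedding.t2Space
  have := he.locallyCompactSpace
  have := o.locallyCompactSpace
  have := o'.locallyCompactSpace
  have ho' : IsOpen (e ⁻¹' nmBox n a' b') := (nm_box_isOpen n a' b').preimage he.continuous
  have hι := nm_incl_openEmb (Set.preimage_mono h : e ⁻¹' nmBox n a' b' ⊆ e ⁻¹' nmBox n a b) ho'
  have hb := nm_chart_nested C n e he a b a' b' hab' h hB hι
  have hcomp : ∀ w, C.ext n Subtype.val o' w = C.ext n Subtype.val o (C.ext n _ hι w) := by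
    intro w
    rw [← C.ext_comp n _ Subtype.val hι o w]
    rfl
  apply le_antisymm
  · rintro _ ⟨w, rfl⟩
    exact ⟨_, (hcomp w).symm⟩
  · rintro _ ⟨v, rfl⟩
    obtain ⟨w, rfl⟩ := hb.2 v
    exact ⟨w, hcomp w⟩

theorem nm_line_meet (n : ℕ) {N : Type} [TopologicalSpace N] (e : N → EuclideanSpace ℝ (Fin n))
    (he : IsOpenEmbedding e) (a b a' b' : Fin n → ℝ) (z : EuclideanSpace ℝ (Fin n))
    (hz : z ∈ nmBox n a b) (hz' : z ∈ nmBox n a' b')
    (hB : nmBox n a b ⊆ Set.range e) (hB' : nmBox n a' b' ⊆ Set.range e)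
    (o : IsOpenEmbedding (Subtype.val : e ⁻¹' nmBox n a b → N))
    (o' : IsOpenEmbedding (Subtype.val : e ⁻¹' nmBox n a' b' → N)) :
    LinearMap.range (C.ext n Subtype.val o) = LinearMap.range (C.ext n Subtype.val o') := by
  have hzi : z ∈ nmBox n (a ⊔ a') (b ⊓ b') := by
    rw [← nm_box_inter]
    exact ⟨hz, hz'⟩
  have hne : ∀ i, (a ⊔ a') i < (b ⊓ b') i := fun i => lt_trans (hzi i).1 (hzi i).2
  have h1 : nmBox n (a ⊔ a') (b ⊓ b') ⊆ nmBox n a b := by
    rw [← nm_box_inter]
    exact Set.inter_subset_left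
  have h2 : nmBox n (a ⊔ a') (b ⊓ b') ⊆ nmBox n a' b' := by
    rw [← nm_box_inter]
    exact Set.inter_subset_right
  have oi : IsOpenEmbedding (Subtype.val : e ⁻¹' nmBox n (a ⊔ a') (b ⊓ b') → N) :=
    ((nm_box_isOpen n _ _).preimage he.continuous).isOpenEmbedding_subtypeVal
  rw [← nm_line_nested C n e he a b _ _ hne h1 hB o oi, ← nm_line_nested C n e he a' b' _ _ hne h2 hB' o' oi]

theorem nm_box_line (n : ℕ) {N : Type} [TopologicalSpace N] [ConnectedSpace N]
    (e : N → EuclideanSpace ℝ (Fin n)) (he : IsOpenEmbedding e)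
    (a b a' b' : Fin n → ℝ) (hab : ∀ i, a i < b i) (hab' : ∀ i, a' i < b' i)
    (hB : nmBox n a b ⊆ Set.range e) (hB' : nmBox n a' b' ⊆ Set.range e)
    (o : IsOpenEmbedding (Subtype.val : e ⁻¹' nmBox n a b → N))
    (o' : IsOpenEmbedding (Subtype.val : e ⁻¹' nmBox n a' b' → N)) :
    LinearMap.range (C.ext n Subtype.val o) = LinearMap.range (C.ext n Subtype.val o') := by
  have hop : ∀ c d : Fin n → ℝ, IsOpen (e ⁻¹' nmBox n c d) := fun c d =>
    (nm_box_isOpen n c d).preimage he.continuous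
  let S : Set N := {x | ∀ c d : Fin n → ℝ, nmBox n c d ⊆ Set.range e → e x ∈ nmBox n c d →
    LinearMap.range (C.ext n (Subtype.val : e ⁻¹' nmBox n c d → N) (hop c d).isOpenEmbedding_subtypeVal) =
      LinearMap.range (C.ext n Subtype.val o)}
  have hSo : IsOpen S := by
    rw [isOpen_iff_mem_nhds]
    intro x hx
    obtain ⟨c, d, hxc, hcd⟩ := nm_box_basis n _ he.isOpen_range (e x) ⟨x, rfl⟩
    refine Filter.mem_of_superset ((hop c d).mem_nhds hxc) ?_
    intro y hy c' d' hcd' hy'
    rw [nm_line_meet C n e he c' d' c d (e y) hy' hy hcd' hcd _ (hop c d).isOpenEmbedding_subtypeVal]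
    exact hx c d hcd hxc
  have hSc : IsClosed S := by
    rw [← isOpen_compl_iff, isOpen_iff_mem_nhds]
    intro x hx
    have hx' : ¬ ∀ c d : Fin n → ℝ, nmBox n c d ⊆ Set.range e → e x ∈ nmBox n c d →
      LinearMap.range (C.ext n (Subtype.val : e ⁻¹' nmBox n c d → N) (hop c d).isOpenEmbedding_subtypeVal) =
        LinearMap.range (C.ext n Subtype.val o) := hx
    obtain ⟨c, hc⟩ := not_forall.1 hx'
    obtain ⟨d, hd⟩ := not_forall.1 hc
    obtain ⟨hcd, hd2⟩ := Classical.not_imp.1 hd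
    obtain ⟨hxc, hne⟩ := Classical.not_imp.1 hd2
    refine Filter.mem_of_superset ((hop c d).mem_nhds hxc) ?_
    intro y hy hyS
    exact hne (hyS c d hcd hy)
  have hmid : ∀ c d : Fin n → ℝ, (∀ i, c i < d i) →
      (WithLp.toLp 2 (fun i => (c i + d i) / 2) : EuclideanSpace ℝ (Fin n)) ∈ nmBox n c d := by
    intro c d hcd i
    show c i < (c i + d i) / 2 ∧ (c i + d i) / 2 < d i
    have := hcd i
    constructor <;> linarith
  have hSne : S.Nonempty := by
    obtain ⟨x, hx⟩ := hB (hmid a b hab)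
    refine ⟨x, fun c d hcd hxc => ?_⟩
    exact nm_line_meet C n e he c d a b (e x) hxc (hx ▸ hmid a b hab) hcd hB _ o
  have hSu : S = Set.univ := IsClopen.eq_univ ⟨hSc, hSo⟩ hSne
  obtain ⟨x, hx⟩ := hB' (hmid a' b' hab')
  have hxS : x ∈ S := by
    rw [hSu]
    trivial
  exact (hxS a' b' hB' (hx ▸ hmid a' b' hab')).symm

/-- EXPORT (A1). -/
theorem nm_top_surj {n : ℕ} {N : Type} [TopologicalSpace N] [ConnectedSpace N] (hN : NmEucl n N)
    {U : Type} [TopologicalSpace U] [Nonempty U] (j : U → N) (hj : IsOpenEmbedding j) :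
    Function.Surjective (C.ext n j hj) := by
  have := nm_eucl_t2 hN
  have := nm_eucl_lc hN
  have hUE := nm_eucl_of_emb hN j hj
  have := nm_eucl_t2 hUE
  have := nm_eucl_lc hUE
  obtain ⟨e, he⟩ := id hN
  have hop : ∀ c d : Fin n → ℝ, IsOpen (e ⁻¹' nmBox n c d) := fun c d =>
    (nm_box_isOpen n c d).preimage he.continuous
  obtain ⟨u₀⟩ := (inferInstance : Nonempty U)
  have hOo : IsOpen (e '' Set.range j) := he.isOpenMap _ hj.isOpen_range
  obtain ⟨a₀, b₀, hz₀, hB₀⟩ := nm_box_basis n _ hOo (e (j u₀)) ⟨_, ⟨u₀, rfl⟩, rfl⟩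
  have hab₀ : ∀ i, a₀ i < b₀ i := fun i => lt_trans (hz₀ i).1 (hz₀ i).2
  have hB₀e : nmBox n a₀ b₀ ⊆ Set.range e := hB₀.trans (Set.image_subset_range _ _)
  -- the line of `B₀` lies in the image of `ext j`
  have hL₀ : LinearMap.range (C.ext n (Subtype.val : e ⁻¹' nmBox n a₀ b₀ → N)
      (hop a₀ b₀).isOpenEmbedding_subtypeVal) ≤ LinearMap.range (C.ext n j hj) := by
    have hlift : ∀ x : (e ⁻¹' nmBox n a₀ b₀ : Set N), ∃ u : U, j u = x := by
      intro x
      obtain ⟨_, ⟨u, rfl⟩, hu⟩ := hB₀ x.2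
      exact ⟨u, he.injective hu⟩
    choose κ hκ using hlift
    have hcomp : j ∘ κ = Subtype.val := funext hκ
    have hκo : IsOpenEmbedding κ := (IsOpenEmbedding.of_comp_iff κ hj).1 (by
      rw [hcomp]
      exact (hop a₀ b₀).isOpenEmbedding_subtypeVal)
    have := (hop a₀ b₀).locallyCompactSpace
    rintro _ ⟨w, rfl⟩
    refine ⟨C.ext n κ hκo w, ?_⟩
    rw [← C.ext_comp n κ j hκo hj w]
    exact nm_ext_congr C n _ _ _ _ hcomp w
  let ι : Type := {c : (Fin n → ℝ) × (Fin n → ℝ) // (∀ i, c.1 i < c.2 i) ∧ nmBox n c.1 c.2 ⊆ Set.range e}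
  have hspan := (nm_span C n (fun c : ι => (e ⁻¹' nmBox n c.1.1 c.1.2 : Set N)) (fun c => Subtype.val)
    (fun c => (hop c.1.1 c.1.2).isOpenEmbedding_subtypeVal)
    (fun c => nm_eucl_of_emb hN _ (hop c.1.1 c.1.2).isOpenEmbedding_subtypeVal) (by
      ext x
      simp only [Set.mem_iUnion, Set.mem_univ, iff_true]
      obtain ⟨c, d, hxc, hcd⟩ := nm_box_basis n _ he.isOpen_range (e x) ⟨x, rfl⟩
      exact ⟨⟨(c, d), fun i => lt_trans (hxc i).1 (hxc i).2, hcd⟩, ⟨x, hxc⟩, rfl⟩)).2
    (LinearMap.range (C.ext n j hj)) (by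
      intro c w
      apply hL₀
      rw [nm_box_line C n e he a₀ b₀ c.1.1 c.1.2 hab₀ c.2.1 hB₀e c.2.2 _
        (hop c.1.1 c.1.2).isOpenEmbedding_subtypeVal]
      exact ⟨w, rfl⟩)
  exact LinearMap.range_eq_top.1 hspan

/-- EXPORT (A2). -/
theorem nm_top_finrank {n : ℕ} {N : Type} [TopologicalSpace N] [ConnectedSpace N]
    (hN : NmEucl n N) : Module.finrank k (C.H n N) = 1 := by
  have := nm_eucl_t2 hN
  have := nm_eucl_lc hN
  obtain ⟨e, he, hbd⟩ := nm_eucl_bdd hN
  obtain ⟨x₀⟩ := (inferInstance : Nonempty N)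
  obtain ⟨a, b, hz, hB⟩ := nm_box_basis n _ he.isOpen_range (e x₀) ⟨x₀, rfl⟩
  have hab : ∀ i, a i < b i := fun i => lt_trans (hz i).1 (hz i).2
  have ho : IsOpen (e ⁻¹' nmBox n a b) := (nm_box_isOpen n a b).preimage he.continuous
  have := ho.locallyCompactSpace
  have := nm_box_lc n a b
  have := nm_box_lc n (fun _ => -1) (fun _ => 1)
  have : Nonempty (e ⁻¹' nmBox n a b : Set N) := ⟨⟨x₀, hz⟩⟩
  obtain ⟨φ, hφ⟩ := nm_chart_homeo e he _ hB
  have hsurj := nm_top_surj C hN (Subtype.val : (e ⁻¹' nmBox n a b : Set N) → N) ho.isOpenEmbedding_subtypeVal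
  -- the corestriction of `e` to the big box
  let e' : N → nmBox n (fun _ => -1) (fun _ => 1) := fun x => ⟨e x, hbd ⟨x, rfl⟩⟩
  have he' : IsOpenEmbedding e' :=
    (IsOpenEmbedding.of_comp_iff e' (nm_box_isOpen n _ _).isOpenEmbedding_subtypeVal).1 he
  have hsub : nmBox n a b ⊆ nmBox n (fun _ => -1) (fun _ => 1) := hB.trans hbd
  have hin := nm_incl_openEmb hsub (nm_box_isOpen n a b)
  have hsq : ∀ w, C.ext n e' he' (C.ext n Subtype.val ho.isOpenEmbedding_subtypeVal w) =
      C.ext n (Set.inclusion hsub) hin (C.ext n φ φ.isOpenEmbedding w) := by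
    intro w
    rw [← C.ext_comp n _ e' ho.isOpenEmbedding_subtypeVal he' w, ← C.ext_comp n φ _ φ.isOpenEmbedding hin w]
    apply nm_ext_congr
    funext x
    apply Subtype.ext
    show e x = ((φ x : nmBox n a b) : EuclideanSpace ℝ (Fin n))
    rw [hφ]
  have hinj : Function.Injective (C.ext n (Subtype.val : (e ⁻¹' nmBox n a b : Set N) → N)
      ho.isOpenEmbedding_subtypeVal) := by
    intro w w' hw
    apply (nm_ext_homeo_bij C n φ).1
    apply (nm_box_nested C n _ _ a b hab hsub hin).1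
    rw [← hsq, ← hsq, hw]
  rw [← (LinearEquiv.ofBijective _ ⟨hinj, hsurj⟩).finrank_eq,
    (LinearEquiv.ofBijective _ (nm_ext_homeo_bij C n φ)).finrank_eq]
  exact C.box_top n a b hab

/-- EXPORT (B). -/
theorem nm_pull_period {n : ℕ} {N : Type} [TopologicalSpace N] [ConnectedSpace N]
    (hN : NmEucl n N) (p : ℕ) [Fact p.Prime] [CharP k p] (g : N → N) (hg : IsProperMap g)
    (hper : ∀ x, g^[p] x = x) (u : C.H n N) : C.pull n g hg u = u := by
  have := nm_eucl_t2 hN
  have := nm_eucl_lc hN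
  obtain ⟨v, hv0, hv⟩ := finrank_eq_one_iff'.1 (nm_top_finrank C hN)
  obtain ⟨ε, hε⟩ := hv (C.pull n g hg v)
  have hprop : ∀ m : ℕ, IsProperMap (g^[m]) := by
    intro m
    induction m with
    | zero => exact isProperMap_id
    | succ m ih =>
      rw [Function.iterate_succ]
      exact ih.comp hg
  have hit : ∀ (m : ℕ) (w : C.H n N), C.pull n (g^[m]) (hprop m) w = (C.pull n g hg)^[m] w := by
    intro m
    induction m with
    | zero =>
      intro w
      exact C.pull_id n N w
    | succ m ih =>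
      intro w
      rw [Function.iterate_succ_apply', ← ih w, ← C.pull_comp n g (g^[m]) hg (hprop m) w]
      exact nm_pull_congr C n _ _ _ _ (Function.iterate_succ g m) w
  have hpow : ∀ m : ℕ, (C.pull n g hg)^[m] v = ε ^ m • v := by
    intro m
    induction m with
    | zero => simp
    | succ m ih => rw [Function.iterate_succ_apply', ih, map_smul, ← hε, smul_smul, pow_succ]
  have h1 : ε ^ p • v = v := by
    rw [← hpow p, ← hit p v, nm_pull_congr C n _ id _ isProperMap_id (funext hper) v, C.pull_id]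
  have h2 : ε ^ p = 1 := by
    have : (ε ^ p - 1) • v = 0 := by rw [sub_smul, one_smul, h1, sub_self]
    rcases smul_eq_zero.1 this with h | h
    · exact sub_eq_zero.1 h
    · exact absurd h hv0
  have h3 : ε = 1 := by
    have : (ε - 1) ^ p = 0 := by rw [sub_pow_char, h2, one_pow, sub_self]
    exact sub_eq_zero.1 (pow_eq_zero_iff (Fact.out : p.Prime).ne_zero |>.1 this)
  obtain ⟨c, rfl⟩ := hv u
  rw [map_smul, ← hε, h3, one_smul]

end Claimed.Agent.R304
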