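/-
Row 304 (S0559).  Owner: helper138.  PACKAGE SmTop (~1100 lines): THE ACTION IS TRIVIAL ON THE TOP COHOMOLOGY WITH COMPACT SUPPORTS.
`W` connected, euclidean of dimension `d` (`NmEucl d W`), `B : S5Act p W`, `P = OnePoint W`, `P₀ : P → S^d` a "pinch" (a relative homeomorphism onto `(S^d, ξ)`) which every group element moves by less than `1`.
      `sm_top` :  for every cycle `x` of `asObj P` of degree `d` supported off `∞` and every `a`:   `a^* x - x = d b`  with `b` supported off `∞`.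
      `sm_top_int` : every functional `I` on `asObj (cube)` of degree `d` which kills the boundaries of elements supported in the interior satisfies `I (c^# a^* x) = I (c^# x)` for all cycles `x` supported off `∞`.
STEPS: (T1) `H^d_c(U) → H^d_c(W)` is onto for `U ≠ ∅` (`nm_top_surj` for the model `asNmCoh ℝ`, dictionary `as_dict_repr`);  (T2) excision for `P₀` at the level of cochains modulo null cochains;
(T3) homotopy invariance with compact supports;  (T4) `(P₀ ∘ a)^# = a^* P₀^#`.   No one-dimensionality is needed.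
-/
import Claimed.Agent.R304.SmCoch
import Claimed.Agent.R304.SmIface
import Claimed.Agent.R304.NmInst
import Claimed.Agent.R304.NmEuclid
import Claimed.Agent.R304.S5Pinch
import Claimed.Agent.R304.AsBoxes

set_option autoImplicit false

namespace Claimed.Agent.R304

open Topology

/-! ### complements to `AsObj.lean` -/

theorem smt_supp_sum {X : Type} [TopologicalSpace X] (S : Set X) (n : ℕ) (f : ℕ → (asObj X).C)
    (hf : ∀ i, (asObj X).supp (f i) ⊆ S) : (asObj X).supp (∑ i ∈ Finset.range n, f i) ⊆ S := by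
  induction n with
  | zero =>
    rw [Finset.sum_range_zero, (asObj X).toFcObj.supp_zero]
    exact Set.empty_subset _
  | succ n ih =>
    rw [Finset.sum_range_succ]
    exact ((asObj X).supp_add _ _).trans (Set.union_subset ih (hf n))

theorem as_objPullL_comp {X Y Z : Type} [TopologicalSpace X] [TopologicalSpace Y] [TopologicalSpace Z]
    (f : X → Y) (g : Y → Z) (hf : IsProperMap f) (hg : IsProperMap g) (hgf : IsProperMap (g ∘ f))
    (m : (asObj Z).C) : asObjPullL (g ∘ f) hgf m = asObjPullL f hf (asObjPullL g hg m) := by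
  refine as_obj_induction (fun m => asObjPullL (g ∘ f) hgf m = asObjPullL f hf (asObjPullL g hg m))
    ?_ ?_ ?_ m
  · simp only [map_zero]
  · intro a b ha hb
    simp only [map_add, ha, hb]
  · intro q φ hφ
    rw [as_objPullL_el, as_objPullL_el, as_objPullL_el]
    exact as_el_congr _ _ _ _ _ rfl

theorem as_objPullL_d {X Y : Type} [TopologicalSpace X] [TopologicalSpace Y] (f : X → Y)
    (hf : IsProperMap f) (m : (asObj Y).C) :
    asObjPullL f hf ((asObj Y).d m) = (asObj X).d (asObjPullL f hf m) := by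
  refine as_obj_induction (fun m => asObjPullL f hf ((asObj Y).d m) = (asObj X).d (asObjPullL f hf m))
    ?_ ?_ ?_ m
  · simp only [map_zero]
  · intro a b ha hb
    simp only [map_add, ha, hb]
  · intro q φ hφ
    rw [as_el_d, as_objPullL_el, as_objPullL_el, as_el_d]
    exact as_el_congr _ _ _ _ _ rfl

theorem as_objPullL_supp {X Y : Type} [TopologicalSpace X] [TopologicalSpace Y] (f : X → Y)
    (hf : IsProperMap f) (m : (asObj Y).C) :
    (asObj X).supp (asObjPullL f hf m) ⊆ f ⁻¹' (asObj Y).supp m := by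
  obtain ⟨N, hN⟩ := as_obj_sum_pr m
  have e : asObjPullL f hf m = ∑ q ∈ Finset.range N, asObjPullL f hf (asObjPr Y q m) := by
    conv_lhs => rw [hN]
    rw [map_sum]
  rw [e]
  refine smt_supp_sum _ _ _ (fun q => ?_)
  obtain ⟨φ, hφ, h⟩ := as_obj_pr_el q m
  have s1 := as_obj_pr_supp q m
  rw [h, as_el_supp] at s1
  rw [h, as_objPullL_el, as_el_supp]
  exact (as_supp_pull f hf.continuous φ).trans (Set.preimage_mono s1)

theorem as_objPullL_prc {X Y : Type} [TopologicalSpace X] [TopologicalSpace Y] (f : X → Y)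
    (hf : IsProperMap f) (n : ℕ) (m : (asObj Y).C) :
    asObjPr X n (asObjPullL f hf m) = asObjPullL f hf (asObjPr Y n m) := by
  refine as_obj_induction (fun m => asObjPr X n (asObjPullL f hf m) = asObjPullL f hf (asObjPr Y n m))
    ?_ ?_ ?_ m
  · simp only [map_zero]
  · intro a b ha hb
    simp only [map_add, ha, hb]
  · intro q φ hφ
    by_cases hq : n = q
    · subst hq
      rw [as_objPullL_el, as_obj_pr_el_same, as_obj_pr_el_same, as_objPullL_el]
    · rw [as_objPullL_el, as_obj_pr_el_ne n q hq, as_obj_pr_el_ne n q hq, map_zero]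

/-- `g^#` is injective on the elements supported off `A₂` -/
theorem smt_exc_inj {P₁ P₂ : Type} [TopologicalSpace P₁] [TopologicalSpace P₂]
    (g : P₁ → P₂) (s : P₂ → P₁) (A₂ : Set P₂)
    (h : AsRelHomeo g s A₂) (hg : IsProperMap g) (n : (asObj P₂).C)
    (hn : Disjoint ((asObj P₂).supp n) A₂)
    (h0 : asObjPullL g hg n = 0) : n = 0 := by
  refine as_obj_ext n 0 (fun q => ?_)
  rw [map_zero]
  obtain ⟨ψ, hψ, e⟩ := as_obj_pr_el q n
  have s1 := as_obj_pr_supp q n
  rw [e, as_el_supp] at s1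
  have e2 : asObjPullL g hg (asObjPr P₂ q n) = 0 := by
    rw [← as_objPullL_prc, h0, map_zero]
  rw [e, as_objPullL_el] at e2
  have e3 : asSupp (asPull ℝ g q ψ) = ∅ := by
    rw [← as_el_supp q _ (as_pull_compact g hg q ψ hψ), e2, (asObj P₁).toFcObj.supp_zero]
  have e4 := as_exc_null g s A₂ h q ψ (hn.mono_left s1) e3
  rw [e, ← (asObj P₂).supp_empty_iff, as_el_supp, e4]

/-- (T2) EXCISION on elements: `g^#` is onto the elements supported off `g⁻¹A₂`, and reflects cycles.
Plan: components, `as_exc_lift`; `g^# (d m') = d m = 0` and `supp (d m')` is off `A₂`, so `d m' = 0` (`as_exc_null`). -/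
theorem as_obj_exc_lift {P₁ P₂ : Type} [TopologicalSpace P₁] [TopologicalSpace P₂] [CompactSpace P₁]
    [T2Space P₁] [CompactSpace P₂] [T2Space P₂] (g : P₁ → P₂) (s : P₂ → P₁) (A₂ : Set P₂)
    (h : AsRelHomeo g s A₂) (m : (asObj P₁).C) (hm : Disjoint ((asObj P₁).supp m) (g ⁻¹' A₂)) :
    ∃ m' : (asObj P₂).C, Disjoint ((asObj P₂).supp m') A₂ ∧ asObjPullL g h.cont.isProperMap m' = m ∧
      ((asObj P₁).d m = 0 → (asObj P₂).d m' = 0) := by
  have key : ∀ q, ∃ e : (asObj P₂).C, (asObj P₂).supp e ⊆ A₂ᶜ ∧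
      asObjPullL g h.cont.isProperMap e = asObjPr P₁ q m := by
    intro q
    obtain ⟨φ, hφ, e⟩ := as_obj_pr_el q m
    have s1 := as_obj_pr_supp q m
    rw [e, as_el_supp] at s1
    obtain ⟨φ', h1, _, h3⟩ := as_exc_lift g s A₂ h q φ (hm.mono_left s1)
    have hc : IsCompact (asSupp φ') := (as_supp_closed φ').isCompact
    refine ⟨asEl P₂ q φ' hc, ?_, ?_⟩
    · rw [as_el_supp]
      exact Set.subset_compl_iff_disjoint_right.2 h1
    · rw [as_objPullL_el, e, as_el_eq_iff]
      exact h3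
  choose e he1 he2 using key
  obtain ⟨N, hN⟩ := as_obj_sum_pr m
  have hs : (asObj P₂).supp (∑ q ∈ Finset.range N, e q) ⊆ A₂ᶜ := smt_supp_sum _ _ _ he1
  have hp : asObjPullL g h.cont.isProperMap (∑ q ∈ Finset.range N, e q) = m := by
    rw [map_sum]
    conv_rhs => rw [hN]
    exact Finset.sum_congr rfl (fun q _ => he2 q)
  refine ⟨∑ q ∈ Finset.range N, e q, Set.subset_compl_iff_disjoint_right.1 hs, hp, ?_⟩
  intro hd
  refine smt_exc_inj g s A₂ h h.cont.isProperMap _ ?_ ?_
  · exact Set.subset_compl_iff_disjoint_right.1 (((asObj P₂).d_loc _).trans hs)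
  · rw [as_objPullL_d, hp, hd]

/-! ### the three steps -/

section Gen

variable {p : ℕ} [Fact p.Prime] {d : ℕ} {W : Type} [TopologicalSpace W] [T2Space W]
  [LocallyCompactSpace W]

/-- a relative coboundary is the boundary of an element supported off `A` -/
theorem smt_B_split {P : Type} [TopologicalSpace P] [CompactSpace P] (A : Set P) (q : ℕ)
    (φ : AsC ℝ P q) (hφ : IsCompact (asSupp φ)) (h : φ ∈ asB ℝ P A q) :
    ∃ b : (asObj P).C, Disjoint ((asObj P).supp b) A ∧ asEl P q φ hφ = (asObj P).d b := by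
  cases q with
  | zero =>
    refine ⟨0, ?_, ?_⟩
    · rw [(asObj P).toFcObj.supp_zero]
      exact Set.empty_disjoint A
    · have h0 : asSupp φ = ∅ := h
      rw [map_zero, ← (asObj P).supp_empty_iff, as_el_supp, h0]
  | succ q =>
    obtain ⟨ψ, hψ, hn⟩ := (as_mem_B_succ P A q φ).1 h
    have hc : IsCompact (asSupp ψ) := (as_supp_closed ψ).isCompact
    refine ⟨asEl P q ψ hc, ?_, ?_⟩
    · rw [as_el_supp]
      exact hψ
    · rw [as_el_d, as_el_eq_iff]
      exact hn

/-- (T1) CONCENTRATION.  Plan: the component of degree `d` of `x` is `asEl _ d φ _` with `φ ∈ asZ ℝ (OnePoint W) {∞} d`; its class is `asHcExt ℝ d (Subtype.val : U → W) w` (`nm_top_surj` for `C = asNmCoh ℝ`);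
`as_dict_repr` gives a representative `φ'` with support in `U`; equal classes: `φ - φ' ∈ asB`, i.e. `φ = φ' + δ β + null` with `β` off `∞` (for `d = 0`: `φ - φ'` null). -/
theorem sm_top_conc [ConnectedSpace W] (hW : NmEucl d W) (U : Set W) (hU : IsOpen U)
    (hne : U.Nonempty) (x : (asObj (OnePoint W)).C) (hdeg : asObjPr (OnePoint W) d x = x)
    (hd : (asObj (OnePoint W)).d x = 0) (hs : OnePoint.infty ∉ (asObj (OnePoint W)).supp x) :
    ∃ x' b : (asObj (OnePoint W)).C, (asObj (OnePoint W)).supp x' ⊆ ((↑) '' U : Set (OnePoint W)) ∧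
      (asObj (OnePoint W)).d x' = 0 ∧ OnePoint.infty ∉ (asObj (OnePoint W)).supp b ∧
      x = x' + (asObj (OnePoint W)).d b := by
  obtain ⟨φ, hφ, e⟩ := as_obj_pr_el d x
  rw [hdeg] at e
  have hs1 : Disjoint (asSupp φ) ({OnePoint.infty} : Set (OnePoint W)) := by
    rw [e, as_el_supp] at hs
    exact Set.disjoint_singleton_right.2 hs
  have hd1 : asSupp (asD ℝ (OnePoint W) d φ) = ∅ := by
    rw [e, as_el_d] at hd
    rw [← as_el_supp (d + 1) _ (as_d_compact d φ hφ), hd, (asObj (OnePoint W)).toFcObj.supp_zero]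
  have hZ : φ ∈ asZ ℝ (OnePoint W) {OnePoint.infty} d := ⟨hs1, hd1⟩
  haveI : Nonempty U := hne.to_subtype
  have hj : IsOpenEmbedding (Subtype.val : U → W) := hU.isOpenEmbedding_subtypeVal
  obtain ⟨w, hw⟩ := nm_top_surj (asNmCoh ℝ) hW (Subtype.val : U → W) hj
    (asCls ℝ (OnePoint W) {OnePoint.infty} d ⟨φ, hZ⟩)
  have hw' : asHcExt ℝ d (Subtype.val : U → W) w =
      asCls ℝ (OnePoint W) {OnePoint.infty} d ⟨φ, hZ⟩ := hw
  obtain ⟨φ', hs', he'⟩ := as_dict_repr (k := ℝ) (Subtype.val : U → W) hj d w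
  rw [hw', as_cls_eq_iff] at he'
  have hc' : IsCompact (asSupp φ'.1) := (as_supp_closed φ'.1).isCompact
  have hcs : IsCompact (asSupp (φ - φ'.1)) := (as_supp_closed _).isCompact
  obtain ⟨b, hb1, hb2⟩ := smt_B_split _ d (φ - φ'.1) hcs he'
  refine ⟨asEl _ d φ'.1 hc', b, ?_, ?_, ?_, ?_⟩
  · rw [as_el_supp]
    refine hs'.trans ?_
    rintro _ ⟨u, rfl⟩
    exact ⟨u.1, u.2, rfl⟩
  · rw [as_el_d, ← (asObj (OnePoint W)).supp_empty_iff, as_el_supp]
    exact φ'.2.2
  · exact Set.disjoint_singleton_right.1 hb1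
  · rw [← hb2, e, ← as_el_add d _ _ hc' hcs (by rw [add_sub_cancel]; exact hφ)]
    exact as_el_congr _ _ _ _ _ (by rw [add_sub_cancel])

theorem smt_pullL_congr {X Y : Type} [TopologicalSpace X] [TopologicalSpace Y] (f g : X → Y)
    (hf : IsProperMap f) (hg : IsProperMap g) (h : f = g) (m : (asObj Y).C) :
    asObjPullL f hf m = asObjPullL g hg m := by
  subst h
  rfl

/-- (T3) HOMOTOPY INVARIANCE with compact supports.  Plan: `F` from `hH`; `m = F^# γ` is a cycle on `P × I` (`as_objPullL_d`), `supp m ⊆ F ⁻¹' supp γ ⊆ (↑ '' K) × I` because `F = ξ` off `K` and `ξ ∉ supp γ`;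
`as_obj_htpy` with `U = {∞}ᶜ`, `t = 0`, `t' = 1`; `σ_t^# F^# = (F ∘ σ_t)^#` (`as_objPullL_comp`). -/
theorem sm_top_htpy (f g : OnePoint W → S5Sph d) (hf : Continuous f) (hg : Continuous g)
    (hH : S5Htpy d f g) (γ : (asObj (S5Sph d)).C) (hγ : (asObj (S5Sph d)).d γ = 0)
    (hN : s5North d ∉ (asObj (S5Sph d)).supp γ) :
    ∃ b : (asObj (OnePoint W)).C, OnePoint.infty ∉ (asObj (OnePoint W)).supp b ∧
      asObjPullL g hg.isProperMap γ - asObjPullL f hf.isProperMap γ = (asObj (OnePoint W)).d b := by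
  obtain ⟨F, hF, h0, h1, K, hK, hoff⟩ := hH
  have hd : (asObj (OnePoint W × unitInterval)).d (asObjPullL F hF.isProperMap γ) = 0 := by
    rw [← as_objPullL_d, hγ, map_zero]
  have hm : Prod.fst '' (asObj (OnePoint W × unitInterval)).supp (asObjPullL F hF.isProperMap γ) ⊆
      ({OnePoint.infty}ᶜ : Set (OnePoint W)) := by
    rintro _ ⟨⟨x, t⟩, hx, rfl⟩ hinf
    have hx1 : F (x, t) ∈ (asObj (S5Sph d)).supp γ := as_objPullL_supp F hF.isProperMap γ hx
    have hx2 : x ∉ ((↑) '' K : Set (OnePoint W)) := by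
      rintro ⟨w, _, hw⟩
      have hinf' : x = OnePoint.infty := hinf
      rw [hinf'] at hw
      exact OnePoint.coe_ne_infty w hw
    rw [hoff x hx2 t] at hx1
    exact hN hx1
  let σ : C(OnePoint W, OnePoint W × unitInterval) := ⟨asSlice _ 0, as_slice_cont _ 0⟩
  let σ' : C(OnePoint W, OnePoint W × unitInterval) := ⟨asSlice _ 1, as_slice_cont _ 1⟩
  obtain ⟨b, hb, e⟩ := as_obj_htpy 0 1 _ isOpen_compl_singleton _ hm hd σ σ' (fun _ => rfl)
    (fun _ => rfl)
  refine ⟨b, fun h => hb h rfl, ?_⟩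
  rw [← e]
  have e0 : asObjPullL σ σ.continuous.isProperMap (asObjPullL F hF.isProperMap γ) =
      asObjPullL f hf.isProperMap γ := by
    rw [← as_objPullL_comp σ F σ.continuous.isProperMap hF.isProperMap
      (hF.comp σ.continuous).isProperMap]
    exact smt_pullL_congr _ _ _ _ (funext h0) γ
  have e1 : asObjPullL σ' σ'.continuous.isProperMap (asObjPullL F hF.isProperMap γ) =
      asObjPullL g hg.isProperMap γ := by
    rw [← as_objPullL_comp σ' F σ'.continuous.isProperMap hF.isProperMap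
      (hF.comp σ'.continuous).isProperMap]
    exact smt_pullL_congr _ _ _ _ (funext h1) γ
  rw [e0, e1]

/-- the homotopy between the pinch and its translate -/
theorem smt_htpy (B : S5Act p W) (P₀ : OnePoint W → S5Sph d) (hP : Continuous P₀)
    (K : Set W) (hK : IsCompact K)
    (hoff : ∀ x : OnePoint W, x ∉ ((↑) '' K : Set (OnePoint W)) → P₀ x = s5North d)
    (hclose : ∀ a x, dist (P₀ (B.plus.act a x)) (P₀ x) < 1) (a : ℤ_[p]) :
    S5Htpy d P₀ (P₀ ∘ B.plus.act a) := by
  refine s5_htpy_of_close d P₀ (P₀ ∘ B.plus.act a) hP (hP.comp (s5_act_cont B.plus a))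
    (fun x => by rw [dist_comm]; exact hclose a x) (K ∪ B.act (-a) '' K)
    (hK.union (hK.image (s5_act_cont B (-a)))) ?_
  intro x hx
  refine ⟨hoff x (fun h => hx ?_), hoff _ (fun h => hx ?_)⟩
  · obtain ⟨w, hw, rfl⟩ := h
    exact ⟨w, Or.inl hw, rfl⟩
  · obtain ⟨w, hw, e⟩ := h
    refine ⟨B.act (-a) w, Or.inr ⟨w, hw, rfl⟩, ?_⟩
    rw [← s5_plus_coe, e, ← B.plus.act_add, neg_add_cancel, B.plus.act_zero]

/-- **EXPORT**, general form.
Plan: `U = {w | P₀ ↑w ≠ ξ}` is o-p-e-n and nonempty.  (T1): `x = x' + d b₁`, `x'` supported in `U`.  (T2) for `P₀`: `x' = P₀^# γ`, `γ` a cycle off `ξ`.  `a^* x' = (P₀ ∘ a)^# γ` (T4).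
`S5Htpy d P₀ (P₀ ∘ a)` by `s5_htpy_of_close` with `K` = the compact set `{P₀ ≠ ξ} ∪ a⁻¹ {P₀ ≠ ξ}` closure (given by `hK`).  (T3): `a^* x' - x' = d b₂`.  `b = b₂ + a^* b₁ - b₁` (`sm_actL_d`, `sm_actL_supp`, `a·∞ = ∞`). -/
theorem sm_top_gen [ConnectedSpace W] (hW : NmEucl d W) (B : S5Act p W) (P₀ : OnePoint W → S5Sph d)
    (s : S5Sph d → OnePoint W) (hrel : AsRelHomeo P₀ s ({s5North d} : Set (S5Sph d)))
    (hne : ∃ w : W, P₀ w ≠ s5North d) (K : Set W) (hK : IsCompact K)
    (hoff : ∀ x : OnePoint W, x ∉ ((↑) '' K : Set (OnePoint W)) → P₀ x = s5North d)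
    (hclose : ∀ a x, dist (P₀ (B.plus.act a x)) (P₀ x) < 1)
    (x : (asObj (OnePoint W)).C) (hdeg : asObjPr (OnePoint W) d x = x)
    (hd : (asObj (OnePoint W)).d x = 0) (hs : OnePoint.infty ∉ (asObj (OnePoint W)).supp x)
    (a : ℤ_[p]) :
    ∃ b : (asObj (OnePoint W)).C, OnePoint.infty ∉ (asObj (OnePoint W)).supp b ∧
      smActL B.plus a x - x = (asObj (OnePoint W)).d b := by
  have hU : IsOpen {w : W | P₀ w ≠ s5North d} :=
    isOpen_compl_singleton.preimage (hrel.cont.comp OnePoint.continuous_coe)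
  obtain ⟨x', b₁, hx's, hx'd, hb₁, ex⟩ := sm_top_conc hW _ hU hne x hdeg hd hs
  have hdisj : Disjoint ((asObj (OnePoint W)).supp x') (P₀ ⁻¹' ({s5North d} : Set (S5Sph d))) := by
    rw [Set.disjoint_left]
    intro y hy hy'
    obtain ⟨w, hw, rfl⟩ := hx's hy
    exact hw hy'
  obtain ⟨γ, hγ1, hγ2, hγ3⟩ := as_obj_exc_lift P₀ s _ hrel x' hdisj
  have hact : Continuous (B.plus.act a) := s5_act_cont B.plus a
  obtain ⟨b₂, hb₂, e₂⟩ := sm_top_htpy P₀ (P₀ ∘ B.plus.act a) hrel.cont (hrel.cont.comp hact)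
    (smt_htpy B P₀ hrel.cont K hK hoff hclose a) γ (hγ3 hx'd) (Set.disjoint_singleton_right.1 hγ1)
  have e₃ : smActL B.plus a x' = asObjPullL (P₀ ∘ B.plus.act a) (hrel.cont.comp hact).isProperMap γ := by
    rw [as_objPullL_comp (B.plus.act a) P₀ hact.isProperMap hrel.cont.isProperMap, hγ2]
    rfl
  have e₄ : smActL B.plus a ((asObj (OnePoint W)).d b₁) =
      (asObj (OnePoint W)).d (smActL B.plus a b₁) := as_objPullL_d _ _ _
  have h₅ : (asObj (OnePoint W)).supp (smActL B.plus a b₁) ⊆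
      B.plus.act a ⁻¹' (asObj (OnePoint W)).supp b₁ :=
    as_objPullL_supp (B.plus.act a) hact.isProperMap b₁
  refine ⟨b₂ + smActL B.plus a b₁ - b₁, ?_, ?_⟩
  · intro h
    rcases (asObj (OnePoint W)).toFcObj.supp_sub _ _ h with h | h
    · rcases (asObj (OnePoint W)).supp_add _ _ h with h | h
      · exact hb₂ h
      · have h₆ := h₅ h
        rw [Set.mem_preimage, s5_plus_infty] at h₆
        exact hb₁ h₆
    · exact hb₁ h
  · rw [map_sub, map_add, ← e₂, ← e₄, ← e₃, hγ2]
    conv_lhs => rw [ex]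
    rw [map_add]
    abel

end Gen

/-! ### the concrete pinch -/

section Conc

variable {p : ℕ} [Fact p.Prime]

/-- the pinch is a relative homeomorphism.  Plan: `s5_pinch_homeo`, rescaled to `ball z r ⊆ O`; `s y = ↑(z + r • h.symm y)` for `y ≠ ξ`. -/
theorem sm_pinch_relHomeo (d : ℕ) (O : Set (EuclideanSpace ℝ (Fin d))) (z : EuclideanSpace ℝ (Fin d))
    (r : ℝ) (hr : 0 < r) (hball : Metric.closedBall z r ⊆ O) :
    ∃ s : S5Sph d → OnePoint O, AsRelHomeo (s5PinchAt d O z r) s ({s5North d} : Set (S5Sph d)) := by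
  classical
  obtain ⟨h, hh⟩ := s5_pinch_homeo d
  let t : S5Sph d → EuclideanSpace ℝ (Fin d) := fun y =>
    if hy : y ≠ s5North d then z + r • ((h.symm ⟨y, hy⟩ : Metric.ball (0 : EuclideanSpace ℝ (Fin d)) 1) :
      EuclideanSpace ℝ (Fin d)) else z
  have ht1 : ∀ (y : S5Sph d) (hy : y ≠ s5North d), t y = z + r •
      ((h.symm ⟨y, hy⟩ : Metric.ball (0 : EuclideanSpace ℝ (Fin d)) 1) : EuclideanSpace ℝ (Fin d)) := by
    intro y hy
    exact dif_pos hy
  have htO : ∀ y, t y ∈ O := by
    intro y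
    apply hball
    by_cases hy : y ≠ s5North d
    · rw [ht1 y hy, Metric.mem_closedBall, dist_eq_norm, add_sub_cancel_left, norm_smul,
        Real.norm_eq_abs, abs_of_pos hr]
      have h1 := (h.symm ⟨y, hy⟩).2
      rw [Metric.mem_ball, dist_zero_right] at h1
      nlinarith
    · have : t y = z := dif_neg hy
      rw [this]
      exact Metric.mem_closedBall_self hr.le
  have htc : ∀ y, y ≠ s5North d → ContinuousAt t y := by
    intro y hy
    have hon : ContinuousOn t {y | y ≠ s5North d} := by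
      rw [continuousOn_iff_continuous_domRestrict]
      have e : Set.domRestrict {y | y ≠ s5North d} t = fun y : {y : S5Sph d // y ≠ s5North d} =>
          z + r • ((h.symm y : Metric.ball (0 : EuclideanSpace ℝ (Fin d)) 1) :
            EuclideanSpace ℝ (Fin d)) := by
        funext y
        exact ht1 y.1 y.2
      rw [e]
      have c1 : Continuous (fun y : {y : S5Sph d // y ≠ s5North d} =>
          ((h.symm y : Metric.ball (0 : EuclideanSpace ℝ (Fin d)) 1) : EuclideanSpace ℝ (Fin d))) :=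
        continuous_subtype_val.comp h.symm.continuous
      exact continuous_const.add (c1.const_smul r)
    exact hon.continuousAt (isOpen_compl_singleton.mem_nhds hy)
  refine ⟨fun y => ((⟨t y, htO y⟩ : O) : OnePoint O), s5_pinchAt_cont d O z r hr hball,
    isClosed_singleton, ?_, ?_, ?_⟩
  · intro y hy
    have hy' : y ≠ s5North d := hy
    rw [s5_pinchAt_coe]
    show s5Pinch d (r⁻¹ • (t y - z)) = y
    rw [ht1 y hy', add_sub_cancel_left, smul_smul, inv_mul_cancel₀ hr.ne', one_smul, ← hh,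
      Homeomorph.apply_symm_apply]
  · intro x hx
    have hx' : s5PinchAt d O z r x ≠ s5North d := hx
    induction x using OnePoint.rec with
    | infty => exact (hx' rfl).elim
    | coe w =>
      rw [s5_pinchAt_coe] at hx'
      have hv : r⁻¹ • ((w : EuclideanSpace ℝ (Fin d)) - z) ∈
          Metric.ball (0 : EuclideanSpace ℝ (Fin d)) 1 := by
        rw [Metric.mem_ball, dist_zero_right]
        by_contra hc
        exact hx' ((s5_pinch_eq_north_iff d _).2 (not_lt.1 hc))
      have e1 : h.symm ⟨s5Pinch d (r⁻¹ • ((w : EuclideanSpace ℝ (Fin d)) - z)), hx'⟩ =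
          ⟨r⁻¹ • ((w : EuclideanSpace ℝ (Fin d)) - z), hv⟩ := by
        rw [Homeomorph.symm_apply_eq]
        apply Subtype.ext
        rw [hh]
      have e2 : t (s5PinchAt d O z r (w : OnePoint O)) = (w : EuclideanSpace ℝ (Fin d)) := by
        rw [s5_pinchAt_coe, ht1 _ hx', e1]
        show z + r • (r⁻¹ • ((w : EuclideanSpace ℝ (Fin d)) - z)) = w
        rw [smul_smul, mul_inv_cancel₀ hr.ne', one_smul, add_sub_cancel]
      show (((⟨t (s5PinchAt d O z r (w : OnePoint O)), _⟩ : O)) : OnePoint O) = (w : OnePoint O)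
      congr 1
      exact Subtype.ext e2
  · intro y hy
    have h1 : ContinuousAt (Set.codRestrict t O htO) y := (htc y hy).codRestrict htO
    exact OnePoint.continuous_coe.continuousAt.comp h1

/-- **EXPORT** for the data of `S5Out`. -/
theorem sm_top (d : ℕ) (O : Set (EuclideanSpace ℝ (Fin d))) [LocallyCompactSpace O] (hO : IsOpen O)
    (hc : IsConnected O) (B : S5Act p O) (z : EuclideanSpace ℝ (Fin d)) (r : ℝ) (hr : 0 < r)
    (hball : Metric.closedBall z r ⊆ O)
    (hclose : ∀ a x, dist (s5PinchAt d O z r (B.plus.act a x)) (s5PinchAt d O z r x) < 1 / 4)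
    (x : (asObj (OnePoint O)).C) (hdeg : asObjPr (OnePoint O) d x = x)
    (hd : (asObj (OnePoint O)).d x = 0) (hs : OnePoint.infty ∉ (asObj (OnePoint O)).supp x)
    (a : ℤ_[p]) :
    ∃ b : (asObj (OnePoint O)).C, OnePoint.infty ∉ (asObj (OnePoint O)).supp b ∧
      smActL B.plus a x - x = (asObj (OnePoint O)).d b := by
  have : ConnectedSpace O := isConnected_iff_connectedSpace.1 hc
  obtain ⟨s, hrel⟩ := sm_pinch_relHomeo d O z r hr hball
  have hW : NmEucl d O := ⟨Subtype.val, hO.isOpenEmbedding_subtypeVal⟩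
  have hne : ∃ w : O, s5PinchAt d O z r (w : OnePoint O) ≠ s5North d := by
    refine ⟨⟨z, hball (Metric.mem_closedBall_self hr.le)⟩, ?_⟩
    rw [s5_pinchAt_coe, Ne, s5_pinch_eq_north_iff, sub_self, smul_zero, norm_zero]
    norm_num
  have hoff : ∀ y : OnePoint O,
      y ∉ ((↑) '' ((↑) ⁻¹' Metric.closedBall z r : Set O) : Set (OnePoint O)) →
      s5PinchAt d O z r y = s5North d := by
    intro y hy
    induction y using OnePoint.rec with
    | infty => rfl
    | coe w =>
      refine s5_pinchAt_outside d O z r hr w (fun hw => hy ⟨w, ?_, rfl⟩)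
      have hw' : (w : EuclideanSpace ℝ (Fin d)) ∈ Metric.closedBall z r :=
        Metric.ball_subset_closedBall hw
      exact Set.mem_preimage.2 hw'
  exact sm_top_gen hW B (s5PinchAt d O z r) s hrel hne _
    (s5_compact_preimage d O _ (isCompact_closedBall z r) hball) hoff
    (fun a y => (hclose a y).trans (by norm_num)) x hdeg hd hs a

/-- elements supported off `∞` pull back under the collapse to elements supported in the interior of the cube -/
theorem sm_collapse_supp (d : ℕ) (O : Set (EuclideanSpace ℝ (Fin d))) [LocallyCompactSpace O]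
    (hO : IsOpen O) (hbox : O ⊆ nmBox d (fun _ => -1) (fun _ => 1)) (b : (asObj (OnePoint O)).C)
    (hb : OnePoint.infty ∉ (asObj (OnePoint O)).supp b) :
    (asObj (EhCb d)).supp (asObjPullL (smCollapse d O hO) (smCollapse d O hO).continuous.isProperMap b) ⊆
      (ehCbBd d)ᶜ := by
  intro y hy hbd
  have h1 : smCollapse d O hO y ∈ (asObj (OnePoint O)).supp b :=
    as_objPullL_supp (smCollapse d O hO) (smCollapse d O hO).continuous.isProperMap b hy
  obtain ⟨i, hi⟩ := hbd
  have h2 : smVec d y ∉ O := by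
    intro hO'
    have h3 := hbox hO' i
    have h4 : smVec d y i = (y i : ℝ) := rfl
    rw [h4] at h3
    have h5 : |(y i : ℝ)| < 1 := abs_lt.2 h3
    exact absurd hi h5.ne
  have h6 : smCollapse d O hO y = OnePoint.infty := smColl_of_not_mem d O y h2
  rw [h6] at h1
  exact hb h1

theorem smt_pr_pr {X : Type} [TopologicalSpace X] (n : ℕ) (m : (asObj X).C) :
    asObjPr X n (asObjPr X n m) = asObjPr X n m := by
  obtain ⟨φ, hφ, e⟩ := as_obj_pr_el n m
  rw [e, as_obj_pr_el_same]

theorem smt_pr_d_exists {X : Type} [TopologicalSpace X] (n : ℕ) (m : (asObj X).C) :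
    ∃ m'' : (asObj X).C, (asObj X).supp m'' ⊆ (asObj X).supp m ∧
      asObjPr X n ((asObj X).d m) = (asObj X).d m'' := by
  cases n with
  | zero =>
    refine ⟨0, ?_, ?_⟩
    · rw [(asObj X).toFcObj.supp_zero]
      exact Set.empty_subset _
    · rw [as_obj_pr_d_zero, map_zero]
  | succ n => exact ⟨asObjPr X n m, as_obj_pr_supp n m, as_obj_pr_d n m⟩

/-- the action preserves "supported off `∞`" -/
theorem smt_act_off {W : Type} [TopologicalSpace W] [T2Space W] [LocallyCompactSpace W]
    (B : S5Act p W) (a : ℤ_[p]) (x : (asObj (OnePoint W)).C)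
    (hs : OnePoint.infty ∉ (asObj (OnePoint W)).supp x) :
    OnePoint.infty ∉ (asObj (OnePoint W)).supp (smActL B.plus a x) := by
  intro h
  have h₅ : (asObj (OnePoint W)).supp (smActL B.plus a x) ⊆
      B.plus.act a ⁻¹' (asObj (OnePoint W)).supp x :=
    as_objPullL_supp (B.plus.act a) (s5_act_cont B.plus a).isProperMap x
  have h₆ := h₅ h
  rw [Set.mem_preimage, s5_plus_infty] at h₆
  exact hs h₆

/-- `sm_top` for the component of degree `d` of an arbitrary cycle, pulled back to the cube -/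
theorem smt_top_pr (d : ℕ) (O : Set (EuclideanSpace ℝ (Fin d))) [LocallyCompactSpace O] (hO : IsOpen O)
    (hc : IsConnected O) (hbox : O ⊆ nmBox d (fun _ => -1) (fun _ => 1)) (B : S5Act p O)
    (z : EuclideanSpace ℝ (Fin d)) (r : ℝ) (hr : 0 < r) (hball : Metric.closedBall z r ⊆ O)
    (hclose : ∀ a x, dist (s5PinchAt d O z r (B.plus.act a x)) (s5PinchAt d O z r x) < 1 / 4)
    (x : (asObj (OnePoint O)).C) (hd : (asObj (OnePoint O)).d x = 0)
    (hs : OnePoint.infty ∉ (asObj (OnePoint O)).supp x) (a : ℤ_[p]) :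
    ∃ y : (asObj (EhCb d)).C, (asObj (EhCb d)).supp y ⊆ (ehCbBd d)ᶜ ∧
      asObjPr (EhCb d) d
        (asObjPullL (smCollapse d O hO) (smCollapse d O hO).continuous.isProperMap (smActL B.plus a x)) -
      asObjPr (EhCb d) d
        (asObjPullL (smCollapse d O hO) (smCollapse d O hO).continuous.isProperMap x) =
      (asObj (EhCb d)).d y := by
  have hd' : (asObj (OnePoint O)).d (asObjPr (OnePoint O) d x) = 0 := by
    rw [← as_obj_pr_d, hd, map_zero]
  obtain ⟨b, hb, e⟩ := sm_top d O hO hc B z r hr hball hclose (asObjPr (OnePoint O) d x)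
    (smt_pr_pr d x) hd' (fun h => hs (as_obj_pr_supp d x h)) a
  refine ⟨asObjPullL (smCollapse d O hO) (smCollapse d O hO).continuous.isProperMap b,
    sm_collapse_supp d O hO hbox b hb, ?_⟩
  have e1 : asObjPr (OnePoint O) d (smActL B.plus a x) = smActL B.plus a (asObjPr (OnePoint O) d x) :=
    as_objPullL_prc (B.plus.act a) (s5_act_cont B.plus a).isProperMap d x
  rw [as_objPullL_prc, as_objPullL_prc, e1, ← map_sub, e, as_objPullL_d]

/-- **EXPORT**: invariance of the integral on cycles.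
Plan: `I (c^# y) = I (c^# (pr_d y))` for all `y` (`as_objPullL_prc`, `hIdeg`, `as_obj_sum_pr`); `pr_d x` is a cycle of degree `d` (`as_obj_pr_d`) supported off `∞` (`as_obj_pr_supp`), `pr_d (a^* x) = a^* (pr_d x)`;
`sm_top`; `I (c^# d b) = I (d c^# b) = 0` (`as_objPullL_d`, `sm_collapse_supp`, `hI`). -/
theorem sm_top_int (d : ℕ) (O : Set (EuclideanSpace ℝ (Fin d))) [LocallyCompactSpace O] (hO : IsOpen O)
    (hc : IsConnected O) (hbox : O ⊆ nmBox d (fun _ => -1) (fun _ => 1)) (B : S5Act p O)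
    (z : EuclideanSpace ℝ (Fin d)) (r : ℝ) (hr : 0 < r) (hball : Metric.closedBall z r ⊆ O)
    (hclose : ∀ a x, dist (s5PinchAt d O z r (B.plus.act a x)) (s5PinchAt d O z r x) < 1 / 4)
    (I : (asObj (EhCb d)).C →ₗ[ℝ] ℝ)
    (hI : ∀ m, (asObj (EhCb d)).supp m ⊆ (ehCbBd d)ᶜ → I ((asObj (EhCb d)).d m) = 0)
    (hIdeg : ∀ n, n ≠ d → ∀ m, I (asObjPr (EhCb d) n m) = 0)
    (x : (asObj (OnePoint O)).C) (hd : (asObj (OnePoint O)).d x = 0)
    (hs : OnePoint.infty ∉ (asObj (OnePoint O)).supp x) (a : ℤ_[p]) :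
    I (asObjPullL (smCollapse d O hO) (smCollapse d O hO).continuous.isProperMap (smActL B.plus a x)) =
      I (asObjPullL (smCollapse d O hO) (smCollapse d O hO).continuous.isProperMap x) := by
  have hpr : ∀ m : (asObj (EhCb d)).C, I m = I (asObjPr (EhCb d) d m) := by
    intro m
    refine as_obj_induction (fun m => I m = I (asObjPr (EhCb d) d m)) ?_ ?_ ?_ m
    · simp only [map_zero]
    · intro u v hu hv
      simp only [map_add, hu, hv]
    · intro q φ hφ
      by_cases hq : d = q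
      · subst hq
        rw [as_obj_pr_el_same]
      · rw [as_obj_pr_el_ne d q hq, map_zero, ← as_obj_pr_el_same q φ hφ]
        exact hIdeg q (fun h => hq h.symm) _
  obtain ⟨y, hy, e⟩ := smt_top_pr d O hO hc hbox B z r hr hball hclose x hd hs a
  rw [hpr, hpr (asObjPullL (smCollapse d O hO) (smCollapse d O hO).continuous.isProperMap x),
    ← sub_eq_zero, ← map_sub, e]
  exact hI y hy

/-- the interior of the cube is a box -/
theorem smt_interior (d : ℕ) : (ehCbBd d)ᶜ = asBx d (fun _ => -1) (fun _ => 1) := by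
  ext y
  constructor
  · intro hy i
    have h1 := (y i).2
    have h2 : |(y i : ℝ)| ≠ 1 := fun h => hy ⟨i, h⟩
    constructor
    · rcases lt_or_eq_of_le h1.1 with h | h
      · exact h
      · exact (h2 (by rw [← h]; norm_num)).elim
    · rcases lt_or_eq_of_le h1.2 with h | h
      · exact h
      · exact (h2 (by rw [h]; norm_num)).elim
  · rintro hy ⟨i, hi⟩
    have h5 : |(y i : ℝ)| < 1 := abs_lt.2 (hy i)
    exact absurd hi h5.ne

/-- a cycle supported in `U` whose component of the degree of the generator is a boundary in `U` is a boundary in `U` -/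
theorem smt_gen_bd {X : Type} [TopologicalSpace X] (U : Set X) (n : ℕ) (c₀ : (asObj X).C)
    (hgen : AsGenAt (asObj X) U c₀) (hdeg : asObjPr X n c₀ = c₀) (u : (asObj X).C)
    (hu : (asObj X).supp u ⊆ U) (hd : (asObj X).d u = 0) (y : (asObj X).C)
    (hy : (asObj X).supp y ⊆ U) (e : asObjPr X n u = (asObj X).d y) :
    ∃ y' : (asObj X).C, (asObj X).supp y' ⊆ U ∧ u = (asObj X).d y' := by
  obtain ⟨_, _, hnb, hall⟩ := hgen
  obtain ⟨t, m', hm', eu⟩ := hall u hu hd
  obtain ⟨m'', hm'', e''⟩ := smt_pr_d_exists n m'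
  have e1 : t • c₀ = (asObj X).d (y - m'') := by
    rw [map_sub, ← e, ← e'']
    conv_rhs => rw [eu]
    rw [map_add, map_smul, hdeg, add_sub_cancel_right]
  have ht : t = 0 := by
    by_contra ht
    refine hnb (t⁻¹ • (y - m'')) ?_ ?_
    · refine ((asObj X).supp_smul _ _).trans (((asObj X).toFcObj.supp_sub _ _).trans ?_)
      exact Set.union_subset hy (hm''.trans hm')
    · rw [map_smul, ← e1, smul_smul, inv_mul_cancel₀ ht, one_smul]
  refine ⟨m', hm', ?_⟩
  rw [eu, ht, zero_smul, zero_add]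

/-- **EXPORT**, TOTAL DEGREE (the form used by `SmInst`; no homogeneity of the integral is needed).
Plan: `u = c^#(a^* x - x)` is a cycle supported in the interior `(ehCbBd d)ᶜ = asBx d (-1) 1` (`sm_collapse_supp`, `sm_actL_supp`, `as_objPullL_d`).  `as_bx_gen d (-1) 1` gives a generator `c₀` of degree `d`
(the filter is everything): `u = t • c₀ + d m'`, `supp m' ⊆` interior.  Apply `pr_d`: `pr_d u = t • c₀ + d (pr_{d-1} m')` (`as_obj_pr_d`; for `d = 0` the last term is `0`), and
`pr_d u = c^#(a^* (pr_d x) - pr_d x) = c^# (d b) = d (c^# b)` by `sm_top` applied to the cycle `pr_d x` (`as_objPullL_prc`; `smActL` is an `asObjPullL`).  So `t • c₀` is the boundary of an element supported in the interior, and `t = 0`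
by the third clause of `AsGenAt`. -/
theorem sm_top_tot (d : ℕ) (O : Set (EuclideanSpace ℝ (Fin d))) [LocallyCompactSpace O] (hO : IsOpen O)
    (hc : IsConnected O) (hbox : O ⊆ nmBox d (fun _ => -1) (fun _ => 1)) (B : S5Act p O)
    (z : EuclideanSpace ℝ (Fin d)) (r : ℝ) (hr : 0 < r) (hball : Metric.closedBall z r ⊆ O)
    (hclose : ∀ a x, dist (s5PinchAt d O z r (B.plus.act a x)) (s5PinchAt d O z r x) < 1 / 4)
    (x : (asObj (OnePoint O)).C) (hd : (asObj (OnePoint O)).d x = 0)
    (hs : OnePoint.infty ∉ (asObj (OnePoint O)).supp x) (a : ℤ_[p]) :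
    ∃ y : (asObj (EhCb d)).C, (asObj (EhCb d)).supp y ⊆ (ehCbBd d)ᶜ ∧
      asObjPullL (smCollapse d O hO) (smCollapse d O hO).continuous.isProperMap (smActL B.plus a x) -
        asObjPullL (smCollapse d O hO) (smCollapse d O hO).continuous.isProperMap x =
      (asObj (EhCb d)).d y := by
  obtain ⟨c₀, hgen, hdeg⟩ := as_bx_gen d (fun _ => -1) (fun _ => 1)
    (fun _ => Or.inr ⟨le_rfl, by norm_num, le_rfl⟩)
  have hcard : (Finset.univ.filter (fun _ : Fin d => (-1 : ℝ) ≤ -1)).card = d := by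
    rw [Finset.filter_true_of_mem (fun _ _ => le_rfl), Finset.card_univ, Fintype.card_fin]
  rw [hcard] at hdeg
  rw [← smt_interior d] at hgen
  obtain ⟨y, hy, e⟩ := smt_top_pr d O hO hc hbox B z r hr hball hclose x hd hs a
  have hsupp : (asObj (EhCb d)).supp
      (asObjPullL (smCollapse d O hO) (smCollapse d O hO).continuous.isProperMap (smActL B.plus a x) -
        asObjPullL (smCollapse d O hO) (smCollapse d O hO).continuous.isProperMap x) ⊆ (ehCbBd d)ᶜ :=
    ((asObj (EhCb d)).toFcObj.supp_sub _ _).trans (Set.union_subset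
      (sm_collapse_supp d O hO hbox _ (smt_act_off B a x hs)) (sm_collapse_supp d O hO hbox x hs))
  have hda : (asObj (OnePoint O)).d (smActL B.plus a x) = 0 := by
    have e4 : smActL B.plus a ((asObj (OnePoint O)).d x) =
        (asObj (OnePoint O)).d (smActL B.plus a x) := as_objPullL_d _ _ _
    rw [← e4, hd, map_zero]
  have hcyc : (asObj (EhCb d)).d
      (asObjPullL (smCollapse d O hO) (smCollapse d O hO).continuous.isProperMap (smActL B.plus a x) -
        asObjPullL (smCollapse d O hO) (smCollapse d O hO).continuous.isProperMap x) = 0 := by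
    rw [map_sub, ← as_objPullL_d, ← as_objPullL_d, hda, hd, map_zero, sub_zero]
  exact smt_gen_bd _ d c₀ hgen hdeg _ hsupp hcyc y hy (by rw [map_sub, e])

end Conc

end Claimed.Agent.R304
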