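/-
Row 304 (S0559, Hilbert-Smith).  Owner: helper28.  PACKAGE SmInst, part #Core: the smooth cochains off the point at infinity are a term of `SmCore`
(`smiCore`, for the form `(wcCube d).push (smF d O hO B)`).  Plan and notation: header of `SmInst.lean`.  This file has no gap of its own.
Reusable: `smi_tMap_lof/comp/scal` (totalised degree preserving maps), `smi_gam_d`, `smi_pull_gam`, `smi_mul_gam`, `smi_relHomeo` (the collapse is a relative homeomorphism),
`smi_exc_inj` (injectivity of the pull back along a relative homeomorphism on elements supported off the exceptional set), `smiVal/smiMk/smiOp` (elements and operators of `(smS A).res E`).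
-/
import Claimed.Agent.R304.SmChar
import Claimed.Agent.R304.SmQi
import Claimed.Agent.R304.SmTop
import Claimed.Agent.R304.S5Main
import Claimed.Agent.R304.WtCube

set_option autoImplicit false

namespace Claimed.Agent.R304

open Topology TopologicalSpace

/-! ### 0. totalised degree preserving maps -/

theorem smi_tMap_lof {X Y : Type} [TopologicalSpace X] [TopologicalSpace Y]
    (T : ∀ q, AsQ X q →ₗ[ℝ] AsQ Y q) (q : ℕ) (a : AsQ X q) :
    asTMap T (DirectSum.lof ℝ ℕ (fun q => AsQ X q) q a) = DirectSum.lof ℝ ℕ (fun q => AsQ Y q) q (T q a) := by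
  unfold asTMap
  rw [DirectSum.toModule_lof]
  rfl

theorem smi_tMap_comp {X Y Z : Type} [TopologicalSpace X] [TopologicalSpace Y] [TopologicalSpace Z]
    (T : ∀ q, AsQ Y q →ₗ[ℝ] AsQ Z q) (T' : ∀ q, AsQ X q →ₗ[ℝ] AsQ Y q) (m : AsT X) :
    asTMap T (asTMap T' m) = asTMap (fun q => T q ∘ₗ T' q) m := by
  have h : (asTMap T) ∘ₗ (asTMap T') = asTMap (fun q => T q ∘ₗ T' q) := by
    apply DirectSum.linearMap_ext
    intro q
    apply LinearMap.ext
    intro a
    show asTMap T (asTMap T' (DirectSum.lof ℝ ℕ (fun q => AsQ X q) q a)) =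
      asTMap (fun q => T q ∘ₗ T' q) (DirectSum.lof ℝ ℕ (fun q => AsQ X q) q a)
    rw [smi_tMap_lof, smi_tMap_lof, smi_tMap_lof]
    rfl
  exact LinearMap.congr_fun h m

/-- scalar operators commute with all degree preserving maps -/
theorem smi_tMap_scal {X Y : Type} [TopologicalSpace X] [TopologicalSpace Y]
    (T : ∀ q, AsQ X q →ₗ[ℝ] AsQ Y q) (c : ℕ → ℝ) (m : AsT X) :
    asTMap T (asTMap (fun q => c q • LinearMap.id) m) = asTMap (fun q => c q • LinearMap.id) (asTMap T m) := by
  rw [smi_tMap_comp, smi_tMap_comp]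
  have h : (fun q => T q ∘ₗ (c q • LinearMap.id)) = fun q => (c q • LinearMap.id : AsQ Y q →ₗ[ℝ] AsQ Y q) ∘ₗ T q := by
    funext q
    apply LinearMap.ext
    intro a
    simp
  rw [h]

theorem smi_gam_sgn (X : Type) [TopologicalSpace X] (d : ℕ) (m : (asObj X).C) :
    wcGam X d (asObjSgn X m) = asObjSgn X (wcGam X d m) :=
  smi_tMap_scal (fun q => wcC d q • LinearMap.id) (fun q => (-1 : ℝ) ^ q) m

theorem smi_gam_d (X : Type) [TopologicalSpace X] (d : ℕ) (m : (asObj X).C) :
    (asObj X).d (wcGam X d m) = wtK (d : ZMod 4) • asObjSgn X (wcGam X d ((asObj X).d m)) := by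
  have h1 := wc_gam_d X d (asObjSgn X m)
  rw [as_obj_sgn_sgn] at h1
  have h2 : (asObj X).d (asObjSgn X m) = - asObjSgn X ((asObj X).d m) := by
    rw [as_obj_sgn_d, neg_neg]
  rw [h2, map_neg, neg_smul, neg_inj] at h1
  rw [← smi_gam_sgn, h1, wc_K_nat, smul_smul, ← pow_add, ← two_mul, pow_mul]
  simp

theorem smi_pull_gam {X Y : Type} [TopologicalSpace X] [TopologicalSpace Y] (f : X → Y)
    (hf : IsProperMap f) (d : ℕ) (m : (asObj Y).C) :
    asObjPullL f hf (wcGam Y d m) = wcGam X d (asObjPullL f hf m) :=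
  smi_tMap_scal (fun q => asQPull f hf q) (fun q => wcC d q) m

theorem smi_mul_gam (P : Type) [TopologicalSpace P] (f : P → ℝ) (d : ℕ) (m : (asObj P).C) :
    asObjMulL P f (wcGam P d m) = wcGam P d (asObjMulL P f m) :=
  smi_tMap_scal _ (fun q => wcC d q) m

theorem smi_gam_el (X : Type) [TopologicalSpace X] (d q : ℕ) (φ : AsC ℝ X q) (hφ : IsCompact (asSupp φ)) :
    wcGam X d (asEl X q φ hφ) = wcC d q • asEl X q φ hφ := by
  have h := smi_tMap_lof (X := X) (Y := X) (fun q => wcC d q • LinearMap.id) q (asQMk X q ⟨φ, hφ⟩)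
  have h2 : DirectSum.lof ℝ ℕ (fun q => AsQ X q) q
      ((wcC d q • LinearMap.id : AsQ X q →ₗ[ℝ] AsQ X q) (asQMk X q ⟨φ, hφ⟩)) =
      wcC d q • DirectSum.lof ℝ ℕ (fun q => AsQ X q) q (asQMk X q ⟨φ, hφ⟩) := by simp
  exact h.trans h2

variable {p : ℕ} [Fact p.Prime]

theorem smi_span_gam {P : Type} [TopologicalSpace P] (A : S5Act p P) (d : ℕ) (m : (asObj P).C)
    (hm : m ∈ smSpan A) : wcGam P d m ∈ smSpan A := by
  unfold smSpan at hm ⊢
  induction hm using Submodule.span_induction with
  | mem x hx =>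
    obtain ⟨n, φ, hφ, h, rfl⟩ := hx
    rw [smi_gam_el]
    exact Submodule.smul_mem _ _ (Submodule.subset_span ⟨n, φ, hφ, h, rfl⟩)
  | zero => rw [map_zero]; exact Submodule.zero_mem _
  | add x y _ _ hx hy => rw [map_add]; exact Submodule.add_mem _ hx hy
  | smul c x _ hx => rw [map_smul]; exact Submodule.smul_mem _ _ hx


/-! ### 1. smooth cochains supported over a subset of the orbit space -/

section Res

variable {P : Type} [TopologicalSpace P] [CompactSpace P] [T2Space P] (A : S5Act p P)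
  (E : Set (SmOrb A))

/-- the underlying element of `asObj P` -/
noncomputable def smiVal : ((smS A).res E).C →ₗ[ℝ] (asObj P).C :=
  (smIncl A).f ∘ₗ (fcResIncl (smS A) E).f

theorem smi_val_inj : Function.Injective (smiVal A E) := by
  intro x y h
  exact Subtype.ext (Subtype.ext h)

theorem smi_val_mem (x : ((smS A).res E).C) : smiVal A E x ∈ smSpan A := x.1.2

theorem smi_supp (x : ((smS A).res E).C) :
    ((smS A).res E).supp x = smQ A '' (asObj P).supp (smiVal A E x) := rfl

theorem smi_supp_sub (x : ((smS A).res E).C) : smQ A '' (asObj P).supp (smiVal A E x) ⊆ E := x.2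

theorem smi_val_d (x : ((smS A).res E).C) :
    smiVal A E (((smS A).res E).d x) = (asObj P).d (smiVal A E x) := rfl

/-- constructor -/
noncomputable def smiMk (m : (asObj P).C) (h1 : m ∈ smSpan A) (h2 : smQ A '' (asObj P).supp m ⊆ E) :
    ((smS A).res E).C := ⟨⟨m, h1⟩, h2⟩

theorem smi_val_mk (m : (asObj P).C) (h1 : m ∈ smSpan A) (h2 : smQ A '' (asObj P).supp m ⊆ E) :
    smiVal A E (smiMk A E m h1 h2) = m := rfl

/-- restriction of an operator on `asObj P` which preserves smooth cochains and is local over the orbit space -/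
noncomputable def smiOp (T : (asObj P).C →ₗ[ℝ] (asObj P).C) (h1 : ∀ m ∈ smSpan A, T m ∈ smSpan A)
    (h2 : ∀ m, smQ A '' (asObj P).supp (T m) ⊆ smQ A '' (asObj P).supp m) :
    ((smS A).res E).C →ₗ[ℝ] ((smS A).res E).C where
  toFun x := smiMk A E (T (smiVal A E x)) (h1 _ (smi_val_mem A E x)) ((h2 _).trans (smi_supp_sub A E x))
  map_add' x y := by
    apply smi_val_inj A E
    show T (smiVal A E (x + y)) = T (smiVal A E x) + T (smiVal A E y)
    rw [map_add, map_add]
  map_smul' c x := by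
    apply smi_val_inj A E
    show T (smiVal A E (c • x)) = c • T (smiVal A E x)
    rw [map_smul, map_smul]

theorem smi_val_op (T : (asObj P).C →ₗ[ℝ] (asObj P).C) (h1 : ∀ m ∈ smSpan A, T m ∈ smSpan A)
    (h2 : ∀ m, smQ A '' (asObj P).supp (T m) ⊆ smQ A '' (asObj P).supp m) (x : ((smS A).res E).C) :
    smiVal A E (smiOp A E T h1 h2 x) = T (smiVal A E x) := rfl

theorem smi_op_loc (T : (asObj P).C →ₗ[ℝ] (asObj P).C) (h1 : ∀ m ∈ smSpan A, T m ∈ smSpan A)
    (h2 : ∀ m, smQ A '' (asObj P).supp (T m) ⊆ smQ A '' (asObj P).supp m) :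
    FcLoc ((smS A).res E) ((smS A).res E) (smiOp A E T h1 h2) := fun _ => h2 _

omit [CompactSpace P] [T2Space P] in
theorem smi_cup_supp (x y : (asObj P).C) :
    smQ A '' (asObj P).supp (asObjCup P x y) ⊆
      smQ A '' (asObj P).supp x ∩ smQ A '' (asObj P).supp y :=
  (Set.image_mono (as_objCup_supp x y)).trans (Set.image_inter_subset _ _ _)

/-- the cup product -/
noncomputable def smiCup : ((smS A).res E).C →ₗ[ℝ] ((smS A).res E).C →ₗ[ℝ] ((smS A).res E).C :=
  LinearMap.mk₂ ℝ
    (fun x y => smiMk A E (asObjCup P (smiVal A E x) (smiVal A E y))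
      (sm_span_cup A _ _ (smi_val_mem A E x) (smi_val_mem A E y))
      (((smi_cup_supp A _ _).trans Set.inter_subset_left).trans (smi_supp_sub A E x)))
    (fun x x' y => by
      apply smi_val_inj A E
      show asObjCup P (smiVal A E (x + x')) (smiVal A E y) =
        asObjCup P (smiVal A E x) (smiVal A E y) + asObjCup P (smiVal A E x') (smiVal A E y)
      rw [map_add, LinearMap.map_add₂])
    (fun c x y => by
      apply smi_val_inj A E
      show asObjCup P (smiVal A E (c • x)) (smiVal A E y) = c • asObjCup P (smiVal A E x) (smiVal A E y)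
      rw [map_smul, LinearMap.map_smul₂])
    (fun x y y' => by
      apply smi_val_inj A E
      show asObjCup P (smiVal A E x) (smiVal A E (y + y')) =
        asObjCup P (smiVal A E x) (smiVal A E y) + asObjCup P (smiVal A E x) (smiVal A E y')
      rw [map_add, map_add])
    (fun c x y => by
      apply smi_val_inj A E
      show asObjCup P (smiVal A E x) (smiVal A E (c • y)) = c • asObjCup P (smiVal A E x) (smiVal A E y)
      rw [map_smul, map_smul])

theorem smi_val_cup (x y : ((smS A).res E).C) :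
    smiVal A E (smiCup A E x y) = asObjCup P (smiVal A E x) (smiVal A E y) := rfl

theorem smi_act_supp (a : ℤ_[p]) (m : (asObj P).C) :
    smQ A '' (asObj P).supp (smActL A a m) ⊆ smQ A '' (asObj P).supp m := by
  rw [sm_actL_supp]
  rintro _ ⟨z, hz, rfl⟩
  exact ⟨A.act a z, hz, sm_q_act A a z⟩

/-- the representation -/
noncomputable def smiRep : SmRep p ((smS A).res E).C where
  rho g := smiOp A E (smActL A g) (sm_span_act A g) (smi_act_supp A g)
  rho_zero x := smi_val_inj A E (sm_actL_zero A _)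
  rho_add a b x := smi_val_inj A E (sm_actL_add A a b _)
  smooth x := by
    obtain ⟨j, hj⟩ := sm_act_smooth A x.1
    exact ⟨j, fun a => smi_val_inj A E (congrArg (smIncl A).f (hj a))⟩

theorem smi_val_rho (g : ℤ_[p]) (x : ((smS A).res E).C) :
    smiVal A E ((smiRep A E).rho g x) = smActL A g (smiVal A E x) := rfl

/-- `(-1)^q` -/
noncomputable def smiSgn : ((smS A).res E).C →ₗ[ℝ] ((smS A).res E).C :=
  smiOp A E (asObjSgn P) (sm_span_sgn A) (fun m => by rw [as_obj_sgn_supp])

/-- `γ_d` -/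
noncomputable def smiGam (d : ℕ) : ((smS A).res E).C →ₗ[ℝ] ((smS A).res E).C :=
  smiOp A E (wcGam P d) (smi_span_gam A d) (fun m => by rw [wc_gam_supp])

theorem smi_val_sgn (x : ((smS A).res E).C) : smiVal A E (smiSgn A E x) = asObjSgn P (smiVal A E x) := rfl

theorem smi_val_gam (d : ℕ) (x : ((smS A).res E).C) :
    smiVal A E (smiGam A E d x) = wcGam P d (smiVal A E x) := rfl

end Res

/-! ### 2. the collapse is a relative homeomorphism -/

/-- the section of the collapse -/
noncomputable def smiSec (d : ℕ) (O : Set (EuclideanSpace ℝ (Fin d))) (x : OnePoint O) : EhCb d :=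
  x.elim (fun _ => Set.projIcc (-1 : ℝ) 1 (by norm_num) 0)
    (fun w i => Set.projIcc (-1 : ℝ) 1 (by norm_num) ((w : EuclideanSpace ℝ (Fin d)) i))

theorem smi_sec_coe (d : ℕ) (O : Set (EuclideanSpace ℝ (Fin d))) (w : O) :
    smiSec d O (w : OnePoint O) =
      fun i => Set.projIcc (-1 : ℝ) 1 (by norm_num) ((w : EuclideanSpace ℝ (Fin d)) i) := rfl

theorem smi_vec_sec (d : ℕ) (O : Set (EuclideanSpace ℝ (Fin d)))
    (hbox : O ⊆ nmBox d (fun _ => -1) (fun _ => 1)) (w : O) :
    smVec d (smiSec d O (w : OnePoint O)) = (w : EuclideanSpace ℝ (Fin d)) := by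
  rw [smi_sec_coe]
  unfold smVec
  ext i
  have h := hbox w.2 i
  show ((Set.projIcc (-1 : ℝ) 1 (by norm_num) ((w : EuclideanSpace ℝ (Fin d)) i) : Set.Icc (-1 : ℝ) 1) : ℝ) = _
  rw [Set.projIcc_of_mem (by norm_num) ⟨h.1.le, h.2.le⟩]

theorem smi_relHomeo (d : ℕ) (O : Set (EuclideanSpace ℝ (Fin d))) (hO : IsOpen O)
    (hbox : O ⊆ nmBox d (fun _ => -1) (fun _ => 1)) :
    AsRelHomeo (smCollapse d O hO) (smiSec d O) ({OnePoint.infty} : Set (OnePoint O)) where
  cont := (smCollapse d O hO).continuous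
  closed := isClosed_singleton
  right_inv := by
    intro y hy
    induction y using OnePoint.rec with
    | infty => exact absurd rfl hy
    | coe w =>
      have h := smi_vec_sec d O hbox w
      have hm : smVec d (smiSec d O (w : OnePoint O)) ∈ O := by rw [h]; exact w.2
      show smColl d O (smiSec d O (w : OnePoint O)) = _
      rw [smColl_of_mem d O _ hm]
      congr 1
      exact Subtype.ext h
  left_inv := by
    intro x hx
    have hm : smVec d x ∈ O := by
      by_contra hcon
      exact hx (smColl_of_not_mem d O x hcon)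
    show smiSec d O (smColl d O x) = x
    rw [smColl_of_mem d O x hm, smi_sec_coe]
    funext i
    show Set.projIcc (-1 : ℝ) 1 (by norm_num) ((x i : ℝ)) = x i
    exact Set.projIcc_val (by norm_num) (x i)
  cont_s := by
    intro y hy
    induction y using OnePoint.rec with
    | infty => exact absurd rfl hy
    | coe w =>
      rw [OnePoint.continuousAt_coe]
      have : Continuous (smiSec d O ∘ ((↑) : O → OnePoint O)) := by
        show Continuous fun w : O => fun i => Set.projIcc (-1 : ℝ) 1 (by norm_num) ((w : EuclideanSpace ℝ (Fin d)) i)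
        refine continuous_pi fun i => continuous_projIcc.comp ?_
        fun_prop
      exact this.continuousAt

/-- injectivity of `g^#` on elements supported off `A₂` -/
theorem smi_exc_inj {P₁ P₂ : Type} [TopologicalSpace P₁] [TopologicalSpace P₂] [T2Space P₂] (g : P₁ → P₂)
    (s : P₂ → P₁) (A₂ : Set P₂) (h : AsRelHomeo g s A₂) (hg : IsProperMap g) (m : (asObj P₂).C)
    (hm : Disjoint ((asObj P₂).supp m) A₂) (h0 : asObjPullL g hg m = 0) : m = 0 := by
  apply as_obj_ext
  intro q
  rw [map_zero]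
  obtain ⟨φ, hφ, e⟩ := as_obj_pr_el q m
  have hs : asSupp φ ⊆ (asObj P₂).supp m := by
    rw [← as_el_supp q φ hφ, ← e]
    exact as_obj_pr_supp q m
  have h1 : asObjPullL g hg (asObjPr P₂ q m) = 0 := by
    rw [← as_objPullL_prc, h0, map_zero]
  rw [e] at h1
  have h2 : asEl P₁ q (asPull ℝ g q φ) (as_pull_compact g hg q φ hφ) = 0 := by
    rw [← h1]
    exact (as_objPull_el (⟨g, hg.continuous⟩ : C(P₁, P₂)) hg q φ hφ).symm
  have h3 : asSupp (asPull ℝ g q φ) = ∅ := by
    rw [← as_el_supp q _ (as_pull_compact g hg q φ hφ), h2]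
    exact (asObj P₁).supp_zero
  have h4 := as_exc_null g s A₂ h q φ (Set.disjoint_of_subset_left hs hm) h3
  rw [e]
  apply ((asObj P₂).supp_empty_iff _).1
  rw [as_el_supp, h4]

/-! ### 3. the core -/

section Core

variable (d : ℕ) (O : Set (EuclideanSpace ℝ (Fin d))) (hO : IsOpen O) [LocallyCompactSpace O]
  (B : S5Act p O)

/-- `c^#` -/
noncomputable def smiC : (asObj (OnePoint O)).C →ₗ[ℝ] (asObj (EhCb d)).C :=
  asObjPullL (smCollapse d O hO) (smCollapse d O hO).continuous.isProperMap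

theorem smi_C_pre (m : (asObj (OnePoint O)).C) :
    (asObj (EhCb d)).supp (smiC d O hO m) ⊆ smCollapse d O hO ⁻¹' (asObj (OnePoint O)).supp m :=
  as_objPullL_supp _ _ m

theorem smi_C_d (m : (asObj (OnePoint O)).C) :
    smiC d O hO ((asObj (OnePoint O)).d m) = (asObj (EhCb d)).d (smiC d O hO m) :=
  as_objPullL_d _ _ m

/-- the smooth cochains supported off `∞` -/
noncomputable abbrev smiS : FcD (SmOrb B.plus) := (smS B.plus).res {smQf B.plus OnePoint.infty}ᶜ

/-- the underlying cochain -/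
noncomputable abbrev smiV : (smiS d O B).C →ₗ[ℝ] (asObj (OnePoint O)).C :=
  smiVal B.plus {smQf B.plus OnePoint.infty}ᶜ

theorem smi_infty (x : (smiS d O B).C) : OnePoint.infty ∉ (asObj (OnePoint O)).supp (smiV d O B x) := by
  intro h
  exact smi_supp_sub B.plus _ x ⟨_, h, rfl⟩ rfl

omit [LocallyCompactSpace O] in
theorem smi_off_of_infty (m : (asObj (OnePoint O)).C) (h : OnePoint.infty ∉ (asObj (OnePoint O)).supp m) :
    smQ B.plus '' (asObj (OnePoint O)).supp m ⊆ {smQf B.plus OnePoint.infty}ᶜ := by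
  rintro _ ⟨x, hx, rfl⟩ hy
  obtain ⟨a, ha⟩ := (sm_q_eq_iff B.plus _ _).1 (hy : smQf B.plus x = smQf B.plus OnePoint.infty)
  have : x = OnePoint.infty := by
    have h2 := congrArg (B.plus.act (-a)) ha
    rw [B.plus.act_neg_act] at h2
    rw [h2]; rfl
  exact h (this ▸ hx)

variable (hbox : O ⊆ nmBox d (fun _ => -1) (fun _ => 1))

include hbox in
theorem smi_C_supp (x : (smiS d O B).C) :
    (asObj (EhCb d)).supp (smiC d O hO (smiV d O B x)) ⊆ wcInt d :=
  sm_collapse_supp d O hO hbox _ (smi_infty d O B x)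

/-- the comparison map -/
noncomputable def smiJ : FcHom (smiS d O B) ((wcCube d).push (smF d O hO B)).M where
  f := LinearMap.codRestrict ((asObj (EhCb d)).sec (wcInt d)) (smiC d O hO ∘ₗ smiV d O B)
    (fun x => smi_C_supp d O hO B hbox x)
  loc := by
    intro x
    show smF d O hO B '' (asObj (EhCb d)).supp (smiC d O hO (smiV d O B x)) ⊆
      smQ B.plus '' (asObj (OnePoint O)).supp (smiV d O B x)
    rintro _ ⟨z, hz, rfl⟩
    exact ⟨smCollapse d O hO z, smi_C_pre d O hO _ hz, rfl⟩
  comm := by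
    intro x
    apply Subtype.ext
    show smiC d O hO ((asObj (OnePoint O)).d (smiV d O B x)) =
      (asObj (EhCb d)).d (smiC d O hO (smiV d O B x))
    exact smi_C_d d O hO _

/-- the underlying cochain on the cube -/
noncomputable def smiU : ((wcCube d).push (smF d O hO B)).M.C →ₗ[ℝ] (asObj (EhCb d)).C :=
  ((asObj (EhCb d)).sec (wcInt d)).subtype

theorem smi_J_val (x : (smiS d O B).C) :
    smiU d O hO B ((smiJ d O hO B hbox).f x) = smiC d O hO (smiV d O B x) := rfl

omit [LocallyCompactSpace O] in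
theorem smi_infty_of_off (m : (asObj (OnePoint O)).C)
    (h : smQ B.plus '' (asObj (OnePoint O)).supp m ⊆ {smQf B.plus OnePoint.infty}ᶜ) :
    OnePoint.infty ∉ (asObj (OnePoint O)).supp m := fun hm => h ⟨_, hm, rfl⟩ rfl

theorem smi_F_supp (m : (asObj (OnePoint O)).C) :
    smF d O hO B '' (asObj (EhCb d)).supp (smiC d O hO m) ⊆ smQ B.plus '' (asObj (OnePoint O)).supp m := by
  rintro _ ⟨z, hz, rfl⟩
  exact ⟨smCollapse d O hO z, smi_C_pre d O hO _ hz, rfl⟩

theorem smi_J_qi : (fcCone (smiJ d O hO B hbox)).AcycOn {smQf B.plus OnePoint.infty}ᶜ := by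
  intro W hW hWE
  rw [fcg_cone_acycAt_iff]
  have hq : (smIncl B.plus).QiAt W :=
    (fcg_cone_acycAt_iff _ _).1 (sm_qi B.plus W hW (Set.subset_univ _))
  set A₂ : Set (OnePoint O) := (smQ B.plus ⁻¹' W)ᶜ with hA₂
  have hA₂c : IsClosed A₂ := (hW.preimage (smQ B.plus).continuous).isClosed_compl
  have hinf : ({OnePoint.infty} : Set (OnePoint O)) ⊆ A₂ := by
    rintro _ rfl h
    exact hWE h rfl
  have hrel := as_relHomeo_mono _ _ _ A₂ (smi_relHomeo d O hO hbox) hinf hA₂c
  have hlift : ∀ b : ((wcCube d).push (smF d O hO B)).M.C,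
      ((wcCube d).push (smF d O hO B)).M.supp b ⊆ W →
      ∃ m' : (asObj (OnePoint O)).C, smQ B.plus '' (asObj (OnePoint O)).supp m' ⊆ W ∧
        smiC d O hO m' = smiU d O hO B b ∧
        ((asObj (EhCb d)).d (smiU d O hO B b) = 0 → (asObj (OnePoint O)).d m' = 0) := by
    intro b hb
    have hb' : Disjoint ((asObj (EhCb d)).supp (smiU d O hO B b)) (smCollapse d O hO ⁻¹' A₂) := by
      rw [Set.disjoint_left]
      intro z hz hzA
      exact hzA (hb ⟨z, hz, rfl⟩)
    obtain ⟨m', hm', hpull, hcyc⟩ := as_obj_exc_lift _ _ A₂ hrel (smiU d O hO B b) hb'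
    refine ⟨m', ?_, hpull, hcyc⟩
    rintro _ ⟨z, hz, rfl⟩
    by_contra hcon
    exact Set.disjoint_left.1 hm' hz hcon
  constructor
  · intro b hb hdb
    obtain ⟨m', hm'W, hpull, hcyc⟩ := hlift b hb
    have hdm' : (asObj (OnePoint O)).d m' = 0 := hcyc (congrArg (smiU d O hO B) hdb)
    obtain ⟨s0, b'', hs0, hds0, hb'', e⟩ := hq.1 m' hm'W hdm'
    have hb''i : (asObj (EhCb d)).supp (smiC d O hO b'') ⊆ wcInt d :=
      sm_collapse_supp d O hO hbox _ (smi_infty_of_off d O B b'' (hb''.trans hWE))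
    refine ⟨⟨s0, hs0.trans hWE⟩, ⟨smiC d O hO b'', hb''i⟩, hs0, Subtype.ext hds0,
      (smi_F_supp d O hO B b'').trans hb'', ?_⟩
    apply Subtype.ext
    show smiU d O hO B b = smiC d O hO ((smIncl B.plus).f s0) + (asObj (EhCb d)).d (smiC d O hO b'')
    have key : ∀ s1 b1 : (asObj (OnePoint O)).C, m' = s1 + (asObj (OnePoint O)).d b1 →
        smiC d O hO m' = smiC d O hO s1 + (asObj (EhCb d)).d (smiC d O hO b1) := fun s1 b1 h => by
      rw [h, map_add, smi_C_d]
    rw [← hpull]
    exact key _ _ e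
  · intro x b' hx hdx hb' e
    obtain ⟨m', hm'W, hpull, -⟩ := hlift b' hb'
    have hn : smiV d O B x - (asObj (OnePoint O)).d m' = 0 := by
      apply smi_exc_inj _ _ A₂ hrel (smCollapse d O hO).continuous.isProperMap
      · rw [Set.disjoint_left]
        intro z hz hzA
        rcases (asObj (OnePoint O)).supp_sub _ _ hz with h | h
        · exact hzA (hx ⟨z, h, rfl⟩)
        · exact hzA (hm'W ⟨z, (asObj (OnePoint O)).d_loc _ h, rfl⟩)
      · show smiC d O hO (smiV d O B x - (asObj (OnePoint O)).d m') = 0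
        rw [map_sub, smi_C_d, hpull, sub_eq_zero]
        exact congrArg (smiU d O hO B) e
    obtain ⟨a', ha', ea'⟩ := hq.2 x.1 m' hx (congrArg Subtype.val hdx) hm'W (sub_eq_zero.1 hn)
    exact ⟨⟨a', ha'.trans hWE⟩, ha', Subtype.ext ea'⟩

/-- the integral -/
noncomputable def smiI0 : (smiS d O B).C →ₗ[ℝ] ℝ :=
  (1 / 2 : ℝ) • ((wcI d).I ∘ₗ smiC d O hO ∘ₗ smiV d O B)

theorem smi_I0_apply (x : (smiS d O B).C) :
    smiI0 d O hO B x = 1 / 2 * (wcI d).I (smiC d O hO (smiV d O B x)) := rfl

theorem smi_C_cup (x y : (asObj (OnePoint O)).C) :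
    smiC d O hO (asObjCup (OnePoint O) x y) = asObjCup (EhCb d) (smiC d O hO x) (smiC d O hO y) :=
  as_objCup_pull _ _ x y

theorem smi_C_gam (e : ℕ) (x : (asObj (OnePoint O)).C) :
    smiC d O hO (wcGam (OnePoint O) e x) = wcGam (EhCb d) e (smiC d O hO x) :=
  smi_pull_gam _ _ e x

/-- THE CORE, for the form `f_!(wcCube d)` -/
noncomputable def smiCore (hc : IsConnected O) (out : S5Out d O B) :
    SmCore p (smQf B.plus OnePoint.infty) ((wcCube d).push (smF d O hO B)) where
  S := smiS d O B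
  j := smiJ d O hO B hbox
  j_qi := smi_J_qi d O hO B hbox
  R := smiRep B.plus _
  rho_loc := fun g => smi_op_loc B.plus _ (smActL B.plus g) (sm_span_act B.plus g) (smi_act_supp B.plus g)
  rho_d := fun g x => smi_val_inj B.plus _ (sm_actL_d B.plus g _)
  cup := smiCup B.plus _
  cup_supp := fun x y => smi_cup_supp B.plus _ _
  sgn := smiSgn B.plus _
  gam := smiGam B.plus _ d
  sgn_loc := smi_op_loc B.plus _ _ _ _
  gam_loc := smi_op_loc B.plus _ _ _ _
  sgn_sgn := fun x => smi_val_inj B.plus _ (as_obj_sgn_sgn _)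
  sgn_d := fun x => smi_val_inj B.plus _ (as_obj_sgn_d _)
  gam_d := fun x => smi_val_inj B.plus _ (smi_gam_d _ d _)
  leib := fun x y => smi_val_inj B.plus _ (as_objCup_d _ _)
  rho_cup := fun g x y => smi_val_inj B.plus _ (sm_actL_cup B.plus g _ _)
  rho_gam := fun g x => smi_val_inj B.plus _ (smi_pull_gam _ _ d _)
  I0 := smiI0 d O hO B
  I0_d := fun x => by
    rw [smi_I0_apply]
    show 1 / 2 * (wcI d).I (smiC d O hO ((asObj (OnePoint O)).d (smiV d O B x))) = 0
    rw [smi_C_d, (wcI d).stokes _ (smi_C_supp d O hO B hbox x), mul_zero]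
  form := fun x y => by
    show wcB d (wcI d).I (smiC d O hO (smiV d O B x)) (smiC d O hO (smiV d O B y)) =
      1 / 2 * (wcI d).I (smiC d O hO (asObjCup (OnePoint O) (wcGam (OnePoint O) d (smiV d O B x)) (smiV d O B y))) +
      wtE (d : ZMod 4) *
        (1 / 2 * (wcI d).I (smiC d O hO (asObjCup (OnePoint O) (wcGam (OnePoint O) d (smiV d O B y)) (smiV d O B x))))
    rw [smi_C_cup, smi_C_cup, smi_C_gam, smi_C_gam]
    show (1 / 2 : ℝ) * ((wcI d).I (asObjCup (EhCb d) (wcGam (EhCb d) d (smiC d O hO (smiV d O B x))) (smiC d O hO (smiV d O B y))) +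
      wtE (d : ZMod 4) * (wcI d).I (asObjCup (EhCb d) (wcGam (EhCb d) d (smiC d O hO (smiV d O B y))) (smiC d O hO (smiV d O B x)))) = _
    ring
  I0_inv := fun g x hx => by
    obtain ⟨y, hy, e⟩ := sm_top_tot d O hO hc hbox B out.z out.r out.r_pos out.ball_sub out.pinch_close
      (smiV d O B x) (congrArg (smiV d O B) hx) (smi_infty d O B x) g
    have e' : smiC d O hO (smActL B.plus g (smiV d O B x)) - smiC d O hO (smiV d O B x) =
      (asObj (EhCb d)).d y := e
    rw [smi_I0_apply, smi_I0_apply]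
    show 1 / 2 * (wcI d).I (smiC d O hO (smActL B.plus g (smiV d O B x))) = _
    rw [sub_eq_iff_eq_add.1 e', map_add, (wcI d).stokes y hy, zero_add]

end Core

end Claimed.Agent.R304
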