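/-
Row 304 (S0559, Hilbert-Smith).  Owner: helper89 (statement), helper138 (API), helper28 (proofs: PROVED, no gap in this file or in SmInstCore.lean; helper names `smi*`).  PACKAGE SmInst (~1200 lines; split #Core / #Shift): THE SMOOTH COCHAINS ARE A TERM OF `SmCore`.

`P = OnePoint O`, `A = B.plus`, `Y = SmOrb A`, `q = smQ A`, `y0 = q ∞`, `c = smCollapse d O hO`, `f = smF d O hO B = q ∘ c`, `𝔐.cube d = wcCube d`  (subst / `rw` along `h𝔐`; `WtForm.cast` is `▸`: use a lemma
`(x.cast h).M = x.M`, `(x.cast h).b = x.b` proved by `subst`/`cases` on a GENERAL equation `t = t'`).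
FIELDS.
  `S    := (smS A).res {y0}ᶜ`                        (smooth cochains whose support in `P` avoids `∞`: `q ⁻¹' {y0} = {∞}` since `∞` is a fixed point)
  `j    := c^# ∘ smIncl`  restricted:                `x ↦ ⟨asObjPullL c _ x, sm_collapse_supp ..⟩ ∈ (asObj (EhCb d)).sec (wcInt d)`;   local over `Y`: `supp (c^# x) ⊆ c ⁻¹' supp x` (`as_objPullL_supp`), apply `f = q ∘ c`.
  `j_qi`: over an o-p-e-n `W' ⊆ {y0}ᶜ`:  `S(W') → (q_! asObj P)(W')` is a quasi-isomorphism (`sm_qi`, `fcg_cone_acycAt_iff`);   `(asObj P)(q⁻¹W') → (asObj cube)(f⁻¹W')`, `x ↦ c^# x`, is BIJECTIVE on elements, commutes with `d`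
          (`c` restricts to a homeomorphism `f⁻¹W' = c⁻¹(q⁻¹W') → q⁻¹W' ⊆ ↑O`: `as_obj_exc_lift` / `AsRelHomeo c s {∞}` with `s` = the inclusion `O ⊆ cube`).  Compose (`fcg_qiAt_comp`).
  `R`   := `smAct A g` restricted to `S` (`sm_act_supp`);  `rho_zero/add` = `sm_actL_zero/add`;  `smooth` = `sm_act_smooth`;  `rho_loc` = `sm_act_supp`;  `rho_d` = `(smAct A g).comm`.
  `cup` := `asObjCup P` restricted (`sm_span_cup`, `as_objCup_supp`);   `sgn := asObjSgn P` (`sm_span_sgn`);   `gam := wcGam P d` (preserves `smSpan`: components, `sm_span_pr`).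
  `sgn_sgn, sgn_d, gam_d, leib` : degreewise (`as_obj_*` of `AsCup.lean`, `WtCube.lean`: `wc_gam_d`);  `wtK ((d:ℤ):ZMod 4) = (-1)^d`.
  `rho_cup` = `sm_actL_cup`;  `rho_gam`: pull backs preserve degrees (`as_objPullL_prc`).
  `I0   := (1/2) • (wcI d).I ∘ c^#`;   `I0_d` = `(wcI d).stokes` + `as_objPullL_d` + `sm_collapse_supp`.
  `form`: `c^#` commutes with `∪` and `γ_d`;  definition of `wcB`, `wcB1`.
  `I0_inv` = `sm_top_tot` (data `z, r, pinch_close` of `out : S5Out d O B`) + `stokes`.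
SHIFT.  `S5Sheet B k V σ`.  `V⁺ = ↑ '' V ⊆ P` is invariant and o-p-e-n;  `β(x) = ζ_k^{σ(x).val}` for `x = ↑w`;  `fc = Re β`, `fs = Im β` are `SmFun A V⁺ k`;   `c := smMulL A V⁺ k fc _`, `s := smMulL A V⁺ k fs _` restricted to `S` (`sm_mulL_supp`).
  `c_d`, `s_d` = `sm_mul_d`;  `sq`: `sm_mulL_mul`, `sm_mulL_add`, `fc² + fs² = 1`, `sm_mulL_const`;  `cs`: `sm_mulL_mul` + commutativity;  `c_cup` = `sm_mul_cup_left` + `sm_mul_cup_right`;  `c_gam`: degreewise;
  `rho_c`, `rho_s` = `sm_act_mulL` + `β(g·x) = phase(g) β(x)` on `V⁺` (`S5Sheet.equiv`; `ζ_k^{(m + n).val} = ζ_k^{m.val} ζ_k^{n.val}` in `ZMod (p^k)` because `ζ_k^{p^k} = 1`) + `sm_mulL_add`, `sm_mulL_mul` with constants.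
-/
import Claimed.Agent.R304.SmChar
import Claimed.Agent.R304.SmQi
import Claimed.Agent.R304.SmTop
import Claimed.Agent.R304.S5Main
import Claimed.Agent.R304.WtCube
import Claimed.Agent.R304.SmInstCore

set_option autoImplicit false

namespace Claimed.Agent.R304

open Topology TopologicalSpace

variable {p : ℕ} [Fact p.Prime]

/-! ### 4. multiplication operators -/

section Mul

variable {P : Type} [TopologicalSpace P] [CompactSpace P] [T2Space P] (A : S5Act p P)
  (E : Set (SmOrb A))

omit [CompactSpace P] [T2Space P] in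
theorem smi_mulL_supp (f : P → ℝ) (m : (asObj P).C) :
    (asObj P).supp (asObjMulL P f m) ⊆ (asObj P).supp m :=
  smd_tMap_supp (fun q => asMul0 f q) _ _ (fun S => S) (fun _ _ h => h) (fun _ φ => as_supp_mul0 _ φ) m

omit [CompactSpace P] [T2Space P] in
theorem smi_mulL_const (c : ℝ) (m : (asObj P).C) : asObjMulL P (fun _ => c) m = c • m := by
  have h := sm_objMulL_const Set.univ isOpen_univ c m (Set.subset_univ _)
  rwa [Set.indicator_univ] at h

omit [CompactSpace P] [T2Space P] in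
theorem smi_mulL_lin (a b : ℝ) (f g : P → ℝ) (m : (asObj P).C) :
    asObjMulL P (fun x => a * f x + b * g x) m = a • asObjMulL P f m + b • asObjMulL P g m := by
  rw [sm_objMulL_add (fun x => a * f x) (fun x => b * g x), ← sm_objMulL_mul (fun _ => a) f,
    ← sm_objMulL_mul (fun _ => b) g, smi_mulL_const, smi_mulL_const]

/-- multiplication by `1_V f` -/
noncomputable def smiMul (V : Set P) (k : ℕ) (f : P → ℝ) (h : SmFun A V k f) :
    ((smS A).res E).C →ₗ[ℝ] ((smS A).res E).C :=
  smiOp A E (asObjMulL P (Set.indicator V f)) (sm_span_mul A V k f h)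
    (fun m => Set.image_mono (smi_mulL_supp _ m))

theorem smi_val_mul (V : Set P) (k : ℕ) (f : P → ℝ) (h : SmFun A V k f) (x : ((smS A).res E).C) :
    smiVal A E (smiMul A E V k f h x) = asObjMulL P (Set.indicator V f) (smiVal A E x) := rfl

theorem smi_mul_loc (V : Set P) (k : ℕ) (f : P → ℝ) (h : SmFun A V k f) :
    FcLoc ((smS A).res E) ((smS A).res E) (smiMul A E V k f h) := smi_op_loc A E _ _ _

omit [CompactSpace P] [T2Space P] in
theorem smi_supp_of_image (V : Set P) (hV : A.InvSet V) (m : (asObj P).C)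
    (h : smQf A '' (asObj P).supp m ⊆ smQf A '' V) : (asObj P).supp m ⊆ V := by
  intro z hz
  obtain ⟨v, hv, hvz⟩ := h (Set.mem_image_of_mem _ hz)
  obtain ⟨a, rfl⟩ := (sm_q_eq_iff A v z).1 hvz
  exact hV a v hv

omit [CompactSpace P] [T2Space P] in
theorem smi_ind_loc (V : Set P) (k : ℕ) (f : P → ℝ) (h : SmFun A V k f) (z : P) (hz : z ∈ V) :
    ∀ᶠ z' in 𝓝 z, Set.indicator V f z' = Set.indicator V f z := by
  filter_upwards [h.locConst z hz, h.isOpen.mem_nhds hz] with z' h1 h2
  rw [Set.indicator_of_mem h2, Set.indicator_of_mem hz, h1]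

theorem smi_mul_d (V : Set P) (k : ℕ) (f : P → ℝ) (h : SmFun A V k f) (x : ((smS A).res E).C)
    (hx : ((smS A).res E).supp x ⊆ smQf A '' V) :
    smiMul A E V k f h (((smS A).res E).d x) = ((smS A).res E).d (smiMul A E V k f h x) := by
  apply smi_val_inj A E
  exact (sm_mul_d _ _ (fun z hz => smi_ind_loc A V k f h z (smi_supp_of_image A V h.inv _ hx hz))).symm

theorem smi_mul_sq (V : Set P) (k : ℕ) (f g : P → ℝ) (hf : SmFun A V k f) (hg : SmFun A V k g)
    (hsq : ∀ z ∈ V, f z * f z + g z * g z = 1) (x : ((smS A).res E).C)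
    (hx : ((smS A).res E).supp x ⊆ smQf A '' V) :
    smiMul A E V k f hf (smiMul A E V k f hf x) + smiMul A E V k g hg (smiMul A E V k g hg x) = x := by
  apply smi_val_inj A E
  show asObjMulL P (Set.indicator V f) (asObjMulL P (Set.indicator V f) (smiVal A E x)) +
    asObjMulL P (Set.indicator V g) (asObjMulL P (Set.indicator V g) (smiVal A E x)) = smiVal A E x
  rw [sm_objMulL_mul, sm_objMulL_mul, ← sm_objMulL_add]
  have e : (fun z => Set.indicator V f z * Set.indicator V f z + Set.indicator V g z * Set.indicator V g z) =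
      Set.indicator V (fun _ => (1 : ℝ)) := by
    funext z
    by_cases hz : z ∈ V
    · rw [Set.indicator_of_mem hz, Set.indicator_of_mem hz, Set.indicator_of_mem hz, hsq z hz]
    · rw [Set.indicator_of_notMem hz, Set.indicator_of_notMem hz, Set.indicator_of_notMem hz]
      ring
  rw [e, sm_objMulL_const V hf.isOpen 1 (smiVal A E x) (smi_supp_of_image A V hf.inv _ hx), one_smul]

theorem smi_mul_comm (V : Set P) (k : ℕ) (f g : P → ℝ) (hf : SmFun A V k f) (hg : SmFun A V k g)
    (x : ((smS A).res E).C) :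
    smiMul A E V k f hf (smiMul A E V k g hg x) = smiMul A E V k g hg (smiMul A E V k f hf x) := by
  apply smi_val_inj A E
  show asObjMulL P (Set.indicator V f) (asObjMulL P (Set.indicator V g) (smiVal A E x)) =
    asObjMulL P (Set.indicator V g) (asObjMulL P (Set.indicator V f) (smiVal A E x))
  rw [sm_objMulL_mul, sm_objMulL_mul]
  have e : (fun z => Set.indicator V f z * Set.indicator V g z) =
      fun z => Set.indicator V g z * Set.indicator V f z := funext fun z => mul_comm _ _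
  rw [e]

theorem smi_mul_cup (V : Set P) (k : ℕ) (f : P → ℝ) (h : SmFun A V k f) (x y : ((smS A).res E).C)
    (hy : ((smS A).res E).supp y ⊆ smQf A '' V) :
    smiCup A E (smiMul A E V k f h x) y = smiCup A E x (smiMul A E V k f h y) := by
  apply smi_val_inj A E
  show asObjCup P (asObjMulL P (Set.indicator V f) (smiVal A E x)) (smiVal A E y) =
    asObjCup P (smiVal A E x) (asObjMulL P (Set.indicator V f) (smiVal A E y))
  rw [sm_mul_cup_left, sm_mul_cup_right _ _ (smiVal A E y)
    (fun z hz => smi_ind_loc A V k f h z (smi_supp_of_image A V h.inv _ hy hz))]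

theorem smi_mul_gam' (V : Set P) (k : ℕ) (f : P → ℝ) (h : SmFun A V k f) (d : ℕ) (x : ((smS A).res E).C) :
    smiMul A E V k f h (smiGam A E d x) = smiGam A E d (smiMul A E V k f h x) :=
  smi_val_inj A E (smi_mul_gam P _ d _)

theorem smi_rho_mul (V : Set P) (k : ℕ) (f f1 f2 : P → ℝ) (h : SmFun A V k f) (h1 : SmFun A V k f1)
    (h2 : SmFun A V k f2) (g : ℤ_[p]) (a b : ℝ) (hr : ∀ z ∈ V, f (A.act g z) = a * f1 z + b * f2 z)
    (x : ((smS A).res E).C) :
    (smiRep A E).rho g (smiMul A E V k f h x) =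
      a • smiMul A E V k f1 h1 ((smiRep A E).rho g x) + b • smiMul A E V k f2 h2 ((smiRep A E).rho g x) := by
  apply smi_val_inj A E
  show smActL A g (asObjMulL P (Set.indicator V f) (smiVal A E x)) =
    a • asObjMulL P (Set.indicator V f1) (smActL A g (smiVal A E x)) +
      b • asObjMulL P (Set.indicator V f2) (smActL A g (smiVal A E x))
  have key : smActL A g (asObjMulL P (Set.indicator V f) (smiVal A E x)) =
      asObjMulL P (Set.indicator V (fun z => f (A.act g z))) (smActL A g (smiVal A E x)) :=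
    congrArg Subtype.val (sm_act_mulL A V k f h g x.1)
  have e : Set.indicator V (fun z => f (A.act g z)) =
      fun z => a * Set.indicator V f1 z + b * Set.indicator V f2 z := by
    funext z
    by_cases hz : z ∈ V
    · rw [Set.indicator_of_mem hz, Set.indicator_of_mem hz, Set.indicator_of_mem hz, hr z hz]
    · rw [Set.indicator_of_notMem hz, Set.indicator_of_notMem hz, Set.indicator_of_notMem hz]
      ring
  rw [key, e, smi_mulL_lin]

end Mul

/-! ### 5. the phase function of a system of sheets -/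

theorem smi_zeta_add (k : ℕ) (m n : ZMod (p ^ k)) :
    ((smZeta p k : Circle) : ℂ) ^ (m + n).val =
      ((smZeta p k : Circle) : ℂ) ^ m.val * ((smZeta p k : Circle) : ℂ) ^ n.val := by
  have hp : 0 < p := (Fact.out : p.Prime).pos
  have : NeZero (p ^ k) := ⟨(pow_pos hp k).ne'⟩
  have h1 : ((smZeta p k : Circle) : ℂ) ^ (p ^ k) = 1 := by
    rw [← Circle.coe_pow, smZeta_pow p k hp, Circle.coe_one]
  rw [ZMod.val_add, ← pow_eq_pow_mod _ h1, pow_add]

omit [Fact p.Prime] in
theorem smi_zeta_sq (k n : ℕ) :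
    (((smZeta p k : Circle) : ℂ) ^ n).re * (((smZeta p k : Circle) : ℂ) ^ n).re +
      (((smZeta p k : Circle) : ℂ) ^ n).im * (((smZeta p k : Circle) : ℂ) ^ n).im = 1 := by
  rw [← Circle.coe_pow, ← Complex.normSq_apply, Circle.normSq_coe]

theorem smi_toZModPow_mul (k : ℕ) (a : ℤ_[p]) : PadicInt.toZModPow k ((p : ℤ_[p]) ^ k * a) = 0 := by
  rw [map_mul, map_pow, map_natCast, ← Nat.cast_pow, ZMod.natCast_self, zero_mul]

/-- `β = ζ_k^σ` (value `1` at infinity) -/
noncomputable def smiBeta {W : Type} (k : ℕ) (σ : W → ZMod (p ^ k)) (x : OnePoint W) : ℂ :=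
  x.elim 1 (fun w => ((smZeta p k : Circle) : ℂ) ^ (σ w).val)

omit [Fact p.Prime] in
theorem smi_beta_coe {W : Type} (k : ℕ) (σ : W → ZMod (p ^ k)) (w : W) :
    smiBeta k σ (w : OnePoint W) = ((smZeta p k : Circle) : ℂ) ^ (σ w).val := rfl

omit [Fact p.Prime] in
theorem smi_beta_sq {W : Type} (k : ℕ) (σ : W → ZMod (p ^ k)) (z : OnePoint W) :
    (smiBeta k σ z).re * (smiBeta k σ z).re + (smiBeta k σ z).im * (smiBeta k σ z).im = 1 := by
  induction z using OnePoint.rec with
  | infty => show (1 : ℂ).re * (1 : ℂ).re + (1 : ℂ).im * (1 : ℂ).im = 1; simp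
  | coe w => exact smi_zeta_sq k _

section Sheet

variable {W : Type} [TopologicalSpace W] [T2Space W] (B : S5Act p W) (k : ℕ) (V : Set W)
  (σ : W → ZMod (p ^ k)) (hS : S5Sheet B k V σ)

include hS

theorem smi_beta_act (g : ℤ_[p]) (z : OnePoint W) (hz : z ∈ ((↑) '' V : Set (OnePoint W))) :
    smiBeta k σ (B.plus.act g z) = smPhase p k g * smiBeta k σ z := by
  obtain ⟨w, hw, rfl⟩ := hz
  rw [s5_plus_coe, smi_beta_coe, smi_beta_coe, hS.equiv g w hw, smi_zeta_add, mul_comm]
  rfl

theorem smi_beta_fun (F : ℂ → ℝ) :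
    SmFun B.plus ((↑) '' V : Set (OnePoint W)) k (fun z => F (smiBeta k σ z)) := by
  refine ⟨?_, OnePoint.isOpenEmbedding_coe.isOpenMap _ hS.isOpen, ?_, ?_⟩
  · rintro a _ ⟨w, hw, rfl⟩
    rw [s5_plus_coe]
    exact ⟨_, hS.inv a w hw, rfl⟩
  · rintro _ ⟨w, hw, rfl⟩
    rw [OnePoint.nhds_coe_eq, Filter.eventually_map]
    filter_upwards [hS.locConst w hw] with w' h
    rw [smi_beta_coe, smi_beta_coe, h]
  · rintro a _ ⟨w, hw, rfl⟩
    show F (smiBeta k σ _) = F (smiBeta k σ _)
    rw [s5_plus_coe, smi_beta_coe, smi_beta_coe, hS.equiv _ w hw, smi_toZModPow_mul, add_zero]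

end Sheet

/-! ### 6. the shift operators and the theorem -/

section Final

variable (d : ℕ) (O : Set (EuclideanSpace ℝ (Fin d))) (hO : IsOpen O) [LocallyCompactSpace O]
  (B : S5Act p O) (hbox : O ⊆ nmBox d (fun _ => -1) (fun _ => 1)) (hc : IsConnected O) (out : S5Out d O B)

/-- THE SHIFT OPERATORS -/
noncomputable def smiShift (k : ℕ) (V : Set O) (σ : O → ZMod (p ^ k)) (hS : S5Sheet B k V σ) :
    SmShift (smiCore d O hO B hbox hc out) k (smQf B.plus '' ((↑) '' V : Set (OnePoint O))) where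
  c := smiMul B.plus _ (OnePoint.some '' V) k (fun z => (smiBeta k σ z).re) (smi_beta_fun B k V σ hS Complex.re)
  s := smiMul B.plus _ (OnePoint.some '' V) k (fun z => (smiBeta k σ z).im) (smi_beta_fun B k V σ hS Complex.im)
  c_loc := smi_mul_loc B.plus _ _ k _ _
  s_loc := smi_mul_loc B.plus _ _ k _ _
  c_d := fun x hx => smi_mul_d B.plus _ _ k _ _ x hx
  s_d := fun x hx => smi_mul_d B.plus _ _ k _ _ x hx
  sq := fun x hx => smi_mul_sq B.plus _ _ k _ _ _ _ (fun z _ => smi_beta_sq k σ z) x hx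
  cs := fun x => smi_mul_comm B.plus _ _ k _ _ _ _ x
  c_cup := fun x y _ hy => smi_mul_cup B.plus _ _ k _ _ x y hy
  s_cup := fun x y _ hy => smi_mul_cup B.plus _ _ k _ _ x y hy
  c_gam := fun x => smi_mul_gam' B.plus _ _ k _ _ d x
  s_gam := fun x => smi_mul_gam' B.plus _ _ k _ _ d x
  rho_c := fun g x _ => by
    have h := smi_rho_mul B.plus {smQf B.plus OnePoint.infty}ᶜ (OnePoint.some '' V) k (fun z => (smiBeta k σ z).re)
      (fun z => (smiBeta k σ z).re) (fun z => (smiBeta k σ z).im) (smi_beta_fun B k V σ hS Complex.re)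
      (smi_beta_fun B k V σ hS Complex.re) (smi_beta_fun B k V σ hS Complex.im) g
      (smPhase p k g).re (-(smPhase p k g).im)
      (fun z hz => by
        show (smiBeta k σ (B.plus.act g z)).re = _
        rw [smi_beta_act B k V σ hS g z hz, Complex.mul_re]
        ring) x
    rw [neg_smul, ← sub_eq_add_neg] at h
    exact h
  rho_s := fun g x _ =>
    smi_rho_mul B.plus {smQf B.plus OnePoint.infty}ᶜ (OnePoint.some '' V) k (fun z => (smiBeta k σ z).im)
      (fun z => (smiBeta k σ z).re) (fun z => (smiBeta k σ z).im) (smi_beta_fun B k V σ hS Complex.im)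
      (smi_beta_fun B k V σ hS Complex.re) (smi_beta_fun B k V σ hS Complex.im) g
      (smPhase p k g).im (smPhase p k g).re
      (fun z hz => by
        show (smiBeta k σ (B.plus.act g z)).im = _
        rw [smi_beta_act B k V σ hS g z hz, Complex.mul_im]
        ring) x

include hbox hc out in
/-- the statement for a general cast of the type -/
theorem smi_core_cast (t' : ZMod 4) (h : ((d : ℕ) : ZMod 4) = t') :
    ∃ K : SmCore p (smQf B.plus OnePoint.infty) (((wcCube d).cast h).push (smF d O hO B)),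
      ∀ (k : ℕ) (V : Set O) (σ : O → ZMod (p ^ k)), S5Sheet B k V σ →
        Nonempty (SmShift K k (smQf B.plus '' ((↑) '' V : Set (OnePoint O)))) := by
  subst h
  exact ⟨smiCore d O hO B hbox hc out, fun k V σ hS => ⟨smiShift d O hO B hbox hc out k V σ hS⟩⟩

end Final

/-- THE SMOOTH COCHAINS GIVE THE DATA OF SEC. 6 -/
theorem sm_core_exists (𝔐 : FcModel) (h𝔐 : ∀ d, 𝔐.cube d = wcCube d) (d : ℕ)
    (O : Set (EuclideanSpace ℝ (Fin d))) (hO : IsOpen O) [LocallyCompactSpace O] (hc : IsConnected O)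
    (hbox : O ⊆ nmBox d (fun _ => -1) (fun _ => 1)) (B : S5Act p O) (out : S5Out d O B) :
    ∃ K : SmCore p (smQf B.plus OnePoint.infty) (smA 𝔐 d O hO B),
      ∀ (k : ℕ) (V : Set O) (σ : O → ZMod (p ^ k)), S5Sheet B k V σ →
        Nonempty (SmShift K k (smQf B.plus '' ((↑) '' V : Set (OnePoint O)))) := by
  have e : smA 𝔐 d O hO B = ((wcCube d).cast (wti_cast_nat rfl)).push (smF d O hO B) := by
    unfold smA
    rw [h𝔐]
  rw [e]
  exact smi_core_cast d O hO B hbox hc out _ _

end Claimed.Agent.R304
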