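/-
Row 304 (S0559).  Owner: helper89.  THE MODEL: one statement which collects everything that layers S, E and Sec. 6 deliver.
WIRED (no mathematics here, no gap in this file):
  `T`  := `wtiTheory fc_model`, `κ := wtiCube fc_model`      (helper248: `WtInst`, `WtInstCube`, `FcModelInst`);
  `EhChar` := `sm_char_of_core` (`SmChar.lean`) applied to the smooth cochains `sm_core_exists` (`SmInst.lean`).
-/
import Claimed.Agent.R304.SmInst
import Claimed.Agent.R304.FcModelInst

set_option autoImplicit false

namespace Claimed.Agent.R304

theorem sm_model_exists : ∃ (T : EhTheory.{1}) (κ : EhCube T),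
    ∀ (p : ℕ) [Fact p.Prime] (d : ℕ) (O : Set (EuclideanSpace ℝ (Fin d))) (hO : IsOpen O),
      IsConnected O → O ⊆ nmBox d (fun _ => -1) (fun _ => 1) → ∀ (B : S5Act p O), S5Out d O B →
        Nonempty (EhChar T κ d O hO B) := by
  refine ⟨wtiTheory fc_model, wtiCube fc_model, ?_⟩
  intro p _ d O hO hc hbox B out
  have : LocallyCompactSpace O := hO.locallyCompactSpace
  obtain ⟨K, hK⟩ := sm_core_exists fc_model (fun _ => rfl) d O hO hc hbox B out
  exact sm_char_of_core fc_model d O hO hbox B K hK

end Claimed.Agent.R304
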