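/-
Row 304 (S0559).  THE CORE THEOREM (paper Theorem 6.9 in the new route): no faithful `ℤ_p`-action on a connected o-p-e-n subset of the cube `(-1,1)^d`.
WIRED (helper89): `s5_main` (geometry, `S5Main.lean`), `sm_model_exists` (layers S, E, Sec. 6; `SmMain.lean`), `hs_core_abs` (`FinGlue.lean`, proved).
-/
import Claimed.Agent.R304.FinGlue
import Claimed.Agent.R304.SmMain

set_option autoImplicit false

namespace Claimed.Agent.R304

theorem hs_core (p : ℕ) [Fact p.Prime] (d : ℕ) (_hd : Odd d) (_hd3 : 3 ≤ d)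
    (O : Set (EuclideanSpace ℝ (Fin d))) (hO : IsOpen O) (hc : IsConnected O)
    (hbox : O ⊆ nmBox d (fun _ => -1) (fun _ => 1)) (A : S5Act p O) (hA : A.Faithful) : False := by
  obtain ⟨T, κ, hχ⟩ := sm_model_exists
  obtain ⟨j, ⟨out⟩⟩ := s5_main d O hO hc A hA
  obtain ⟨χ⟩ := hχ p d O hO hc hbox (A.rescale j) out
  exact hs_core_abs T κ d O hO hbox (A.rescale j) out χ

end Claimed.Agent.R304
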