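/-
Row 304 (S0559).  Owner: helper138.  DEFINITIONS for the chart reduction: restriction of an action to an invariant subset, transport along a
homeomorphism, the action underlying a `MulAction (Multiplicative ℤ_[p])`.  (No sorry.)
-/
import Claimed.Agent.R304.S5Defs

set_option autoImplicit false

namespace Claimed.Agent.R304

open Topology

namespace S5Act

variable {p : ℕ} [Fact p.Prime] {X : Type*} [TopologicalSpace X]

/-- restriction to an invariant subset -/
def restrict (A : S5Act p X) (S : Set X) (hS : A.InvSet S) : S5Act p S where
  act a x := ⟨A.act a x.1, hS a x.1 x.2⟩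
  act_zero x := Subtype.ext (A.act_zero x.1)
  act_add a b x := Subtype.ext (A.act_add a b x.1)
  cont := (A.cont.comp (continuous_fst.prodMk (continuous_subtype_val.comp continuous_snd))).subtype_mk _

/-- transport along a homeomorphism -/
def transport {Y : Type*} [TopologicalSpace Y] (A : S5Act p X) (h : X ≃ₜ Y) : S5Act p Y where
  act a y := h (A.act a (h.symm y))
  act_zero y := by simp [A.act_zero]
  act_add a b y := by simp [A.act_add]
  cont := h.continuous.comp (A.cont.comp (continuous_fst.prodMk (h.symm.continuous.comp continuous_snd)))

/-- the unbundled action of a continuous `MulAction (Multiplicative ℤ_[p])` -/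
def ofMul (p : ℕ) [Fact p.Prime] (X : Type*) [TopologicalSpace X] [MulAction (Multiplicative ℤ_[p]) X]
    [ContinuousSMul (Multiplicative ℤ_[p]) X] : S5Act p X where
  act a x := Multiplicative.ofAdd a • x
  act_zero x := by simp
  act_add a b x := by rw [ofAdd_add, mul_smul]
  cont := (continuous_ofAdd.comp continuous_fst).smul continuous_snd

theorem ofMul_faithful (p : ℕ) [Fact p.Prime] (X : Type*) [TopologicalSpace X]
    [MulAction (Multiplicative ℤ_[p]) X] [ContinuousSMul (Multiplicative ℤ_[p]) X]
    [FaithfulSMul (Multiplicative ℤ_[p]) X] : (ofMul p X).Faithful := by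
  intro a ha
  have h : Multiplicative.ofAdd a = (1 : Multiplicative ℤ_[p]) := by
    apply FaithfulSMul.eq_of_smul_eq_smul (α := X)
    intro x
    rw [one_smul]
    exact ha x
  exact ofAdd_eq_one.1 h

theorem transport_faithful {Y : Type*} [TopologicalSpace Y] (A : S5Act p X) (h : X ≃ₜ Y)
    (hA : A.Faithful) : (A.transport h).Faithful := by
  intro a ha
  apply hA
  intro x
  have := ha (h x)
  simp only [transport, Homeomorph.symm_apply_apply] at this
  exact h.injective this

end S5Act

/-- realises the equation lemmas here (unique names) -/
theorem s5_chartdefs_eqns_cite : True := by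
  have := @S5Act.restrict.eq_1.{0}
  have := @S5Act.transport.eq_1.{0, 0}
  have := @S5Act.ofMul.eq_1.{0}
  trivial

end Claimed.Agent.R304
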