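/-
Row 304 (S0559).  Owner: helper138 (statements), helper13 (proofs).  SORRY-FREE.  PACKAGE S5Chart: the chart reduction (paper Prop. 5.1, without the
orientation step) and the stabilisation `O ↦ O × (-1,1)^{d-n}`.

EXPORT: `s5_reduce` : a faithful `ℤ_p`-action on a connected `n`-manifold produces, for every `d ≥ n`, a faithful `ℤ_p`-action on a connected o-p-e-n subset of the
cube `(-1,1)^d ⊆ ℝ^d`.  (The new action is not related to the old one in the statement: only its existence matters.)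
-/
import Claimed.Agent.R304.S5Act
import Claimed.Agent.R304.S5ChartDefs
import Claimed.Agent.R304.NwGlobal

set_option autoImplicit false

namespace Claimed.Agent.R304

open Topology Metric Set

theorem s5_newman_pow (n : ℕ) {X : Type*} [TopologicalSpace X] [T2Space X]
    [ChartedSpace (EuclideanSpace ℝ (Fin n)) X] [ConnectedSpace X]
    (h : X → X) (hc : Continuous h) (p : ℕ) (hp : p.Prime) (e : ℕ)
    (hper : ∀ x, h^[p ^ e] x = x) (V : Set X) (hV : IsOpen V) (hne : V.Nonempty)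
    (hfix : ∀ x ∈ V, h x = x) : ∀ x, h x = x := by
  induction e with
  | zero =>
    intro x
    simpa using hper x
  | succ e ih =>
    apply ih
    have hfixit : ∀ k, ∀ x ∈ V, h^[k] x = x := by
      intro k
      induction k with
      | zero => intro x _; rfl
      | succ k ihk =>
        intro x hx
        rw [Function.iterate_succ_apply, hfix x hx, ihk x hx]
    exact nwG_newman_I n (h^[p ^ e]) (hc.iterate _) p hp (fun x => by
      rw [← Function.iterate_mul, ← pow_succ]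
      exact hper x) V hV hne (hfixit _)

theorem s5_newman_on (n : ℕ) {X : Type*} [TopologicalSpace X] [T2Space X]
    [ChartedSpace (EuclideanSpace ℝ (Fin n)) X]
    (h : X → X) (hc : Continuous h) (p : ℕ) (hp : p.Prime) (e : ℕ) (N' : Set X) (hN : IsOpen N')
    (hconn : IsConnected N') (hmaps : MapsTo h N' N')
    (hper : ∀ x ∈ N', h^[p ^ e] x = x) (V : Set X) (hV : IsOpen V) (hne : (V ∩ N').Nonempty)
    (hfix : ∀ x ∈ V, h x = x) : ∀ x ∈ N', h x = x := by
  let U : TopologicalSpace.Opens X := ⟨N', hN⟩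
  have : ConnectedSpace U := isConnected_iff_connectedSpace.1 hconn
  let h' : U → U := fun x => ⟨h x, hmaps x.2⟩
  have hc' : Continuous h' := (hc.comp continuous_subtype_val).subtype_mk _
  have hit : ∀ (k : ℕ) (x : U), ((h'^[k] x : U) : X) = h^[k] x := by
    intro k
    induction k with
    | zero => intro x; rfl
    | succ k ih =>
      intro x
      rw [Function.iterate_succ_apply, ih, Function.iterate_succ_apply]
  obtain ⟨v, hvV, hvN⟩ := hne
  have key := s5_newman_pow n h' hc' p hp e (fun x => Subtype.ext (by rw [hit]; exact hper x x.2))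
    ((fun x : U => (x : X)) ⁻¹' V) (hV.preimage continuous_subtype_val) ⟨⟨v, hvN⟩, hvV⟩
    (fun x hx => Subtype.ext (hfix x hx))
  intro x hx
  exact congrArg Subtype.val (key ⟨x, hx⟩)

theorem s5_fix_mono {p : ℕ} [Fact p.Prime] {X : Type*} [TopologicalSpace X] [T2Space X] (A : S5Act p X)
    (j l : ℕ) (hjl : j ≤ l) (y : X) (h : A.act ((p : ℤ_[p]) ^ j) y = y) : A.act ((p : ℤ_[p]) ^ l) y = y := by
  have := s5_fix_of_gen A j y h ((p : ℤ_[p]) ^ (l - j))
  rwa [← pow_add, Nat.add_sub_cancel' hjl] at this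

theorem s5_wild_point (n : ℕ) {p : ℕ} [Fact p.Prime] {X : Type*} [TopologicalSpace X] [T2Space X]
    [ChartedSpace (EuclideanSpace ℝ (Fin n)) X] [ConnectedSpace X] (A : S5Act p X)
    (hA : A.Faithful) :
    ∃ x : X, ∀ j : ℕ, ∀ U ∈ 𝓝 x, ∃ y ∈ U, A.act ((p : ℤ_[p]) ^ j) y ≠ y := by
  by_contra hcon
  have hp : p.Prime := Fact.out
  have : LocallyConnectedSpace X := ChartedSpace.locallyConnectedSpace (EuclideanSpace ℝ (Fin n)) X
  -- every point lies in some `F j`
  have hall : ∀ x : X, ∃ j : ℕ, x ∈ interior {y | A.act ((p : ℤ_[p]) ^ j) y = y} := by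
    intro x
    by_contra hx
    apply hcon
    refine ⟨x, fun j U hU => ?_⟩
    by_contra hU'
    apply hx
    refine ⟨j, mem_interior_iff_mem_nhds.2 (Filter.mem_of_superset hU ?_)⟩
    intro y hy
    by_contra hy'
    exact hU' ⟨y, hy, hy'⟩
  have hmono : ∀ j l, j ≤ l → interior {y | A.act ((p : ℤ_[p]) ^ j) y = y} ⊆
      interior {y | A.act ((p : ℤ_[p]) ^ l) y = y} :=
    fun j l hjl => interior_mono fun y hy => s5_fix_mono A j l hjl y hy
  have hsF : ∀ (j : ℕ) (y : X), y ∈ interior {y | A.act ((p : ℤ_[p]) ^ j) y = y} →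
      A.act ((p : ℤ_[p]) ^ j) y = y := by
    intro j y hy
    have : y ∈ {y | A.act ((p : ℤ_[p]) ^ j) y = y} := interior_subset hy
    exact this
  have hFxc : ∀ j, IsClosed {y | A.act ((p : ℤ_[p]) ^ j) y = y} :=
    fun j => isClosed_eq (s5_act_cont A _) continuous_id
  obtain ⟨x0⟩ := (inferInstance : Nonempty X)
  obtain ⟨j, hj⟩ := hall x0
  have hclosed : IsClosed (interior {y | A.act ((p : ℤ_[p]) ^ j) y = y}) := by
    rw [← closure_subset_iff_isClosed]
    intro x hx
    have hgx : A.act ((p : ℤ_[p]) ^ j) x = x :=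
      (closure_minimal interior_subset (hFxc j)) hx
    obtain ⟨l', hl'⟩ := hall x
    set l := max l' j with hl
    have hxl : x ∈ interior {y | A.act ((p : ℤ_[p]) ^ l) y = y} := hmono l' l (le_max_left _ _) hl'
    have hjl : j ≤ l := le_max_right _ _
    set Fl := interior {y | A.act ((p : ℤ_[p]) ^ l) y = y} with hFl
    have hFlo : IsOpen Fl := isOpen_interior
    -- `g_j` maps `Fl` into itself
    have hmapsF : MapsTo (A.act ((p : ℤ_[p]) ^ j)) Fl Fl := by
      obtain ⟨φ, hφ⟩ := s5_act_homeo A ((p : ℤ_[p]) ^ j)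
      have himg : φ '' Fl ⊆ Fl := by
        apply interior_maximal _ (φ.isOpenMap _ hFlo)
        rintro _ ⟨y, hy, rfl⟩
        have hy' : A.act ((p : ℤ_[p]) ^ l) y = y := hsF l y hy
        show A.act ((p : ℤ_[p]) ^ l) (φ y) = φ y
        rw [hφ, s5_act_comm, hy']
      intro y hy
      rw [← hφ]
      exact himg ⟨y, hy, rfl⟩
    set N' := connectedComponentIn Fl x with hN'
    have hN'o : IsOpen N' := hFlo.connectedComponentIn
    have hN'c : IsConnected N' := isConnected_connectedComponentIn_iff.2 hxl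
    have hxN' : x ∈ N' := mem_connectedComponentIn hxl
    have hN'F : N' ⊆ Fl := connectedComponentIn_subset _ _
    have hmapsN : MapsTo (A.act ((p : ℤ_[p]) ^ j)) N' N' := by
      have hpre : IsPreconnected (A.act ((p : ℤ_[p]) ^ j) '' N') :=
        hN'c.isPreconnected.image _ (s5_act_cont A _).continuousOn
      have hsub := hpre.subset_connectedComponentIn (x := x) (F := Fl) ⟨x, hxN', hgx⟩ (by
        rintro _ ⟨y, hy, rfl⟩
        exact hmapsF (hN'F hy))
      intro y hy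
      exact hsub ⟨y, hy, rfl⟩
    have hper : ∀ y ∈ N', (A.act ((p : ℤ_[p]) ^ j))^[p ^ (l - j)] y = y := by
      intro y hy
      rw [s5_act_iterate]
      have hy' : A.act ((p : ℤ_[p]) ^ l) y = y := hsF l y (hN'F hy)
      have e : ((p ^ (l - j) : ℕ) : ℤ_[p]) * (p : ℤ_[p]) ^ j = (p : ℤ_[p]) ^ l := by
        push_cast
        rw [← pow_add, Nat.sub_add_cancel hjl]
      rw [e, hy']
    have hmeet : (interior {y | A.act ((p : ℤ_[p]) ^ j) y = y} ∩ N').Nonempty := by
      have := mem_closure_iff.1 hx N' hN'o hxN'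
      rwa [inter_comm] at this
    have key := s5_newman_on n (A.act ((p : ℤ_[p]) ^ j)) (s5_act_cont A _) p hp (l - j) N' hN'o hN'c hmapsN hper
      (interior {y | A.act ((p : ℤ_[p]) ^ j) y = y}) isOpen_interior hmeet (hsF j)
    exact mem_interior.2 ⟨N', key, hN'o, hxN'⟩
  have huniv : interior {y | A.act ((p : ℤ_[p]) ^ j) y = y} = univ :=
    IsClopen.eq_univ ⟨hclosed, isOpen_interior⟩ ⟨x0, hj⟩
  have h0 : (p : ℤ_[p]) ^ j = 0 := by
    apply hA
    intro x
    have : x ∈ interior {y | A.act ((p : ℤ_[p]) ^ j) y = y} := by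
      rw [huniv]
      trivial
    exact hsF j x this
  exact absurd h0 (pow_ne_zero _ (by exact_mod_cast hp.ne_zero))

theorem s5_inv_chart (n : ℕ) {p : ℕ} [Fact p.Prime] {X : Type*} [TopologicalSpace X] [T2Space X]
    [ChartedSpace (EuclideanSpace ℝ (Fin n)) X] (A : S5Act p X) (x : X) :
    ∃ (j : ℕ) (e : OpenPartialHomeomorph X (EuclideanSpace ℝ (Fin n))) (S : Set X), IsOpen S ∧
      IsConnected S ∧ x ∈ S ∧ S ⊆ e.source ∧ (A.rescale j).InvSet S ∧ Bornology.IsBounded (e '' S) := by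
  obtain ⟨e, hxs, hex, htar⟩ := nwG_chart (n := n) X x
  have hb1 : closedBall (0 : EuclideanSpace ℝ (Fin n)) 1 ⊆ e.target :=
    (closedBall_subset_closedBall (by norm_num)).trans htar
  set K : Set X := e.symm '' closedBall (0 : EuclideanSpace ℝ (Fin n)) 1 with hK
  have hKc : IsCompact K := (isCompact_closedBall _ _).image_of_continuousOn (e.continuousOn_symm.mono hb1)
  have hKs : K ⊆ e.source := by
    rintro _ ⟨y, hy, rfl⟩
    exact e.map_target (hb1 hy)
  obtain ⟨hBo, hBp, hxB, hBs⟩ := nwG_ball e x hxs one_pos (by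
    rw [hex]
    exact ball_subset_closedBall.trans hb1)
  rw [hex] at hBo hBp hxB hBs
  set B : Set X := e.symm '' ball (0 : EuclideanSpace ℝ (Fin n)) 1 with hB
  have hBK : B ⊆ K := image_mono ball_subset_closedBall
  obtain ⟨j1, hj1⟩ := s5_tube A K e.source hKc e.open_source hKs
  obtain ⟨j2, hj2⟩ := s5_tube A {x} B isCompact_singleton hBo (singleton_subset_iff.2 hxB)
  set j := max j1 j2 with hj
  have hj1' : ∀ a : ℤ_[p], ∀ y ∈ K, A.act ((p : ℤ_[p]) ^ j * a) y ∈ e.source := by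
    intro a y hy
    have := hj1 ((p : ℤ_[p]) ^ (j - j1) * a) y hy
    rwa [← mul_assoc, ← pow_add, Nat.add_sub_cancel' (le_max_left _ _)] at this
  have hj2' : ∀ a : ℤ_[p], A.act ((p : ℤ_[p]) ^ j * a) x ∈ B := by
    intro a
    have := hj2 ((p : ℤ_[p]) ^ (j - j2) * a) x rfl
    rwa [← mul_assoc, ← pow_add, Nat.add_sub_cancel' (le_max_right _ _)] at this
  have hSatK : s5Sat (A.rescale j) K ⊆ e.source := by
    rintro _ ⟨a, y, hy, rfl⟩
    exact hj1' a y hy
  have hSS : s5Sat (A.rescale j) B ⊆ s5Sat (A.rescale j) K := by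
    rintro _ ⟨a, y, hy, rfl⟩
    exact ⟨a, y, hBK hy, rfl⟩
  refine ⟨j, e, s5Sat (A.rescale j) B, s5_sat_open _ _ hBo, ⟨⟨x, s5_sat_subset _ _ hxB⟩, ?_⟩,
    s5_sat_subset _ _ hxB, hSS.trans hSatK, s5_sat_inv _ _, ?_⟩
  · have e1 : s5Sat (A.rescale j) B = ⋃ a : ℤ_[p], (B ∪ (A.rescale j).act a '' B) := by
      ext y
      simp only [mem_iUnion, mem_union]
      constructor
      · rintro ⟨a, b, hb, rfl⟩
        exact ⟨a, Or.inr ⟨b, hb, rfl⟩⟩
      · rintro ⟨a, hy | ⟨b, hb, rfl⟩⟩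
        · exact s5_sat_subset _ _ hy
        · exact ⟨a, b, hb, rfl⟩
    rw [e1]
    apply isPreconnected_iUnion
    · exact ⟨x, mem_iInter.2 fun a => Or.inl hxB⟩
    · intro a
      exact IsPreconnected.union ((A.rescale j).act a x) (hj2' a) ⟨x, hxB, rfl⟩ hBp
        (hBp.image _ (s5_act_cont _ a).continuousOn)
  · have hc : IsCompact (e '' s5Sat (A.rescale j) K) :=
      (s5_sat_compact _ _ hKc).image_of_continuousOn (e.continuousOn.mono hSatK)
    exact hc.isBounded.subset (image_mono hSS)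

theorem s5_restrict_faithful {p : ℕ} [Fact p.Prime] {X : Type*} [TopologicalSpace X] [T2Space X]
    (A : S5Act p X) (x : X) (hx : ∀ j : ℕ, ∀ U ∈ 𝓝 x, ∃ y ∈ U, A.act ((p : ℤ_[p]) ^ j) y ≠ y)
    (j : ℕ) (S : Set X) (hS : IsOpen S) (hxS : x ∈ S) (hinv : (A.rescale j).InvSet S) :
    ((A.rescale j).restrict S hinv).Faithful := by
  intro a ha
  by_contra h0
  have hmem : a ∈ s5Fixer (A.rescale j) S := fun y hy => congrArg Subtype.val (ha ⟨y, hy⟩)
  obtain ⟨k, hk⟩ := s5_closed_nonzero _ (s5_fixer_closed (A.rescale j) S) a hmem h0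
  obtain ⟨y, hyS, hy⟩ := hx (j + k) S (hS.mem_nhds hxS)
  apply hy
  have := hk 1 y hyS
  rw [mul_one] at this
  rw [pow_add]
  exact this

theorem s5_chart_reduction (n : ℕ) {p : ℕ} [Fact p.Prime] {X : Type*} [TopologicalSpace X] [T2Space X]
    [ChartedSpace (EuclideanSpace ℝ (Fin n)) X] [ConnectedSpace X] (A : S5Act p X)
    (hA : A.Faithful) :
    ∃ O : Set (EuclideanSpace ℝ (Fin n)), IsOpen O ∧ IsConnected O ∧ Bornology.IsBounded O ∧
      ∃ A' : S5Act p O, A'.Faithful := by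
  obtain ⟨x, hx⟩ := s5_wild_point n A hA
  obtain ⟨j, e, S, hSo, hSc, hxS, hsrc, hinv, hbd⟩ := s5_inv_chart n A x
  have hf := s5_restrict_faithful A x hx j S hSo hxS hinv
  have htar : e '' S ⊆ e.target := by
    rintro _ ⟨s, hs, rfl⟩
    exact e.map_source (hsrc hs)
  have hback : ∀ o : (e '' S : Set (EuclideanSpace ℝ (Fin n))), e.symm o ∈ S := by
    rintro ⟨_, s, hs, rfl⟩
    show e.symm (e s) ∈ S
    rw [e.left_inv (hsrc hs)]
    exact hs
  have hfwd : ∀ s : S, e s ∈ e '' S := fun s => ⟨s, s.2, rfl⟩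
  let φ : S ≃ₜ (e '' S : Set (EuclideanSpace ℝ (Fin n))) :=
    { toFun := fun s => ⟨e s, hfwd s⟩
      invFun := fun o => ⟨e.symm o, hback o⟩
      left_inv := fun s => Subtype.ext (e.left_inv (hsrc s.2))
      right_inv := fun o => Subtype.ext (e.right_inv (htar o.2))
      continuous_toFun :=
        Continuous.subtype_mk (continuousOn_iff_continuous_domRestrict.1 (e.continuousOn.mono hsrc)) hfwd
      continuous_invFun :=
        Continuous.subtype_mk (continuousOn_iff_continuous_domRestrict.1 (e.continuousOn_symm.mono htar)) hback }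
  exact ⟨e '' S, e.isOpen_image_of_subset_source hSo hsrc, hSc.image e (e.continuousOn.mono hsrc), hbd,
    ((A.rescale j).restrict S hinv).transport φ, S5Act.transport_faithful _ φ hf⟩

theorem s5_scale (n : ℕ) {p : ℕ} [Fact p.Prime] (O : Set (EuclideanSpace ℝ (Fin n))) (hO : IsOpen O)
    (hc : IsConnected O) (hb : Bornology.IsBounded O) (A : S5Act p O) (hA : A.Faithful) :
    ∃ O' : Set (EuclideanSpace ℝ (Fin n)), IsOpen O' ∧ IsConnected O' ∧ O' ⊆ ball 0 1 ∧
      ∃ A' : S5Act p O', A'.Faithful := by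
  obtain ⟨R, hR, hOR⟩ := hb.subset_ball_lt 0 0
  let ψ : EuclideanSpace ℝ (Fin n) ≃ₜ EuclideanSpace ℝ (Fin n) :=
    Homeomorph.smulOfNeZero (R⁻¹ : ℝ) (inv_ne_zero hR.ne')
  refine ⟨ψ '' O, ψ.isOpenMap _ hO, hc.image ψ ψ.continuous.continuousOn, ?_,
    A.transport (ψ.image O), S5Act.transport_faithful _ _ hA⟩
  rintro _ ⟨y, hy, rfl⟩
  have hy' := hOR hy
  rw [mem_ball, dist_zero_right] at hy' ⊢
  show ‖(R⁻¹ : ℝ) • y‖ < 1
  rw [norm_smul, Real.norm_eq_abs, abs_of_pos (inv_pos.2 hR), ← div_eq_inv_mul, div_lt_one hR]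
  exact hy'

/-- `ℝ^n × ℝ ≃ₜ ℝ^{n+1}` -/
theorem s5_cons_homeo (n : ℕ) :
    ∃ Φ : EuclideanSpace ℝ (Fin n) × ℝ ≃ₜ EuclideanSpace ℝ (Fin (n + 1)),
      (∀ u t, Φ (u, t) 0 = t) ∧ ∀ u t (i : Fin n), Φ (u, t) i.succ = u i := by
  refine ⟨{ toFun := fun q => WithLp.toLp 2 (Fin.cons q.2 (fun i => q.1 i) : Fin (n + 1) → ℝ)
            invFun := fun x => (WithLp.toLp 2 (fun i : Fin n => x i.succ), x 0)
            left_inv := ?_
            right_inv := ?_
            continuous_toFun := ?_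
            continuous_invFun := ?_ }, fun u t => rfl, fun u t i => rfl⟩
  · rintro ⟨u, t⟩
    rfl
  · intro x
    ext i
    refine Fin.cases rfl (fun i => rfl) i
  · apply (PiLp.continuous_toLp 2 _).comp
    apply continuous_pi
    intro i
    refine Fin.cases ?_ (fun i => ?_) i
    · simp only [Fin.cons_zero]
      fun_prop
    · simp only [Fin.cons_succ]
      fun_prop
  · apply Continuous.prodMk
    · apply (PiLp.continuous_toLp 2 _).comp
      fun_prop
    · fun_prop

theorem s5_prodRight_faithful {p : ℕ} [Fact p.Prime] {X : Type*} [TopologicalSpace X] (A : S5Act p X)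
    (hA : A.Faithful) (Y : Type*) [TopologicalSpace Y] [Nonempty Y] : (A.prodRight Y).Faithful := by
  intro a ha
  obtain ⟨y⟩ := (inferInstance : Nonempty Y)
  exact hA a fun x => congrArg Prod.fst (ha (x, y))

theorem s5_stab_succ (n : ℕ) {p : ℕ} [Fact p.Prime] (O : Set (EuclideanSpace ℝ (Fin n)))
    (hO : IsOpen O) (hc : IsConnected O) (hb : O ⊆ nmBox n (fun _ => -1) (fun _ => 1))
    (A : S5Act p O) (hA : A.Faithful) :
    ∃ O' : Set (EuclideanSpace ℝ (Fin (n + 1))), IsOpen O' ∧ IsConnected O' ∧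
      O' ⊆ nmBox (n + 1) (fun _ => -1) (fun _ => 1) ∧ ∃ A' : S5Act p O', A'.Faithful := by
  obtain ⟨Φ, hΦ0, hΦs⟩ := s5_cons_homeo n
  have : Nonempty (Ioo (-1 : ℝ) 1) := ⟨⟨0, by norm_num, by norm_num⟩⟩
  have hI : IsConnected (Ioo (-1 : ℝ) 1) := isConnected_Ioo (by norm_num)
  refine ⟨Φ '' (O ×ˢ Ioo (-1 : ℝ) 1), Φ.isOpenMap _ (hO.prod isOpen_Ioo),
    (hc.prod hI).image Φ Φ.continuous.continuousOn, ?_,
    (A.prodRight (Ioo (-1 : ℝ) 1)).transport ((Homeomorph.Set.prod O (Ioo (-1 : ℝ) 1)).symm.trans (Φ.image _)),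
    S5Act.transport_faithful _ _ (s5_prodRight_faithful A hA _)⟩
  rintro _ ⟨⟨u, t⟩, ⟨hu, ht⟩, rfl⟩ i
  refine Fin.cases ?_ (fun i => ?_) i
  · rw [hΦ0]
    exact ht
  · rw [hΦs]
    exact hb hu i

theorem s5_reduce (n : ℕ) {p : ℕ} [Fact p.Prime] {X : Type*} [TopologicalSpace X] [T2Space X]
    [ChartedSpace (EuclideanSpace ℝ (Fin n)) X] [ConnectedSpace X] (A : S5Act p X)
    (hA : A.Faithful) (d : ℕ) (hd : n ≤ d) :
    ∃ O : Set (EuclideanSpace ℝ (Fin d)), IsOpen O ∧ IsConnected O ∧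
      O ⊆ nmBox d (fun _ => -1) (fun _ => 1) ∧ ∃ A' : S5Act p O, A'.Faithful := by
  induction d, hd using Nat.le_induction with
  | base =>
    obtain ⟨O, hO, hc, hb, A1, hA1⟩ := s5_chart_reduction n A hA
    obtain ⟨O', hO', hc', hb', A2, hA2⟩ := s5_scale n O hO hc hb A1 hA1
    refine ⟨O', hO', hc', ?_, A2, hA2⟩
    intro y hy i
    have h1 := hb' hy
    rw [mem_ball, dist_zero_right] at h1
    have h2 : ‖y i‖ ≤ ‖y‖ := PiLp.norm_apply_le y i
    rw [Real.norm_eq_abs] at h2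
    have h3 := abs_lt.1 (lt_of_le_of_lt h2 h1)
    exact h3
  | succ d _ ih =>
    obtain ⟨O, hO, hc, hb, A1, hA1⟩ := ih
    exact s5_stab_succ d O hO hc hb A1 hA1

end Claimed.Agent.R304
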