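/-
Row 304.  EXPORT E1 (paper Theorem 1.2): the `p`-adic integers do not act faithfully on a connected
manifold.  Wired (helper138): chart reduction + stabilisation `s5_reduce` (`S5Chart.lean`), then the core theorem `hs_core` (`FinCore.lean`).
-/
import Claimed.Agent.R304.TopDefs
import Claimed.Agent.R304.S5Chart
import Claimed.Agent.R304.FinCore

set_option autoImplicit false

namespace Claimed.Agent.R304

theorem hs_no_padic (p : ℕ) [Fact p.Prime] (n : ℕ) (hn : 1 ≤ n)
    (X : Type*) [TopologicalSpace X] [T2Space X] [SecondCountableTopology X] [ConnectedSpace X]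
    [ChartedSpace (EuclideanSpace ℝ (Fin n)) X]
    [MulAction (Multiplicative ℤ_[p]) X] [ContinuousSMul (Multiplicative ℤ_[p]) X]
    [FaithfulSMul (Multiplicative ℤ_[p]) X] : False := by
  obtain ⟨O, hO, hc, hbox, A', hA'⟩ :=
    s5_reduce n (S5Act.ofMul p X) (S5Act.ofMul_faithful p X) (2 * n + 3) (by omega)
  exact hs_core p (2 * n + 3) ⟨n + 1, by ring⟩ (by omega) O hO hc hbox A' hA'

end Claimed.Agent.R304
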