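/-
Row 304 (S0559, Hilbert-Smith).  Owner: helper231.  LAYER S, package `FcPull`, DEFINITIONS (prefix `fcq`):
the restriction `j^* A` of a differential object to an open subspace `j : Y → X` (`= A(range j)`, supports pulled back), strictly functorial.
-/
import Claimed.Agent.R304.FcFunDefs

set_option autoImplicit false

namespace Claimed.Agent.R304

open Topology

variable {X Y : Type} [TopologicalSpace X] [TopologicalSpace Y]

/-- `j^* A` for an open embedding `j` -/
def FcD.pull (j : C(Y, X)) (hj : IsOpenEmbedding j) (A : FcD X) : FcD Y where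
  carrier := A.sec (Set.range j)
  acg := inferInstance
  mod := inferInstance
  supp := fun m => j ⁻¹' A.supp m.1
  supp_compact := fun m => (hj.isInducing.isCompact_preimage_iff m.2).2 (A.supp_compact m.1)
  supp_closed := fun m => (A.supp_closed m.1).preimage j.continuous
  supp_empty_iff := fun m => by
    constructor
    · intro h
      apply Subtype.ext
      apply (A.supp_empty_iff m.1).1
      rw [← Set.subset_empty_iff]
      intro x hx
      obtain ⟨y, rfl⟩ := m.2 hx
      have : y ∈ j ⁻¹' A.supp m.1 := hx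
      rw [h] at this
      exact this
    · rintro rfl
      show j ⁻¹' A.supp 0 = ∅
      rw [A.supp_zero, Set.preimage_empty]
  supp_add := fun m m' => Set.preimage_mono (A.supp_add m.1 m'.1)
  supp_smul := fun c m => Set.preimage_mono (A.supp_smul c m.1)
  ury := fun E => by
    obtain ⟨π, hπ⟩ := A.ury (j '' E)
    refine ⟨π.restrict (fun m hm => ((hπ m).1.trans Set.inter_subset_left).trans hm), fun m => ⟨?_, ?_⟩⟩
    · intro y hy
      have h := (hπ m.1).1 hy
      exact ⟨h.1, by rw [hj.isInducing.closure_eq_preimage_closure_image]; exact h.2⟩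
    · intro y hy
      have h := (hπ m.1).2 hy
      refine ⟨h.1, ?_⟩
      rw [hj.isInducing.closure_eq_preimage_closure_image]
      have hc : (j '' E)ᶜ ⊆ j '' Eᶜ ∪ (Set.range j)ᶜ := by
        intro x hx
        by_cases hxr : x ∈ Set.range j
        · obtain ⟨z, rfl⟩ := hxr
          exact Or.inl ⟨z, fun hz => hx ⟨z, hz, rfl⟩, rfl⟩
        · exact Or.inr hxr
      have h2 := closure_mono hc h.2
      rw [closure_union, hj.isOpen_range.isClosed_compl.closure_eq] at h2
      rcases h2 with h2 | h2
      · exact h2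
      · exact (h2 ⟨y, rfl⟩).elim
  d := A.d.restrict (fun m hm => (A.d_loc m).trans hm)
  d_loc := fun m => Set.preimage_mono (A.d_loc m.1)
  d_sq := fun m => Subtype.ext (A.d_sq _)

/-- `j^*` of a chain map -/
def FcHom.pull (j : C(Y, X)) (hj : IsOpenEmbedding j) {A B : FcD X} (f : FcHom A B) :
    FcHom (A.pull j hj) (B.pull j hj) :=
  ⟨f.f.restrict (p := A.sec (Set.range j)) (q := B.sec (Set.range j)) (fun m hm => (f.loc m).trans hm),
    fun m => Set.preimage_mono (f.loc m.1), fun m => Subtype.ext (f.comm m.1)⟩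

/-- `j^*` of an isomorphism -/
def FcIso.pull (j : C(Y, X)) (hj : IsOpenEmbedding j) {A B : FcD X} (e : FcIso A B) :
    FcIso (A.pull j hj) (B.pull j hj) where
  e := (e.res (Set.range j)).e
  supp_eq := fun m => congrArg (fun S => j ⁻¹' S) (e.supp_eq m.1)
  comm := fun m => Subtype.ext (e.comm m.1)

/-- `j^* cone(f) = cone(j^* f)` -/
def fcqPullCone (j : C(Y, X)) (hj : IsOpenEmbedding j) {A B : FcD X} (f : FcHom A B) :
    FcIso ((fcCone f).pull j hj) (fcCone (f.pull j hj)) where
  e := (fcfResCone f (Set.range j)).e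
  supp_eq := fun _ => rfl
  comm := fun _ => rfl

/-- `j^* (A × B) = j^* A × j^* B` -/
def fcqPullProd (j : C(Y, X)) (hj : IsOpenEmbedding j) (A B : FcD X) :
    FcIso ((A.prod B).pull j hj) ((A.pull j hj).prod (B.pull j hj)) where
  e :=
    { toFun := fun m => (⟨m.1.1, Set.subset_union_left.trans m.2⟩, ⟨m.1.2, Set.subset_union_right.trans m.2⟩)
      map_add' := fun _ _ => rfl
      map_smul' := fun _ _ => rfl
      invFun := fun z => ⟨(z.1.1, z.2.1), Set.union_subset z.1.2 z.2.2⟩
      left_inv := fun _ => rfl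
      right_inv := fun _ => rfl }
  supp_eq := fun _ => rfl
  comm := fun _ => rfl

/-- `j^* (A<c>) = (j^* A)<c>` -/
def fcqPullResc (j : C(Y, X)) (hj : IsOpenEmbedding j) (A : FcD X) (c : ℝ) :
    FcIso ((A.resc c).pull j hj) ((A.pull j hj).resc c) where
  e := LinearEquiv.refl ℝ (A.sec (Set.range j))
  supp_eq := fun _ => rfl
  comm := fun _ => rfl

/-- `j_! j^* A = A(range j)` -/
def fcqPushPull [T2Space X] (j : C(Y, X)) (hj : IsOpenEmbedding j) (A : FcD X) :
    FcIso ((A.pull j hj).push j) (A.res (Set.range j)) where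
  e := LinearEquiv.refl ℝ (A.sec (Set.range j))
  supp_eq := fun m => (Set.image_preimage_eq_of_subset m.2).symm
  comm := fun _ => rfl

/-- `j^* j_! A = A` -/
def fcqPullPush [T2Space X] (j : C(Y, X)) (hj : IsOpenEmbedding j) (A : FcD Y) :
    FcIso ((A.push j).pull j hj) A where
  e :=
    { toFun := fun m => m.1
      map_add' := fun _ _ => rfl
      map_smul' := fun _ _ => rfl
      invFun := fun m => ⟨m, Set.image_subset_range _ _⟩
      left_inv := fun _ => rfl
      right_inv := fun _ => rfl }
  supp_eq := fun _ => (Set.preimage_image_eq _ hj.injective).symm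
  comm := fun _ => rfl

theorem fcq_pull_acycAt (j : C(Y, X)) (hj : IsOpenEmbedding j) (A : FcD X) (U : Set Y)
    (h : A.AcycAt (j '' U)) : (A.pull j hj).AcycAt U := by
  intro m hm hd
  have hm' : A.supp m.1 ⊆ j '' U := by
    intro x hx
    obtain ⟨y, rfl⟩ := m.2 hx
    exact ⟨y, hm hx, rfl⟩
  obtain ⟨m', hm'', hd'⟩ := h m.1 hm' (congrArg Subtype.val hd)
  refine ⟨⟨m', hm''.trans (Set.image_subset_range _ _)⟩, ?_, Subtype.ext hd'⟩
  intro y hy
  obtain ⟨z, hz, hzy⟩ := hm'' hy
  rwa [← hj.injective hzy]

/-- the class of the objects whose restriction to the open subspace is in `P` -/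
def FcPre.pullPre (j : C(Y, X)) (hj : IsOpenEmbedding j) (P : FcPre Y) : FcPre X where
  mem := fun A => P.mem (A.pull j hj)
  iso := fun e h => P.iso (e.pull j hj) h
  acyc := fun h => P.acyc (fun U hU _ => fcq_pull_acycAt j hj _ U
    (h _ (hj.isOpenMap U hU) (Set.subset_univ _)))
  resc := fun c hc h => P.iso (fcqPullResc j hj _ c).symm (P.resc c hc h)
  cone := fun f hA hB => P.iso (fcqPullCone j hj f).symm (P.cone (f.pull j hj) hA hB)
  cone_src := fun f hB hC => P.cone_src (f.pull j hj) hB (P.iso (fcqPullCone j hj f) hC)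
  cone_tgt := fun f hA hC => P.cone_tgt (f.pull j hj) hA (P.iso (fcqPullCone j hj f) hC)

/-- realises the equation lemmas here (unique names) -/
theorem fcq_defs_eqns_cite : True := by
  have := @FcD.pull.eq_1
  have := @FcHom.pull.eq_1
  have := @FcIso.pull.eq_1
  have := @fcqPullCone.eq_1
  have := @fcqPullProd.eq_1
  have := @fcqPullResc.eq_1
  have := @fcqPushPull.eq_1
  have := @fcqPullPush.eq_1
  have := @FcPre.pullPre.eq_1
  trivial

end Claimed.Agent.R304
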