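/-
Row 304 (S0559, Hilbert-Smith).  Owner: helper231.  LAYER S, package `FcCube`, DEFINITIONS (prefix `fcc`, `Fcc`).

`𝒦 : (n : ℕ) → FcD (EhCb n) → Prop` is an ARBITRARY family of "cubical models" (officially: helper154's `FcKub`, which contains `asObj (EhCb n)`).
* `FccU n E`        `E` is a finite union of relatively open boxes `asBx n a b` of the cube `EhCb n = [-1,1]^n`
* `FccG 𝒦 V A`      GENERATORS over `X` supported in `V`: `A = f_!(C(E))` or `A = f_!(C(E)^∨)`, `𝒦 n C`, `FccU n E`, `f : C(EhCb n, X)`, `f(closure E) ⊆ V`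
* `FccGs 𝒦 V A`     the SMALL generators: the same with `range f ⊆ V`
* `fccT0 𝒦 V`       `= FcGen (FccG 𝒦 V)` (no summand rule),     `fccTh 𝒦 V = FcThick (FccG 𝒦 V)`
* `FccRefl 𝒦`       the only hypothesis on the family: `cone(C(E) → C(E)^∨∨)` is locally acyclic
* `fccClamp n a b`  the coordinatewise retraction of the cube onto the closed box `∏ [a i, b i] ∩ [-1,1]`
-/
import Claimed.Agent.R304.FcHtp
import Claimed.Agent.R304.FcPullDefs
import Claimed.Agent.R304.AsBoxes
import Claimed.Agent.R304.EhDefs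

set_option autoImplicit false

namespace Claimed.Agent.R304

open Topology

/-- finite unions of relatively open boxes of the cube -/
inductive FccU (n : ℕ) : Set (EhCb n) → Prop
  | empty : FccU n ∅
  | box (a b : Fin n → ℝ) : FccU n (asBx n a b)
  | union {E E' : Set (EhCb n)} : FccU n E → FccU n E' → FccU n (E ∪ E')

variable {X : Type} [TopologicalSpace X]

/-- the generators supported in `V` -/
def FccG [T2Space X] (𝒦 : (n : ℕ) → FcD (EhCb n) → Prop) (V : Set X) (A : FcD X) : Prop :=
  ∃ (n : ℕ) (C : FcD (EhCb n)) (E : Set (EhCb n)) (f : C(EhCb n, X)),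
    𝒦 n C ∧ FccU n E ∧ f '' closure E ⊆ V ∧ (A = (C.res E).push f ∨ A = (C.res E).dual.push f)

/-- the small generators: the whole cube is mapped to `V` -/
def FccGs [T2Space X] (𝒦 : (n : ℕ) → FcD (EhCb n) → Prop) (V : Set X) (A : FcD X) : Prop :=
  ∃ (n : ℕ) (C : FcD (EhCb n)) (E : Set (EhCb n)) (f : C(EhCb n, X)),
    𝒦 n C ∧ FccU n E ∧ Set.range f ⊆ V ∧ (A = (C.res E).push f ∨ A = (C.res E).dual.push f)

/-- the class generated by the cubes in `V`, without the summand rule -/
def fccT0 [T2Space X] (𝒦 : (n : ℕ) → FcD (EhCb n) → Prop) (V : Set X) : FcPre X := fcpGen (FccG 𝒦 V)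

/-- the thick class generated by the cubes in `V` -/
def fccTh [T2Space X] (𝒦 : (n : ℕ) → FcD (EhCb n) → Prop) (V : Set X) : FcPre X := fcpThick (FccG 𝒦 V)

/-- the hypothesis on the family of cubical models -/
def FccRefl (𝒦 : (n : ℕ) → FcD (EhCb n) → Prop) : Prop :=
  ∀ (n : ℕ) (C : FcD (EhCb n)) (E : Set (EhCb n)), 𝒦 n C → FccU n E → (fcCone (fcEv (C.res E))).Acyc

/-- the closed box `∏ [a i, b i]` in the cube -/
def fccBoxC (n : ℕ) (a b : Fin n → ℝ) : Set (EhCb n) := {x | ∀ i, a i ≤ (x i : ℝ) ∧ (x i : ℝ) ≤ b i}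

/-- clamping a real number of `[-1,1]` to `[a,b] ∩ [-1,1]` (junk if this set is empty) -/
noncomputable def fccClamp1 (a b : ℝ) (t : Set.Icc (-1 : ℝ) 1) : Set.Icc (-1 : ℝ) 1 :=
  ⟨max (-1) (min 1 (max a (min b t))), le_max_left _ _, max_le (by norm_num) (min_le_left _ _)⟩

/-- the coordinatewise retraction of the cube onto a closed box -/
noncomputable def fccClamp (n : ℕ) (a b : Fin n → ℝ) : C(EhCb n, EhCb n) :=
  ⟨fun x i => fccClamp1 (a i) (b i) (x i), by
    refine continuous_pi fun i => ?_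
    unfold fccClamp1
    refine Continuous.subtype_mk ?_ _
    have h : Continuous fun x : EhCb n => ((x i : Set.Icc (-1 : ℝ) 1) : ℝ) :=
      continuous_subtype_val.comp (continuous_apply i)
    fun_prop⟩

/-- realises the equation lemmas here (unique names) -/
theorem fcc_defs_eqns_cite : True := by
  have := @FccG.eq_1
  have := @FccGs.eq_1
  have := @fccT0.eq_1
  have := @fccTh.eq_1
  have := @FccRefl.eq_1
  have := @fccBoxC.eq_1
  have := @fccClamp1.eq_1
  have := @fccClamp.eq_1
  trivial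

end Claimed.Agent.R304
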