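/-
Row 304 (S0559, Hilbert-Smith).  Owner: helper231.  LAYER S, package `FcCube` (prefix `fcc`): THE GENERATORS.
Everything is independent of the cubical models `𝒦` (only `FccRefl 𝒦` is used, and only for duals).

 1. boxes: `fcc_U_isOpen`, `fcc_U_inter`, `fcc_U_univ`, `fcc_cover2` (Lebesgue), `fcc_box_nhd`, clamp.
 2. `fcc_boxes_mem`     MV-INDUCTION: a class which contains `C(E)` for all small `E` contains `C(E)` for all `E` with `closure E ⊆ O`.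
 3. `fcc_G_small`       `FcGen (FccG 𝒦 V) = FcGen (FccGs 𝒦 V)` (clamp trick).
 4. `fcc_G_cpt`, `fcc_G_mono`, `fcc_G_push`, `fcc_G_dual`, `fcc_Gs_pull`.
 5. `fcc_G_cut`         THE COVER CUT OF A GENERATOR.
-/
import Claimed.Agent.R304.FcCubeDefs

set_option autoImplicit false

namespace Claimed.Agent.R304

open Topology

variable {X Y : Type} [TopologicalSpace X] [TopologicalSpace Y]

/-! ### 1. boxes -/

theorem fcc_U_isOpen {n : ℕ} {E : Set (EhCb n)} (h : FccU n E) : IsOpen E := by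
  induction h with
  | empty => exact isOpen_empty
  | box a b => exact as_bx_isOpen n a b
  | union _ _ ih ih' => exact ih.union ih'

theorem fcc_U_inter {n : ℕ} {E E' : Set (EhCb n)} (h : FccU n E) (h' : FccU n E') : FccU n (E ∩ E') := by
  induction h with
  | empty => rw [Set.empty_inter]; exact FccU.empty
  | box a b =>
    induction h' with
    | empty => rw [Set.inter_empty]; exact FccU.empty
    | box a' b' => rw [as_bx_inter]; exact FccU.box _ _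
    | union _ _ ih ih' => rw [Set.inter_union_distrib_left]; exact FccU.union ih ih'
  | union _ _ ih ih' => rw [Set.union_inter_distrib_right]; exact FccU.union ih ih'

theorem fcc_U_univ (n : ℕ) : FccU n Set.univ := by
  rw [← as_bx_univ n]; exact FccU.box _ _

theorem fcc_boxC_closed (n : ℕ) (a b : Fin n → ℝ) : IsClosed (fccBoxC n a b) := by
  have h : ∀ i, Continuous fun x : EhCb n => ((x i : Set.Icc (-1 : ℝ) 1) : ℝ) := fun i =>
    continuous_subtype_val.comp (continuous_apply i)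
  have e : fccBoxC n a b = ⋂ i, ({x | a i ≤ (x i : ℝ)} ∩ {x | (x i : ℝ) ≤ b i}) := by
    ext x
    simp [fccBoxC]
  rw [e]
  exact isClosed_iInter fun i =>
    (isClosed_le continuous_const (h i)).inter (isClosed_le (h i) continuous_const)

theorem fcc_bx_subset_boxC (n : ℕ) (a b : Fin n → ℝ) : asBx n a b ⊆ fccBoxC n a b :=
  fun _ hx i => ⟨(hx i).1.le, (hx i).2.le⟩

/-- every point of an open set has a box neighbourhood whose closed box lies in the open set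
(`as_bx_basis` gives `a' b'`; take `a = (a' + x)/2`, `b = (x + b')/2`). -/
theorem fcc_box_nhd (n : ℕ) (O : Set (EhCb n)) (hO : IsOpen O) (x : EhCb n) (hx : x ∈ O) :
    ∃ a b : Fin n → ℝ, x ∈ asBx n a b ∧ fccBoxC n a b ⊆ O := by
  obtain ⟨a', b', hx', hO'⟩ := as_bx_basis n O hO x hx
  refine ⟨fun i => (a' i + (x i : ℝ)) / 2, fun i => ((x i : ℝ) + b' i) / 2, fun i => ?_, fun y hy => ?_⟩
  · have := hx' i
    constructor <;> linarith [this.1, this.2]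
  · refine hO' fun i => ?_
    have h1 := hx' i
    have h2 := hy i
    constructor <;> linarith [h1.1, h1.2, h2.1, h2.2]

/-- the clamp is the identity on the closed box -/
theorem fcc_clamp_of_mem (n : ℕ) (a b : Fin n → ℝ) (x : EhCb n) (hx : x ∈ fccBoxC n a b) :
    fccClamp n a b x = x := by
  funext i
  apply Subtype.ext
  show max (-1) (min 1 (max (a i) (min (b i) (x i : ℝ)))) = (x i : ℝ)
  rw [min_eq_right (hx i).2, max_eq_right (hx i).1, min_eq_right (x i).2.2, max_eq_right (x i).2.1]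

/-- the clamp maps the cube into the closed box, if the box is not empty -/
theorem fcc_clamp_mem (n : ℕ) (a b : Fin n → ℝ) (h : (asBx n a b).Nonempty) (x : EhCb n) :
    fccClamp n a b x ∈ fccBoxC n a b := by
  obtain ⟨y, hy⟩ := h
  intro i
  have h1 := hy i
  have h2 := (y i).2
  show a i ≤ max (-1) (min 1 (max (a i) (min (b i) (x i : ℝ)))) ∧
    max (-1) (min 1 (max (a i) (min (b i) (x i : ℝ)))) ≤ b i
  constructor
  · refine le_max_of_le_right (le_min ?_ (le_max_left _ _))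
    linarith [h1.1, h2.2]
  · refine max_le ?_ (min_le_of_right_le (max_le ?_ (min_le_left _ _)))
    · linarith [h1.2, h2.1]
    · linarith [h1.1, h1.2]

/-- LEBESGUE.  `IsCompact.induction_on` with `p S := ∃ E₁ E₂, ... S ⊆ E₁ ∪ E₂`; points: `fcc_box_nhd`, `closure (asBx) ⊆ fccBoxC`. -/
theorem fcc_cover2 (n : ℕ) (K O₁ O₂ : Set (EhCb n)) (hK : IsCompact K) (h₁ : IsOpen O₁) (h₂ : IsOpen O₂)
    (hK12 : K ⊆ O₁ ∪ O₂) :
    ∃ E₁ E₂, FccU n E₁ ∧ FccU n E₂ ∧ K ⊆ E₁ ∪ E₂ ∧ closure E₁ ⊆ O₁ ∧ closure E₂ ⊆ O₂ := by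
  refine hK.induction_on (p := fun S => ∃ E₁ E₂, FccU n E₁ ∧ FccU n E₂ ∧ S ⊆ E₁ ∪ E₂ ∧
    closure E₁ ⊆ O₁ ∧ closure E₂ ⊆ O₂) ?_ ?_ ?_ ?_
  · exact ⟨∅, ∅, FccU.empty, FccU.empty, Set.empty_subset _, by simp, by simp⟩
  · rintro S T hST ⟨E₁, E₂, hE₁, hE₂, hT, hc₁, hc₂⟩
    exact ⟨E₁, E₂, hE₁, hE₂, hST.trans hT, hc₁, hc₂⟩
  · rintro S T ⟨E₁, E₂, hE₁, hE₂, hS, hc₁, hc₂⟩ ⟨F₁, F₂, hF₁, hF₂, hT, hd₁, hd₂⟩
    refine ⟨E₁ ∪ F₁, E₂ ∪ F₂, hE₁.union hF₁, hE₂.union hF₂, ?_, ?_, ?_⟩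
    · rintro x (hx | hx)
      · rcases hS hx with h | h
        · exact Or.inl (Or.inl h)
        · exact Or.inr (Or.inl h)
      · rcases hT hx with h | h
        · exact Or.inl (Or.inr h)
        · exact Or.inr (Or.inr h)
    · rw [closure_union]; exact Set.union_subset hc₁ hd₁
    · rw [closure_union]; exact Set.union_subset hc₂ hd₂
  · intro x hx
    rcases hK12 hx with h | h
    · obtain ⟨a, b, hxa, hab⟩ := fcc_box_nhd n O₁ h₁ x h
      exact ⟨asBx n a b, mem_nhdsWithin_of_mem_nhds ((as_bx_isOpen n a b).mem_nhds hxa), asBx n a b, ∅,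
        FccU.box a b, FccU.empty, Set.subset_union_left,
        (closure_minimal (fcc_bx_subset_boxC n a b) (fcc_boxC_closed n a b)).trans hab, by simp⟩
    · obtain ⟨a, b, hxa, hab⟩ := fcc_box_nhd n O₂ h₂ x h
      exact ⟨asBx n a b, mem_nhdsWithin_of_mem_nhds ((as_bx_isOpen n a b).mem_nhds hxa), ∅, asBx n a b,
        FccU.empty, FccU.box a b, Set.subset_union_right, by simp,
        (closure_minimal (fcc_bx_subset_boxC n a b) (fcc_boxC_closed n a b)).trans hab⟩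

/-! ### 2. MV-induction -/

theorem fcc_res_empty_acyc {Z : Type} [TopologicalSpace Z] (C : FcD Z) : (C.res ∅).Acyc := by
  intro U _ _ m _ _
  have h0 : m = 0 := by
    apply Subtype.ext
    exact (C.supp_empty_iff m.1).1 (Set.subset_empty_iff.1 m.2)
  exact ⟨0, by rw [(C.res ∅).supp_zero]; exact Set.empty_subset _, by rw [h0, map_zero]⟩

/-- MV-INDUCTION.  `IsCompact.induction_on (closure E)` with
`p S := ∃ E', FccU n E' ∧ S ⊆ E' ∧ ∀ E'', FccU n E'' → E'' ⊆ E' → Q.mem (C.res E'')`.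
union: `E'' = (E'' ∩ E'₁) ∪ (E'' ∩ E'₂)`, `fch_mv_mem`; points: `fcc_box_nhd`. -/
theorem fcc_boxes_mem (n : ℕ) (Q : FcPre (EhCb n)) (C : FcD (EhCb n)) (O : Set (EhCb n)) (hO : IsOpen O)
    (hsmall : ∀ a b : Fin n → ℝ, fccBoxC n a b ⊆ O → ∀ E, FccU n E → E ⊆ asBx n a b → Q.mem (C.res E))
    (E : Set (EhCb n)) (hE : FccU n E) (hEO : closure E ⊆ O) : Q.mem (C.res E) := by
  have key : ∃ E', FccU n E' ∧ closure E ⊆ E' ∧ ∀ E'', FccU n E'' → E'' ⊆ E' → Q.mem (C.res E'') := by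
    refine (isClosed_closure (s := E)).isCompact.induction_on (p := fun S => ∃ E', FccU n E' ∧ S ⊆ E' ∧
      ∀ E'', FccU n E'' → E'' ⊆ E' → Q.mem (C.res E'')) ?_ ?_ ?_ ?_
    · refine ⟨∅, FccU.empty, subset_rfl, fun E'' _ h => ?_⟩
      rw [Set.subset_empty_iff.1 h]
      exact Q.acyc (fcc_res_empty_acyc C)
    · rintro S T hST ⟨E', hE', hT, h⟩
      exact ⟨E', hE', hST.trans hT, h⟩
    · rintro S T ⟨E₁, hE₁, hS, h₁⟩ ⟨E₂, hE₂, hT, h₂⟩
      refine ⟨E₁ ∪ E₂, hE₁.union hE₂, Set.union_subset_union hS hT, fun E'' hE'' hsub => ?_⟩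
      have e : E'' = (E'' ∩ E₁) ∪ (E'' ∩ E₂) := by
        rw [← Set.inter_union_distrib_left, Set.inter_eq_left.2 hsub]
      have u₁ := fcc_U_inter hE'' hE₁
      have u₂ := fcc_U_inter hE'' hE₂
      rw [e]
      exact fch_mv_mem Q C (fcc_U_isOpen u₁) (fcc_U_isOpen u₂)
        (h₁ _ (fcc_U_inter u₁ u₂) (Set.inter_subset_left.trans Set.inter_subset_right))
        (h₁ _ u₁ Set.inter_subset_right) (h₂ _ u₂ Set.inter_subset_right)
    · intro x hx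
      obtain ⟨a, b, hxa, hab⟩ := fcc_box_nhd n O hO x (hEO hx)
      exact ⟨asBx n a b, mem_nhdsWithin_of_mem_nhds ((as_bx_isOpen n a b).mem_nhds hxa), asBx n a b,
        FccU.box a b, subset_rfl, fun E'' hE'' hsub => hsmall a b hab E'' hE'' hsub⟩
  obtain ⟨E', _, hsub, h⟩ := key
  exact h E hE (subset_closure.trans hsub)

/-! ### 3. small generators -/

/-- the push forward only depends on the map on the supports -/
theorem fcc_push_congr [T2Space X] {Z : Type} [TopologicalSpace Z] (A : FcD Z) (f f' : C(Z, X))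
    (h : ∀ m, ∀ z ∈ A.supp m, f z = f' z) : Nonempty (FcIso (A.push f) (A.push f')) :=
  ⟨⟨LinearEquiv.refl ℝ A.C, fun m => (Set.image_congr (h m)).symm, fun _ => rfl⟩⟩

/-- the supports of the dual of `C(E)` lie in `closure E` -/
theorem fcc_res_dual_supp {Z : Type} [TopologicalSpace Z] [T2Space Z] (C : FcD Z) (E : Set Z)
    (φ : (C.res E).dual.C) : (C.res E).dual.supp φ ⊆ closure E := by
  refine (C.res E).toFcObj.dualSupp_subset_of_closed φ.1 isClosed_closure (fun m hm => ?_)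
  have h0 : m = 0 := by
    apply ((C.res E).supp_empty_iff m).1
    rw [← Set.subset_empty_iff]
    intro x hx
    exact Set.disjoint_left.1 hm hx (subset_closure (m.2 hx))
  rw [h0, map_zero]

theorem fcc_Gs_le [T2Space X] (𝒦 : (n : ℕ) → FcD (EhCb n) → Prop) (V : Set X) (A : FcD X)
    (h : FccGs 𝒦 V A) : FccG 𝒦 V A := by
  obtain ⟨n, C, E, f, hC, hE, hf, hA⟩ := h
  exact ⟨n, C, E, f, hC, hE, (Set.image_subset_range _ _).trans hf, hA⟩

/-- (SUB')  `fcc_boxes_mem` for `Q = pushPre f (FcGen (FccGs 𝒦 V))` resp. its `dualPre`, `O = f⁻¹ V`.  Small `E ⊆ asBx a b`, `f(fccBoxC a b) ⊆ V`: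
if the box is empty, `E = ∅` (`fcc_res_empty_acyc`); otherwise `(C.res E).push f ≅ (C.res E).push (f ∘ clamp)` (`fcc_push_congr`, `fcc_clamp_of_mem`,
supports in `E` resp. `closure E ⊆ fccBoxC`), a small generator by `fcc_clamp_mem`. -/
theorem fcc_G_small [T2Space X] (𝒦 : (n : ℕ) → FcD (EhCb n) → Prop) (V : Set X) (hV : IsOpen V)
    (A : FcD X) (h : FccG 𝒦 V A) : FcGen (FccGs 𝒦 V) A := by
  obtain ⟨n, C, E, f, hC, hE, hf, hA⟩ := h
  have hO : IsOpen (f ⁻¹' V) := hV.preimage f.continuous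
  have hEO : closure E ⊆ f ⁻¹' V := Set.image_subset_iff.1 hf
  have hrange : ∀ a b : Fin n → ℝ, fccBoxC n a b ⊆ f ⁻¹' V → (asBx n a b).Nonempty →
      Set.range (f.comp (fccClamp n a b)) ⊆ V := by
    rintro a b hab hne _ ⟨z, rfl⟩
    exact hab (fcc_clamp_mem n a b hne z)
  rcases hA with rfl | rfl
  · refine fcc_boxes_mem n ((fcpGen (FccGs 𝒦 V)).pushPre f) C _ hO ?_ E hE hEO
    intro a b hab E' hE' hsub
    by_cases hne : (asBx n a b).Nonempty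
    · obtain ⟨e⟩ := fcc_push_congr (C.res E') (f.comp (fccClamp n a b)) f (fun m z hz =>
        congrArg f (fcc_clamp_of_mem n a b z (fcc_bx_subset_boxC n a b (hsub (m.2 hz)))))
      exact FcGen.iso e (FcGen.gen ⟨n, C, E', _, hC, hE', hrange a b hab hne, Or.inl rfl⟩)
    · rw [Set.not_nonempty_iff_eq_empty] at hne
      rw [hne] at hsub
      rw [Set.subset_empty_iff.1 hsub]
      exact FcPre.acyc _ (fcc_res_empty_acyc C)
  · refine fcc_boxes_mem n ((fcpGen (FccGs 𝒦 V)).pushPre f).dualPre C _ hO ?_ E hE hEO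
    intro a b hab E' hE' hsub
    by_cases hne : (asBx n a b).Nonempty
    · obtain ⟨e⟩ := fcc_push_congr (C.res E').dual (f.comp (fccClamp n a b)) f (fun φ z hz =>
        congrArg f (fcc_clamp_of_mem n a b z
          (closure_minimal (hsub.trans (fcc_bx_subset_boxC n a b)) (fcc_boxC_closed n a b)
            (fcc_res_dual_supp C E' φ hz))))
      exact FcGen.iso e (FcGen.gen ⟨n, C, E', _, hC, hE', hrange a b hab hne, Or.inr rfl⟩)
    · rw [Set.not_nonempty_iff_eq_empty] at hne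
      rw [hne] at hsub
      rw [Set.subset_empty_iff.1 hsub]
      exact FcPre.acyc _ (fcc_res_empty_acyc C)

theorem fcc_gen_iff_small [T2Space X] (𝒦 : (n : ℕ) → FcD (EhCb n) → Prop) (V : Set X) (hV : IsOpen V)
    (A : FcD X) : FcGen (FccG 𝒦 V) A ↔ FcGen (FccGs 𝒦 V) A :=
  ⟨fcp_gen_mono (fcc_G_small 𝒦 V hV) A, fcp_gen_mono (fun B hB => FcGen.gen (fcc_Gs_le 𝒦 V B hB)) A⟩

theorem fcc_thick_iff_small [T2Space X] (𝒦 : (n : ℕ) → FcD (EhCb n) → Prop) (V : Set X) (hV : IsOpen V)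
    (A : FcD X) : FcThick (FccG 𝒦 V) A ↔ FcThick (FccGs 𝒦 V) A :=
  ⟨fcp_thick_mono (fun B hB => fcp_gen_le_thick _ B (fcc_G_small 𝒦 V hV B hB)) A,
    fcp_thick_mono (fun B hB => FcThick.gen (fcc_Gs_le 𝒦 V B hB)) A⟩

/-! ### 4. elementary properties of the generators -/

theorem fcc_G_mono [T2Space X] (𝒦 : (n : ℕ) → FcD (EhCb n) → Prop) {V V' : Set X} (hVV' : V ⊆ V')
    (A : FcD X) (h : FccG 𝒦 V A) : FccG 𝒦 V' A := by
  obtain ⟨n, C, E, f, hC, hE, hf, hA⟩ := h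
  exact ⟨n, C, E, f, hC, hE, hf.trans hVV', hA⟩

theorem fcc_T0_mono [T2Space X] (𝒦 : (n : ℕ) → FcD (EhCb n) → Prop) {V V' : Set X} (hVV' : V ⊆ V')
    (A : FcD X) (h : (fccT0 𝒦 V).mem A) : (fccT0 𝒦 V').mem A :=
  fcp_gen_mono (fun B hB => FcGen.gen (fcc_G_mono 𝒦 hVV' B hB)) A h

theorem fcc_Th_mono [T2Space X] (𝒦 : (n : ℕ) → FcD (EhCb n) → Prop) {V V' : Set X} (hVV' : V ⊆ V')
    (A : FcD X) (h : (fccTh 𝒦 V).mem A) : (fccTh 𝒦 V').mem A :=
  fcp_thick_mono (fun B hB => FcThick.gen (fcc_G_mono 𝒦 hVV' B hB)) A h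

/-- an object all of whose supports lie in `K` is locally acyclic off `K` -/
theorem fcc_acycOn_of_supp (A : FcD X) (K : Set X) (h : ∀ m, A.supp m ⊆ K) : A.AcycOn Kᶜ := by
  intro U _ hUK m hm _
  have h0 : m = 0 := by
    apply (A.supp_empty_iff m).1
    rw [← Set.subset_empty_iff]
    intro x hx
    exact hUK (hm hx) (h m hx)
  exact ⟨0, by rw [A.supp_zero]; exact Set.empty_subset _, by rw [h0, map_zero]⟩

/-- all supports of a generator lie in the compact set `f(closure E) ⊆ V` -/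
theorem fcc_G_supp [T2Space X] (𝒦 : (n : ℕ) → FcD (EhCb n) → Prop) (V : Set X) (A : FcD X)
    (h : FccG 𝒦 V A) : ∃ K, IsCompact K ∧ K ⊆ V ∧ ∀ m, A.supp m ⊆ K := by
  obtain ⟨n, C, E, f, _, _, hf, hA⟩ := h
  refine ⟨f '' closure E, (isClosed_closure.isCompact).image f.continuous, hf, ?_⟩
  rcases hA with rfl | rfl
  · intro m
    exact Set.image_mono (Set.Subset.trans m.2 subset_closure)
  · intro φ
    exact Set.image_mono (fcc_res_dual_supp C E φ)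

theorem fcc_G_cpt [T2Space X] (𝒦 : (n : ℕ) → FcD (EhCb n) → Prop) (V : Set X) (A : FcD X)
    (h : FccG 𝒦 V A) : (fcpCpt V).mem A := by
  obtain ⟨K, hK, hKV, hs⟩ := fcc_G_supp 𝒦 V A h
  exact ⟨K, hK, hKV, fcc_acycOn_of_supp A K hs⟩

theorem fcc_cpt_summ (V : Set X) : (fcpCpt V).Summ :=
  fun _ _ ⟨K, hK, hKV, h⟩ => ⟨K, hK, hKV, fun U hU hUK => (h U hU hUK).of_prod⟩

/-- every member of the thick class of `V` is locally acyclic off a compact subset of `V` -/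
theorem fcc_Th_cpt [T2Space X] (𝒦 : (n : ℕ) → FcD (EhCb n) → Prop) (V : Set X) (A : FcD X)
    (h : (fccTh 𝒦 V).mem A) : (fcpCpt V).mem A :=
  fcp_thick_le _ (fcpCpt V) (fcc_cpt_summ V) (fcc_G_cpt 𝒦 V) A h

theorem fcc_T0_le_Th [T2Space X] (𝒦 : (n : ℕ) → FcD (EhCb n) → Prop) (V : Set X) (A : FcD X)
    (h : (fccT0 𝒦 V).mem A) : (fccTh 𝒦 V).mem A := fcp_gen_le_thick _ A h

/-- push forward of generators (`fcfPushPush`) -/
theorem fcc_G_push [T2Space X] [T2Space Y] (𝒦 : (n : ℕ) → FcD (EhCb n) → Prop) (g : C(X, Y))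
    {V : Set X} {V' : Set Y} (hg : Set.MapsTo g V V') (A : FcD X) (h : FccG 𝒦 V A) :
    ∃ A', FccG 𝒦 V' A' ∧ Nonempty (FcIso A' (A.push g)) := by
  obtain ⟨n, C, E, f, hC, hE, hf, hA⟩ := h
  have hgf : (g.comp f) '' closure E ⊆ V' := by
    rintro _ ⟨z, hz, rfl⟩
    exact hg (hf ⟨z, hz, rfl⟩)
  rcases hA with rfl | rfl
  · exact ⟨_, ⟨n, C, E, g.comp f, hC, hE, hgf, Or.inl rfl⟩, ⟨(fcfPushPush f g _).symm⟩⟩
  · exact ⟨_, ⟨n, C, E, g.comp f, hC, hE, hgf, Or.inr rfl⟩, ⟨(fcfPushPush f g _).symm⟩⟩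

theorem fcc_pushPre_summ [T2Space Y] (g : C(X, Y)) (P : FcPre Y) (hS : P.Summ) : (P.pushPre g).Summ :=
  fun A B h => hS _ _ (P.iso (fcfPushProd g A B) h)

/-- `g_!` maps the thick class of `V` to the thick class of `V'` -/
theorem fcc_Th_push [T2Space X] [T2Space Y] (𝒦 : (n : ℕ) → FcD (EhCb n) → Prop) (g : C(X, Y))
    {V : Set X} {V' : Set Y} (hg : Set.MapsTo g V V') (A : FcD X) (h : (fccTh 𝒦 V).mem A) :
    (fccTh 𝒦 V').mem (A.push g) := by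
  refine fcp_thick_le _ ((fccTh 𝒦 V').pushPre g) (fcc_pushPre_summ g _ (fcp_thick_summ _)) ?_ A h
  intro B hB
  obtain ⟨B', hB', ⟨e⟩⟩ := fcc_G_push 𝒦 g hg B hB
  exact FcThick.iso e (FcThick.gen hB')

theorem fcc_T0_push [T2Space X] [T2Space Y] (𝒦 : (n : ℕ) → FcD (EhCb n) → Prop) (g : C(X, Y))
    {V : Set X} {V' : Set Y} (hg : Set.MapsTo g V V') (A : FcD X) (h : (fccT0 𝒦 V).mem A) :
    (fccT0 𝒦 V').mem (A.push g) := by
  refine fcp_gen_le _ ((fccT0 𝒦 V').pushPre g) ?_ A h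
  intro B hB
  obtain ⟨B', hB', ⟨e⟩⟩ := fcc_G_push 𝒦 g hg B hB
  exact FcGen.iso e (FcGen.gen hB')

/-- DUALS OF GENERATORS.  `B = C.res E`.  `(f_! B)^∨ ≅ f_!(B^∨)` (`fch_pushDual_iso`, compact cube) is a generator.
`(f_!(B^∨))^∨ ≅ f_!(B^∨∨)`, and `f_!(ev) : f_! B → f_!(B^∨∨)` has locally acyclic cone (`FccRefl`, `fcfPushCone`, `FcD.AcycOn.push`): `cone_tgt`. -/
theorem fcc_G_dual [T2Space X] (𝒦 : (n : ℕ) → FcD (EhCb n) → Prop) (h𝒦 : FccRefl 𝒦) (V : Set X)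
    (A : FcD X) (h : FccG 𝒦 V A) : FcGen (FccG 𝒦 V) A.dual := by
  obtain ⟨n, C, E, f, hC, hE, hf, hA⟩ := h
  rcases hA with rfl | rfl
  · obtain ⟨e, _⟩ := fch_pushDual_iso f (C.res E) isCompact_univ (fun _ => Set.subset_univ _)
    exact FcGen.iso e (FcGen.gen ⟨n, C, E, f, hC, hE, hf, Or.inr rfl⟩)
  · obtain ⟨e, _⟩ := fch_pushDual_iso f (C.res E).dual isCompact_univ (fun _ => Set.subset_univ _)
    refine FcGen.iso e ?_
    have h1 : FcGen (FccG 𝒦 V) ((C.res E).push f) := FcGen.gen ⟨n, C, E, f, hC, hE, hf, Or.inl rfl⟩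
    have h2 : (fcCone ((fcEv (C.res E)).push f)).Acyc :=
      (fcpAcyc X).iso (fcfPushCone f (fcEv (C.res E)))
        (FcD.AcycOn.push f (O := Set.univ) (by rw [Set.preimage_univ]; exact h𝒦 n C E hC hE))
    exact FcGen.cone_tgt _ h1 (FcGen.acyc h2)

theorem fcc_T0_dual [T2Space X] (𝒦 : (n : ℕ) → FcD (EhCb n) → Prop) (h𝒦 : FccRefl 𝒦) (V : Set X)
    (A : FcD X) (h : (fccT0 𝒦 V).mem A) : (fccT0 𝒦 V).mem A.dual :=
  fcp_gen_dual _ (fcc_G_dual 𝒦 h𝒦 V) A h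

theorem fcc_Th_dual [T2Space X] (𝒦 : (n : ℕ) → FcD (EhCb n) → Prop) (h𝒦 : FccRefl 𝒦) (V : Set X)
    (A : FcD X) (h : (fccTh 𝒦 V).mem A) : (fccTh 𝒦 V).mem A.dual :=
  fcp_thick_dual _ (fun B hB => fcp_gen_le_thick _ _ (fcc_G_dual 𝒦 h𝒦 V B hB)) A h

/-- RESTRICTION OF SMALL GENERATORS TO AN OPEN SUBSPACE.  `range f ⊆ V ⊆ range j`: `f = j ∘ f'` with `f' = j⁻¹ ∘ f` continuous
(`hj.toHomeomorph`/`IsOpenEmbedding.continuous_iff`); `(B.push f).pull j ≅ ((B.push f').push j).pull j ≅ B.push f'` (`fcfPushPush`, `fcqPullPush`). -/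
theorem fcc_Gs_pull [T2Space X] [T2Space Y] (𝒦 : (n : ℕ) → FcD (EhCb n) → Prop) (j : C(Y, X))
    (hj : IsOpenEmbedding j) (V : Set X) (hV : V ⊆ Set.range j) (A : FcD X) (h : FccGs 𝒦 V A) :
    ∃ A', FccG 𝒦 (Set.univ : Set Y) A' ∧ Nonempty (FcIso A' (A.pull j hj)) := by
  obtain ⟨n, C, E, f, hC, hE, hf, hA⟩ := h
  choose f' hf' using (fun z : EhCb n => hV (hf ⟨z, rfl⟩))
  have hc : Continuous f' := by
    rw [hj.isInducing.continuous_iff]
    have : (j ∘ f') = f := funext hf'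
    rw [this]
    exact f.continuous
  have hff : f = j.comp ⟨f', hc⟩ := ContinuousMap.ext fun z => (hf' z).symm
  have key : ∀ B : FcD (EhCb n), Nonempty (FcIso (B.push ⟨f', hc⟩) ((B.push f).pull j hj)) := by
    intro B
    rw [hff]
    exact ⟨(fcqPullPush j hj (B.push ⟨f', hc⟩)).symm.trans ((fcfPushPush ⟨f', hc⟩ j B).pull j hj)⟩
  rcases hA with rfl | rfl
  · exact ⟨_, ⟨n, C, E, ⟨f', hc⟩, hC, hE, Set.subset_univ _, Or.inl rfl⟩, key _⟩
  · exact ⟨_, ⟨n, C, E, ⟨f', hc⟩, hC, hE, Set.subset_univ _, Or.inr rfl⟩, key _⟩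

/-! ### 5. the cover cut of a generator -/

/-- case (a) of the cover cut -/
theorem fcc_cut_a [T2Space X] (𝒦 : (n : ℕ) → FcD (EhCb n) → Prop) (O₁ O₂ : Set X) (n : ℕ)
    (C : FcD (EhCb n)) (hC : 𝒦 n C) (f : C(EhCb n, X)) (U₁ U₂ : Set (EhCb n)) (hU₁ : FccU n U₁)
    (hU₂ : FccU n U₂) (hf₁ : f '' closure U₁ ⊆ O₁) (hf₂ : f '' closure U₂ ⊆ O₂) :
    ∃ (A' : FcD X) (x : FcHom A' ((C.res (U₁ ∪ U₂)).push f)),
      (fccT0 𝒦 O₁).mem A' ∧ (fccT0 𝒦 O₂).mem (fcCone x) := by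
  refine ⟨(C.res U₁).push f, (fcbResMono C (Set.subset_union_left : U₁ ⊆ U₁ ∪ U₂)).push f,
    FcGen.gen ⟨n, C, U₁, f, hC, hU₁, hf₁, Or.inl rfl⟩, ?_⟩
  have h := fch_mv_cone_mem ((fccT0 𝒦 O₂).pushPre f) C (fcc_U_isOpen hU₁) (fcc_U_isOpen hU₂)
    (FcGen.gen ⟨n, C, U₁ ∩ U₂, f, hC, fcc_U_inter hU₁ hU₂,
      (Set.image_mono (closure_mono Set.inter_subset_right)).trans hf₂, Or.inl rfl⟩)
    (FcGen.gen ⟨n, C, U₂, f, hC, hU₂, hf₂, Or.inl rfl⟩)
  exact (fccT0 𝒦 O₂).iso (fcfPushCone f _) h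

/-- case (b) of the cover cut: `x = f_!(in^∨) : f_!(cone(y)^∨) → f_!(B^∨)`, `y : C(U₂) → B = C(U₂ ∪ U₁)` -/
theorem fcc_cut_b [T2Space X] (𝒦 : (n : ℕ) → FcD (EhCb n) → Prop) (O₁ O₂ : Set X) (n : ℕ)
    (C : FcD (EhCb n)) (hC : 𝒦 n C) (f : C(EhCb n, X)) (U₁ U₂ : Set (EhCb n)) (hU₁ : FccU n U₁)
    (hU₂ : FccU n U₂) (hf₁ : f '' closure U₁ ⊆ O₁) (hf₂ : f '' closure U₂ ⊆ O₂) :
    ∃ (A' : FcD X) (x : FcHom A' ((C.res (U₂ ∪ U₁)).dual.push f)),
      (fccT0 𝒦 O₁).mem A' ∧ (fccT0 𝒦 O₂).mem (fcCone x) := by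
  refine ⟨(fcCone (fcbResMono C (Set.subset_union_left : U₂ ⊆ U₂ ∪ U₁))).dual.push f,
    (fcbExtCone (fcbResMono C (Set.subset_union_left : U₂ ⊆ U₂ ∪ U₁))).dual.p.push f, ?_, ?_⟩
  · exact fch_mv_cone_mem ((fccT0 𝒦 O₁).pushPre f).dualPre C (fcc_U_isOpen hU₂) (fcc_U_isOpen hU₁)
      (FcGen.gen ⟨n, C, U₂ ∩ U₁, f, hC, fcc_U_inter hU₂ hU₁,
        (Set.image_mono (closure_mono Set.inter_subset_right)).trans hf₁, Or.inr rfl⟩)
      (FcGen.gen ⟨n, C, U₁, f, hC, hU₁, hf₁, Or.inr rfl⟩)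
  · refine (fccT0 𝒦 O₂).iso (fcfPushCone f _) ?_
    refine (fcp_ext_p_mem_iff ((fccT0 𝒦 O₂).pushPre f) _).2 ?_
    refine (fcp_dual_resc_iff ((fccT0 𝒦 O₂).pushPre f) _ (-1)).2 ?_
    exact FcPre.resc _ (-1) (by norm_num) (FcGen.gen ⟨n, C, U₂, f, hC, hU₂, hf₂, Or.inr rfl⟩)

/-- THE COVER CUT OF A GENERATOR.  `A = f_! B` or `f_!(B^∨)`, `B = C.res E`, `f(closure E) ⊆ W ⊆ O₁ ∪ O₂`.
`fcc_cover2` for `K = closure E`, `f⁻¹ O₁`, `f⁻¹ O₂`: `E₁, E₂`.  Put `U₁ = E ∩ E₁`, `U₂ = E ∩ E₂`; `E = U₁ ∪ U₂`.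
(a) `A = f_! B`: `A' = f_!(C.res U₁)`, `x = f_!(incl)`; `cone(incl) ∈ pushPre f (T0 O₂)` by `fch_mv_cone_mem` (`C.res (U₁ ∩ U₂)`, `C.res U₂` are generators in `O₂`).
(b) `A = f_!(B^∨)`: `y = incl : C.res U₂ → B`; `A' = f_!(cone(y^∨)<-1>)`, `x = f_!(out) : A' → f_!(B^∨)`.
   `cone(y^∨) ≅ cone(y)^∨<-1>` and `cone(y) ∈ (pushPre f (T0 O₁)).dualPre` by `fch_mv_cone_mem` for this class; `cone(x) ∼ (C.res U₂)^∨` (`fcp_cone_out_iff`). -/
theorem fcc_G_cut [T2Space X] (𝒦 : (n : ℕ) → FcD (EhCb n) → Prop) (W O₁ O₂ : Set X) (h₁ : IsOpen O₁)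
    (h₂ : IsOpen O₂) (hW : W ⊆ O₁ ∪ O₂) (A : FcD X) (h : FccG 𝒦 W A) :
    ∃ (A' : FcD X) (x : FcHom A' A), (fccT0 𝒦 O₁).mem A' ∧ (fccT0 𝒦 O₂).mem (fcCone x) := by
  obtain ⟨n, C, E, f, hC, hE, hf, hA⟩ := h
  obtain ⟨E₁, E₂, hE₁, hE₂, hcov, hc₁, hc₂⟩ := fcc_cover2 n (closure E) (f ⁻¹' O₁) (f ⁻¹' O₂)
    isClosed_closure.isCompact (h₁.preimage f.continuous) (h₂.preimage f.continuous)
    (fun z hz => hW (hf ⟨z, hz, rfl⟩))
  have hf₁ : f '' closure (E ∩ E₁) ⊆ O₁ :=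
    Set.image_subset_iff.2 ((closure_mono Set.inter_subset_right).trans hc₁)
  have hf₂ : f '' closure (E ∩ E₂) ⊆ O₂ :=
    Set.image_subset_iff.2 ((closure_mono Set.inter_subset_right).trans hc₂)
  have e : E = (E ∩ E₁) ∪ (E ∩ E₂) := by
    rw [← Set.inter_union_distrib_left, Set.inter_eq_left.2 (subset_closure.trans hcov)]
  have e' : E = (E ∩ E₂) ∪ (E ∩ E₁) := by rw [Set.union_comm]; exact e
  rcases hA with rfl | rfl
  · have := fcc_cut_a 𝒦 O₁ O₂ n C hC f _ _ (fcc_U_inter hE hE₁) (fcc_U_inter hE hE₂) hf₁ hf₂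
    rwa [← e] at this
  · have := fcc_cut_b 𝒦 O₁ O₂ n C hC f _ _ (fcc_U_inter hE hE₁) (fcc_U_inter hE hE₂) hf₁ hf₂
    rwa [← e'] at this

end Claimed.Agent.R304
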