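/-
Row 304 (S0559, Hilbert-Smith).  Owner: helper231.  LAYER S, package `FcCut` (prefix `fcu`): CUTS AND SUPPORTS.

* `fcu_cut_induction`   THE ABSTRACT CUT LEMMA (one induction for the cover cut and for the field `exc` of `FcModel`).
* `fcu_cover_cut`       COVER CUT: `M ∈ T0(W)`, `W ⊆ O₁ ∪ O₂` ⇒ `M' → M`, `M' ∈ T0(O₁)`, cone in `T0(O₂)`.
* `fcu_support`         SUPPORT THEOREM: `A ∈ Th(univ)` locally acyclic near `Vᶜ` ⇒ `A ∈ Th(V)`.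
-/
import Claimed.Agent.R304.FcCube

set_option autoImplicit false

namespace Claimed.Agent.R304

open Topology

variable {X : Type} [TopologicalSpace X]

/-- the property proved by the abstract cut lemma -/
def FcuCut (L R : FcPre X) (O₂ : Set X) (M : FcD X) : Prop :=
  ∀ K, IsCompact K → K ⊆ O₂ → ∃ (M' : FcD X) (x : FcHom M' M) (O : Set X),
    L.mem M' ∧ IsOpen O ∧ K ⊆ O ∧ M'.AcycOn O ∧ R.mem (fcCone x)

theorem fcu_defs_eqns_cite : True := by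
  have := @FcuCut.eq_1
  trivial

/-- homotopic maps have equivalent cones: `fcbConeMap 1 1 H : cone f → cone g`, `(a, b) ↦ (a, b + s a)`. -/
theorem fcu_htpy_mem (P : FcPre X) {A B : FcD X} {f g : FcHom A B} (H : FcHtpy f g) :
    P.mem (fcCone f) ↔ P.mem (fcCone g) := by
  have H' : FcHtpy ((fcId B).comp f) (g.comp (fcId A)) := ⟨H.s, H.loc, H.eq⟩
  exact fcp_mem_of_equiv P (fcbConeMap (fcId A) (fcId B) H')
    (fcp_coneMap_mem P _ _ H' (fcp_cone_id_mem P A) (fcp_cone_id_mem P B))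

theorem fcu_htpy_acyc {A B : FcD X} {f g : FcHom A B} (H : FcHtpy f g) (h : (fcCone g).Acyc) :
    (fcCone f).Acyc := (fcu_htpy_mem (fcpAcyc X) H).2 h

/-- forward invariance: compose with `u`; `fcp_comp_mem`. -/
theorem fcu_cut_fwd (L R : FcPre X) (O₂ : Set X) {A B : FcD X} (u : FcHom A B) (hu : (fcCone u).Acyc)
    (h : FcuCut L R O₂ A) : FcuCut L R O₂ B := by
  intro K hK hKO
  obtain ⟨M', x, O, hL, hO, hKO', hac, hR⟩ := h K hK hKO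
  exact ⟨M', u.comp x, O, hL, hO, hKO', hac, fcp_comp_mem R x u hR (R.acyc hu)⟩

/-- backward invariance: homotopy pull-back `fcbPb x u`; `pr₂ : Pb → A` has cone in `R` (`fcp_pb_snd_iff`), `pr₁ : Pb → M'` has locally acyclic cone
(`fcp_pb_fst_iff`), so `Pb ∈ L` and `Pb` is acyclic on `O` (`fcp_mem_of_equiv` for `L` and for `fcpAcycOn O`). -/
theorem fcu_cut_bwd (L R : FcPre X) (O₂ : Set X) {A B : FcD X} (u : FcHom A B) (hu : (fcCone u).Acyc)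
    (h : FcuCut L R O₂ B) : FcuCut L R O₂ A := by
  intro K hK hKO
  obtain ⟨M', x, O, hL, hO, hKO', hac, hR⟩ := h K hK hKO
  refine ⟨fcbPb x u, fcbPbSnd x u, O, ?_, hO, hKO', ?_, (fcp_pb_snd_iff R x u).2 hR⟩
  · exact (fcp_mem_of_equiv L (fcbPbFst x u) ((fcp_pb_fst_iff L x u).2 (L.acyc hu))).2 hL
  · exact (fcp_mem_of_equiv (fcpAcycOn O) (fcbPbFst x u)
      ((fcp_pb_fst_iff (fcpAcycOn O) x u).2 ((fcpAcycOn O).acyc hu))).2 hac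

theorem fcu_cut_zero (L R : FcPre X) (O₂ : Set X) : FcuCut L R O₂ (fcZero X) := by
  intro K _ _
  exact ⟨fcZero X, fcId _, Set.univ, L.acyc (fcb_zero_acyc X), isOpen_univ, Set.subset_univ _,
    fcb_zero_acyc X, R.acyc (fcb_cone_id_acyc _)⟩

theorem fcu_cut_resc (L R : FcPre X) (O₂ : Set X) (A : FcD X) (c : ℝ) (hc : c ≠ 0)
    (h : FcuCut L R O₂ A) : FcuCut L R O₂ (A.resc c) := by
  intro K hK hKO
  obtain ⟨M', x, O, hL, hO, hKO', hac, hR⟩ := h K hK hKO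
  exact ⟨M'.resc c, x.resc c, O, L.resc c hc hL, hO, hKO', (fcpAcycOn O).resc c hc hac,
    (fcp_cone_resc_iff R x hc).2 hR⟩

/-- THE CONE STEP.  Given `K`.  Cut `B` for `K`: `x_B : B' → B`, `E := cone x_B ∈ R` is acyclic off a compact `K_E ⊆ O₂`.
Cut `A` for `K ∪ K_E`: `x_A : A' → A`, `A'` acyclic on an open `O_A ⊇ K ∪ K_E` and off a compact `K''`; so (`fcg_acycOn_union`) off the compact
`K' := K'' ∖ O_A`, which is disjoint from `K_E`.  `fch_fib_trick` for `g = in ∘ f ∘ x_A : A' → E`, `K'`, `O = K_Eᶜ`: `u : A~ → A'`.  `fch_lift`: `f' : A~ → B'`,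
`x_B f' ≃ f x_A u`.  `M' = cone f'`, `x = fcbConeMap (x_A u) x_B H`; `fcp_coneMap_mem`. -/
theorem fcu_cut_cone [T2Space X] (L R : FcPre X) (O₂ : Set X)
    (hLc : ∀ A, L.mem A → ∃ K, IsCompact K ∧ A.AcycOn Kᶜ)
    (hRc : ∀ E, R.mem E → ∃ K, IsCompact K ∧ K ⊆ O₂ ∧ E.AcycOn Kᶜ)
    {A B : FcD X} (f : FcHom A B) (hA : FcuCut L R O₂ A) (hB : FcuCut L R O₂ B) :
    FcuCut L R O₂ (fcCone f) := by
  intro K hK hKO
  obtain ⟨B', xB, OB, hLB, hOB, hKOB, hacB, hRB⟩ := hB K hK hKO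
  obtain ⟨KE, hKE, hKEO, hacE⟩ := hRc _ hRB
  obtain ⟨A', xA, OA, hLA, hOA, hKOA, hacA, hRA⟩ := hA (K ∪ KE) (hK.union hKE)
    (Set.union_subset hKO hKEO)
  obtain ⟨K'', hK'', hacA''⟩ := hLc _ hLA
  have hacA' : A'.AcycOn (K'' \ OA)ᶜ := by
    refine (fcg_acycOn_union A' hOA hK''.isClosed.isOpen_compl hacA hacA'').mono ?_
    intro z hz
    by_cases hzO : z ∈ OA
    · exact Or.inl hzO
    · exact Or.inr fun hzK => hz ⟨hzK, hzO⟩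
  obtain ⟨At, u, hu, ⟨H⟩⟩ := fch_fib_trick ((fcbConeIn xB).comp (f.comp xA))
    (hK''.diff hOA).isClosed hKE.isClosed.isOpen_compl
    (fun z hz hzE => hz.2 (hKOA (Or.inr hzE))) hacA' hacE
  have H1 : FcHtpy ((fcbConeIn xB).comp ((f.comp xA).comp u)) (fcbZero At (fcCone xB)) :=
    ⟨H.s, H.loc, H.eq⟩
  obtain ⟨f', ⟨H2⟩⟩ := fch_lift xB ((f.comp xA).comp u) H1
  have H3 : FcHtpy (xB.comp f') (f.comp (xA.comp u)) := ⟨H2.s, H2.loc, H2.eq⟩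
  have hLAt : L.mem At := (fcp_mem_of_equiv L u (L.acyc hu)).2 hLA
  have hacAt : At.AcycOn (OA ∩ OB) :=
    (fcp_mem_of_equiv (fcpAcycOn (OA ∩ OB)) u ((fcpAcycOn (OA ∩ OB)).acyc hu)).2
      (hacA.mono Set.inter_subset_left)
  refine ⟨fcCone f', fcbConeMap (xA.comp u) xB H3, OA ∩ OB, L.cone f' hLAt hLB, hOA.inter hOB,
    fun z hz => ⟨hKOA (Or.inl hz), hKOB hz⟩,
    (fcpAcycOn (OA ∩ OB)).cone f' hacAt (hacB.mono Set.inter_subset_right),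
    fcp_coneMap_mem R _ _ H3 (fcp_comp_mem R u xA (R.acyc hu) hRA) hRB⟩

/-- THE ABSTRACT CUT LEMMA: `fcp_mk` for `Q = FcuCut L R O₂`, then `fcp_gen_le`. -/
theorem fcu_cut_induction [T2Space X] (G : FcD X → Prop) (L R : FcPre X) (O₂ : Set X)
    (hLc : ∀ A, L.mem A → ∃ K, IsCompact K ∧ A.AcycOn Kᶜ)
    (hRc : ∀ E, R.mem E → ∃ K, IsCompact K ∧ K ⊆ O₂ ∧ E.AcycOn Kᶜ)
    (hG : ∀ A, G A → FcuCut L R O₂ A) : ∀ M, FcGen G M → FcuCut L R O₂ M := by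
  obtain ⟨P, hP⟩ := fcp_mk (FcuCut L R O₂) (fcu_cut_zero L R O₂) (fcu_cut_resc L R O₂)
    (fun f hA hB => fcu_cut_cone L R O₂ hLc hRc f hA hB)
    (fun u hu h => fcu_cut_fwd L R O₂ u hu h) (fun u hu h => fcu_cut_bwd L R O₂ u hu h)
  intro M hM
  exact (hP M).1 (fcp_gen_le G P (fun A hA => (hP A).2 (hG A hA)) M hM)

/-- a generator in `W ⊆ O₁ ∪ O₂` has cuts for `(T0 O₁, T0 O₂)`: `fcc_G_cut` for the cover `(O₁ ∖ K, O₂)`; `A' ∈ T0(O₁ ∖ K)` is acyclic off a compact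
subset `K₁` of `O₁ ∖ K` (`fcc_Th_cpt`), take `O = K₁ᶜ`. -/
theorem fcu_G_cut [T2Space X] (𝒦 : (n : ℕ) → FcD (EhCb n) → Prop) (W O₁ O₂ : Set X) (h₁ : IsOpen O₁)
    (h₂ : IsOpen O₂) (hW : W ⊆ O₁ ∪ O₂) (A : FcD X) (h : FccG 𝒦 W A) :
    FcuCut (fccT0 𝒦 O₁) (fccT0 𝒦 O₂) O₂ A := by
  intro K hK hKO
  obtain ⟨A', x, hA', hx⟩ := fcc_G_cut 𝒦 W (O₁ \ K) O₂ (h₁.sdiff hK.isClosed) h₂ (by
    intro z hz
    rcases hW hz with h | h
    · by_cases hzK : z ∈ K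
      · exact Or.inr (hKO hzK)
      · exact Or.inl ⟨h, hzK⟩
    · exact Or.inr h) A h
  obtain ⟨K₁, hK₁, hK₁O, hac⟩ := fcc_Th_cpt 𝒦 _ A' (fcc_T0_le_Th 𝒦 _ A' hA')
  exact ⟨A', x, K₁ᶜ, fcc_T0_mono 𝒦 Set.sdiff_subset A' hA', hK₁.isClosed.isOpen_compl,
    fun z hz hz1 => (hK₁O hz1).2 hz, hac, hx⟩

/-- COVER CUT -/
theorem fcu_cover_cut [T2Space X] (𝒦 : (n : ℕ) → FcD (EhCb n) → Prop) (W O₁ O₂ : Set X) (h₁ : IsOpen O₁)
    (h₂ : IsOpen O₂) (hW : W ⊆ O₁ ∪ O₂) (M : FcD X) (hM : (fccT0 𝒦 W).mem M) :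
    ∃ (M' : FcD X) (x : FcHom M' M), (fccT0 𝒦 O₁).mem M' ∧ (fccT0 𝒦 O₂).mem (fcCone x) := by
  have h := fcu_cut_induction (FccG 𝒦 W) (fccT0 𝒦 O₁) (fccT0 𝒦 O₂) O₂
    (fun A hA => by
      obtain ⟨K, hK, _, hac⟩ := fcc_Th_cpt 𝒦 _ A (fcc_T0_le_Th 𝒦 _ A hA)
      exact ⟨K, hK, hac⟩)
    (fun E hE => fcc_Th_cpt 𝒦 _ E (fcc_T0_le_Th 𝒦 _ E hE))
    (fcu_G_cut 𝒦 W O₁ O₂ h₁ h₂ hW) M hM ∅ isCompact_empty (Set.empty_subset _)
  obtain ⟨M', x, _, hL, _, _, _, hR⟩ := h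
  exact ⟨M', x, hL, hR⟩

/-- SUPPORT THEOREM.  `A ∈ Th(univ)`, `A.AcycOn O`, `O` open `⊇ Vᶜ`.  `A` is acyclic off a compact `K₀` (`fcc_Th_cpt`), hence (`fcg_acycOn_union`) off the compact
`K := K₀ ∖ O ⊆ V`.  `N := A × Aᶜ ∈ T0(univ)` (`fcp_complement`).  `fcu_cover_cut` for `(V, Kᶜ)`: `x : N' → N`, `N' ∈ T0(V)`, `E := cone x ∈ T0(Kᶜ)` is acyclic off a compact
`K_E ⊆ Kᶜ`.  `fch_fib_trick` for `in ∘ inl : A → N → E`, `K`, `O = K_Eᶜ`: `u : A~ → A`; `fch_lift`: `l : A~ → N'` with `x l ≃ inl u`.  `p := fst ∘ x : N' → A`; `p l ≃ u`, so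
`cone(p l)` is locally acyclic (homotopic maps: `fcu_htpy_acyc`).  `fch_retract`: `N' → A × cone l` is an equivalence, so `A × cone l ∈ Th(V)`; summand rule. -/
theorem fcu_support [T2Space X] (𝒦 : (n : ℕ) → FcD (EhCb n) → Prop) (V O : Set X) (hV : IsOpen V)
    (hO : IsOpen O) (hVO : Vᶜ ⊆ O) (A : FcD X) (hA : (fccTh 𝒦 Set.univ).mem A) (hac : A.AcycOn O) :
    (fccTh 𝒦 V).mem A := by
  obtain ⟨K₀, hK₀, _, hac₀⟩ := fcc_Th_cpt 𝒦 Set.univ A hA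
  have hacK : A.AcycOn (K₀ \ O)ᶜ := by
    refine (fcg_acycOn_union A hO hK₀.isClosed.isOpen_compl hac hac₀).mono ?_
    intro z hz
    by_cases hzO : z ∈ O
    · exact Or.inl hzO
    · exact Or.inr fun hzK => hz ⟨hzK, hzO⟩
  have hKc : IsCompact (K₀ \ O) := hK₀.diff hO
  have hKV : K₀ \ O ⊆ V := fun z hz => by_contra fun hzV => hz.2 (hVO hzV)
  obtain ⟨Ac, hN⟩ := fcp_complement _ A hA
  obtain ⟨N', x, hN', hE⟩ := fcu_cover_cut 𝒦 Set.univ V (K₀ \ O)ᶜ hV hKc.isClosed.isOpen_compl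
    (fun z _ => by
      by_cases hz : z ∈ K₀ \ O
      · exact Or.inl (hKV hz)
      · exact Or.inr hz) (A.prod Ac) hN
  obtain ⟨KE, hKE, hKEK, hacE⟩ := fcc_Th_cpt 𝒦 _ _ (fcc_T0_le_Th 𝒦 _ _ hE)
  obtain ⟨At, u, hu, ⟨H⟩⟩ := fch_fib_trick ((fcbConeIn x).comp (fcbInl A Ac))
    hKc.isClosed hKE.isClosed.isOpen_compl (fun z hz hzE => hKEK hzE hz) hacK hacE
  have H1 : FcHtpy ((fcbConeIn x).comp ((fcbInl A Ac).comp u)) (fcbZero At (fcCone x)) :=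
    ⟨H.s, H.loc, H.eq⟩
  obtain ⟨l, ⟨H2⟩⟩ := fch_lift x ((fcbInl A Ac).comp u) H1
  -- `p l ≃ u`
  have H3 : FcHtpy (((fcbFst A Ac).comp x).comp l) u :=
    ⟨LinearMap.fst ℝ A.C Ac.C ∘ₗ H2.s, fun m => Set.subset_union_left.trans (H2.loc m), fun m => by
      have h := congrArg Prod.fst (H2.eq m)
      exact h⟩
  have h4 : (fcCone (((fcbFst A Ac).comp x).comp l)).Acyc := fcu_htpy_acyc H3 hu
  have h5 := fch_retract l ((fcbFst A Ac).comp x) h4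
  have h6 : (fccTh 𝒦 V).mem (A.prod (fcCone l)) :=
    (fccTh 𝒦 V).cone_tgt _ (fcc_T0_le_Th 𝒦 V _ hN') ((fccTh 𝒦 V).acyc h5)
  exact FcThick.summand h6

end Claimed.Agent.R304
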