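/-
Row 304, block A4.  Owner: helper231.  PACKAGE gl8 (est. 500 lines).   Conjugation acts linearly and boundedly on `L(G)` (raw form).

(J1) `gl_conj_lipschitz`.  Let `α h = g h g⁻¹` (continuous automorphism), `ε₀ = 1/(2C²)`.  By continuity at `1` (`N.nhds_basis`) there is `ε₁ > 0`
  with `‖h‖ ≤ ε₁ → ‖α h‖ ≤ ε₀`.  Let `0 < ‖h‖ ≤ ε₁/2`, `n = ⌊ε₁/‖h‖⌋₊`.  For `j ≤ n`: `‖h^j‖ ≤ j‖h‖ ≤ ε₁`, so `‖(α h)^j‖ = ‖α (h^j)‖ ≤ ε₀`;
  `escape'` gives `n ‖α h‖ ≤ 1/C`; and `n ≥ ε₁/(2‖h‖)`.  So `‖α h‖ ≤ (2/(C ε₁)) ‖h‖`.   (`h = 1` trivial.)   `ε = ε₁/2`, `K = 2/(Cε₁)`.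
(J2) `gl_tangent_conj`: `d(g a g⁻¹, g b g⁻¹) = ‖g (a⁻¹ b) g⁻¹‖ ≤ K d(a, b)` once `d(a,b) ≤ ε`; `IsLittleO` is stable under `≤ K ·` eventually.
(J3) `gl_conj_ladd`: `gl_ladd_eq` applied to (J2) of `gl_ladd_spec`, since `g φψ g⁻¹ = (gφg⁻¹)(gψg⁻¹)`.
(J4) `gl_lnorm_conj_le`: `‖g φ(t) g⁻¹‖ ≤ K‖φ t‖ ≤ K|φ||t|` for small `t` (depending on `φ`), then `gl_lnorm_le_of_small`.
(J5) `gl_lnorm_conj_le_small`: same with `nrm_conj_le`.
-/
import Claimed.Agent.R304.GlSum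

set_option autoImplicit false
set_option linter.unusedSectionVars false

namespace Claimed.Agent.R304

open Topology Filter Asymptotics

variable {G : Type*} [Group G] [TopologicalSpace G] [IsTopologicalGroup G] (N : GleasonMetric G)

theorem gl_conj_lipschitz (g : G) : ∃ ε : ℝ, 0 < ε ∧ ∃ K : ℝ, 0 ≤ K ∧ ∀ h : G, N.nrm h ≤ ε →
    N.nrm (g * h * g⁻¹) ≤ K * N.nrm h := by
  have hC := N.C_pos
  have hε₀ : (0 : ℝ) < 1 / (2 * N.C ^ 2) := by positivity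
  have hcont : Continuous fun h : G => g * h * g⁻¹ := by fun_prop
  have hmem : {h : G | N.nrm (g * h * g⁻¹) < 1 / (2 * N.C ^ 2)} ∈ 𝓝 (1 : G) := by
    have h1 : Tendsto (fun h : G => g * h * g⁻¹) (𝓝 1) (𝓝 1) := by
      have := hcont.tendsto 1
      simpa using this
    exact h1 (N.nhds_basis.mem_of_mem hε₀)
  obtain ⟨ε₁, hε₁, hsub⟩ := N.nhds_basis.mem_iff.1 hmem
  have hα : ∀ h : G, N.nrm h ≤ ε₁ / 2 → N.nrm (g * h * g⁻¹) ≤ 1 / (2 * N.C ^ 2) := by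
    intro h hh
    have : h ∈ {h : G | N.nrm h < ε₁} := by
      change N.nrm h < ε₁
      linarith
    exact (hsub this).le
  refine ⟨ε₁ / 4, by positivity, 4 / (N.C * ε₁), by positivity, fun h hh => ?_⟩
  have hh0 := N.nrm_nonneg h
  rcases hh0.eq_or_lt with h0 | hpos
  · have : h = 1 := N.eq_one_of_nrm h h0.symm
    subst this
    simp [N.nrm_one]
  · set n := ⌊(ε₁ / 2) / N.nrm h⌋₊ with hn
    have hn1 : (n : ℝ) ≤ (ε₁ / 2) / N.nrm h := Nat.floor_le (by positivity)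
    have hn2 : (ε₁ / 2) / N.nrm h < n + 1 := Nat.lt_floor_add_one _
    have hn3 : (n : ℝ) * N.nrm h ≤ ε₁ / 2 := by rwa [le_div_iff₀ hpos] at hn1
    have hbig : 2 ≤ (ε₁ / 2) / N.nrm h := by
      rw [le_div_iff₀ hpos]
      linarith
    have hn4 : (ε₁ / 2) / N.nrm h ≤ 2 * n := by linarith
    have hesc := N.escape' (g := g * h * g⁻¹) (n := n) (by
      intro j hj
      rw [conj_pow]
      apply hα
      refine (N.nrm_pow_le h j).trans (le_trans ?_ hn3)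
      gcongr)
    have h5 := hesc.1
    have hα0 := N.nrm_nonneg (g * h * g⁻¹)
    have h6 : (ε₁ / 2) / N.nrm h * N.nrm (g * h * g⁻¹) ≤ 2 * (1 / N.C) := by
      calc (ε₁ / 2) / N.nrm h * N.nrm (g * h * g⁻¹) ≤ (2 * n) * N.nrm (g * h * g⁻¹) := by gcongr
        _ = 2 * (n * N.nrm (g * h * g⁻¹)) := by ring
        _ ≤ 2 * (1 / N.C) := by gcongr
    have h7 : N.nrm (g * h * g⁻¹) * (ε₁ / 2) ≤ 2 * (1 / N.C) * N.nrm h := by
      have := mul_le_mul_of_nonneg_right h6 hpos.le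
      have e : (ε₁ / 2) / N.nrm h * N.nrm (g * h * g⁻¹) * N.nrm h
          = N.nrm (g * h * g⁻¹) * (ε₁ / 2) := by
        field_simp
      linarith
    have e2 : 4 / (N.C * ε₁) * N.nrm h = (2 * (1 / N.C) * N.nrm h) / (ε₁ / 2) := by
      field_simp
      ring
    rw [e2, le_div_iff₀ (by positivity)]
    exact h7

theorem gl_tangent_conj (g : G) {γ : ℝ → G} {φ : GlOps G} (h : N.Tangent γ φ) :
    N.Tangent (fun t => g * γ t * g⁻¹) (GlOps.conj g φ) := by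
  obtain ⟨ε, hε, K, hK, hlip⟩ := gl_conj_lipschitz N g
  unfold GleasonMetric.Tangent at h ⊢
  have h0 : Tendsto (fun t => N.dist (φ t) (γ t)) (𝓝 0) (𝓝 0) :=
    h.trans_tendsto tendsto_id
  have hev : ∀ᶠ t in 𝓝 (0 : ℝ), N.dist (φ t) (γ t) ≤ ε :=
    (h0.eventually (gt_mem_nhds hε)).mono fun t ht => ht.le
  refine IsBigO.trans_isLittleO (IsBigO.of_bound K ?_) h
  filter_upwards [hev] with t ht
  rw [Real.norm_of_nonneg (N.dist_nonneg _ _), Real.norm_of_nonneg (N.dist_nonneg _ _)]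
  have e : N.dist (GlOps.conj g φ t) (g * γ t * g⁻¹) = N.nrm (g * ((φ t)⁻¹ * γ t) * g⁻¹) := by
    rw [GleasonMetric.dist, GlOps.conj_apply]
    congr 1
    group
  rw [e]
  exact hlip _ ht

theorem gl_conj_ladd [LocallyCompactSpace G] (g : G) (φ ψ : GlOps G) :
    GlOps.conj g (N.ladd φ ψ) = N.ladd (GlOps.conj g φ) (GlOps.conj g ψ) := by
  symm
  apply gl_ladd_eq
  have := gl_tangent_conj N g (gl_ladd_spec N φ ψ)
  convert this using 2 with t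
  simp only [GlOps.conj_apply]
  group

theorem gl_conj_smul (g : G) (s : ℝ) (φ : GlOps G) :
    GlOps.conj g (GlOps.smul s φ) = GlOps.smul s (GlOps.conj g φ) :=
  GlOps.ext' fun _ => rfl

theorem gl_lnorm_conj_le (g : G) : ∃ K : ℝ, 0 ≤ K ∧ ∀ φ : GlOps G,
    N.lnorm (GlOps.conj g φ) ≤ K * N.lnorm φ := by
  obtain ⟨ε, hε, K, hK, hlip⟩ := gl_conj_lipschitz N g
  refine ⟨K, hK, fun φ => ?_⟩
  have hl := gl_lnorm_nonneg N φ
  apply gl_lnorm_le_of_small N (mul_nonneg hK hl) (δ := ε / (N.lnorm φ + 1)) (by positivity)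
  intro t ht
  have h1 := gl_nrm_le_lnorm N φ t
  have h2 : N.lnorm φ * |t| ≤ ε := by
    have h3 : N.lnorm φ * |t| ≤ (N.lnorm φ + 1) * (ε / (N.lnorm φ + 1)) := by
      gcongr
      linarith
    have h4 : (N.lnorm φ + 1) * (ε / (N.lnorm φ + 1)) = ε := by field_simp
    linarith
  rw [GlOps.conj_apply]
  refine (hlip _ (h1.trans h2)).trans ?_
  rw [mul_assoc]
  gcongr

theorem gl_lnorm_conj_le_small {g : G} (hg : N.nrm g ≤ 1 / N.C) (φ : GlOps G) :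
    N.lnorm (GlOps.conj g φ) ≤ (1 + N.C * N.nrm g) * N.lnorm φ := by
  have hC := N.C_pos
  have hl := gl_lnorm_nonneg N φ
  have hg0 := N.nrm_nonneg g
  apply gl_lnorm_le_of_small N (by positivity) (δ := (1 / N.C) / (N.lnorm φ + 1)) (by positivity)
  intro t ht
  have h1 := gl_nrm_le_lnorm N φ t
  have h2 : N.lnorm φ * |t| ≤ 1 / N.C := by
    have h3 : N.lnorm φ * |t| ≤ (N.lnorm φ + 1) * ((1 / N.C) / (N.lnorm φ + 1)) := by
      gcongr
      linarith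
    have h4 : (N.lnorm φ + 1) * ((1 / N.C) / (N.lnorm φ + 1)) = 1 / N.C := by field_simp
    linarith
  rw [GlOps.conj_apply]
  refine (N.nrm_conj_le (h1.trans h2) hg).trans ?_
  rw [mul_assoc]
  gcongr

end Claimed.Agent.R304
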