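/-
Row 304 (S0559, Hilbert-Smith).  Block A3+A4 (Gleason metric => Lie group).  Owner: helper231.

DEFINITIONS of the block: Gleason metrics (the interface A2 -> A3), one-parameter subgroups,
tangency, and the raw operations on the set `L(G)` of one-parameter subgroups.

Source for the mathematics: T. Tao, "Hilbert's fifth problem and related topics", 1.3 (Gleason
metrics) and 1.2.5 (C^{1,1} groups), reorganised so that everything happens inside `G`.
-/
import Mathlib

set_option autoImplicit false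

namespace Claimed.Agent.R304

open Topology Filter Asymptotics

/-- A *Gleason metric* on a topological group `G`, recorded by its norm `‖g‖ = d(1, g)`; the metric
is `d(g, h) = ‖g⁻¹ h‖` (left invariant).  It induces the topology, and for a constant `C ≥ 1`:
escape property `n ‖g‖ ≤ 1/C → n ‖g‖ ≤ C ‖g ^ n‖`, commutator estimate
`‖g‖, ‖h‖ ≤ 1/C → ‖g h g⁻¹ h⁻¹‖ ≤ C ‖g‖ ‖h‖`. -/
structure GleasonMetric (G : Type*) [Group G] [TopologicalSpace G] where
  /-- the norm `‖g‖ = d(1, g)` -/
  nrm : G → ℝ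
  /-- the constant -/
  C : ℝ
  one_le_C : 1 ≤ C
  nrm_one : nrm 1 = 0
  eq_one_of_nrm : ∀ g, nrm g = 0 → g = 1
  nrm_inv : ∀ g, nrm g⁻¹ = nrm g
  nrm_mul_le : ∀ g h, nrm (g * h) ≤ nrm g + nrm h
  nhds_basis : (𝓝 (1 : G)).HasBasis (fun ε : ℝ => 0 < ε) (fun ε => {g | nrm g < ε})
  escape : ∀ (g : G) (n : ℕ), (n : ℝ) * nrm g ≤ 1 / C → (n : ℝ) * nrm g ≤ C * nrm (g ^ n)
  comm_le : ∀ g h : G, nrm g ≤ 1 / C → nrm h ≤ 1 / C → nrm (g * h * g⁻¹ * h⁻¹) ≤ C * nrm g * nrm h

/-- One-parameter subgroups of `G`: continuous homomorphisms `ℝ → G`. -/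
structure GlOps (G : Type*) [Group G] [TopologicalSpace G] where
  /-- the underlying map -/
  toFun : ℝ → G
  map_add' : ∀ s t, toFun (s + t) = toFun s * toFun t
  continuous' : Continuous toFun

section

variable {G : Type*} [Group G] [TopologicalSpace G]

instance glOpsFunLike : FunLike (GlOps G) ℝ G where
  coe := GlOps.toFun
  coe_injective := by
    rintro ⟨f, _, _⟩ ⟨g, _, _⟩ h
    congr

namespace GlOps

theorem ext' {φ ψ : GlOps G} (h : ∀ t, φ t = ψ t) : φ = ψ := DFunLike.ext _ _ h

theorem map_add (φ : GlOps G) (s t : ℝ) : φ (s + t) = φ s * φ t := φ.map_add' s t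

theorem continuous (φ : GlOps G) : Continuous φ := φ.continuous'

theorem map_zero (φ : GlOps G) : φ 0 = 1 := by
  have h := φ.map_add 0 0
  rw [add_zero] at h
  exact (mul_eq_left.1 h.symm)

theorem map_neg (φ : GlOps G) (t : ℝ) : φ (-t) = (φ t)⁻¹ := by
  rw [eq_inv_iff_mul_eq_one, ← φ.map_add, neg_add_cancel, φ.map_zero]

theorem map_nsmul (φ : GlOps G) (n : ℕ) (t : ℝ) : φ (n * t) = φ t ^ n := by
  induction n with
  | zero => simp [φ.map_zero]
  | succ k ih => rw [Nat.cast_succ, add_mul, one_mul, φ.map_add, ih, pow_succ]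

theorem map_zsmul (φ : GlOps G) (n : ℤ) (t : ℝ) : φ (n * t) = φ t ^ n := by
  cases n with
  | ofNat k => simpa using φ.map_nsmul k t
  | negSucc k =>
    rw [zpow_negSucc, ← φ.map_nsmul, ← φ.map_neg]
    congr 1
    push_cast
    ring

theorem commute (φ : GlOps G) (s t : ℝ) : φ s * φ t = φ t * φ s := by
  rw [← φ.map_add, ← φ.map_add, add_comm]

/-- the trivial one-parameter subgroup -/
def zero : GlOps G := ⟨fun _ => 1, fun _ _ => (mul_one 1).symm, continuous_const⟩

/-- reparametrisation `(s φ)(t) = φ (s t)` -/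
def smul (s : ℝ) (φ : GlOps G) : GlOps G :=
  ⟨fun t => φ (s * t), fun a b => by rw [mul_add, φ.map_add],
    φ.continuous.comp (continuous_const.mul continuous_id)⟩

/-- conjugation `(g φ g⁻¹)(t) = g φ(t) g⁻¹` -/
def conj [IsTopologicalGroup G] (g : G) (φ : GlOps G) : GlOps G :=
  ⟨fun t => g * φ t * g⁻¹, fun a b => by rw [φ.map_add]; group,
    (continuous_const.mul φ.continuous).mul continuous_const⟩

@[simp] theorem zero_apply (t : ℝ) : (zero : GlOps G) t = 1 := rfl

@[simp] theorem smul_apply (s : ℝ) (φ : GlOps G) (t : ℝ) : smul s φ t = φ (s * t) := rfl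

@[simp] theorem conj_apply [IsTopologicalGroup G] (g : G) (φ : GlOps G) (t : ℝ) :
    conj g φ t = g * φ t * g⁻¹ := rfl

end GlOps

namespace GleasonMetric

variable (N : GleasonMetric G)

/-- the left invariant metric `d(g, h) = ‖g⁻¹ h‖` -/
def dist (g h : G) : ℝ := N.nrm (g⁻¹ * h)

/-- The curve `γ` is tangent at `t = 0` to the one-parameter subgroup `φ`:
`d(φ t, γ t) = o(t)` as `t → 0`. -/
def Tangent (γ : ℝ → G) (φ : GlOps G) : Prop :=
  (fun t => N.dist (φ t) (γ t)) =o[𝓝 0] (fun t : ℝ => t)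

/-- The norm of a one-parameter subgroup, `sup_t ‖φ t‖ / |t|` (the term `t = 0` is `0 / 0 = 0`):
the best Lipschitz constant of `φ`. -/
noncomputable def lnorm (φ : GlOps G) : ℝ := ⨆ t : ℝ, N.nrm (φ t) / |t|

open Classical in
/-- The sum of two one-parameter subgroups: the one-parameter subgroup tangent to
`t ↦ φ t * ψ t`.  (It exists and is unique if `G` is locally compact: `GlSum.lean`.) -/
noncomputable def ladd (φ ψ : GlOps G) : GlOps G :=
  if h : ∃ χ : GlOps G, N.Tangent (fun t => φ t * ψ t) χ then h.choose else GlOps.zero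

end GleasonMetric

end

/-- realises the equation lemmas here (unique names) -/
theorem gl_defs_eqns_cite : True := by
  have := @GlOps.zero.eq_1.{0}
  have := @GlOps.smul.eq_1.{0}
  have := @GlOps.conj.eq_1.{0}
  have := @GleasonMetric.dist.eq_1.{0}
  have := @GleasonMetric.Tangent.eq_1.{0}
  have := @GleasonMetric.lnorm.eq_1.{0}
  have := @GleasonMetric.ladd.eq_1.{0}
  have := @glOpsFunLike.eq_1.{0}
  trivial

end Claimed.Agent.R304
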