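/-
Row 304, block A3.  Owner: helper231.  PACKAGE gl1: DONE (sorry-free).

Elementary API of a Gleason metric `N` on `G`: `‖g‖ = N.nrm g`, `d(g,h) = N.dist g h = ‖g⁻¹h‖`,
`C = N.C ≥ 1`.

PROOF PLANS.
* metric axioms: from `nrm_one, nrm_inv, nrm_mul_le, eq_one_of_nrm`; `g⁻¹k = (g⁻¹h)(h⁻¹k)`.
* topology: `N.nhds_basis` + `nhds_translation_mul_inv`/`map_mul_left_nhds_one`:
  `f → g` iff `g⁻¹ f → 1` iff `‖g⁻¹ f‖ → 0`.  `|‖g‖ - ‖h‖| ≤ d(g,h)` gives continuity of `nrm`.
* compact ball: a compact neighbourhood `K` of `1` contains `{‖g‖ < 2r}`; `{‖g‖ ≤ r}` is closed in `K`.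
* `nrm_conj_le`: `h g h⁻¹ = (h g h⁻¹ g⁻¹) g`.   `dist_conj_le`: `g⁻¹ (h g h⁻¹) = g⁻¹ h (g⁻¹)⁻¹ h⁻¹`.
* `dist_mul_comm_le`: `(g h)⁻¹ (h g) = h⁻¹ g⁻¹ (h⁻¹)⁻¹ (g⁻¹)⁻¹`.
* `dist_mul_right_le`: `(g k)⁻¹ (h k) = k⁻¹ (g⁻¹ h) (k⁻¹)⁻¹`, then `nrm_conj_le`.
* `escape'`: suppose `n ‖g‖ > 1/C`.  `‖g‖ ≤ 1/(2C²) ≤ 1/(2C)`.  Let `m = ⌊1/(C‖g‖)⌋₊`; then `1 ≤ m < n`,
  `m‖g‖ ≤ 1/C < (m+1)‖g‖`, so `m‖g‖ > 1/(2C)` and by `escape` `‖g^m‖ ≥ m‖g‖/C > 1/(2C²)`: contradiction.
  So `n‖g‖ ≤ 1/C`, and `escape` gives the second claim.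
-/
import Claimed.Agent.R304.GlDefs

set_option autoImplicit false

namespace Claimed.Agent.R304

open Topology Filter

namespace GleasonMetric

variable {G : Type*} [Group G] [TopologicalSpace G] (N : GleasonMetric G)

theorem C_pos : 0 < N.C := lt_of_lt_of_le one_pos N.one_le_C

theorem nrm_nonneg (g : G) : 0 ≤ N.nrm g := by
  have h := N.nrm_mul_le g g⁻¹
  rw [mul_inv_cancel, N.nrm_one, N.nrm_inv] at h
  linarith

theorem dist_self (g : G) : N.dist g g = 0 := by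
  rw [dist, inv_mul_cancel, N.nrm_one]

theorem dist_comm (g h : G) : N.dist g h = N.dist h g := by
  rw [dist, dist, ← N.nrm_inv, mul_inv_rev, inv_inv]

theorem dist_nonneg (g h : G) : 0 ≤ N.dist g h := N.nrm_nonneg _

theorem dist_triangle (g h k : G) : N.dist g k ≤ N.dist g h + N.dist h k := by
  have := N.nrm_mul_le (g⁻¹ * h) (h⁻¹ * k)
  rwa [show g⁻¹ * h * (h⁻¹ * k) = g⁻¹ * k by group] at this

theorem eq_of_dist_eq_zero {g h : G} (H : N.dist g h = 0) : g = h := by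
  have := N.eq_one_of_nrm _ H
  exact (inv_mul_eq_one.1 this)

theorem dist_mul_left (k g h : G) : N.dist (k * g) (k * h) = N.dist g h := by
  rw [dist, dist]
  congr 1
  group

theorem dist_one_left (g : G) : N.dist 1 g = N.nrm g := by
  rw [dist, inv_one, one_mul]

theorem dist_one_right (g : G) : N.dist g 1 = N.nrm g := by
  rw [dist_comm, dist_one_left]

theorem dist_mul_self_left (g k : G) : N.dist g (g * k) = N.nrm k := by
  rw [dist, inv_mul_cancel_left]

theorem nrm_le_nrm_add_dist (g h : G) : N.nrm h ≤ N.nrm g + N.dist g h := by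
  have := N.dist_triangle 1 g h
  rwa [dist_one_left, dist_one_left] at this

theorem dist_le_nrm_add_nrm (g h : G) : N.dist g h ≤ N.nrm g + N.nrm h := by
  have := N.dist_triangle g 1 h
  rwa [dist_one_left, dist_one_right] at this

theorem nrm_pow_le (g : G) (n : ℕ) : N.nrm (g ^ n) ≤ n * N.nrm g := by
  induction n with
  | zero => simp [N.nrm_one]
  | succ k ih =>
    rw [pow_succ]
    have := N.nrm_mul_le (g ^ k) g
    push_cast
    linarith

theorem nrm_zpow_le (g : G) (n : ℤ) : N.nrm (g ^ n) ≤ |(n : ℝ)| * N.nrm g := by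
  obtain ⟨k, rfl | rfl⟩ := n.eq_nat_or_neg
  · simpa using N.nrm_pow_le g k
  · rw [zpow_neg, N.nrm_inv]
    simpa using N.nrm_pow_le g k

/-! ### topology -/

theorem tendsto_one_iff {ι : Type*} {l : Filter ι} {f : ι → G} :
    Tendsto f l (𝓝 1) ↔ Tendsto (fun i => N.nrm (f i)) l (𝓝 0) := by
  rw [N.nhds_basis.tendsto_right_iff, Metric.tendsto_nhds]
  refine forall₂_congr fun ε _ => ?_
  refine eventually_congr (Eventually.of_forall fun i => ?_)
  rw [Real.dist_eq, sub_zero, abs_of_nonneg (N.nrm_nonneg _)]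
  rfl

theorem tendsto_nhds_iff [IsTopologicalGroup G] {ι : Type*} {l : Filter ι} {f : ι → G} {g : G} :
    Tendsto f l (𝓝 g) ↔ Tendsto (fun i => N.dist g (f i)) l (𝓝 0) := by
  have h1 : Tendsto f l (𝓝 g) ↔ Tendsto (fun i => g⁻¹ * f i) l (𝓝 1) := by
    constructor
    · intro h
      have := (tendsto_const_nhds (x := g⁻¹)).mul h
      rwa [inv_mul_cancel] at this
    · intro h
      have := (tendsto_const_nhds (x := g)).mul h
      simpa using this
  rw [h1, N.tendsto_one_iff]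
  rfl

theorem continuous_nrm [IsTopologicalGroup G] : Continuous N.nrm := by
  rw [continuous_iff_continuousAt]
  intro g
  have h0 : Tendsto (fun h => N.dist g h) (𝓝 g) (𝓝 0) := (N.tendsto_nhds_iff).1 tendsto_id
  rw [ContinuousAt, tendsto_iff_dist_tendsto_zero]
  refine squeeze_zero (fun _ => _root_.dist_nonneg) (fun h => ?_) h0
  rw [Real.dist_eq, abs_le]
  have h1 := N.nrm_le_nrm_add_dist g h
  have h2 := N.nrm_le_nrm_add_dist h g
  rw [N.dist_comm h g] at h2
  constructor <;> linarith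

theorem continuous_dist [IsTopologicalGroup G] : Continuous fun p : G × G => N.dist p.1 p.2 :=
  N.continuous_nrm.comp (continuous_fst.inv.mul continuous_snd)

include N in
theorem t2Space [IsTopologicalGroup G] : T2Space G := by
  have : T1Space G := by
    refine ⟨fun g => ?_⟩
    have : ({g} : Set G) = (fun h => N.dist g h) ⁻¹' {0} := by
      ext h
      simp only [Set.mem_singleton_iff, Set.mem_preimage]
      constructor
      · rintro rfl
        exact N.dist_self _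
      · intro H
        exact (N.eq_of_dist_eq_zero H).symm
    rw [this]
    exact isClosed_singleton.preimage (N.continuous_dist.comp (continuous_const.prodMk continuous_id))
  infer_instance

theorem ball_mem_nhds [IsTopologicalGroup G] (g : G) {r : ℝ} (hr : 0 < r) :
    {h | N.dist g h < r} ∈ 𝓝 g := by
  have h0 : Tendsto (fun h => N.dist g h) (𝓝 g) (𝓝 0) := (N.tendsto_nhds_iff).1 tendsto_id
  exact h0.eventually (gt_mem_nhds hr)

theorem exists_isCompact_closedBall [IsTopologicalGroup G] [LocallyCompactSpace G] :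
    ∃ r : ℝ, 0 < r ∧ IsCompact {g | N.nrm g ≤ r} := by
  obtain ⟨K, hK, hK1⟩ := exists_compact_mem_nhds (1 : G)
  obtain ⟨ε, hε, hsub⟩ := N.nhds_basis.mem_iff.1 hK1
  refine ⟨ε / 2, half_pos hε, hK.of_isClosed_subset ?_ ?_⟩
  · exact isClosed_le N.continuous_nrm continuous_const
  · intro g hg
    apply hsub
    have : N.nrm g ≤ ε / 2 := hg
    show N.nrm g < ε
    linarith

/-! ### first consequences of the commutator estimate and of the escape property -/

theorem nrm_conj_le {g h : G} (hg : N.nrm g ≤ 1 / N.C) (hh : N.nrm h ≤ 1 / N.C) :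
    N.nrm (h * g * h⁻¹) ≤ (1 + N.C * N.nrm h) * N.nrm g := by
  have h1 := N.comm_le h g hh hg
  have h2 := N.nrm_mul_le (h * g * h⁻¹ * g⁻¹) g
  rw [inv_mul_cancel_right] at h2
  nlinarith

theorem nrm_conj_le_two {g h : G} (hg : N.nrm g ≤ 1 / N.C) (hh : N.nrm h ≤ 1 / N.C) :
    N.nrm (h * g * h⁻¹) ≤ 2 * N.nrm g := by
  refine (N.nrm_conj_le hg hh).trans ?_
  have h1 : N.C * N.nrm h ≤ 1 := by
    have := mul_le_mul_of_nonneg_left hh N.C_pos.le
    rwa [mul_one_div_cancel N.C_pos.ne'] at this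
  have := N.nrm_nonneg g
  nlinarith

theorem dist_conj_le {g h : G} (hg : N.nrm g ≤ 1 / N.C) (hh : N.nrm h ≤ 1 / N.C) :
    N.dist g (h * g * h⁻¹) ≤ N.C * N.nrm g * N.nrm h := by
  have h1 := N.comm_le g⁻¹ h (by rwa [N.nrm_inv]) hh
  rw [inv_inv, N.nrm_inv] at h1
  rw [dist]
  rwa [show g⁻¹ * (h * g * h⁻¹) = g⁻¹ * h * g * h⁻¹ by group]

theorem dist_mul_comm_le {g h : G} (hg : N.nrm g ≤ 1 / N.C) (hh : N.nrm h ≤ 1 / N.C) :
    N.dist (g * h) (h * g) ≤ N.C * N.nrm g * N.nrm h := by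
  have h1 := N.comm_le h⁻¹ g⁻¹ (by rwa [N.nrm_inv]) (by rwa [N.nrm_inv])
  rw [inv_inv, inv_inv, N.nrm_inv, N.nrm_inv] at h1
  rw [dist, show (g * h)⁻¹ * (h * g) = h⁻¹ * g⁻¹ * h * g by group]
  linarith

theorem dist_mul_right_le {g h k : G} (hgh : N.dist g h ≤ 1 / N.C) (hk : N.nrm k ≤ 1 / N.C) :
    N.dist (g * k) (h * k) ≤ (1 + N.C * N.nrm k) * N.dist g h := by
  have h1 := N.nrm_conj_le (g := g⁻¹ * h) (h := k⁻¹) hgh (by rwa [N.nrm_inv])
  rw [inv_inv, N.nrm_inv] at h1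
  rw [dist, show (g * k)⁻¹ * (h * k) = k⁻¹ * (g⁻¹ * h) * k by group]
  exact h1

theorem dist_mul_right_le_two {g h k : G} (hgh : N.dist g h ≤ 1 / N.C) (hk : N.nrm k ≤ 1 / N.C) :
    N.dist (g * k) (h * k) ≤ 2 * N.dist g h := by
  have h1 := N.nrm_conj_le_two (g := g⁻¹ * h) (h := k⁻¹) hgh (by rwa [N.nrm_inv])
  rw [inv_inv] at h1
  rw [dist, show (g * k)⁻¹ * (h * k) = k⁻¹ * (g⁻¹ * h) * k by group]
  exact h1

theorem escape' {g : G} {n : ℕ} (h : ∀ j ≤ n, N.nrm (g ^ j) ≤ 1 / (2 * N.C ^ 2)) :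
    (n : ℝ) * N.nrm g ≤ 1 / N.C ∧ (n : ℝ) * N.nrm g ≤ N.C * N.nrm (g ^ n) := by
  have hC := N.C_pos
  have hC1 := N.one_le_C
  have key : (n : ℝ) * N.nrm g ≤ 1 / N.C := by
    by_contra hcon
    rw [not_le] at hcon
    have hn : 1 ≤ n := by
      rcases Nat.eq_zero_or_pos n with rfl | hn
      · simp at hcon
        exact absurd hcon (not_lt.2 hC.le)
      · exact hn
    have hg0 : 0 < N.nrm g := by
      by_contra h0
      have : N.nrm g = 0 := le_antisymm (not_lt.1 h0) (N.nrm_nonneg g)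
      rw [this, mul_zero] at hcon
      exact absurd hcon (not_lt.2 (by positivity))
    have hg1 : N.nrm g ≤ 1 / (2 * N.C ^ 2) := by simpa using h 1 hn
    have hg2 : N.nrm g ≤ 1 / (2 * N.C) := by
      refine hg1.trans ?_
      apply one_div_le_one_div_of_le (by positivity)
      nlinarith
    set m := ⌊1 / (N.C * N.nrm g)⌋₊ with hm
    have hm1 : (m : ℝ) ≤ 1 / (N.C * N.nrm g) := Nat.floor_le (by positivity)
    have hm2 : 1 / (N.C * N.nrm g) < m + 1 := Nat.lt_floor_add_one _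
    have hm3 : (m : ℝ) * N.nrm g ≤ 1 / N.C := by
      have := mul_le_mul_of_nonneg_right hm1 hg0.le
      rwa [show 1 / (N.C * N.nrm g) * N.nrm g = 1 / N.C by field_simp] at this
    have hm4 : 1 / N.C < ((m : ℝ) + 1) * N.nrm g := by
      have := mul_lt_mul_of_pos_right hm2 hg0
      rwa [show 1 / (N.C * N.nrm g) * N.nrm g = 1 / N.C by field_simp] at this
    have hmn : m ≤ n := by
      have : (m : ℝ) * N.nrm g < n * N.nrm g := lt_of_le_of_lt hm3 hcon
      have := lt_of_mul_lt_mul_right this hg0.le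
      exact_mod_cast this.le
    have h5 := N.escape g m hm3
    have h6 := h m hmn
    have h7 : 1 / (2 * N.C) < (m : ℝ) * N.nrm g := by
      have : 1 / N.C = 1 / (2 * N.C) + 1 / (2 * N.C) := by field_simp; ring
      linarith
    have h8 : N.C * N.nrm (g ^ m) ≤ 1 / (2 * N.C) := by
      have := mul_le_mul_of_nonneg_left h6 hC.le
      rwa [show N.C * (1 / (2 * N.C ^ 2)) = 1 / (2 * N.C) by field_simp] at this
    linarith
  exact ⟨key, N.escape g n key⟩

end GleasonMetric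

end Claimed.Agent.R304
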