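/-
Row 304, block A3.  Owner: helper231.  PACKAGE gl3 PROVED (sorry-free; prover helper27).
Construction of one-parameter subgroups as ultralimits.  `G` locally compact with Gleason metric `N`.

(G0) `gl_pow_mem_compact`: there is `r₀ > 0` such that for every `T` a compact set contains all `g ^ n` (`n : ℤ`) with
  `‖g‖ ≤ r₀` and `|n| ‖g‖ ≤ T`.  (The hypothesis `‖g‖ ≤ r₀` is needed; in the applications `g → 1`.)
  Plan: `K₀ = {‖g‖ ≤ r}` compact (`exists_isCompact_closedBall`), `r₀ = r/2`.  Given `T` choose `M ≥ 1` with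
  `T / M ≤ r/2`.  Euclidean division `n = M q + s`, `0 ≤ s < M`, `|q| ≤ |n|/M + 1`:  `g^n = (g^q)^M · g^s`,
  `‖g^q‖ ≤ |q|‖g‖ ≤ T/M + ‖g‖ ≤ r`, `‖g‖ ≤ r`.  As `1 ∈ K₀`, `g^n ∈ K := K₀^M * K₀^M` (pointwise powers), which is
  compact (`IsCompact.mul`, induction for the power).
(G1) `gl_ops_of_ultralimit`: an ultralimit of asymptotically additive, asymptotically `R`-Lipschitz, pointwise
  relatively compact families `f i : ℝ → G` is a one-parameter subgroup.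
  Plan: `φ t :=` the limit of `𝒰.map (f · t)` (`IsCompact.ultrafilter_le_nhds`), unique by `t2Space`;
  `φ (s+t) = φ s φ t` by continuity of `*` and of `dist`; `‖φ t‖ ≤ R|t|` by `continuous_nrm` + `le_of_tendsto`;
  continuity of `φ`: `d(φ s, φ t) = ‖φ (t - s)‖ ≤ R |t - s|` and `tendsto_nhds_iff`.
(G2) `gl_exists_ops_of_ultrafilter` (GEN): `f i t = g i ^ ⌊t k i⌋`.
  `⌊(s+t)k⌋ - ⌊sk⌋ - ⌊tk⌋ ∈ {0,1}`, so `d(f(s+t), f(s) f(t)) ≤ ‖g i‖ ≤ R / k i → 0`;
  `‖f i t‖ ≤ |⌊t k⌋| ‖g‖ ≤ (|t| k + 1)‖g‖ ≤ R|t| + ‖g i‖`; compactness from (G0).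
-/
import Claimed.Agent.R304.GlBasic

set_option autoImplicit false

namespace Claimed.Agent.R304

open Topology Filter
open scoped Pointwise

variable {G : Type*} [Group G] [TopologicalSpace G] [IsTopologicalGroup G] [LocallyCompactSpace G]
  (N : GleasonMetric G)

omit [LocallyCompactSpace G] in
theorem gl_isCompact_pow {K : Set G} (hK : IsCompact K) (M : ℕ) : IsCompact (K ^ M) := by
  induction M with
  | zero => rw [pow_zero]; exact isCompact_singleton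
  | succ M ih => rw [pow_succ]; exact ih.mul hK

theorem gl_pow_mem_compact : ∃ r₀ : ℝ, 0 < r₀ ∧ ∀ T : ℝ, ∃ K : Set G, IsCompact K ∧
    ∀ (g : G) (n : ℤ), N.nrm g ≤ r₀ → |(n : ℝ)| * N.nrm g ≤ T → g ^ n ∈ K := by
  obtain ⟨r, hr, hK⟩ := N.exists_isCompact_closedBall
  refine ⟨r / 2, half_pos hr, fun T => ?_⟩
  obtain ⟨M, hM⟩ := exists_nat_gt (2 * |T| / r)
  have hM0 : (0 : ℝ) < M := lt_of_le_of_lt (by positivity) hM
  have hMpos : 0 < M := by exact_mod_cast hM0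
  have hTM : T ≤ M * (r / 2) := by
    rw [div_lt_iff₀ hr] at hM
    have := le_abs_self T
    linarith
  refine ⟨{g | N.nrm g ≤ r} ^ M * {g | N.nrm g ≤ r} ^ M,
    (gl_isCompact_pow hK M).mul (gl_isCompact_pow hK M), ?_⟩
  intro g n hg hn
  have hg0 := N.nrm_nonneg g
  have hMz : (0 : ℤ) < M := by exact_mod_cast hMpos
  have hs0 : 0 ≤ n % (M : ℤ) := Int.emod_nonneg _ hMz.ne'
  have hsM : n % (M : ℤ) < M := Int.emod_lt_of_pos _ hMz
  have hdiv : (M : ℤ) * (n / (M : ℤ)) + n % (M : ℤ) = n := Int.mul_ediv_add_emod n M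
  obtain ⟨s, hs⟩ := Int.eq_ofNat_of_zero_le hs0
  have hsM' : s < M := by
    rw [hs] at hsM
    exact_mod_cast hsM
  have e : g ^ n = (g ^ (n / (M : ℤ))) ^ M * g ^ s := by
    conv_lhs => rw [← hdiv]
    rw [zpow_add, zpow_mul', zpow_natCast, hs, zpow_natCast]
  rw [e]
  refine Set.mul_mem_mul (Set.pow_mem_pow ?_) ?_
  · show N.nrm (g ^ (n / (M : ℤ))) ≤ r
    refine (N.nrm_zpow_le g _).trans ?_
    have h1 : ((n / (M : ℤ) : ℤ) : ℝ) * M = n - s := by
      have : ((M : ℤ) * (n / (M : ℤ)) + n % (M : ℤ) : ℤ) = n := hdiv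
      rw [hs] at this
      have h2 : (((M : ℤ) * (n / (M : ℤ)) + (s : ℤ) : ℤ) : ℝ) = (n : ℝ) := by exact_mod_cast this
      push_cast at h2
      linarith
    have h3 : |((n / (M : ℤ) : ℤ) : ℝ)| * M ≤ |(n : ℝ)| + M := by
      rw [← abs_of_pos hM0, ← abs_mul, h1, abs_of_pos hM0]
      refine (abs_sub _ _).trans ?_
      have : |(s : ℝ)| ≤ M := by
        rw [abs_of_nonneg (Nat.cast_nonneg s)]
        exact_mod_cast hsM'.le
      linarith
    have h4 : |((n / (M : ℤ) : ℤ) : ℝ)| * N.nrm g * M ≤ r * M := by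
      calc |((n / (M : ℤ) : ℤ) : ℝ)| * N.nrm g * M = (|((n / (M : ℤ) : ℤ) : ℝ)| * M) * N.nrm g := by
            ring
        _ ≤ (|(n : ℝ)| + M) * N.nrm g := mul_le_mul_of_nonneg_right h3 hg0
        _ = |(n : ℝ)| * N.nrm g + M * N.nrm g := by ring
        _ ≤ M * (r / 2) + M * (r / 2) :=
            add_le_add (hn.trans hTM) (mul_le_mul_of_nonneg_left hg hM0.le)
        _ = r * M := by ring
    exact le_of_mul_le_mul_right h4 hM0
  · have h1 : (1 : G) ∈ {g : G | N.nrm g ≤ r} := by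
      show N.nrm 1 ≤ r
      rw [N.nrm_one]; exact hr.le
    have h2 : g ∈ {g : G | N.nrm g ≤ r} := by
      show N.nrm g ≤ r
      linarith
    exact Set.pow_subset_pow_right h1 hsM'.le (Set.pow_mem_pow h2)

theorem gl_ops_of_ultralimit {ι : Type*} (𝒰 : Ultrafilter ι) (f : ι → ℝ → G) (R : ℝ)
    (hadd : ∀ s t : ℝ, Tendsto (fun i => N.dist (f i (s + t)) (f i s * f i t)) 𝒰 (𝓝 0))
    (hlip : ∀ t : ℝ, ∀ η : ℝ, 0 < η → ∀ᶠ i in (𝒰 : Filter ι), N.nrm (f i t) ≤ R * |t| + η)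
    (hcpt : ∀ t : ℝ, ∃ K : Set G, IsCompact K ∧ ∀ᶠ i in (𝒰 : Filter ι), f i t ∈ K) :
    ∃ φ : GlOps G, (∀ t : ℝ, Tendsto (fun i => f i t) 𝒰 (𝓝 (φ t))) ∧
      ∀ t : ℝ, N.nrm (φ t) ≤ R * |t| := by
  have hex : ∀ t : ℝ, ∃ x : G, Tendsto (fun i => f i t) 𝒰 (𝓝 x) := by
    intro t
    obtain ⟨K, hK, hev⟩ := hcpt t
    obtain ⟨x, _, hx⟩ := hK.ultrafilter_le_nhds (𝒰.map fun i => f i t)
      (le_principal_iff.mpr hev)
    exact ⟨x, hx⟩
  choose φ hφ using hex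
  have hmul : ∀ s t : ℝ, φ (s + t) = φ s * φ t := by
    intro s t
    apply N.eq_of_dist_eq_zero
    have h1 : Tendsto (fun i => N.dist (f i (s + t)) (f i s * f i t)) 𝒰
        (𝓝 (N.dist (φ (s + t)) (φ s * φ t))) :=
      (N.continuous_dist.tendsto (φ (s + t), φ s * φ t)).comp
        ((hφ (s + t)).prodMk_nhds ((hφ s).mul (hφ t)))
    exact tendsto_nhds_unique h1 (hadd s t)
  have hnrm : ∀ t : ℝ, N.nrm (φ t) ≤ R * |t| := by
    intro t
    apply le_of_forall_pos_le_add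
    intro η hη
    have h1 : Tendsto (fun i => N.nrm (f i t)) 𝒰 (𝓝 (N.nrm (φ t))) :=
      (N.continuous_nrm.tendsto _).comp (hφ t)
    exact le_of_tendsto h1 (hlip t η hη)
  have h0 : φ 0 = 1 := by
    have h := hmul 0 0
    rw [add_zero] at h
    exact mul_eq_left.1 h.symm
  have hdist : ∀ s t : ℝ, N.dist (φ s) (φ t) ≤ R * |t - s| := by
    intro s t
    have h1 : φ t = φ s * φ (t - s) := by rw [← hmul]; congr 1; ring
    rw [h1, N.dist_mul_self_left]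
    exact hnrm _
  have hcont : Continuous φ := by
    rw [continuous_iff_continuousAt]
    intro s
    rw [ContinuousAt, N.tendsto_nhds_iff]
    have h2 : Tendsto (fun t : ℝ => R * |t - s|) (𝓝 s) (𝓝 0) := by
      have : Continuous fun t : ℝ => R * |t - s| := by fun_prop
      have h3 := this.tendsto s
      simpa using h3
    exact squeeze_zero (fun t => N.dist_nonneg _ _) (fun t => hdist s t) h2
  exact ⟨⟨φ, hmul, hcont⟩, hφ, hnrm⟩

theorem gl_exists_ops_of_ultrafilter {ι : Type*} (𝒰 : Ultrafilter ι) (g : ι → G) (k : ι → ℕ)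
    (R : ℝ) (hk : Tendsto k 𝒰 atTop)
    (hR : ∀ᶠ i in (𝒰 : Filter ι), (k i : ℝ) * N.nrm (g i) ≤ R) :
    ∃ φ : GlOps G, (∀ t : ℝ, Tendsto (fun i => g i ^ ⌊t * (k i : ℝ)⌋) 𝒰 (𝓝 (φ t))) ∧
      ∀ t : ℝ, N.nrm (φ t) ≤ R * |t| := by
  -- `‖g i‖ → 0`
  have hg0 : Tendsto (fun i => N.nrm (g i)) 𝒰 (𝓝 0) := by
    have hkR : Tendsto (fun i => (k i : ℝ)) 𝒰 atTop := tendsto_natCast_atTop_atTop.comp hk
    have h1 : Tendsto (fun i => R / (k i : ℝ)) 𝒰 (𝓝 0) := hkR.const_div_atTop R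
    refine squeeze_zero' (Eventually.of_forall fun i => N.nrm_nonneg _) ?_ h1
    filter_upwards [hR, hkR.eventually_gt_atTop 0] with i hi hpos
    rw [le_div_iff₀ hpos]
    linarith
  have hsmall : ∀ η : ℝ, 0 < η → ∀ᶠ i in (𝒰 : Filter ι), N.nrm (g i) ≤ η := fun η hη =>
    (hg0.eventually (gt_mem_nhds hη)).mono fun i hi => hi.le
  have hbound : ∀ t : ℝ, ∀ᶠ i in (𝒰 : Filter ι),
      |((⌊t * (k i : ℝ)⌋ : ℤ) : ℝ)| * N.nrm (g i) ≤ R * |t| + N.nrm (g i) := by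
    intro t
    filter_upwards [hR] with i hi
    have h1 : |((⌊t * (k i : ℝ)⌋ : ℤ) : ℝ)| ≤ |t| * k i + 1 := by
      have h2 := Int.floor_le (t * (k i : ℝ))
      have h3 := Int.lt_floor_add_one (t * (k i : ℝ))
      have h4 : |t * (k i : ℝ)| = |t| * k i := by
        rw [abs_mul, abs_of_nonneg (Nat.cast_nonneg (k i) : (0 : ℝ) ≤ (k i : ℝ))]
      have h5 := abs_le.mp (le_of_eq h4)
      rw [abs_le]
      constructor <;> linarith [h5.1, h5.2]
    calc |((⌊t * (k i : ℝ)⌋ : ℤ) : ℝ)| * N.nrm (g i) ≤ (|t| * k i + 1) * N.nrm (g i) :=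
          mul_le_mul_of_nonneg_right h1 (N.nrm_nonneg _)
      _ = |t| * (k i * N.nrm (g i)) + N.nrm (g i) := by ring
      _ ≤ |t| * R + N.nrm (g i) := by
          have := mul_le_mul_of_nonneg_left hi (abs_nonneg t)
          linarith
      _ = R * |t| + N.nrm (g i) := by ring
  obtain ⟨r₀, hr₀, hcomp⟩ := gl_pow_mem_compact N
  refine gl_ops_of_ultralimit N 𝒰 (fun i t => g i ^ ⌊t * (k i : ℝ)⌋) R ?_ ?_ ?_
  · intro s t
    refine squeeze_zero (fun i => N.dist_nonneg _ _) (fun i => ?_) hg0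
    show N.dist (g i ^ ⌊(s + t) * (k i : ℝ)⌋) (g i ^ ⌊s * (k i : ℝ)⌋ * g i ^ ⌊t * (k i : ℝ)⌋)
      ≤ N.nrm (g i)
    set a := ⌊s * (k i : ℝ)⌋ with ha
    set b := ⌊t * (k i : ℝ)⌋ with hb
    set c := ⌊(s + t) * (k i : ℝ)⌋ with hc
    have h1 : a + b ≤ c := by
      rw [hc, add_mul]
      exact Int.le_floor_add _ _
    have h2 : c ≤ a + b + 1 := by
      have h := Int.le_floor_add_floor (s * (k i : ℝ)) (t * (k i : ℝ))
      rw [← add_mul] at h
      omega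
    rw [← zpow_add, GleasonMetric.dist, ← zpow_neg, ← zpow_add]
    refine (N.nrm_zpow_le _ _).trans ?_
    have h3 : |((-c + (a + b) : ℤ) : ℝ)| ≤ 1 := by
      have h4 : -1 ≤ -c + (a + b) := by omega
      have h5 : -c + (a + b) ≤ 0 := by omega
      rw [abs_le]
      constructor
      · exact_mod_cast h4
      · have : ((-c + (a + b) : ℤ) : ℝ) ≤ 0 := by exact_mod_cast h5
        linarith
    calc |((-c + (a + b) : ℤ) : ℝ)| * N.nrm (g i) ≤ 1 * N.nrm (g i) :=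
          mul_le_mul_of_nonneg_right h3 (N.nrm_nonneg _)
      _ = N.nrm (g i) := one_mul _
  · intro t η hη
    filter_upwards [hbound t, hsmall η hη] with i h1 h2
    refine (N.nrm_zpow_le _ _).trans ?_
    linarith
  · intro t
    obtain ⟨K, hK, hmem⟩ := hcomp (R * |t| + r₀)
    refine ⟨K, hK, ?_⟩
    filter_upwards [hbound t, hsmall r₀ hr₀] with i h1 h2
    exact hmem _ _ h2 (by linarith)

end Claimed.Agent.R304
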