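/-
Row 304, block A3.  Owner: helper231.  PACKAGE gl2: DONE (sorry-free).  Pure inequalities, no topology.

Notation: `‖g‖ = N.nrm g`, `d = N.dist`, `C = N.C`.

(P1) `gl_mul_pow_dist`: `d((gh)ⁿ, gⁿhⁿ) ≤ K n² ‖g‖‖h‖` if `n‖g‖, n‖h‖ ≤ ε`.
  Plan.  Take `ε = 1/(8C)` (any small value), fix `g,h,n` and put `D_m = d((gh)^m, g^m h^m)` for `m ≤ n`.
  `(gh)^{m+1} = (gh)^m·(gh)`, `g^{m+1}h^{m+1} = g^m·(g h^m)·h`.  Triangle inequality through `g^m h^m g h`: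
   * `d((gh)^m gh, g^m h^m gh) ≤ (1 + C‖gh‖) D_m` (`dist_mul_right_le`, needs `D_m ≤ 1/C`, part of the induction);
   * `d(g^m h^m g h, g^m g h^m h) = d(h^m g·h, g h^m·h) ≤ 2 d(h^m g, g h^m) ≤ 2 C ‖h^m‖‖g‖ ≤ 2 C m ‖g‖‖h‖`.
  So `D_{m+1} ≤ (1 + C(‖g‖+‖h‖)) D_m + 2Cm‖g‖‖h‖`; with `(1 + C(‖g‖+‖h‖))^n ≤ exp(2Cε) ≤ 2` induction gives
  `D_m ≤ (1 + C(‖g‖+‖h‖))^m · 2C m² ‖g‖‖h‖ ≤ 4C m²‖g‖‖h‖ ≤ 4Cε² ≤ 1/C`.   `K = 4C`.
(P2),(P3) `gl_pow_dist_le`, `gl_le_pow_dist`: put `k = g⁻¹h`, `‖k‖ = d(g,h) ≤ ‖g‖+‖h‖`, `h = gk`.  By (P1) (applied with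
  `n‖g‖ ≤ ε₁`, `n‖k‖ ≤ 2ε ≤ ε₁`): `d(hⁿ, gⁿkⁿ) ≤ K n²‖g‖‖k‖ ≤ Kε·n‖k‖`, and `d(gⁿ, gⁿkⁿ) = ‖kⁿ‖ ∈ [n‖k‖/C, n‖k‖]`
  (`escape`, `nrm_pow_le`).  Choose `ε` with `Kε ≤ 1/(2C)`, `2ε ≤ 1/C`.  Then `n‖k‖/(2C) ≤ d(gⁿ,hⁿ) ≤ 2n‖k‖`.
(P4) `gl_conj_prod`: purely algebraic identity `(g k)ⁿ = gⁿ · ∏_{j = n-1, …, 0} g^{-j} k g^{j}`, induction on `n`.
-/
import Claimed.Agent.R304.GlBasic

set_option autoImplicit false

namespace Claimed.Agent.R304

open Topology Filter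

variable {G : Type*} [Group G] [TopologicalSpace G] (N : GleasonMetric G)

/-- one step of the recursion for `D_m = d((gh)^m, g^m h^m)` -/
theorem gl_mul_pow_step {g h : G} {m : ℕ} (hg : N.nrm g ≤ 1 / (8 * N.C))
    (hh : N.nrm h ≤ 1 / (8 * N.C)) (hmh : (m : ℝ) * N.nrm h ≤ 1 / (8 * N.C))
    (hD : N.dist ((g * h) ^ m) (g ^ m * h ^ m) ≤ 1 / N.C) :
    N.dist ((g * h) ^ (m + 1)) (g ^ (m + 1) * h ^ (m + 1)) ≤
      (1 + N.C * (N.nrm g + N.nrm h)) * N.dist ((g * h) ^ m) (g ^ m * h ^ m) +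
        2 * N.C * N.nrm g * N.nrm h * m := by
  have hC := N.C_pos
  have hg0 := N.nrm_nonneg g
  have hh0 := N.nrm_nonneg h
  have hm0 : (0 : ℝ) ≤ m := Nat.cast_nonneg m
  have hinv : 0 ≤ 1 / N.C := by positivity
  have h8 : 1 / (8 * N.C) = (1 / 8) * (1 / N.C) := by field_simp
  have hCε : N.C * (1 / (8 * N.C)) = 1 / 8 := by field_simp
  have hgh : N.nrm (g * h) ≤ N.nrm g + N.nrm h := N.nrm_mul_le g h
  have hgh1 : N.nrm (g * h) ≤ 1 / N.C := by rw [h8] at hg hh; linarith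
  have s1 : N.dist ((g * h) ^ m * (g * h)) (g ^ m * h ^ m * (g * h)) ≤
      (1 + N.C * (N.nrm g + N.nrm h)) * N.dist ((g * h) ^ m) (g ^ m * h ^ m) := by
    refine (N.dist_mul_right_le hD hgh1).trans ?_
    apply mul_le_mul_of_nonneg_right _ (N.dist_nonneg _ _)
    have := mul_le_mul_of_nonneg_left hgh hC.le
    linarith
  have hhm : N.nrm (h ^ m) ≤ (m : ℝ) * N.nrm h := N.nrm_pow_le h m
  have hhm1 : N.nrm (h ^ m) ≤ 1 / N.C := by rw [h8] at hmh; linarith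
  have hg1' : N.nrm g ≤ 1 / N.C := by rw [h8] at hg; linarith
  have hh1' : N.nrm h ≤ 1 / N.C := by rw [h8] at hh; linarith
  have s2a : N.dist (h ^ m * g) (g * h ^ m) ≤ N.C * N.nrm (h ^ m) * N.nrm g :=
    N.dist_mul_comm_le hhm1 hg1'
  have s2b : N.C * N.nrm (h ^ m) * N.nrm g ≤ N.C * ((m : ℝ) * N.nrm h) * N.nrm g := by
    gcongr
  have s2c : N.dist (h ^ m * g) (g * h ^ m) ≤ 1 / N.C := by
    refine s2a.trans (s2b.trans ?_)
    have h1 : N.C * ((m : ℝ) * N.nrm h) ≤ 1 / 8 := by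
      have := mul_le_mul_of_nonneg_left hmh hC.le
      rwa [hCε] at this
    calc N.C * ((m : ℝ) * N.nrm h) * N.nrm g ≤ 1 / 8 * (1 / N.C) :=
          mul_le_mul h1 hg1' hg0 (by norm_num)
      _ ≤ 1 / N.C := by linarith
  have s2 : N.dist (g ^ m * h ^ m * (g * h)) (g ^ m * g * (h ^ m * h)) ≤
      2 * N.C * N.nrm g * N.nrm h * m := by
    have e1 : g ^ m * h ^ m * (g * h) = g ^ m * (h ^ m * g * h) := by group
    have e2 : g ^ m * g * (h ^ m * h) = g ^ m * (g * h ^ m * h) := by group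
    rw [e1, e2, N.dist_mul_left]
    refine (N.dist_mul_right_le_two s2c hh1').trans ?_
    have h3 := s2a.trans s2b
    calc 2 * N.dist (h ^ m * g) (g * h ^ m) ≤ 2 * (N.C * ((m : ℝ) * N.nrm h) * N.nrm g) := by
          linarith
      _ = 2 * N.C * N.nrm g * N.nrm h * m := by ring
  have s3 := N.dist_triangle ((g * h) ^ m * (g * h)) (g ^ m * h ^ m * (g * h))
    (g ^ m * g * (h ^ m * h))
  rw [pow_succ, pow_succ, pow_succ]
  linarith

theorem gl_one_add_pow_le_three {x : ℝ} (hx : 0 ≤ x) {m : ℕ} (hm : (m : ℝ) * x ≤ 1) :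
    (1 + x) ^ m ≤ 3 := by
  have h1 : 1 + x ≤ Real.exp x := by
    rw [add_comm]
    exact Real.add_one_le_exp _
  have h2 : (1 + x) ^ m ≤ Real.exp ((m : ℝ) * x) := by
    rw [Real.exp_nat_mul]
    exact pow_le_pow_left₀ (by linarith) h1 m
  have h4 : Real.exp ((m : ℝ) * x) ≤ Real.exp 1 := Real.exp_le_exp.2 hm
  have := Real.exp_one_lt_d9
  linarith

theorem gl_mul_pow_dist : ∃ ε : ℝ, 0 < ε ∧ ∃ K : ℝ, 0 ≤ K ∧ ∀ (g h : G) (n : ℕ),
    (n : ℝ) * N.nrm g ≤ ε → (n : ℝ) * N.nrm h ≤ ε →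
      N.dist ((g * h) ^ n) (g ^ n * h ^ n) ≤ K * (n : ℝ) ^ 2 * N.nrm g * N.nrm h := by
  have hC := N.C_pos
  refine ⟨1 / (8 * N.C), by positivity, 6 * N.C, by positivity, ?_⟩
  intro g h n hg hh
  rcases Nat.eq_zero_or_pos n with rfl | hn
  · simp [N.dist_self]
  have hn1 : (1 : ℝ) ≤ n := by exact_mod_cast hn
  have hg0 := N.nrm_nonneg g
  have hh0 := N.nrm_nonneg h
  have hCε : N.C * (1 / (8 * N.C)) = 1 / 8 := by field_simp
  have hmul : ∀ m : ℕ, m ≤ n → ∀ y : ℝ, 0 ≤ y → (n : ℝ) * y ≤ 1 / (8 * N.C) →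
      (m : ℝ) * y ≤ 1 / (8 * N.C) := by
    intro m hm y hy hny
    have hmn : (m : ℝ) ≤ n := by exact_mod_cast hm
    exact (mul_le_mul_of_nonneg_right hmn hy).trans hny
  have hg1 : N.nrm g ≤ 1 / (8 * N.C) := by simpa using hmul 1 hn _ hg0 hg
  have hh1 : N.nrm h ≤ 1 / (8 * N.C) := by simpa using hmul 1 hn _ hh0 hh
  set x : ℝ := N.C * (N.nrm g + N.nrm h) with hx
  set b : ℝ := 2 * N.C * N.nrm g * N.nrm h with hb
  have hx0 : 0 ≤ x := by positivity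
  have hb0 : 0 ≤ b := by positivity
  have hapow : ∀ m : ℕ, m ≤ n → (1 + x) ^ m ≤ 3 := by
    intro m hm
    apply gl_one_add_pow_le_three hx0
    have h4 := mul_le_mul_of_nonneg_left (hmul m hm _ hg0 hg) hC.le
    have h5 := mul_le_mul_of_nonneg_left (hmul m hm _ hh0 hh) hC.le
    rw [hCε] at h4 h5
    have : (m : ℝ) * x = N.C * ((m : ℝ) * N.nrm g) + N.C * ((m : ℝ) * N.nrm h) := by
      rw [hx]; ring
    rw [this]
    linarith
  have key : ∀ m : ℕ, m ≤ n →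
      N.dist ((g * h) ^ m) (g ^ m * h ^ m) ≤ (1 + x) ^ m * b * (m : ℝ) ^ 2 := by
    intro m
    induction m with
    | zero => intro _; simp [N.dist_self]
    | succ m ih =>
      intro hm
      have hm' : m ≤ n := Nat.le_of_succ_le hm
      have ihm := ih hm'
      have hm0 : (0 : ℝ) ≤ m := Nat.cast_nonneg m
      have hmg := hmul m hm' _ hg0 hg
      have hmh := hmul m hm' _ hh0 hh
      have hD : N.dist ((g * h) ^ m) (g ^ m * h ^ m) ≤ 1 / N.C := by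
        refine ihm.trans ?_
        have h3 := hapow m hm'
        have h4 : b * (m : ℝ) ^ 2 = 2 * (N.C * ((m : ℝ) * N.nrm g)) * ((m : ℝ) * N.nrm h) := by
          rw [hb]; ring
        have h4a : N.C * ((m : ℝ) * N.nrm g) ≤ 1 / 8 := by
          have := mul_le_mul_of_nonneg_left hmg hC.le
          rwa [hCε] at this
        have h5 : b * (m : ℝ) ^ 2 ≤ 2 * (1 / 8) * (1 / (8 * N.C)) := by
          rw [h4]
          have : 0 ≤ (m : ℝ) * N.nrm h := by positivity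
          gcongr
        have h7 : 0 ≤ b * (m : ℝ) ^ 2 := by positivity
        have h8 : (1 + x) ^ m * b * (m : ℝ) ^ 2 ≤ 3 * (2 * (1 / 8) * (1 / (8 * N.C))) := by
          rw [mul_assoc]
          exact mul_le_mul h3 h5 h7 (by norm_num)
        refine h8.trans ?_
        rw [show 3 * (2 * (1 / 8) * (1 / (8 * N.C))) = (3 / 32) * (1 / N.C) by field_simp; ring]
        have : 0 ≤ 1 / N.C := by positivity
        linarith
      have hstep := gl_mul_pow_step N hg1 hh1 hmh hD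
      have ha1 : 1 ≤ 1 + x := by linarith
      have ham : 1 ≤ (1 + x) ^ (m + 1) := one_le_pow₀ ha1
      have h9 : (1 + x) * N.dist ((g * h) ^ m) (g ^ m * h ^ m) ≤
          (1 + x) * ((1 + x) ^ m * b * (m : ℝ) ^ 2) :=
        mul_le_mul_of_nonneg_left ihm (by linarith)
      have h10 : b * m ≤ (1 + x) ^ (m + 1) * (b * m) :=
        le_mul_of_one_le_left (by positivity) ham
      calc N.dist ((g * h) ^ (m + 1)) (g ^ (m + 1) * h ^ (m + 1))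
          ≤ (1 + x) * ((1 + x) ^ m * b * (m : ℝ) ^ 2) + (1 + x) ^ (m + 1) * (b * m) := by
            linarith
        _ = (1 + x) ^ (m + 1) * b * ((m : ℝ) ^ 2 + m) := by rw [pow_succ]; ring
        _ ≤ (1 + x) ^ (m + 1) * b * ((m + 1 : ℕ) : ℝ) ^ 2 := by
            apply mul_le_mul_of_nonneg_left _ (by positivity)
            push_cast
            nlinarith
  refine (key n le_rfl).trans ?_
  have h3 := hapow n le_rfl
  have h7 : 0 ≤ b * (n : ℝ) ^ 2 := by positivity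
  calc (1 + x) ^ n * b * (n : ℝ) ^ 2 = (1 + x) ^ n * (b * (n : ℝ) ^ 2) := by ring
    _ ≤ 3 * (b * (n : ℝ) ^ 2) := mul_le_mul_of_nonneg_right h3 h7
    _ = 6 * N.C * (n : ℝ) ^ 2 * N.nrm g * N.nrm h := by rw [hb]; ring

/-- common part of (P2), (P3) -/
theorem gl_pow_dist_aux : ∃ ε : ℝ, 0 < ε ∧ ∀ (g h : G) (n : ℕ),
    (n : ℝ) * N.nrm g ≤ ε → (n : ℝ) * N.nrm h ≤ ε →
      N.dist (g ^ n) (h ^ n) ≤ 2 * ((n : ℝ) * N.dist g h) ∧
        (n : ℝ) * N.dist g h ≤ 2 * N.C * N.dist (g ^ n) (h ^ n) := by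
  have hC := N.C_pos
  have hC1 := N.one_le_C
  obtain ⟨ε₁, hε₁, K₁, hK₁, hP⟩ := gl_mul_pow_dist N
  refine ⟨min (ε₁ / 2) (min (1 / (2 * N.C)) (1 / (2 * N.C * (K₁ + 1)))), by positivity, ?_⟩
  intro g h n hg hh
  set ε := min (ε₁ / 2) (min (1 / (2 * N.C)) (1 / (2 * N.C * (K₁ + 1)))) with hε
  have e1 : ε ≤ ε₁ / 2 := min_le_left _ _
  have e2 : ε ≤ 1 / (2 * N.C) := (min_le_right _ _).trans (min_le_left _ _)
  have e3 : ε ≤ 1 / (2 * N.C * (K₁ + 1)) := (min_le_right _ _).trans (min_le_right _ _)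
  have hn0 : (0 : ℝ) ≤ n := Nat.cast_nonneg n
  set k := g⁻¹ * h with hk
  have hkd : N.nrm k = N.dist g h := rfl
  have hk0 := N.nrm_nonneg k
  have hg0 := N.nrm_nonneg g
  have hgk : g * k = h := by rw [hk]; group
  have hnk : (n : ℝ) * N.nrm k ≤ 2 * ε := by
    have := N.dist_le_nrm_add_nrm g h
    rw [← hkd] at this
    have := mul_le_mul_of_nonneg_left this hn0
    linarith
  have h1 := hP g k n (by linarith) (by linarith)
  rw [hgk] at h1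
  have h2 : K₁ * (n : ℝ) ^ 2 * N.nrm g * N.nrm k ≤ (n : ℝ) * N.nrm k / (2 * N.C) := by
    have h3 : K₁ * ((n : ℝ) * N.nrm g) ≤ 1 / (2 * N.C) := by
      have h4 : K₁ * ((n : ℝ) * N.nrm g) ≤ (K₁ + 1) * (1 / (2 * N.C * (K₁ + 1))) := by
        apply mul_le_mul (by linarith) (hg.trans e3) (by positivity) (by positivity)
      rwa [show (K₁ + 1) * (1 / (2 * N.C * (K₁ + 1))) = 1 / (2 * N.C) by field_simp] at h4
    calc K₁ * (n : ℝ) ^ 2 * N.nrm g * N.nrm k = K₁ * ((n : ℝ) * N.nrm g) * ((n : ℝ) * N.nrm k) := by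
          ring
      _ ≤ 1 / (2 * N.C) * ((n : ℝ) * N.nrm k) := mul_le_mul_of_nonneg_right h3 (by positivity)
      _ = (n : ℝ) * N.nrm k / (2 * N.C) := by ring
  have h5 : N.dist (h ^ n) (g ^ n * k ^ n) ≤ (n : ℝ) * N.nrm k / (2 * N.C) := h1.trans h2
  have h6 : N.dist (g ^ n) (g ^ n * k ^ n) = N.nrm (k ^ n) := N.dist_mul_self_left _ _
  have h7 : (n : ℝ) * N.nrm k / (2 * N.C) ≤ (n : ℝ) * N.nrm k := by
    apply div_le_self (by positivity)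
    linarith
  constructor
  · have t := N.dist_triangle (g ^ n) (g ^ n * k ^ n) (h ^ n)
    rw [h6, N.dist_comm (g ^ n * k ^ n)] at t
    have := N.nrm_pow_le k n
    rw [← hkd]
    linarith
  · have t := N.dist_triangle (g ^ n) (h ^ n) (g ^ n * k ^ n)
    rw [h6] at t
    have hesc := N.escape k n (by
      have : 2 * ε ≤ 1 / N.C := by
        have : 2 * (1 / (2 * N.C)) = 1 / N.C := by field_simp
        linarith
      linarith)
    have h8 : N.C * ((n : ℝ) * N.nrm k / (2 * N.C)) = (n : ℝ) * N.nrm k / 2 := by field_simp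
    have h9 := mul_le_mul_of_nonneg_left (t.trans (add_le_add_right h5 _)) hC.le
    rw [mul_add, h8] at h9
    rw [← hkd]
    linarith

theorem gl_pow_dist_le : ∃ ε : ℝ, 0 < ε ∧ ∃ K : ℝ, 0 ≤ K ∧ ∀ (g h : G) (n : ℕ),
    (n : ℝ) * N.nrm g ≤ ε → (n : ℝ) * N.nrm h ≤ ε →
      N.dist (g ^ n) (h ^ n) ≤ K * ((n : ℝ) * N.dist g h) := by
  obtain ⟨ε, hε, h⟩ := gl_pow_dist_aux N
  exact ⟨ε, hε, 2, by norm_num, fun g k n hg hk => (h g k n hg hk).1⟩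

theorem gl_le_pow_dist : ∃ ε : ℝ, 0 < ε ∧ ∃ K : ℝ, 0 ≤ K ∧ ∀ (g h : G) (n : ℕ),
    (n : ℝ) * N.nrm g ≤ ε → (n : ℝ) * N.nrm h ≤ ε →
      (n : ℝ) * N.dist g h ≤ K * N.dist (g ^ n) (h ^ n) := by
  obtain ⟨ε, hε, h⟩ := gl_pow_dist_aux N
  exact ⟨ε, hε, 2 * N.C, by have := N.C_pos; positivity, fun g k n hg hk => (h g k n hg hk).2⟩

/-- `(g k)ⁿ = gⁿ · (g^{-(n-1)} k g^{n-1}) ⋯ (g⁻¹ k g) · k`. -/
theorem gl_conj_prod {H : Type*} [Group H] (g k : H) (n : ℕ) :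
    (g * k) ^ n = g ^ n * ((List.range n).reverse.map fun j => (g ^ j)⁻¹ * k * g ^ j).prod := by
  induction n with
  | zero => simp
  | succ n ih =>
    rw [List.range_succ, List.reverse_append, List.reverse_singleton, List.singleton_append,
      List.map_cons, List.prod_cons, pow_succ' (g * k), ih]
    have : g * k * (g ^ n * ((List.range n).reverse.map fun j => (g ^ j)⁻¹ * k * g ^ j).prod) =
        g ^ (n + 1) * ((g ^ n)⁻¹ * k * g ^ n *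
          ((List.range n).reverse.map fun j => (g ^ j)⁻¹ * k * g ^ j).prod) := by
      rw [pow_succ']
      group
    exact this

end Claimed.Agent.R304
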