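/-
Row 304, block A3.  Owner: helper231.  PACKAGE gl4 PROVED (sorry-free; prover helper27).
The set `L(G)` of one-parameter subgroups: norm, tangency, sums, vector space axioms (raw form, on `GlOps G`).

Notation `‖g‖ = N.nrm g`, `d = N.dist`, `C = N.C`, `|φ| = N.lnorm φ = sup_t ‖φ t‖/|t|`.

(S0) Lipschitz.  `gl_exists_lipschitz`: by continuity there is `δ > 0` with `‖φ s‖ ≤ 1/(2C²)` for `|s| ≤ δ`.  For `0 < t ≤ δ`,
  `n = ⌊δ/t⌋₊ ≥ 1`, `escape'` for `g = φ t` (`g^j = φ (j t)`, `j t ≤ δ`) gives `n‖φ t‖ ≤ 1/C`, and `n ≥ δ/(2t)`; so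
  `‖φ t‖ ≤ (2/(Cδ)) t`.  For `t > δ`: `‖φ t‖ = ‖φ(t/m)^m‖ ≤ m ‖φ (t/m)‖`.  `t < 0`: `nrm_inv`.
  Hence the family `‖φ t‖/|t|` is bounded above: `gl_nrm_le_lnorm` (`le_ciSup`), `gl_lnorm_le` (`ciSup_le`).
  `gl_lnorm_le_of_small`: local to global by `‖φ t‖ ≤ m‖φ(t/m)‖`.
(S1) `gl_lnorm_le_nrm`: `ε = 1/(4C²)`.  Let `t > 0`, `|φ| t ≤ ε`.  For `0 < s ≤ t`, `m = ⌊t/s⌋₊`: the powers `φ(s)^j = φ(js)`, `j ≤ m`,
  have norm `≤ |φ| t ≤ 1/(2C²)`, so `m‖φ s‖ ≤ C‖φ(ms)‖ ≤ C(‖φ t‖ + |φ| s)` and `m s ≥ t - s`.  So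
  `‖φ s‖/s ≤ C(‖φ t‖ + |φ|s)/(t - s)`.  Moreover `‖φ u‖/u ≤ ‖φ(u/n)‖/(u/n)` for all `n`; so for every `u > 0`
  `‖φ u‖/u ≤ lim_{n} C(‖φ t‖ + |φ|u/n)/(t - u/n) = C‖φ t‖/t`.
(S2) tangency.  `gl_tangent_unique`: `d(φ t, ψ t) = o(t)`.  Fix `s` with `|φ||s|, |ψ||s| ≤ ε` (`gl_pow_dist_le`):
  `d(φ s, ψ s) ≤ K n d(φ(s/n), ψ(s/n)) → 0`.  So `φ = ψ` near `0`, hence everywhere (`φ t = φ(t/m)^m`).
  `gl_tangent_mul`: `d(φψ, γγ') ≤ d(φψ, φγ') + d(φγ', γγ') ≤ d(ψ,γ') + 2 d(φ,γ)` for small `t`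
  (`dist_mul_left`, `dist_mul_right_le_two`; `‖γ' t‖ ≤ ‖ψ t‖ + d(ψ t, γ' t) → 0`); then `gl_ladd_spec` + triangle inequality.
(S3) sums.  `gl_exists_sum`: `𝒰` = `Filter.hyperfilter ℕ`, `g n = φ(1/n) ψ(1/n)`, `k n = n`, `R = |φ| + |ψ|`; GEN
  (`gl_exists_ops_of_ultrafilter`) gives `χ` with `χ t = lim (φ(1/n)ψ(1/n))^{⌊tn⌋}`, `|χ| ≤ R`.  For `t ≥ 0`, `m = ⌊tn⌋₊`,
  `gl_mul_pow_dist`: `d((φ(1/n)ψ(1/n))^m, φ(m/n)ψ(m/n)) ≤ K m² ‖φ(1/n)‖‖ψ(1/n)‖ ≤ K (|φ|t)(|ψ|t)`, and `m/n → t`; pass to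
  the limit (`continuous_dist`).  `t < 0`: apply the case `t > 0` to ... NOTE `χ(-t)⁻¹`: `d(χ(-t), φ(-t)ψ(-t))`; use
  the same computation with `g n ^ (-m)`: simplest is to run the argument for the pair `(smul (-1) φ, smul (-1) ψ)` and use
  uniqueness; or prove the estimate only for `t ≥ 0` first, and get `t < 0` from
  `(φ(t)ψ(t))⁻¹ = ψ(-t)φ(-t)`, `dist_mul_comm_le` and `d(a⁻¹,b⁻¹) = ‖a b⁻¹‖ = ‖a (a⁻¹ b)⁻¹ a⁻¹‖ ≤ 2 d(a,b)` (constant `K` grows).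
(S4) axioms: all by `gl_tangent_unique` + `gl_tangent_mul` + `gl_tangent_congr`.
  comm: `d(φψ, ψφ) ≤ C‖φ t‖‖ψ t‖ = O(t²)`.  assoc: both sides are tangent to `t ↦ φ t ψ t χ t`.
  `smul s (ladd φ ψ)`: tangency is stable under `t ↦ s t` (`s = 0` trivial).  `smul (s+s') φ`: exact identity `φ(st)φ(s't)`.
  triangle inequality for `lnorm`: from `gl_exists_sum` and uniqueness.
-/
import Claimed.Agent.R304.GlPower
import Claimed.Agent.R304.GlGen

set_option autoImplicit false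

namespace Claimed.Agent.R304

open Topology Filter Asymptotics

variable {G : Type*} [Group G] [TopologicalSpace G] [IsTopologicalGroup G] (N : GleasonMetric G)

/-! ### (S0) the norm -/

omit [IsTopologicalGroup G] in
theorem gl_nrm_ops_neg (φ : GlOps G) (t : ℝ) : N.nrm (φ (-t)) = N.nrm (φ t) := by
  rw [φ.map_neg, N.nrm_inv]

omit [IsTopologicalGroup G] in
theorem gl_nrm_ops_abs (φ : GlOps G) (t : ℝ) : N.nrm (φ |t|) = N.nrm (φ t) := by
  rcases abs_cases t with ⟨h, _⟩ | ⟨h, _⟩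
  · rw [h]
  · rw [h, gl_nrm_ops_neg]

omit [IsTopologicalGroup G] in
/-- `‖φ t‖ ≤ m ‖φ (t / m)‖` -/
theorem gl_nrm_ops_div_le (φ : GlOps G) (t : ℝ) {m : ℕ} (hm : 1 ≤ m) :
    N.nrm (φ t) ≤ m * N.nrm (φ (t / m)) := by
  have hm0 : (m : ℝ) ≠ 0 := by
    have : (0 : ℝ) < m := by exact_mod_cast hm
    exact this.ne'
  have e : φ t = φ (t / m) ^ m := by
    rw [← φ.map_nsmul]
    congr 1
    field_simp
  rw [e]
  exact N.nrm_pow_le _ _

omit [IsTopologicalGroup G] in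
/-- local to global -/
theorem gl_nrm_le_of_small {φ : GlOps G} {R δ : ℝ} (hδ : 0 < δ)
    (h : ∀ t : ℝ, |t| ≤ δ → N.nrm (φ t) ≤ R * |t|) (t : ℝ) : N.nrm (φ t) ≤ R * |t| := by
  obtain ⟨m, hm⟩ := exists_nat_gt (|t| / δ)
  have hm0 : (0 : ℝ) < m := lt_of_le_of_lt (by positivity) hm
  have hm1 : 1 ≤ m := by exact_mod_cast hm0
  have h1 : |t / m| ≤ δ := by
    rw [abs_div, abs_of_pos hm0, div_le_iff₀ hm0]
    rw [div_lt_iff₀ hδ] at hm
    linarith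
  calc N.nrm (φ t) ≤ m * N.nrm (φ (t / m)) := gl_nrm_ops_div_le N φ t hm1
    _ ≤ m * (R * |t / m|) := mul_le_mul_of_nonneg_left (h _ h1) hm0.le
    _ = R * |t| := by
        rw [abs_div, abs_of_pos hm0]
        field_simp

theorem gl_exists_lipschitz (φ : GlOps G) : ∃ R : ℝ, 0 ≤ R ∧ ∀ t : ℝ, N.nrm (φ t) ≤ R * |t| := by
  have hC := N.C_pos
  -- continuity at `0`
  have hcont : Tendsto (fun s : ℝ => N.nrm (φ s)) (𝓝 0) (𝓝 0) := by
    have h1 : Continuous fun s : ℝ => N.nrm (φ s) := N.continuous_nrm.comp φ.continuous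
    have h2 := h1.tendsto 0
    simpa [φ.map_zero, N.nrm_one] using h2
  have hpos : 0 < 1 / (2 * N.C ^ 2) := by positivity
  obtain ⟨δ', hδ', hball⟩ := Metric.eventually_nhds_iff.mp (hcont.eventually (gt_mem_nhds hpos))
  set δ := δ' / 2 with hδdef
  have hδ : 0 < δ := by positivity
  have hsmall : ∀ s : ℝ, |s| ≤ δ → N.nrm (φ s) ≤ 1 / (2 * N.C ^ 2) := by
    intro s hs
    apply le_of_lt
    apply hball
    rw [Real.dist_eq, sub_zero]
    linarith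
  refine ⟨2 / (N.C * δ), by positivity, gl_nrm_le_of_small N hδ ?_⟩
  intro t ht
  rcases eq_or_ne t 0 with rfl | ht0
  · simp [φ.map_zero, N.nrm_one]
  rw [← gl_nrm_ops_abs]
  set u := |t| with hu
  have hu0 : 0 < u := abs_pos.mpr ht0
  set n := ⌊δ / u⌋₊ with hn
  have hn1 : (n : ℝ) ≤ δ / u := Nat.floor_le (by positivity)
  have hn2 : δ / u < n + 1 := Nat.lt_floor_add_one _
  have hn3 : 1 ≤ n := by
    rw [hn, Nat.one_le_floor_iff, le_div_iff₀ hu0]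
    linarith
  have hn3' : (1 : ℝ) ≤ n := by exact_mod_cast hn3
  have hesc := (N.escape' (g := φ u) (n := n) (by
    intro j hj
    rw [← φ.map_nsmul]
    apply hsmall
    have hj' : (j : ℝ) ≤ n := by exact_mod_cast hj
    rw [abs_of_nonneg (by positivity)]
    calc (j : ℝ) * u ≤ n * u := mul_le_mul_of_nonneg_right hj' hu0.le
      _ ≤ δ / u * u := mul_le_mul_of_nonneg_right hn1 hu0.le
      _ = δ := by field_simp)).1
  have hnn := N.nrm_nonneg (φ u)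
  have h4 : δ < 2 * n * u := by
    rw [div_lt_iff₀ hu0] at hn2
    nlinarith
  have h5 : δ * N.nrm (φ u) ≤ 2 * u * (1 / N.C) := by
    calc δ * N.nrm (φ u) ≤ 2 * n * u * N.nrm (φ u) := mul_le_mul_of_nonneg_right h4.le hnn
      _ = 2 * u * (n * N.nrm (φ u)) := by ring
      _ ≤ 2 * u * (1 / N.C) := mul_le_mul_of_nonneg_left hesc (by positivity)
  have h6 : 2 / (N.C * δ) * u = 2 * u * (1 / N.C) / δ := by field_simp
  rw [h6, le_div_iff₀ hδ]
  linarith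

theorem gl_lnorm_bddAbove (φ : GlOps G) : BddAbove (Set.range fun t : ℝ => N.nrm (φ t) / |t|) := by
  obtain ⟨R, hR, h⟩ := gl_exists_lipschitz N φ
  refine ⟨R, ?_⟩
  rintro _ ⟨t, rfl⟩
  exact div_le_of_le_mul₀ (abs_nonneg t) hR (h t)

theorem gl_nrm_le_lnorm (φ : GlOps G) (t : ℝ) : N.nrm (φ t) ≤ N.lnorm φ * |t| := by
  rcases eq_or_ne t 0 with rfl | ht0
  · simp [φ.map_zero, N.nrm_one]
  · have h1 : N.nrm (φ t) / |t| ≤ N.lnorm φ := le_ciSup (gl_lnorm_bddAbove N φ) t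
    rwa [div_le_iff₀ (abs_pos.mpr ht0)] at h1

theorem gl_lnorm_nonneg (φ : GlOps G) : 0 ≤ N.lnorm φ := by
  have h1 : N.nrm (φ 0) / |(0 : ℝ)| ≤ N.lnorm φ := le_ciSup (gl_lnorm_bddAbove N φ) 0
  simpa using h1

theorem gl_lnorm_le {φ : GlOps G} {R : ℝ} (hR : 0 ≤ R) (h : ∀ t : ℝ, N.nrm (φ t) ≤ R * |t|) :
    N.lnorm φ ≤ R :=
  ciSup_le fun t => div_le_of_le_mul₀ (abs_nonneg t) hR (h t)

theorem gl_lnorm_le_of_small {φ : GlOps G} {R δ : ℝ} (hR : 0 ≤ R) (hδ : 0 < δ)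
    (h : ∀ t : ℝ, |t| ≤ δ → N.nrm (φ t) ≤ R * |t|) : N.lnorm φ ≤ R :=
  gl_lnorm_le N hR (gl_nrm_le_of_small N hδ h)

theorem gl_lnorm_zero : N.lnorm (GlOps.zero : GlOps G) = 0 := by
  apply le_antisymm _ (gl_lnorm_nonneg N _)
  apply gl_lnorm_le N le_rfl
  intro t
  simp [N.nrm_one]

theorem gl_eq_zero_of_lnorm {φ : GlOps G} (h : N.lnorm φ = 0) : φ = GlOps.zero := by
  apply GlOps.ext'
  intro t
  rw [GlOps.zero_apply]
  apply N.eq_one_of_nrm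
  apply le_antisymm _ (N.nrm_nonneg _)
  have := gl_nrm_le_lnorm N φ t
  rwa [h, zero_mul] at this

theorem gl_lnorm_smul_le (s : ℝ) (φ : GlOps G) : N.lnorm (GlOps.smul s φ) ≤ |s| * N.lnorm φ := by
  apply gl_lnorm_le N (mul_nonneg (abs_nonneg s) (gl_lnorm_nonneg N φ))
  intro t
  rw [GlOps.smul_apply]
  have := gl_nrm_le_lnorm N φ (s * t)
  rw [abs_mul] at this
  linarith

theorem gl_lnorm_smul (s : ℝ) (φ : GlOps G) : N.lnorm (GlOps.smul s φ) = |s| * N.lnorm φ := by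
  apply le_antisymm (gl_lnorm_smul_le N s φ)
  rcases eq_or_ne s 0 with rfl | hs
  · simpa using gl_lnorm_nonneg N _
  · have h1 := gl_lnorm_smul_le N s⁻¹ (GlOps.smul s φ)
    have e : GlOps.smul s⁻¹ (GlOps.smul s φ) = φ := by
      apply GlOps.ext'
      intro t
      rw [GlOps.smul_apply, GlOps.smul_apply, mul_inv_cancel_left₀ hs]
    rw [e, abs_inv] at h1
    have hs' : 0 < |s| := abs_pos.mpr hs
    calc |s| * N.lnorm φ ≤ |s| * (|s|⁻¹ * N.lnorm (GlOps.smul s φ)) :=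
          mul_le_mul_of_nonneg_left h1 hs'.le
      _ = N.lnorm (GlOps.smul s φ) := by field_simp

theorem gl_dist_ops_le (φ : GlOps G) (s t : ℝ) : N.dist (φ s) (φ t) ≤ N.lnorm φ * |t - s| := by
  have h1 : φ t = φ s * φ (t - s) := by rw [← φ.map_add]; congr 1; ring
  rw [h1, N.dist_mul_self_left]
  exact gl_nrm_le_lnorm N φ _

/-! ### (S1) the norm is controlled by one value -/

theorem gl_lnorm_le_nrm_aux (φ : GlOps G) {t s : ℝ} (hs : 0 < s) (hst : s ≤ t)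
    (ht : N.lnorm φ * t ≤ 1 / (2 * N.C ^ 2)) :
    N.nrm (φ s) * (t - s) ≤ N.C * s * (N.nrm (φ t) + N.lnorm φ * s) := by
  have hC := N.C_pos
  have hL := gl_lnorm_nonneg N φ
  have ht0 : 0 < t := lt_of_lt_of_le hs hst
  set m := ⌊t / s⌋₊ with hm
  have hm1 : (m : ℝ) ≤ t / s := Nat.floor_le (by positivity)
  have hm2 : t / s < m + 1 := Nat.lt_floor_add_one _
  have hm1' : (m : ℝ) * s ≤ t := by rwa [le_div_iff₀ hs] at hm1
  have hm2' : t < (m + 1) * s := by rwa [div_lt_iff₀ hs] at hm2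
  have hesc := (N.escape' (g := φ s) (n := m) (by
    intro j hj
    rw [← φ.map_nsmul]
    have hj' : (j : ℝ) ≤ m := by exact_mod_cast hj
    refine (gl_nrm_le_lnorm N φ _).trans (le_trans ?_ ht)
    apply mul_le_mul_of_nonneg_left _ hL
    rw [abs_of_nonneg (by positivity)]
    exact (mul_le_mul_of_nonneg_right hj' hs.le).trans hm1')).2
  rw [← φ.map_nsmul] at hesc
  have h1 : N.nrm (φ (m * s)) ≤ N.nrm (φ t) + N.lnorm φ * s := by
    have h2 := N.nrm_le_nrm_add_dist (φ t) (φ (m * s))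
    have h3 := gl_dist_ops_le N φ t (m * s)
    have h4 : |(m : ℝ) * s - t| ≤ s := by
      rw [abs_le]
      constructor <;> linarith
    have h5 := mul_le_mul_of_nonneg_left h4 hL
    linarith
  have hnn := N.nrm_nonneg (φ s)
  calc N.nrm (φ s) * (t - s) ≤ N.nrm (φ s) * (m * s) :=
        mul_le_mul_of_nonneg_left (by linarith) hnn
    _ = (m * N.nrm (φ s)) * s := by ring
    _ ≤ (N.C * N.nrm (φ (m * s))) * s := mul_le_mul_of_nonneg_right hesc hs.le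
    _ ≤ (N.C * (N.nrm (φ t) + N.lnorm φ * s)) * s :=
        mul_le_mul_of_nonneg_right (mul_le_mul_of_nonneg_left h1 hC.le) hs.le
    _ = N.C * s * (N.nrm (φ t) + N.lnorm φ * s) := by ring

theorem gl_lnorm_le_nrm : ∃ ε : ℝ, 0 < ε ∧ ∀ (φ : GlOps G) (t : ℝ), N.lnorm φ * |t| ≤ ε →
    N.lnorm φ * |t| ≤ N.C * N.nrm (φ t) := by
  have hC := N.C_pos
  refine ⟨1 / (2 * N.C ^ 2), by positivity, ?_⟩
  intro φ t ht
  have hL := gl_lnorm_nonneg N φ
  rcases eq_or_ne t 0 with rfl | ht0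
  · simp [φ.map_zero, N.nrm_one]
  rw [← gl_nrm_ops_abs]
  set T := |t| with hT
  have hT0 : 0 < T := abs_pos.mpr ht0
  -- the key inequality for all `u > 0`
  have key : ∀ u : ℝ, 0 < u → N.nrm (φ u) * T ≤ N.C * u * N.nrm (φ T) := by
    intro u hu
    have hlim : Tendsto (fun n : ℕ => u / (n : ℝ)) atTop (𝓝 0) :=
      tendsto_const_div_atTop_nhds_zero_nat u
    have hl : Tendsto (fun n : ℕ => N.nrm (φ u) * (T - u / (n : ℝ))) atTop
        (𝓝 (N.nrm (φ u) * (T - 0))) := (tendsto_const_nhds.sub hlim).const_mul _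
    have hr : Tendsto (fun n : ℕ => N.C * u * (N.nrm (φ T) + N.lnorm φ * (u / (n : ℝ)))) atTop
        (𝓝 (N.C * u * (N.nrm (φ T) + N.lnorm φ * 0))) :=
      (tendsto_const_nhds.add (hlim.const_mul _)).const_mul _
    rw [sub_zero] at hl
    rw [mul_zero, add_zero] at hr
    refine le_of_tendsto_of_tendsto hl hr ?_
    obtain ⟨n₀, hn₀⟩ := exists_nat_gt (u / T)
    filter_upwards [eventually_ge_atTop n₀, eventually_ge_atTop 1] with n hn hn1
    have hn0 : (0 : ℝ) < n := by exact_mod_cast hn1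
    have hnT : u / n ≤ T := by
      rw [div_le_iff₀ hn0]
      rw [div_lt_iff₀ hT0] at hn₀
      have : (n₀ : ℝ) ≤ n := by exact_mod_cast hn
      nlinarith
    have h1 := gl_lnorm_le_nrm_aux N φ (div_pos hu hn0) hnT ht
    have h2 := gl_nrm_ops_div_le N φ u hn1
    calc N.nrm (φ u) * (T - u / n) ≤ (n * N.nrm (φ (u / n))) * (T - u / n) :=
          mul_le_mul_of_nonneg_right h2 (by linarith)
      _ = n * (N.nrm (φ (u / n)) * (T - u / n)) := by ring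
      _ ≤ n * (N.C * (u / n) * (N.nrm (φ T) + N.lnorm φ * (u / n))) :=
          mul_le_mul_of_nonneg_left h1 hn0.le
      _ = N.C * u * (N.nrm (φ T) + N.lnorm φ * (u / n)) := by field_simp
  have h3 : N.lnorm φ ≤ N.C * N.nrm (φ T) / T := by
    apply gl_lnorm_le N (by have := N.nrm_nonneg (φ T); positivity)
    intro u
    rcases eq_or_ne u 0 with rfl | hu0
    · simp [φ.map_zero, N.nrm_one]
    rw [← gl_nrm_ops_abs]
    have := key |u| (abs_pos.mpr hu0)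
    rw [div_mul_eq_mul_div, le_div_iff₀ hT0]
    linarith
  rwa [le_div_iff₀ hT0] at h3

/-! ### (S2) tangency -/

theorem gl_tangent_self (φ : GlOps G) : N.Tangent φ φ := by
  unfold GleasonMetric.Tangent
  simp only [N.dist_self]
  exact isLittleO_zero _ _

/-- a nonnegative function bounded near `0` by `A t ^ 2` is `o(t)` -/
theorem gl_isLittleO_of_sq {f : ℝ → ℝ} {A δ : ℝ} (hδ : 0 < δ)
    (h : ∀ t : ℝ, |t| ≤ δ → |f t| ≤ A * t ^ 2) : f =o[𝓝 0] (fun t : ℝ => t) := by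
  have h1 : f =O[𝓝 0] (fun t : ℝ => t ^ 2) := by
    apply IsBigO.of_bound A
    have : ∀ᶠ t : ℝ in 𝓝 0, |t| < δ := by
      have := Metric.ball_mem_nhds (0 : ℝ) hδ
      filter_upwards [this] with t ht
      rwa [mem_ball_zero_iff, Real.norm_eq_abs] at ht
    filter_upwards [this] with t ht
    rw [Real.norm_eq_abs, Real.norm_eq_abs, abs_of_nonneg (sq_nonneg t)]
    exact h t ht.le
  exact h1.trans_isLittleO (isLittleO_pow_id one_lt_two)

/-- domination of nonnegative quantities -/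
theorem gl_isLittleO_of_le {f g : ℝ → ℝ} (hg : g =o[𝓝 0] (fun t : ℝ => t))
    (h : ∀ᶠ t in 𝓝 (0 : ℝ), |f t| ≤ |g t|) : f =o[𝓝 0] (fun t : ℝ => t) :=
  (IsBigO.of_bound' (by simpa only [Real.norm_eq_abs] using h)).trans_isLittleO hg

theorem gl_ops_eq_of_small {φ ψ : GlOps G} {δ : ℝ} (hδ : 0 < δ)
    (h : ∀ t : ℝ, |t| ≤ δ → φ t = ψ t) : φ = ψ := by
  apply GlOps.ext'
  intro t
  obtain ⟨m, hm⟩ := exists_nat_gt (|t| / δ)
  have hm0 : (0 : ℝ) < m := lt_of_le_of_lt (by positivity) hm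
  have h1 : |t / m| ≤ δ := by
    rw [abs_div, abs_of_pos hm0, div_le_iff₀ hm0]
    rw [div_lt_iff₀ hδ] at hm
    linarith
  have e : t = m * (t / m) := by field_simp
  rw [e, φ.map_nsmul, ψ.map_nsmul, h _ h1]

theorem gl_ops_eq_of_isLittleO {φ ψ : GlOps G}
    (h : (fun t => N.dist (φ t) (ψ t)) =o[𝓝 0] (fun t : ℝ => t)) : φ = ψ := by
  obtain ⟨ε, hε, K, hK, hP⟩ := gl_pow_dist_le N
  have hLφ := gl_lnorm_nonneg N φ
  have hLψ := gl_lnorm_nonneg N ψ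
  set δ := ε / (N.lnorm φ + N.lnorm ψ + 1) with hδdef
  have hδ : 0 < δ := by positivity
  apply gl_ops_eq_of_small hδ
  intro s hs
  apply N.eq_of_dist_eq_zero
  apply le_antisymm _ (N.dist_nonneg _ _)
  apply le_of_forall_pos_le_add
  intro η hη
  rw [zero_add]
  -- choose `c` with `K c |s| ≤ η`
  set c := η / (K * |s| + 1) with hc
  have hc0 : 0 < c := by positivity
  have hev := (isLittleO_iff.mp h) hc0
  have hlim : Tendsto (fun n : ℕ => s / (n : ℝ)) atTop (𝓝 0) :=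
    tendsto_const_div_atTop_nhds_zero_nat s
  obtain ⟨n, hn, hn1⟩ := ((hlim.eventually hev).and (eventually_ge_atTop 1)).exists
  have hn0 : (0 : ℝ) < n := by exact_mod_cast hn1
  rw [Real.norm_eq_abs, Real.norm_eq_abs, abs_of_nonneg (N.dist_nonneg _ _), abs_div,
    abs_of_pos hn0] at hn
  have hsδ : (N.lnorm φ + N.lnorm ψ + 1) * |s| ≤ ε := by
    have := mul_le_mul_of_nonneg_left hs (by positivity : 0 ≤ N.lnorm φ + N.lnorm ψ + 1)
    rwa [hδdef, mul_div_cancel₀ _ (by positivity : N.lnorm φ + N.lnorm ψ + 1 ≠ 0)] at this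
  have hbd : ∀ χ : GlOps G, N.lnorm χ ≤ N.lnorm φ + N.lnorm ψ + 1 →
      (n : ℝ) * N.nrm (χ (s / n)) ≤ ε := by
    intro χ hχ
    have h1 := gl_nrm_le_lnorm N χ (s / n)
    rw [abs_div, abs_of_pos hn0] at h1
    calc (n : ℝ) * N.nrm (χ (s / n)) ≤ n * (N.lnorm χ * (|s| / n)) :=
          mul_le_mul_of_nonneg_left h1 hn0.le
      _ = N.lnorm χ * |s| := by field_simp
      _ ≤ (N.lnorm φ + N.lnorm ψ + 1) * |s| := mul_le_mul_of_nonneg_right hχ (abs_nonneg s)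
      _ ≤ ε := hsδ
  have h2 := hP (φ (s / n)) (ψ (s / n)) n (hbd φ (by linarith)) (hbd ψ (by linarith))
  rw [← φ.map_nsmul, ← ψ.map_nsmul, mul_div_cancel₀ _ hn0.ne'] at h2
  calc N.dist (φ s) (ψ s) ≤ K * (n * N.dist (φ (s / n)) (ψ (s / n))) := h2
    _ ≤ K * (n * (c * (|s| / n))) :=
        mul_le_mul_of_nonneg_left (mul_le_mul_of_nonneg_left hn hn0.le) hK
    _ = c * (K * |s|) := by field_simp
    _ ≤ c * (K * |s| + 1) := mul_le_mul_of_nonneg_left (by linarith) hc0.le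
    _ = η := by
        rw [hc]
        field_simp

theorem gl_tangent_unique {γ : ℝ → G} {φ ψ : GlOps G} (h1 : N.Tangent γ φ) (h2 : N.Tangent γ ψ) :
    φ = ψ := by
  apply gl_ops_eq_of_isLittleO N
  have h3 := h1.add h2
  refine gl_isLittleO_of_le h3 (Eventually.of_forall fun t => ?_)
  rw [abs_of_nonneg (N.dist_nonneg _ _),
    abs_of_nonneg (add_nonneg (N.dist_nonneg _ _) (N.dist_nonneg _ _))]
  have := N.dist_triangle (φ t) (γ t) (ψ t)
  rwa [N.dist_comm (γ t) (ψ t)] at this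

theorem gl_tangent_congr {γ γ' : ℝ → G} {φ : GlOps G} (h : N.Tangent γ φ)
    (h' : (fun t => N.dist (γ t) (γ' t)) =o[𝓝 0] (fun t : ℝ => t)) : N.Tangent γ' φ := by
  have h3 := h.add h'
  refine gl_isLittleO_of_le h3 (Eventually.of_forall fun t => ?_)
  rw [abs_of_nonneg (N.dist_nonneg _ _),
    abs_of_nonneg (add_nonneg (N.dist_nonneg _ _) (N.dist_nonneg _ _))]
  exact N.dist_triangle (φ t) (γ t) (γ' t)

theorem gl_tangent_comp_mul {γ : ℝ → G} {φ : GlOps G} (h : N.Tangent γ φ) (s : ℝ) :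
    N.Tangent (fun t => γ (s * t)) (GlOps.smul s φ) := by
  have hk : Tendsto (fun t : ℝ => s * t) (𝓝 0) (𝓝 0) := by
    have : Continuous fun t : ℝ => s * t := by fun_prop
    simpa using this.tendsto 0
  have h1 := h.comp_tendsto hk
  exact h1.trans_isBigO (isBigO_const_mul_self s (fun t : ℝ => t) _)

/-! ### (S3) sums -/

omit [IsTopologicalGroup G] in
theorem GleasonMetric.dist_inv_inv_le {a b : G} (ha : N.nrm a ≤ 1 / N.C)
    (hab : N.dist a b ≤ 1 / N.C) : N.dist a⁻¹ b⁻¹ ≤ 2 * N.dist a b := by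
  have h1 := N.nrm_conj_le_two (g := b⁻¹ * a) (h := a) (by
    have : N.nrm (b⁻¹ * a) = N.dist b a := rfl
    rw [this, N.dist_comm]; exact hab) ha
  have e : a * (b⁻¹ * a) * a⁻¹ = a⁻¹⁻¹ * b⁻¹ := by group
  rw [e] at h1
  have e2 : N.nrm (b⁻¹ * a) = N.dist a b := by
    rw [N.dist_comm]; rfl
  rw [e2] at h1
  exact h1

theorem gl_tendsto_floor_div (t : ℝ) :
    Tendsto (fun n : ℕ => ((⌊t * (n : ℝ)⌋ : ℤ) : ℝ) / (n : ℝ)) atTop (𝓝 t) := by
  have A : Tendsto (fun n : ℕ => t - 1 / (n : ℝ)) atTop (𝓝 (t - 0)) :=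
    tendsto_const_nhds.sub tendsto_one_div_atTop_nhds_zero_nat
  rw [sub_zero] at A
  apply tendsto_of_tendsto_of_tendsto_of_le_of_le' A tendsto_const_nhds
  · filter_upwards [eventually_ge_atTop 1] with n hn
    have hn0 : (0 : ℝ) < n := by exact_mod_cast hn
    rw [le_div_iff₀ hn0]
    have := Int.lt_floor_add_one (t * (n : ℝ))
    have e : (t - 1 / (n : ℝ)) * n = t * n - 1 := by field_simp
    rw [e]; linarith
  · filter_upwards [eventually_ge_atTop 1] with n hn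
    have hn0 : (0 : ℝ) < n := by exact_mod_cast hn
    rw [div_le_iff₀ hn0]
    exact Int.floor_le _

section

variable [LocallyCompactSpace G]

/-- the sum, for `t ≥ 0` -/
theorem gl_exists_sum_pos : ∃ ε : ℝ, 0 < ε ∧ ∃ K : ℝ, 0 ≤ K ∧ ∀ φ ψ : GlOps G, ∃ χ : GlOps G,
    N.lnorm χ ≤ N.lnorm φ + N.lnorm ψ ∧
    ∀ t : ℝ, 0 ≤ t → N.lnorm φ * t ≤ ε → N.lnorm ψ * t ≤ ε →
      N.dist (χ t) (φ t * ψ t) ≤ K * (N.lnorm φ * t) * (N.lnorm ψ * t) := by
  obtain ⟨ε, hε, K, hK, hP⟩ := gl_mul_pow_dist N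
  refine ⟨ε, hε, K, hK, ?_⟩
  intro φ ψ
  have hLφ := gl_lnorm_nonneg N φ
  have hLψ := gl_lnorm_nonneg N ψ
  have hnφ : ∀ χ : GlOps G, ∀ n : ℕ, (n : ℝ) * N.nrm (χ (1 / (n : ℝ))) ≤ N.lnorm χ := by
    intro χ n
    rcases Nat.eq_zero_or_pos n with rfl | hn
    · simpa using gl_lnorm_nonneg N χ
    have hn0 : (0 : ℝ) < n := by exact_mod_cast hn
    have h1 := gl_nrm_le_lnorm N χ (1 / (n : ℝ))
    rw [abs_of_pos (by positivity)] at h1
    calc (n : ℝ) * N.nrm (χ (1 / (n : ℝ))) ≤ n * (N.lnorm χ * (1 / (n : ℝ))) :=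
          mul_le_mul_of_nonneg_left h1 hn0.le
      _ = N.lnorm χ := by field_simp
  obtain ⟨χ, hχlim, hχn⟩ := gl_exists_ops_of_ultrafilter N (Filter.hyperfilter ℕ)
    (fun n : ℕ => φ (1 / (n : ℝ)) * ψ (1 / (n : ℝ))) (fun n => n) (N.lnorm φ + N.lnorm ψ)
    (tendsto_id.mono_left (by
      rw [← Nat.cofinite_eq_atTop]
      exact Filter.hyperfilter_le_cofinite))
    (Eventually.of_forall fun n => by
      have h1 := N.nrm_mul_le (φ (1 / (n : ℝ))) (ψ (1 / (n : ℝ)))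
      have h2 := mul_le_mul_of_nonneg_left h1 (Nat.cast_nonneg n : (0 : ℝ) ≤ n)
      have h3 := hnφ φ n
      have h4 := hnφ ψ n
      linarith)
  refine ⟨χ, gl_lnorm_le N (by positivity) hχn, ?_⟩
  intro t ht hφt hψt
  have hle : (Filter.hyperfilter ℕ : Filter ℕ) ≤ atTop := by
    rw [← Nat.cofinite_eq_atTop]
    exact Filter.hyperfilter_le_cofinite
  -- `⌊t n⌋ / n → t`
  have hfl := gl_tendsto_floor_div t
  have hfl' := hfl.mono_left hle
  have h1 : Tendsto (fun n : ℕ => φ (((⌊t * (n : ℝ)⌋ : ℤ) : ℝ) / (n : ℝ)) *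
      ψ (((⌊t * (n : ℝ)⌋ : ℤ) : ℝ) / (n : ℝ))) (Filter.hyperfilter ℕ : Filter ℕ)
      (𝓝 (φ t * ψ t)) :=
    ((φ.continuous.tendsto t).comp hfl').mul ((ψ.continuous.tendsto t).comp hfl')
  have h2 := (N.continuous_dist.tendsto (χ t, φ t * ψ t)).comp ((hχlim t).prodMk_nhds h1)
  refine le_of_tendsto h2 ?_
  have hpos : ∀ᶠ n : ℕ in (Filter.hyperfilter ℕ : Filter ℕ), 1 ≤ n :=
    hle (eventually_ge_atTop 1)
  filter_upwards [hpos] with n hn
  have hn0 : (0 : ℝ) < n := by exact_mod_cast hn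
  have hfl0 : 0 ≤ ⌊t * (n : ℝ)⌋ := Int.floor_nonneg.mpr (by positivity)
  obtain ⟨m, hm⟩ := Int.eq_ofNat_of_zero_le hfl0
  have hmle : (m : ℝ) ≤ t * n := by
    have := Int.floor_le (t * (n : ℝ))
    rw [hm] at this
    exact_mod_cast this
  show N.dist ((φ (1 / (n : ℝ)) * ψ (1 / (n : ℝ))) ^ ⌊t * (n : ℝ)⌋)
    (φ (((⌊t * (n : ℝ)⌋ : ℤ) : ℝ) / (n : ℝ)) * ψ (((⌊t * (n : ℝ)⌋ : ℤ) : ℝ) / (n : ℝ))) ≤ _
  rw [hm, zpow_natCast]
  have e : (((m : ℕ) : ℤ) : ℝ) / (n : ℝ) = m * (1 / (n : ℝ)) := by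
    push_cast
    ring
  rw [e, φ.map_nsmul, ψ.map_nsmul]
  have hb : ∀ χ' : GlOps G, (m : ℝ) * N.nrm (χ' (1 / (n : ℝ))) ≤ N.lnorm χ' * t := by
    intro χ'
    have h3 := hnφ χ' n
    have h4 : N.nrm (χ' (1 / (n : ℝ))) ≤ N.lnorm χ' / n := by
      rw [le_div_iff₀ hn0]; linarith
    calc (m : ℝ) * N.nrm (χ' (1 / (n : ℝ))) ≤ (t * n) * (N.lnorm χ' / n) :=
          mul_le_mul hmle h4 (N.nrm_nonneg _) (by positivity)
      _ = N.lnorm χ' * t := by field_simp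
  refine (hP _ _ m ((hb φ).trans hφt) ((hb ψ).trans hψt)).trans ?_
  calc K * (m : ℝ) ^ 2 * N.nrm (φ (1 / (n : ℝ))) * N.nrm (ψ (1 / (n : ℝ)))
      = K * ((m : ℝ) * N.nrm (φ (1 / (n : ℝ)))) * ((m : ℝ) * N.nrm (ψ (1 / (n : ℝ)))) := by ring
    _ ≤ K * (N.lnorm φ * t) * (N.lnorm ψ * t) := by
        apply mul_le_mul (mul_le_mul_of_nonneg_left (hb φ) hK) (hb ψ)
          (mul_nonneg (Nat.cast_nonneg _) (N.nrm_nonneg _)) (by positivity)

theorem gl_exists_sum : ∃ ε : ℝ, 0 < ε ∧ ∃ K : ℝ, 0 ≤ K ∧ ∀ φ ψ : GlOps G, ∃ χ : GlOps G,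
    N.lnorm χ ≤ N.lnorm φ + N.lnorm ψ ∧
    ∀ t : ℝ, N.lnorm φ * |t| ≤ ε → N.lnorm ψ * |t| ≤ ε →
      N.dist (χ t) (φ t * ψ t) ≤ K * (N.lnorm φ * |t|) * (N.lnorm ψ * |t|) := by
  have hC := N.C_pos
  obtain ⟨ε₁, hε₁, K₁, hK₁, h⟩ := gl_exists_sum_pos N
  refine ⟨min ε₁ (min (1 / (2 * N.C)) (1 / (K₁ + N.C))), by positivity, 2 * (K₁ + N.C),
    by positivity, ?_⟩
  intro φ ψ
  obtain ⟨χ, hχ, hχd⟩ := h φ ψ
  refine ⟨χ, hχ, ?_⟩
  intro t hφt hψt
  set ε := min ε₁ (min (1 / (2 * N.C)) (1 / (K₁ + N.C))) with hε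
  have e1 : ε ≤ ε₁ := min_le_left _ _
  have e2 : ε ≤ 1 / (2 * N.C) := (min_le_right _ _).trans (min_le_left _ _)
  have e3 : ε ≤ 1 / (K₁ + N.C) := (min_le_right _ _).trans (min_le_right _ _)
  have hLφ := gl_lnorm_nonneg N φ
  have hLψ := gl_lnorm_nonneg N ψ
  set u := |t| with hu
  have hu0 : 0 ≤ u := abs_nonneg t
  set X := N.lnorm φ * u with hX
  set Y := N.lnorm ψ * u with hY
  have hX0 : 0 ≤ X := by positivity
  have hY0 : 0 ≤ Y := by positivity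
  have hXY : 0 ≤ X * Y := by positivity
  have hmain := hχd u hu0 (hφt.trans e1) (hψt.trans e1)
  rw [← hX, ← hY] at hmain
  rcases abs_cases t with ⟨ht, _⟩ | ⟨ht, _⟩
  · have : t = u := by rw [hu, ht]
    rw [this]
    refine hmain.trans ?_
    calc K₁ * X * Y = K₁ * (X * Y) := by ring
      _ ≤ 2 * (K₁ + N.C) * (X * Y) := mul_le_mul_of_nonneg_right (by linarith) hXY
      _ = 2 * (K₁ + N.C) * X * Y := by ring
  · have htu : t = -u := by rw [hu, ht, neg_neg]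
    have h2C : 1 / (2 * N.C) + 1 / (2 * N.C) = 1 / N.C := by field_simp; ring
    have h2C' : 1 / (2 * N.C) ≤ 1 / N.C := by
      have : 0 < 1 / (2 * N.C) := by positivity
      linarith
    have hφu : N.nrm (φ u) ≤ X := by
      have := gl_nrm_le_lnorm N φ u
      rwa [abs_of_nonneg hu0] at this
    have hψu : N.nrm (ψ u) ≤ Y := by
      have := gl_nrm_le_lnorm N ψ u
      rwa [abs_of_nonneg hu0] at this
    have hχu : N.nrm (χ u) ≤ 1 / N.C := by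
      have h1 := gl_nrm_le_lnorm N χ u
      rw [abs_of_nonneg hu0] at h1
      have h2 : N.lnorm χ * u ≤ X + Y := by
        have := mul_le_mul_of_nonneg_right hχ hu0
        rw [hX, hY]; linarith
      linarith
    have hcomm : N.dist (φ u * ψ u) (ψ u * φ u) ≤ N.C * (X * Y) := by
      refine (N.dist_mul_comm_le (by linarith) (by linarith)).trans ?_
      rw [mul_assoc]
      exact mul_le_mul_of_nonneg_left
        (mul_le_mul hφu hψu (N.nrm_nonneg _) hX0) hC.le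
    have hab : N.dist (χ u) (ψ u * φ u) ≤ (K₁ + N.C) * (X * Y) := by
      have := N.dist_triangle (χ u) (φ u * ψ u) (ψ u * φ u)
      have e : (K₁ + N.C) * (X * Y) = K₁ * X * Y + N.C * (X * Y) := by ring
      linarith
    have hsm : (K₁ + N.C) * (X * Y) ≤ 1 / N.C := by
      have h3 : X * Y ≤ 1 / (K₁ + N.C) * (1 / (2 * N.C)) :=
        mul_le_mul (hφt.trans e3) (hψt.trans e2) hY0 (by positivity)
      calc (K₁ + N.C) * (X * Y) ≤ (K₁ + N.C) * (1 / (K₁ + N.C) * (1 / (2 * N.C))) :=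
            mul_le_mul_of_nonneg_left h3 (by positivity)
        _ = 1 / (2 * N.C) := by field_simp
        _ ≤ 1 / N.C := h2C'
    have hfin := N.dist_inv_inv_le hχu (hab.trans hsm)
    rw [htu, χ.map_neg, φ.map_neg, ψ.map_neg, ← mul_inv_rev]
    refine hfin.trans ?_
    calc 2 * N.dist (χ u) (ψ u * φ u) ≤ 2 * ((K₁ + N.C) * (X * Y)) := by linarith
      _ = 2 * (K₁ + N.C) * X * Y := by ring

/-- the estimate of `gl_exists_sum` implies tangency -/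
theorem gl_tangent_of_sum {ε K : ℝ} (hε : 0 < ε) {φ ψ χ : GlOps G}
    (h : ∀ t : ℝ, N.lnorm φ * |t| ≤ ε → N.lnorm ψ * |t| ≤ ε →
      N.dist (χ t) (φ t * ψ t) ≤ K * (N.lnorm φ * |t|) * (N.lnorm ψ * |t|)) :
    N.Tangent (fun t => φ t * ψ t) χ := by
  have hLφ := gl_lnorm_nonneg N φ
  have hLψ := gl_lnorm_nonneg N ψ
  have hδ : 0 < ε / (N.lnorm φ + N.lnorm ψ + 1) := by positivity
  refine gl_isLittleO_of_sq (A := K * N.lnorm φ * N.lnorm ψ) hδ ?_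
  intro t ht
  have h1 : (N.lnorm φ + N.lnorm ψ + 1) * |t| ≤ ε := by
    have := mul_le_mul_of_nonneg_left ht (by positivity : 0 ≤ N.lnorm φ + N.lnorm ψ + 1)
    rwa [mul_div_cancel₀ _ (by positivity : N.lnorm φ + N.lnorm ψ + 1 ≠ 0)] at this
  have h0 := abs_nonneg t
  have h2 : N.lnorm φ * |t| ≤ ε := by nlinarith
  have h3 : N.lnorm ψ * |t| ≤ ε := by nlinarith
  rw [abs_of_nonneg (N.dist_nonneg _ _)]
  refine (h t h2 h3).trans (le_of_eq ?_)
  rw [← sq_abs t]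
  ring

theorem gl_ladd_spec (φ ψ : GlOps G) : N.Tangent (fun t => φ t * ψ t) (N.ladd φ ψ) := by
  obtain ⟨ε, hε, K, _, h⟩ := gl_exists_sum N
  obtain ⟨χ, _, hχ⟩ := h φ ψ
  have hex : ∃ χ : GlOps G, N.Tangent (fun t => φ t * ψ t) χ := ⟨χ, gl_tangent_of_sum N hε hχ⟩
  rw [GleasonMetric.ladd, dif_pos hex]
  exact hex.choose_spec

theorem gl_ladd_eq {φ ψ χ : GlOps G} (h : N.Tangent (fun t => φ t * ψ t) χ) : N.ladd φ ψ = χ :=
  gl_tangent_unique N (gl_ladd_spec N φ ψ) h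

theorem gl_ladd_dist : ∃ ε : ℝ, 0 < ε ∧ ∃ K : ℝ, 0 ≤ K ∧ ∀ (φ ψ : GlOps G) (t : ℝ),
    N.lnorm φ * |t| ≤ ε → N.lnorm ψ * |t| ≤ ε →
      N.dist (N.ladd φ ψ t) (φ t * ψ t) ≤ K * (N.lnorm φ * |t|) * (N.lnorm ψ * |t|) := by
  obtain ⟨ε, hε, K, hK, h⟩ := gl_exists_sum N
  refine ⟨ε, hε, K, hK, ?_⟩
  intro φ ψ
  obtain ⟨χ, _, hχ⟩ := h φ ψ
  rw [gl_ladd_eq N (gl_tangent_of_sum N hε hχ)]
  exact hχ

theorem gl_lnorm_ladd_le (φ ψ : GlOps G) : N.lnorm (N.ladd φ ψ) ≤ N.lnorm φ + N.lnorm ψ := by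
  obtain ⟨ε, hε, K, _, h⟩ := gl_exists_sum N
  obtain ⟨χ, hχ0, hχ⟩ := h φ ψ
  rw [gl_ladd_eq N (gl_tangent_of_sum N hε hχ)]
  exact hχ0

theorem gl_tangent_mul {γ γ' : ℝ → G} {φ ψ : GlOps G} (h : N.Tangent γ φ) (h' : N.Tangent γ' ψ) :
    N.Tangent (fun t => γ t * γ' t) (N.ladd φ ψ) := by
  have hC := N.C_pos
  refine gl_tangent_congr N (gl_ladd_spec N φ ψ) ?_
  have h3 : (fun t => N.dist (ψ t) (γ' t) + 2 * N.dist (φ t) (γ t)) =o[𝓝 0] (fun t : ℝ => t) :=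
    h'.add (h.const_mul_left 2)
  refine gl_isLittleO_of_le h3 ?_
  -- smallness near `0`
  have hid : Tendsto (fun t : ℝ => |t|) (𝓝 0) (𝓝 0) := by
    simpa using (continuous_abs.tendsto (0 : ℝ))
  have hpos : 0 < 1 / (2 * N.C) := by positivity
  have hsm : ∀ᶠ t : ℝ in 𝓝 0, |t| < 1 / (2 * N.C) := hid.eventually (gt_mem_nhds hpos)
  have hψ0 : Tendsto (fun t : ℝ => N.nrm (ψ t)) (𝓝 0) (𝓝 0) := by
    have h1 : Continuous fun s : ℝ => N.nrm (ψ s) := N.continuous_nrm.comp ψ.continuous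
    simpa [ψ.map_zero, N.nrm_one] using h1.tendsto 0
  have hψsm : ∀ᶠ t : ℝ in 𝓝 0, N.nrm (ψ t) < 1 / (2 * N.C) := hψ0.eventually (gt_mem_nhds hpos)
  have hd := (isLittleO_iff.mp h) one_pos
  have hd' := (isLittleO_iff.mp h') one_pos
  filter_upwards [hsm, hψsm, hd, hd'] with t h1 h2 h4 h5
  rw [Real.norm_eq_abs, Real.norm_eq_abs, abs_of_nonneg (N.dist_nonneg _ _), one_mul] at h4 h5
  have h2C : 1 / (2 * N.C) + 1 / (2 * N.C) = 1 / N.C := by field_simp; ring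
  rw [abs_of_nonneg (N.dist_nonneg _ _),
    abs_of_nonneg (add_nonneg (N.dist_nonneg _ _) (mul_nonneg zero_le_two (N.dist_nonneg _ _)))]
  have h6 : N.nrm (γ' t) ≤ 1 / N.C := by
    have := N.nrm_le_nrm_add_dist (ψ t) (γ' t)
    linarith
  have h7 : N.dist (φ t) (γ t) ≤ 1 / N.C := by linarith
  have h8 := N.dist_mul_right_le_two h7 h6
  have h9 := N.dist_triangle (φ t * ψ t) (φ t * γ' t) (γ t * γ' t)
  rw [N.dist_mul_left] at h9
  linarith

/-! ### (S4) the vector space axioms -/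

theorem gl_ladd_comm (φ ψ : GlOps G) : N.ladd φ ψ = N.ladd ψ φ := by
  have hC := N.C_pos
  apply gl_ladd_eq
  refine gl_tangent_congr N (gl_ladd_spec N ψ φ) ?_
  have hLφ := gl_lnorm_nonneg N φ
  have hLψ := gl_lnorm_nonneg N ψ
  have hδ : 0 < 1 / N.C / (N.lnorm φ + N.lnorm ψ + 1) := by positivity
  refine gl_isLittleO_of_sq (A := N.C * N.lnorm ψ * N.lnorm φ) hδ ?_
  intro t ht
  have h1 : (N.lnorm φ + N.lnorm ψ + 1) * |t| ≤ 1 / N.C := by
    have := mul_le_mul_of_nonneg_left ht (by positivity : 0 ≤ N.lnorm φ + N.lnorm ψ + 1)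
    rwa [mul_div_cancel₀ _ (by positivity : N.lnorm φ + N.lnorm ψ + 1 ≠ 0)] at this
  have h0 := abs_nonneg t
  have h2 := gl_nrm_le_lnorm N φ t
  have h3 := gl_nrm_le_lnorm N ψ t
  have h4 : N.nrm (φ t) ≤ 1 / N.C := by nlinarith
  have h5 : N.nrm (ψ t) ≤ 1 / N.C := by nlinarith
  rw [abs_of_nonneg (N.dist_nonneg _ _)]
  refine (N.dist_mul_comm_le h5 h4).trans ?_
  calc N.C * N.nrm (ψ t) * N.nrm (φ t) ≤ N.C * (N.lnorm ψ * |t|) * (N.lnorm φ * |t|) := by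
        apply mul_le_mul (mul_le_mul_of_nonneg_left h3 hC.le) h2 (N.nrm_nonneg _) (by positivity)
    _ = N.C * N.lnorm ψ * N.lnorm φ * t ^ 2 := by
        rw [← sq_abs t]; ring

theorem gl_ladd_assoc (φ ψ χ : GlOps G) : N.ladd (N.ladd φ ψ) χ = N.ladd φ (N.ladd ψ χ) := by
  have h1 := gl_tangent_mul N (gl_ladd_spec N φ ψ) (gl_tangent_self N χ)
  have h2 := gl_tangent_mul N (gl_tangent_self N φ) (gl_ladd_spec N ψ χ)
  simp only [mul_assoc] at h1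
  exact gl_tangent_unique N h1 h2

theorem gl_zero_ladd (φ : GlOps G) : N.ladd GlOps.zero φ = φ := by
  apply gl_ladd_eq
  simp only [GlOps.zero_apply, one_mul]
  exact gl_tangent_self N φ

theorem gl_neg_ladd (φ : GlOps G) : N.ladd (GlOps.smul (-1) φ) φ = GlOps.zero := by
  apply gl_ladd_eq
  have : (fun t => GlOps.smul (-1) φ t * φ t) = fun t => (GlOps.zero : GlOps G) t := by
    funext t
    rw [GlOps.smul_apply, GlOps.zero_apply, neg_one_mul, φ.map_neg, inv_mul_cancel]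
  rw [this]
  exact gl_tangent_self N _

theorem gl_smul_ladd (s : ℝ) (φ ψ : GlOps G) :
    GlOps.smul s (N.ladd φ ψ) = N.ladd (GlOps.smul s φ) (GlOps.smul s ψ) := by
  symm
  apply gl_ladd_eq
  exact gl_tangent_comp_mul N (gl_ladd_spec N φ ψ) s

theorem gl_add_smul (s s' : ℝ) (φ : GlOps G) :
    GlOps.smul (s + s') φ = N.ladd (GlOps.smul s φ) (GlOps.smul s' φ) := by
  symm
  apply gl_ladd_eq
  have : (fun t => GlOps.smul s φ t * GlOps.smul s' φ t) = fun t => GlOps.smul (s + s') φ t := by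
    funext t
    rw [GlOps.smul_apply, GlOps.smul_apply, GlOps.smul_apply, ← φ.map_add, add_mul]
  rw [this]
  exact gl_tangent_self N _

end

theorem gl_mul_smul (s s' : ℝ) (φ : GlOps G) :
    GlOps.smul (s * s') φ = GlOps.smul s (GlOps.smul s' φ) := by
  apply GlOps.ext'
  intro t
  rw [GlOps.smul_apply, GlOps.smul_apply, GlOps.smul_apply]
  congr 1
  ring

theorem gl_one_smul (φ : GlOps G) : GlOps.smul 1 φ = φ := by
  apply GlOps.ext'
  intro t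
  rw [GlOps.smul_apply, one_mul]

theorem gl_zero_smul (φ : GlOps G) : GlOps.smul 0 φ = GlOps.zero := by
  apply GlOps.ext'
  intro t
  rw [GlOps.smul_apply, zero_mul, φ.map_zero, GlOps.zero_apply]

theorem gl_smul_zero (s : ℝ) : GlOps.smul s (GlOps.zero : GlOps G) = GlOps.zero := by
  apply GlOps.ext'
  intro t
  rw [GlOps.smul_apply, GlOps.zero_apply, GlOps.zero_apply]

end Claimed.Agent.R304
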