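/-
Row 304, block A3.  Owner: helper231.  DEFINITIONS (no sorry in this file): the normed space
`GlLie N = L(G)` of one-parameter subgroups of a locally compact group with a Gleason metric `N`,
and the exponential map `N.exp x = x 1`.
-/
import Claimed.Agent.R304.GlSum

set_option autoImplicit false

namespace Claimed.Agent.R304

open Topology Filter

variable {G : Type*} [Group G] [TopologicalSpace G]

/-- `L(G)`: the set of one-parameter subgroups, as a type synonym which remembers the Gleason metric
(used for the norm, and for the proof that sums exist). -/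
def GlLie (_N : GleasonMetric G) : Type _ := GlOps G

variable {N : GleasonMetric G}

/-- the one-parameter subgroup underlying an element of `L(G)` -/
def GlLie.ops (x : GlLie N) : GlOps G := x

/-- a one-parameter subgroup as an element of `L(G)` -/
def GlLie.of (N : GleasonMetric G) (φ : GlOps G) : GlLie N := φ

theorem GlLie.ext' {x y : GlLie N} (h : ∀ t, x.ops t = y.ops t) : x = y := GlOps.ext' h

@[simp] theorem GlLie.ops_of (φ : GlOps G) : (GlLie.of N φ).ops = φ := rfl

@[simp] theorem GlLie.of_ops (x : GlLie N) : GlLie.of N x.ops = x := rfl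

noncomputable instance glLieAdd : Add (GlLie N) := ⟨fun x y => N.ladd x y⟩

instance glLieZero : Zero (GlLie N) := ⟨(GlOps.zero : GlOps G)⟩

instance glLieNeg : Neg (GlLie N) := ⟨fun x => GlOps.smul (-1) x⟩

instance glLieSMul : SMul ℝ (GlLie N) := ⟨fun s x => GlOps.smul s x⟩

/-- the exponential map `L(G) → G`, `x ↦ x(1)` -/
def GleasonMetric.exp (N : GleasonMetric G) (x : GlLie N) : G := x.ops 1

theorem gl_exp_def (x : GlLie N) : N.exp x = x.ops 1 := rfl

theorem GlLie.ops_add (x y : GlLie N) : (x + y).ops = N.ladd x.ops y.ops := rfl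

theorem GlLie.ops_zero : (0 : GlLie N).ops = GlOps.zero := rfl

theorem GlLie.ops_neg (x : GlLie N) : (-x).ops = GlOps.smul (-1) x.ops := rfl

theorem GlLie.ops_smul (s : ℝ) (x : GlLie N) : (s • x).ops = GlOps.smul s x.ops := rfl

@[simp] theorem GlLie.zero_apply (t : ℝ) : (0 : GlLie N).ops t = 1 := rfl

@[simp] theorem GlLie.smul_apply (s : ℝ) (x : GlLie N) (t : ℝ) : (s • x).ops t = x.ops (s * t) := rfl

theorem GlLie.neg_apply (x : GlLie N) (t : ℝ) : (-x).ops t = (x.ops t)⁻¹ := by
  rw [GlLie.ops_neg, GlOps.smul_apply, neg_one_mul, GlOps.map_neg]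

theorem gl_exp_smul (t : ℝ) (x : GlLie N) : N.exp (t • x) = x.ops t := by
  rw [gl_exp_def, GlLie.smul_apply, mul_one]

variable [IsTopologicalGroup G] [LocallyCompactSpace G]

noncomputable instance glLieAddCommGroup : AddCommGroup (GlLie N) :=
  { AddGroup.ofLeftAxioms (G := GlLie N) (gl_ladd_assoc N) (gl_zero_ladd N) (gl_neg_ladd N) with
    add_comm := gl_ladd_comm N }

noncomputable instance glLieModule : Module ℝ (GlLie N) where
  one_smul := gl_one_smul
  mul_smul := gl_mul_smul
  smul_zero := gl_smul_zero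
  smul_add := gl_smul_ladd N
  add_smul := gl_add_smul N
  zero_smul := gl_zero_smul

/-- the norm of `L(G)` as a group norm -/
noncomputable def glLieGroupNorm (N : GleasonMetric G) : AddGroupNorm (GlLie N) where
  toFun x := N.lnorm x.ops
  map_zero' := gl_lnorm_zero N
  add_le' x y := gl_lnorm_ladd_le N x y
  neg' x := by
    show N.lnorm (GlOps.smul (-1) x.ops) = N.lnorm x.ops
    rw [gl_lnorm_smul, abs_neg, abs_one, one_mul]
  eq_zero_of_map_eq_zero' _ h := gl_eq_zero_of_lnorm N h

noncomputable instance glLieNormedAddCommGroup : NormedAddCommGroup (GlLie N) :=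
  (glLieGroupNorm N).toNormedAddCommGroup

theorem GlLie.norm_def (x : GlLie N) : ‖x‖ = N.lnorm x.ops := rfl

noncomputable instance glLieNormedSpace : NormedSpace ℝ (GlLie N) where
  norm_smul_le s x := by
    rw [GlLie.norm_def, GlLie.norm_def, GlLie.ops_smul, gl_lnorm_smul, Real.norm_eq_abs]

/-- realises the equation lemmas here (unique names) -/
theorem gl_spaceDefs_eqns_cite : True := by
  have := @GlLie.eq_1.{0}
  have := @GlLie.ops.eq_1.{0}
  have := @GlLie.of.eq_1.{0}
  have := @glLieAdd.eq_1.{0}
  have := @glLieZero.eq_1.{0}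
  have := @glLieNeg.eq_1.{0}
  have := @glLieSMul.eq_1.{0}
  have := @glLieAddCommGroup.eq_1.{0}
  have := @glLieModule.eq_1.{0}
  have := @glLieGroupNorm.eq_1.{0}
  have := @glLieNormedAddCommGroup.eq_1.{0}
  have := @glLieNormedSpace.eq_1.{0}
  have := @GleasonMetric.exp.eq_1.{0}
  trivial

end Claimed.Agent.R304
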