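/-
Row 304, block A4.  Owner: helper231.  DEFINITIONS (no sorry in this file): the adjoint action `glAd N g : L(G) →L L(G)`.
-/
import Claimed.Agent.R304.GlConj
import Claimed.Agent.R304.GlSpaceDefs

set_option autoImplicit false

namespace Claimed.Agent.R304

open Topology Filter

variable {G : Type*} [Group G] [TopologicalSpace G] [IsTopologicalGroup G] [LocallyCompactSpace G]

/-- `Ad g` as a linear map of `L(G)`: `(Ad g x)(t) = g x(t) g⁻¹`. -/
noncomputable def glAdLin (N : GleasonMetric G) (g : G) : GlLie N →ₗ[ℝ] GlLie N where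
  toFun x := GlLie.of N (GlOps.conj g x.ops)
  map_add' x y := gl_conj_ladd N g x.ops y.ops
  map_smul' s x := gl_conj_smul g s x.ops

/-- `Ad g` as a continuous linear map of `L(G)`. -/
noncomputable def glAd (N : GleasonMetric G) (g : G) : GlLie N →L[ℝ] GlLie N :=
  (glAdLin N g).mkContinuousOfExistsBound (by
    obtain ⟨K, _, hK⟩ := gl_lnorm_conj_le N g
    exact ⟨K, fun x => hK x.ops⟩)

theorem gl_Ad_ops (N : GleasonMetric G) (g : G) (x : GlLie N) :
    (glAd N g x).ops = GlOps.conj g x.ops := rfl

theorem gl_Ad_apply (N : GleasonMetric G) (g : G) (x : GlLie N) (t : ℝ) :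
    (glAd N g x).ops t = g * x.ops t * g⁻¹ := rfl

theorem gl_exp_Ad (N : GleasonMetric G) (g : G) (x : GlLie N) :
    N.exp (glAd N g x) = g * N.exp x * g⁻¹ := rfl

/-- `ad x`, raw form: the derivative at `t = 0` of `t ↦ Ad (exp (t x))`. -/
noncomputable def gladFun (N : GleasonMetric G) (x : GlLie N) : GlLie N →L[ℝ] GlLie N :=
  deriv (fun t : ℝ => glAd N (N.exp (t • x))) 0

/-- realises the equation lemmas here (unique names) -/
theorem gl_adDefs_eqns_cite : True := by
  have := @glAdLin.eq_1.{0}
  have := @glAd.eq_1.{0}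
  have := @gladFun.eq_1.{0}
  trivial

end Claimed.Agent.R304
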