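/-
Row 304, block A4.  Owner: helper231.  PACKAGE gl9 (est. 500 lines).   `Ad : G → GL(L(G))` is a continuous homomorphism, Lipschitz at `1`.

(A1) `gl_Ad_one`, `gl_Ad_mul`: `ContinuousLinearMap.ext`, `GlLie.ext'`, `gl_Ad_apply`, group algebra.
(A2) `gl_Ad_sub_one_le`.  Constants `(ε₃,K₃)` from `gl_exp_bilipschitz`.  Let `‖g‖ ≤ ε := 1/C`.  For `x` with `‖x‖ ≤ min(ε₃/2, 1/C)`:
  `‖Ad g x‖ ≤ 2‖x‖ ≤ ε₃` (`gl_lnorm_conj_le_small`), so
  `‖Ad g x - x‖ ≤ K₃ d(exp (Ad g x), exp x) = K₃ d(g exp x g⁻¹, exp x) ≤ K₃ C ‖exp x‖ ‖g‖ ≤ K₃ C ‖x‖‖g‖` (`dist_conj_le`, `dist_comm`, `gl_nrm_exp_le`).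
  By homogeneity this holds for all `x` (apply it to `s • x`, `s` small); `ContinuousLinearMap.opNorm_le_bound`.   `K = K₃ C`.
(A3) `gl_continuous_Ad`: `Ad h - Ad g = Ad g (Ad (g⁻¹h) - 1)`, `‖g⁻¹ h‖ = d(g,h) → 0` as `h → g` (`tendsto_nhds_iff`).
-/
import Claimed.Agent.R304.GlAdDefs
import Claimed.Agent.R304.GlFin

set_option autoImplicit false
set_option linter.unusedSectionVars false

namespace Claimed.Agent.R304

open Topology Filter

variable {G : Type*} [Group G] [TopologicalSpace G] [IsTopologicalGroup G] [LocallyCompactSpace G]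
  (N : GleasonMetric G)

theorem gl_Ad_one : glAd N 1 = 1 := by
  apply ContinuousLinearMap.ext
  intro x
  apply GlLie.ext'
  intro t
  rw [gl_Ad_apply]
  simp

theorem gl_Ad_mul (g h : G) : glAd N (g * h) = glAd N g * glAd N h := by
  apply ContinuousLinearMap.ext
  intro x
  apply GlLie.ext'
  intro t
  rw [mul_apply_eq_comp, gl_Ad_apply, gl_Ad_apply, gl_Ad_apply]
  group

theorem gl_Ad_sub_one_le : ∃ ε : ℝ, 0 < ε ∧ ∃ K : ℝ, 0 ≤ K ∧ ∀ g : G, N.nrm g ≤ ε →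
    ‖glAd N g - 1‖ ≤ K * N.nrm g := by
  obtain ⟨ε₃, hε₃, K₃, hK₃, hbl⟩ := gl_exp_bilipschitz N
  have hC := N.C_pos
  refine ⟨1 / N.C, by positivity, K₃ * N.C, by positivity, fun g hg => ?_⟩
  have hg0 := N.nrm_nonneg g
  -- small `x`
  have hsmall : ∀ x : GlLie N, ‖x‖ ≤ min (ε₃ / 2) (1 / N.C) →
      ‖glAd N g x - x‖ ≤ K₃ * N.C * N.nrm g * ‖x‖ := by
    intro x hx
    have hx1 : ‖x‖ ≤ ε₃ / 2 := hx.trans (min_le_left _ _)
    have hx2 : ‖x‖ ≤ 1 / N.C := hx.trans (min_le_right _ _)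
    have h1 : ‖glAd N g x‖ ≤ (1 + N.C * N.nrm g) * ‖x‖ := gl_lnorm_conj_le_small N hg x.ops
    have h2 : N.C * N.nrm g ≤ 1 := by
      have := mul_le_mul_of_nonneg_left hg hC.le
      rwa [mul_one_div_cancel hC.ne'] at this
    have h3 : ‖glAd N g x‖ ≤ ε₃ := by
      have : (1 + N.C * N.nrm g) * ‖x‖ ≤ 2 * ‖x‖ :=
        mul_le_mul_of_nonneg_right (by linarith) (norm_nonneg _)
      linarith
    have h4 := (hbl (glAd N g x) x h3 (by linarith)).2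
    rw [gl_exp_Ad, N.dist_comm] at h4
    have h5 := N.dist_conj_le (g := N.exp x) (h := g) ((gl_nrm_exp_le N x).trans hx2) hg
    have h6 : N.C * N.nrm (N.exp x) * N.nrm g ≤ N.C * ‖x‖ * N.nrm g :=
      mul_le_mul_of_nonneg_right (mul_le_mul_of_nonneg_left (gl_nrm_exp_le N x) hC.le) hg0
    calc ‖glAd N g x - x‖ ≤ K₃ * N.dist (N.exp x) (g * N.exp x * g⁻¹) := h4
      _ ≤ K₃ * (N.C * ‖x‖ * N.nrm g) := mul_le_mul_of_nonneg_left (h5.trans h6) hK₃.le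
      _ = K₃ * N.C * N.nrm g * ‖x‖ := by ring
  apply ContinuousLinearMap.opNorm_le_bound _ (by positivity)
  intro x
  rw [sub_apply, one_apply_eq_self]
  rcases eq_or_ne x 0 with rfl | hx0
  · simp
  have hxn : 0 < ‖x‖ := norm_pos_iff.2 hx0
  set m : ℝ := min (ε₃ / 2) (1 / N.C) with hm
  have hm0 : 0 < m := by positivity
  set s : ℝ := m / ‖x‖ with hs
  have hs0 : 0 < s := by positivity
  have h1 := hsmall (s • x) (by
    rw [norm_smul, Real.norm_eq_abs, abs_of_pos hs0, hs, div_mul_cancel₀ _ hxn.ne'])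
  rw [map_smul, ← smul_sub, norm_smul, norm_smul, Real.norm_eq_abs, abs_of_pos hs0] at h1
  have h2 : s * ‖glAd N g x - x‖ ≤ s * (K₃ * N.C * N.nrm g * ‖x‖) := by
    calc s * ‖glAd N g x - x‖ ≤ K₃ * N.C * N.nrm g * (s * ‖x‖) := h1
      _ = s * (K₃ * N.C * N.nrm g * ‖x‖) := by ring
  exact le_of_mul_le_mul_left h2 hs0

theorem gl_continuous_Ad : Continuous (glAd N) := by
  obtain ⟨ε, hε, K, hK, h⟩ := gl_Ad_sub_one_le N
  rw [continuous_iff_continuousAt]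
  intro g
  rw [ContinuousAt, tendsto_iff_norm_sub_tendsto_zero]
  have h0 : Tendsto (fun h => N.dist g h) (𝓝 g) (𝓝 0) := (N.tendsto_nhds_iff).1 tendsto_id
  have h1 : Tendsto (fun h => ‖glAd N g‖ * (K * N.dist g h)) (𝓝 g) (𝓝 0) := by
    simpa using (h0.const_mul K).const_mul ‖glAd N g‖
  refine squeeze_zero' (Eventually.of_forall fun _ => norm_nonneg _) ?_ h1
  filter_upwards [N.ball_mem_nhds g hε] with k hk
  have hk' : N.nrm (g⁻¹ * k) ≤ ε := le_of_lt hk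
  have e1 : glAd N k - glAd N g = glAd N g * (glAd N (g⁻¹ * k) - 1) := by
    rw [mul_sub, ← gl_Ad_mul, mul_one, mul_inv_cancel_left]
  rw [e1]
  calc ‖glAd N g * (glAd N (g⁻¹ * k) - 1)‖ ≤ ‖glAd N g‖ * ‖glAd N (g⁻¹ * k) - 1‖ := norm_mul_le _ _
    _ ≤ ‖glAd N g‖ * (K * N.dist g k) := mul_le_mul_of_nonneg_left (h _ hk') (norm_nonneg _)

end Claimed.Agent.R304
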