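/-
Row 304 (S0559).  Owner: helper138 (statements), helper13 (proofs).  SORRY-FREE.  PACKAGE NmOrb: point set topology of the orbit space `NmOrb g` of a continuous
map `g : N → N` with `g^[p] = id` on a locally compact Hausdorff space.  No cohomology.
-/
import Claimed.Agent.R304.NmDefs

set_option autoImplicit false
set_option linter.unusedSectionVars false

namespace Claimed.Agent.R304

open Topology

variable {N : Type} [TopologicalSpace N] (g : N → N) (p : ℕ)

omit [TopologicalSpace N] in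
theorem nm_iter_mul (hper : ∀ x, g^[p] x = x) (m : ℕ) (x : N) : g^[p * m] x = x := by
  induction m with
  | zero => rfl
  | succ m ih => rw [Nat.mul_succ, Function.iterate_add_apply, hper, ih]

omit [TopologicalSpace N] in
theorem nm_iter_mod (hper : ∀ x, g^[p] x = x) (i : ℕ) (x : N) : g^[i % p] x = g^[i] x := by
  conv_rhs => rw [← Nat.mod_add_div i p]
  rw [Function.iterate_add_apply, nm_iter_mul g p hper]

/-- `g^[i]` is a homeomorphism (inverse `g^[p * i - i]`, or `g^[p - i % p]`). -/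
theorem nm_iter_homeo (hg : Continuous g) (hp : 0 < p) (hper : ∀ x, g^[p] x = x) (i : ℕ) :
    ∃ h : N ≃ₜ N, ∀ x, h x = g^[i] x := by
  have hle : i ≤ p * i := Nat.le_mul_of_pos_left i hp
  refine ⟨{ toFun := g^[i]
            invFun := g^[p * i - i]
            left_inv := fun x => by
              rw [← Function.iterate_add_apply, Nat.sub_add_cancel hle, nm_iter_mul g p hper]
            right_inv := fun x => by
              rw [← Function.iterate_add_apply, Nat.add_sub_cancel' hle, nm_iter_mul g p hper]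
            continuous_toFun := hg.iterate i
            continuous_invFun := hg.iterate _ }, fun _ => rfl⟩

theorem nm_iter_proper (hg : Continuous g) (hp : 0 < p) (hper : ∀ x, g^[p] x = x) (i : ℕ) :
    IsProperMap (g^[i]) := by
  obtain ⟨h, hh⟩ := nm_iter_homeo g p hg hp hper i
  have : g^[i] = h := funext fun x => (hh x).symm
  rw [this]
  exact h.isProperMap

theorem nm_iter_openEmb (hg : Continuous g) (hp : 0 < p) (hper : ∀ x, g^[p] x = x) (i : ℕ) :
    IsOpenEmbedding (g^[i]) := by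
  obtain ⟨h, hh⟩ := nm_iter_homeo g p hg hp hper i
  have : g^[i] = h := funext fun x => (hh x).symm
  rw [this]
  exact h.isOpenEmbedding

theorem nm_orb_mk_eq_iff (hp : 0 < p) (hper : ∀ x, g^[p] x = x) (x y : N) :
    nmOrbMk g x = nmOrbMk g y ↔ ∃ i < p, g^[i] x = y := by
  constructor
  · intro h
    obtain ⟨i, j, hij⟩ : (nmOrbRel g).r x y := Quotient.exact h
    have hle : j ≤ p * j := Nat.le_mul_of_pos_left j hp
    refine ⟨(p * j - j + i) % p, Nat.mod_lt _ hp, ?_⟩
    rw [nm_iter_mod g p hper, Function.iterate_add_apply, hij, ← Function.iterate_add_apply,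
      Nat.sub_add_cancel hle, nm_iter_mul g p hper]
  · rintro ⟨i, _, rfl⟩
    exact Quotient.sound (s := nmOrbRel g) (⟨i, 0, rfl⟩ : (nmOrbRel g).r x (g^[i] x))

theorem nm_orb_mk_surj : Function.Surjective (nmOrbMk g) := Quotient.mk_surjective

theorem nm_orb_mk_cont : Continuous (nmOrbMk g) := continuous_quotient_mk'

theorem nm_orb_mk_g (x : N) : nmOrbMk g (g x) = nmOrbMk g x :=
  Quotient.sound (s := nmOrbRel g) (⟨0, 1, rfl⟩ : (nmOrbRel g).r (g x) x)

omit [TopologicalSpace N] in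
theorem nm_orb_mk_iter (i : ℕ) (x : N) : nmOrbMk g (g^[i] x) = nmOrbMk g x :=
  Quotient.sound (s := nmOrbRel g) (⟨0, i, rfl⟩ : (nmOrbRel g).r (g^[i] x) x)

/-- saturation formula -/
theorem nm_orb_preimage_image (hp : 0 < p) (hper : ∀ x, g^[p] x = x) (V : Set N) :
    nmOrbMk g ⁻¹' (nmOrbMk g '' V) = ⋃ i : Fin p, g^[(i : ℕ)] '' V := by
  ext x
  simp only [Set.mem_preimage, Set.mem_image, Set.mem_iUnion]
  constructor
  · rintro ⟨v, hv, hvx⟩
    obtain ⟨i, hi, rfl⟩ := (nm_orb_mk_eq_iff g p hp hper v x).1 hvx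
    exact ⟨⟨i, hi⟩, v, hv, rfl⟩
  · rintro ⟨i, v, hv, rfl⟩
    exact ⟨v, hv, (nm_orb_mk_iter g i v).symm⟩

theorem nm_orb_mk_quot : IsQuotientMap (nmOrbMk g) := isQuotientMap_quotient_mk'

theorem nm_orb_mk_open (hg : Continuous g) (hp : 0 < p) (hper : ∀ x, g^[p] x = x) :
    IsOpenMap (nmOrbMk g) := by
  intro V hV
  rw [← (nm_orb_mk_quot g).isOpen_preimage, nm_orb_preimage_image g p hp hper]
  exact isOpen_iUnion fun i => (nm_iter_openEmb g p hg hp hper i).isOpenMap _ hV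

theorem nm_orb_mk_closed (hg : Continuous g) (hp : 0 < p) (hper : ∀ x, g^[p] x = x) :
    IsClosedMap (nmOrbMk g) := by
  intro V hV
  rw [← (nm_orb_mk_quot g).isClosed_preimage, nm_orb_preimage_image g p hp hper]
  exact isClosed_iUnion_of_finite fun i => (nm_iter_proper g p hg hp hper i).isClosedMap _ hV

theorem nm_orb_mk_proper (hg : Continuous g) (hp : 0 < p) (hper : ∀ x, g^[p] x = x) :
    IsProperMap (nmOrbMk g) := by
  rw [isProperMap_iff_isClosedMap_and_compact_fibers]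
  refine ⟨nm_orb_mk_cont g, nm_orb_mk_closed g p hg hp hper, fun y => ?_⟩
  obtain ⟨x, rfl⟩ := nm_orb_mk_surj g y
  have : nmOrbMk g ⁻¹' {nmOrbMk g x} = ⋃ i : Fin p, g^[(i : ℕ)] '' {x} := by
    rw [← nm_orb_preimage_image g p hp hper, Set.image_singleton]
  rw [this]
  exact isCompact_iUnion fun i => (isCompact_singleton.image (hg.iterate i))

theorem nm_orb_t2 [T2Space N] (hg : Continuous g) (hp : 0 < p) (hper : ∀ x, g^[p] x = x) :
    T2Space (NmOrb g) := by
  refine ⟨fun y y' hne => ?_⟩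
  obtain ⟨z, rfl⟩ := nm_orb_mk_surj g y
  obtain ⟨z', rfl⟩ := nm_orb_mk_surj g y'
  have hsep : ∀ c : Fin p, ∃ U V : Set N, IsOpen U ∧ IsOpen V ∧ g^[(c : ℕ)] z ∈ U ∧ z' ∈ V ∧ Disjoint U V := by
    intro c
    apply t2_separation
    intro h
    exact hne ((nm_orb_mk_eq_iff g p hp hper z z').2 ⟨c, c.2, h⟩)
  choose U V hU hV hzU hzV hdis using hsep
  refine ⟨nmOrbMk g '' (⋂ c : Fin p, g^[(c : ℕ)] ⁻¹' U c), nmOrbMk g '' (⋂ c, V c), ?_, ?_, ?_, ?_, ?_⟩
  · exact nm_orb_mk_open g p hg hp hper _ (isOpen_iInter_of_finite fun c => (hU c).preimage (hg.iterate c))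
  · exact nm_orb_mk_open g p hg hp hper _ (isOpen_iInter_of_finite hV)
  · exact ⟨z, Set.mem_iInter.2 hzU, rfl⟩
  · exact ⟨z', Set.mem_iInter.2 hzV, rfl⟩
  · rw [Set.disjoint_left]
    rintro _ ⟨u, hu, rfl⟩ ⟨v, hv, hvu⟩
    obtain ⟨c, hc, rfl⟩ := (nm_orb_mk_eq_iff g p hp hper u v).1 hvu.symm
    exact Set.disjoint_left.1 (hdis ⟨c, hc⟩) (Set.mem_iInter.1 hu ⟨c, hc⟩) (Set.mem_iInter.1 hv ⟨c, hc⟩)

theorem nm_orb_lc [LocallyCompactSpace N] (hg : Continuous g) (hp : 0 < p)
    (hper : ∀ x, g^[p] x = x) : LocallyCompactSpace (NmOrb g) := by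
  refine ⟨fun y n hn => ?_⟩
  obtain ⟨x, rfl⟩ := nm_orb_mk_surj g y
  have hpre : nmOrbMk g ⁻¹' n ∈ 𝓝 x := (nm_orb_mk_cont g).continuousAt hn
  obtain ⟨K, hK, hKn, hKc⟩ := LocallyCompactSpace.local_compact_nhds x _ hpre
  refine ⟨nmOrbMk g '' K, (nm_orb_mk_open g p hg hp hper).image_mem_nhds hK, ?_, hKc.image (nm_orb_mk_cont g)⟩
  rintro _ ⟨k, hk, rfl⟩
  exact hKn hk

theorem nm_orb_lift_mk {T : Type} (f : N → T) (hf : ∀ x, f (g x) = f x) (x : N) :
    nmOrbLift g f hf (nmOrbMk g x) = f x := rfl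

theorem nm_orb_lift_cont {T : Type} [TopologicalSpace T] (f : N → T) (hf : ∀ x, f (g x) = f x)
    (hc : Continuous f) : Continuous (nmOrbLift g f hf) :=
  (nm_orb_mk_quot g).continuous_iff.2 hc

theorem nm_orb_lift_proper {T : Type} [TopologicalSpace T] (f : N → T) (hf : ∀ x, f (g x) = f x)
    (hc : IsProperMap f) : IsProperMap (nmOrbLift g f hf) :=
  isProperMap_of_comp_of_surj (nm_orb_mk_cont g) (nm_orb_lift_cont g f hf hc.continuous) hc (nm_orb_mk_surj g)

/-- for `p` prime a point that is not fixed has `p` distinct translates -/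
theorem nm_orbit_inj (hp : p.Prime) (hper : ∀ x, g^[p] x = x) (x : N) (hx : g x ≠ x) :
    ∀ i < p, ∀ j < p, g^[i] x = g^[j] x → i = j := by
  have hdvd : Function.minimalPeriod g x ∣ p :=
    Function.IsPeriodicPt.minimalPeriod_dvd (hper x : Function.IsPeriodicPt g p x)
  have hmp : Function.minimalPeriod g x = p := by
    rcases (Nat.dvd_prime hp).1 hdvd with h | h
    · exact absurd (Function.minimalPeriod_eq_one_iff_isFixedPt.1 h) hx
    · exact h
  intro i hi j hj hij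
  have := Function.iterate_injOn_Iio_minimalPeriod (f := g) (x := x)
  rw [hmp] at this
  exact this hi hj hij

theorem nm_wander_exists [T2Space N] (hg : Continuous g) (hp : p.Prime) (hper : ∀ x, g^[p] x = x)
    (x : N) (hx : g x ≠ x) : ∃ V : Set N, IsOpen V ∧ x ∈ V ∧ NmWander g p V := by
  have hfin : (Set.range fun i : Fin p => g^[(i : ℕ)] x).Finite := Set.finite_range _
  obtain ⟨U, hU, hdis⟩ := hfin.t2_separation
  refine ⟨⋂ i : Fin p, g^[(i : ℕ)] ⁻¹' U (g^[(i : ℕ)] x), ?_, ?_, ?_⟩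
  · exact isOpen_iInter_of_finite fun i => (hU _).2.preimage (hg.iterate i)
  · exact Set.mem_iInter.2 fun i => (hU _).1
  · intro i hi j hj hij
    have hne : g^[i] x ≠ g^[j] x := fun h => hij (nm_orbit_inj g p hp hper x hx i hi j hj h)
    refine (hdis ⟨⟨i, hi⟩, rfl⟩ ⟨⟨j, hj⟩, rfl⟩ hne).mono ?_ ?_
    · rintro _ ⟨v, hv, rfl⟩
      exact Set.mem_iInter.1 hv ⟨i, hi⟩
    · rintro _ ⟨v, hv, rfl⟩
      exact Set.mem_iInter.1 hv ⟨j, hj⟩

theorem nm_wander_openEmb (hg : Continuous g) (hp : 0 < p) (hper : ∀ x, g^[p] x = x) (V : Set N)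
    (hV : IsOpen V) (hw : NmWander g p V) : IsOpenEmbedding (fun v : V => nmOrbMk g v.1) := by
  apply IsOpenEmbedding.of_continuous_injective_isOpenMap
  · exact (nm_orb_mk_cont g).comp continuous_subtype_val
  · intro v v' h
    obtain ⟨i, hi, hiv⟩ := (nm_orb_mk_eq_iff g p hp hper v.1 v'.1).1 h
    rcases Nat.eq_zero_or_pos i with rfl | hpos
    · exact Subtype.ext hiv
    · exact absurd (⟨v'.1, v'.2, rfl⟩ : v'.1 ∈ g^[0] '' V)
        (Set.disjoint_left.1 (hw i hi 0 hp hpos.ne') ⟨v.1, v.2, hiv⟩)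
  · exact (nm_orb_mk_open g p hg hp hper).comp hV.isOpenEmbedding_subtypeVal.isOpenMap

omit [TopologicalSpace N] in
theorem nm_iter_fix (x : N) (hx : g x = x) (i : ℕ) : g^[i] x = x :=
  Function.iterate_fixed hx i

theorem nm_fix_closedEmb [T2Space N] (hg : Continuous g) (hp : 0 < p) (hper : ∀ x, g^[p] x = x) :
    IsClosedEmbedding (fun v : {x : N | g x = x} => nmOrbMk g v.1) := by
  have hF : IsClosed {x : N | g x = x} := isClosed_eq hg continuous_id
  apply IsClosedEmbedding.of_continuous_injective_isClosedMap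
  · exact (nm_orb_mk_cont g).comp continuous_subtype_val
  · intro v v' h
    obtain ⟨i, _, hiv⟩ := (nm_orb_mk_eq_iff g p hp hper v.1 v'.1).1 h
    rw [nm_iter_fix g v.1 v.2 i] at hiv
    exact Subtype.ext hiv
  · exact (nm_orb_mk_closed g p hg hp hper).comp hF.isClosedEmbedding_subtypeVal.isClosedMap

/-- points of the orbit space outside the image of the fixed point set come from non fixed points -/
theorem nm_fix_range_compl (hp : 0 < p) (hper : ∀ x, g^[p] x = x) (x : N) :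
    nmOrbMk g x ∈ (Set.range (fun v : {x : N | g x = x} => nmOrbMk g v.1))ᶜ ↔ g x ≠ x := by
  constructor
  · intro h hx
    exact h ⟨⟨x, hx⟩, rfl⟩
  · rintro hx ⟨v, hv⟩
    obtain ⟨i, _, hiv⟩ := (nm_orb_mk_eq_iff g p hp hper v.1 x).1 hv
    rw [nm_iter_fix g v.1 v.2 i] at hiv
    exact hx (hiv ▸ v.2)

/-- the orbit space of an invariant o-p-e-n subset.  `g₁` is the restriction of `g` to `N₁`. -/
theorem nm_orb_sub (hg : Continuous g) (hp : 0 < p) (hper : ∀ x, g^[p] x = x) (N₁ : Set N)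
    (hN₁ : IsOpen N₁) (g₁ : N₁ → N₁) (hg₁ : ∀ x, (g₁ x : N) = g x)
    (hl : ∀ x : N₁, nmOrbMk g ((g₁ x : N₁) : N) = nmOrbMk g (x : N)) :
    IsOpenEmbedding (nmOrbLift g₁ (fun x : N₁ => nmOrbMk g (x : N)) hl) ∧
      Set.range (Subtype.val : N₁ → N) =
        nmOrbMk g ⁻¹' Set.range (nmOrbLift g₁ (fun x : N₁ => nmOrbMk g (x : N)) hl) := by
  have hit : ∀ (i : ℕ) (a : N₁), ((g₁^[i] a : N₁) : N) = g^[i] a := by
    intro i
    induction i with
    | zero => intro a; rfl
    | succ i ih =>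
      intro a
      rw [Function.iterate_succ_apply, ih, hg₁, Function.iterate_succ_apply]
  constructor
  · apply IsOpenEmbedding.of_continuous_injective_isOpenMap
    · exact nm_orb_lift_cont g₁ _ hl ((nm_orb_mk_cont g).comp continuous_subtype_val)
    · intro w w' h
      obtain ⟨a, rfl⟩ := nm_orb_mk_surj g₁ w
      obtain ⟨b, rfl⟩ := nm_orb_mk_surj g₁ w'
      have h' : nmOrbMk g (a : N) = nmOrbMk g (b : N) := h
      obtain ⟨i, _, hi⟩ := (nm_orb_mk_eq_iff g p hp hper _ _).1 h'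
      have : g₁^[i] a = b := Subtype.ext (by rw [hit, hi])
      rw [← this, nm_orb_mk_iter]
    · intro W hW
      have e : nmOrbLift g₁ (fun x : N₁ => nmOrbMk g (x : N)) hl '' W =
          nmOrbMk g '' (Subtype.val '' (nmOrbMk g₁ ⁻¹' W)) := by
        ext y
        constructor
        · rintro ⟨w, hw, rfl⟩
          obtain ⟨a, rfl⟩ := nm_orb_mk_surj g₁ w
          exact ⟨a, ⟨a, hw, rfl⟩, rfl⟩
        · rintro ⟨_, ⟨a, ha, rfl⟩, rfl⟩
          exact ⟨_, ha, rfl⟩
      rw [e]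
      exact nm_orb_mk_open g p hg hp hper _
        (hN₁.isOpenEmbedding_subtypeVal.isOpenMap _ (hW.preimage (nm_orb_mk_cont g₁)))
  · rw [Subtype.range_coe]
    ext x
    constructor
    · intro hx
      exact ⟨nmOrbMk g₁ ⟨x, hx⟩, rfl⟩
    · rintro ⟨w, hw⟩
      obtain ⟨a, rfl⟩ := nm_orb_mk_surj g₁ w
      have h' : nmOrbMk g (a : N) = nmOrbMk g x := hw
      obtain ⟨i, _, hi⟩ := (nm_orb_mk_eq_iff g p hp hper _ _).1 h'
      rw [← hi, ← hit]
      exact (g₁^[i] a).2

end Claimed.Agent.R304
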