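/-
Row 304 (S0559).  Owner: helper138 (statements), helper13 (proofs).  SORRY-FREE.  PACKAGE NmCore: the cohomological heart of both Newman theorems.

SETTING.  `p` prime, `k` a field of characteristic `p`, `C : NmCoh k`; `N` a connected space homeomorphic to an o-p-e-n subset of
`ℝ^n`; `g : N → N` continuous, `g^[p] = id`, `g ≠ id`.  `q = nmOrbMk g : N → Y = NmOrb g`, `F = Fix g`.
  (K1) `H^n(F) = 0`.     (K2) `q^* ∘ ext = 0` on wandering charts.     (K3) `q^* = 0` on `H^n(Y)`.
  (K4, EXPORT) every `g`-invariant proper map `f : N₁ → T` from an invariant o-p-e-n `N₁ ⊆ N` induces `0 : H^n(T) → H^n(N₁) → H^n(N)`.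
-/
import Claimed.Agent.R304.NmEuclid
import Claimed.Agent.R304.NmOrb

set_option autoImplicit false

namespace Claimed.Agent.R304

open Topology

variable {k : Type} [Field k] (C : NmCoh k)

theorem nm_closed_vanish {n : ℕ} {N : Type} [TopologicalSpace N] [ConnectedSpace N]
    (hN : NmEucl n N) (F : Set N) (hF : IsClosed F) (hne : F ≠ Set.univ) (u : C.H n F) : u = 0 := by
  have := nm_eucl_t2 hN
  have := nm_eucl_lc hN
  have hU : IsOpen Fᶜ := hF.isOpen_compl
  have := hU.locallyCompactSpace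
  have := hF.locallyCompactSpace
  have hUE : NmEucl n (Fᶜ : Set N) := nm_eucl_of_emb hN _ hU.isOpenEmbedding_subtypeVal
  have : Nonempty (Fᶜ : Set N) := by
    obtain ⟨x, hx⟩ := (Set.ne_univ_iff_exists_notMem F).1 hne
    exact ⟨⟨x, hx⟩⟩
  have hr : Set.range (Subtype.val : (Fᶜ : Set N) → N) = (Set.range (Subtype.val : F → N))ᶜ := by
    rw [Subtype.range_coe, Subtype.range_coe]
  obtain ⟨v, rfl⟩ := C.restr_surj n (Subtype.val : (Fᶜ : Set N) → N) (Subtype.val : F → N)
    hU.isOpenEmbedding_subtypeVal hF.isClosedEmbedding_subtypeVal hr (nm_vanish C hUE (n + 1) (by omega)) u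
  obtain ⟨w, rfl⟩ := nm_top_surj C hN (Subtype.val : (Fᶜ : Set N) → N) hU.isOpenEmbedding_subtypeVal v
  apply nm_pull_ext_disjoint
  rw [hr]
  exact disjoint_compl_left

/-- base change of a proper map -/
theorem nm_proper_restrictPreimage {X Y : Type} [TopologicalSpace X] [TopologicalSpace Y] (f : X → Y)
    (hf : IsProperMap f) (s : Set Y) : IsProperMap (s.restrictPreimage f) := by
  rw [isProperMap_iff_isClosedMap_and_compact_fibers]
  refine ⟨hf.continuous.restrictPreimage, hf.isClosedMap.restrictPreimage s, fun y => ?_⟩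
  have e : s.restrictPreimage f ⁻¹' {y} = Subtype.val ⁻¹' (f ⁻¹' {y.1}) := by
    ext x
    simp only [Set.mem_preimage, Set.mem_singleton_iff]
    exact Subtype.ext_iff
  rw [e]
  apply (IsInducing.subtypeVal.isCompact_preimage_iff _).2 (hf.isCompact_preimage isCompact_singleton)
  rw [Subtype.range_coe]
  intro x hx
  have hx' : f x = y.1 := hx
  show f x ∈ s
  rw [hx']
  exact y.2

/-- a map of period `p` acts trivially by extension on the top group -/
theorem nm_ext_period {n : ℕ} {N : Type} [TopologicalSpace N] [ConnectedSpace N]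
    (hN : NmEucl n N) (p : ℕ) [Fact p.Prime] [CharP k p] (g : N → N) (hg : IsProperMap g)
    (ho : IsOpenEmbedding g) (hper : ∀ x, g^[p] x = x) (u : C.H n N) : C.ext n g ho u = u := by
  have := nm_eucl_t2 hN
  have := nm_eucl_lc hN
  rw [← nm_pull_period C hN p g hg hper (C.ext n g ho u), nm_pull_ext_self]

theorem nm_wander_kill {n : ℕ} {N : Type} [TopologicalSpace N] [ConnectedSpace N]
    (hN : NmEucl n N) (p : ℕ) [Fact p.Prime] [CharP k p] (g : N → N) (hg : Continuous g)
    (hper : ∀ x, g^[p] x = x) (V : Set N) (hV : IsOpen V) (hw : NmWander g p V)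
    (hc : IsOpenEmbedding (fun v : V => nmOrbMk g v.1)) (hq : IsProperMap (nmOrbMk g))
    (w : C.H n V) :
    C.pull n (nmOrbMk g) hq (C.ext n (fun v : V => nmOrbMk g v.1) hc w) = 0 := by
  have hp : 0 < p := (Fact.out : p.Prime).pos
  have := nm_eucl_t2 hN
  have := nm_eucl_lc hN
  have := nm_orb_t2 g p hg hp hper
  have := nm_orb_lc g p hg hp hper
  have := hV.locallyCompactSpace
  set R : Set (NmOrb g) := Set.range (fun v : V => nmOrbMk g v.1) with hR
  have hRo : IsOpen R := hc.isOpen_range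
  have hVt : IsOpen (nmOrbMk g ⁻¹' R) := hRo.preimage (nm_orb_mk_cont g)
  have := hVt.locallyCompactSpace
  have hRimg : R = nmOrbMk g '' V := by
    ext y
    constructor
    · rintro ⟨v, rfl⟩
      exact ⟨v.1, v.2, rfl⟩
    · rintro ⟨v, hv, rfl⟩
      exact ⟨⟨v, hv⟩, rfl⟩
  -- the map `Ṽ → V`
  let φ : V ≃ₜ R := hc.isEmbedding.toHomeomorph
  let f' : (nmOrbMk g ⁻¹' R : Set N) → V := φ.symm ∘ R.restrictPreimage (nmOrbMk g)
  have hf' : IsProperMap f' := φ.symm.isProperMap.comp (nm_proper_restrictPreimage _ hq R)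
  have hcf' : ∀ x, nmOrbMk g ((f' x : V) : N) = nmOrbMk g (x : N) := by
    intro x
    have : φ (f' x) = R.restrictPreimage (nmOrbMk g) x := φ.apply_symm_apply _
    exact congrArg Subtype.val this
  have hbc := C.base_change n (nmOrbMk g) (fun v : V => nmOrbMk g v.1) f' Subtype.val hq hc hf'
    hVt.isOpenEmbedding_subtypeVal (fun x => (hcf' x).symm) (by rw [Subtype.range_coe]) w
  rw [hbc]
  -- the pieces
  have hmem : ∀ (i : Fin p) (v : V), g^[(i : ℕ)] v.1 ∈ nmOrbMk g ⁻¹' R := by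
    intro i v
    exact ⟨v, (nm_orb_mk_iter g i v.1).symm⟩
  let a : Fin p → V → (nmOrbMk g ⁻¹' R : Set N) := fun i v => ⟨g^[(i : ℕ)] v.1, hmem i v⟩
  have hao : ∀ i, IsOpenEmbedding (a i) := fun i =>
    (IsOpenEmbedding.of_comp_iff (a i) hVt.isOpenEmbedding_subtypeVal).1
      ((nm_iter_openEmb g p hg hp hper i).comp hV.isOpenEmbedding_subtypeVal)
  have had : ∀ i i', i ≠ i' → Disjoint (Set.range (a i)) (Set.range (a i')) := by
    intro i i' hne
    rw [Set.disjoint_left]
    rintro _ ⟨v, rfl⟩ ⟨v', hv'⟩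
    have h1 : g^[(i' : ℕ)] v'.1 = g^[(i : ℕ)] v.1 := congrArg Subtype.val hv'
    exact Set.disjoint_left.1 (hw i i.2 i' i'.2 (fun h => hne (Fin.ext h))) ⟨v.1, v.2, rfl⟩ ⟨v'.1, v'.2, h1⟩
  have hacov : (⋃ i, Set.range (a i)) = Set.univ := by
    ext x
    simp only [Set.mem_iUnion, Set.mem_univ, iff_true]
    have hx : x.1 ∈ nmOrbMk g ⁻¹' (nmOrbMk g '' V) := by
      rw [← hRimg]
      exact x.2
    rw [nm_orb_preimage_image g p hp hper] at hx
    obtain ⟨i, v, hv, hvx⟩ := Set.mem_iUnion.1 hx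
    exact ⟨i, ⟨v, hv⟩, Subtype.ext hvx⟩
  have hap : ∀ i, IsProperMap (a i) := by
    intro i
    apply nm_proper_of_clopen _ (hao i)
    have : Set.range (a i) = (⋃ i' ∈ {i' | i' ≠ i}, Set.range (a i'))ᶜ := by
      ext x
      simp only [Set.mem_compl_iff, Set.mem_iUnion, not_exists]
      constructor
      · intro hx i' hi' hx'
        exact Set.disjoint_left.1 (had i i' (Ne.symm hi')) hx hx'
      · intro hx
        have hxu : x ∈ ⋃ i, Set.range (a i) := by
          rw [hacov]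
          trivial
        obtain ⟨i', hi'⟩ := Set.mem_iUnion.1 hxu
        by_cases h : i' = i
        · exact h ▸ hi'
        · exact absurd hi' (hx i' h)
    rw [this]
    exact (isOpen_biUnion fun i' _ => (hao i').isOpen_range).isClosed_compl
  have hsum := nm_clopen_sum C n (fun _ : Fin p => V) a hao hap had hacov (C.pull n f' hf' w)
  have hpiece : ∀ i, C.pull n (a i) (hap i) (C.pull n f' hf' w) = w := by
    intro i
    rw [← C.pull_comp n (a i) f' (hap i) hf' w]
    have : f' ∘ a i = id := by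
      funext v
      apply hc.injective
      show nmOrbMk g ((f' (a i v) : V) : N) = nmOrbMk g v.1
      rw [hcf']
      exact nm_orb_mk_iter g i v.1
    rw [nm_pull_congr C n _ id _ isProperMap_id this w, C.pull_id]
  rw [hsum, map_sum]
  have hterm : ∀ i : Fin p, C.ext n Subtype.val hVt.isOpenEmbedding_subtypeVal
      (C.ext n (a i) (hao i) (C.pull n (a i) (hap i) (C.pull n f' hf' w))) =
      C.ext n Subtype.val hV.isOpenEmbedding_subtypeVal w := by
    intro i
    rw [hpiece i, ← C.ext_comp n (a i) Subtype.val (hao i) hVt.isOpenEmbedding_subtypeVal w]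
    have e : (Subtype.val : (nmOrbMk g ⁻¹' R : Set N) → N) ∘ a i = g^[(i : ℕ)] ∘ Subtype.val := rfl
    rw [nm_ext_congr C n _ _ _ ((nm_iter_openEmb g p hg hp hper i).comp hV.isOpenEmbedding_subtypeVal) e w,
      C.ext_comp n Subtype.val (g^[(i : ℕ)]) hV.isOpenEmbedding_subtypeVal (nm_iter_openEmb g p hg hp hper i) w]
    apply nm_ext_period C hN p _ (nm_iter_proper g p hg hp hper i)
    intro x
    rw [← Function.iterate_mul, mul_comm]
    exact nm_iter_mul g p hper i x
  rw [Finset.sum_congr rfl (fun i _ => hterm i), Finset.sum_const, Finset.card_univ, Fintype.card_fin,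
    ← Nat.cast_smul_eq_nsmul k, CharP.cast_eq_zero, zero_smul]

theorem nm_orb_pull_zero {n : ℕ} {N : Type} [TopologicalSpace N] [ConnectedSpace N]
    (hN : NmEucl n N) (p : ℕ) [Fact p.Prime] [CharP k p] (g : N → N) (hg : Continuous g)
    (hper : ∀ x, g^[p] x = x) (hne : ∃ x, g x ≠ x) (hq : IsProperMap (nmOrbMk g))
    (u : C.H n (NmOrb g)) : C.pull n (nmOrbMk g) hq u = 0 := by
  have hpp : p.Prime := Fact.out
  have hp : 0 < p := hpp.pos
  have := nm_eucl_t2 hN
  have := nm_eucl_lc hN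
  have := nm_orb_t2 g p hg hp hper
  have := nm_orb_lc g p hg hp hper
  have hF : IsClosed {x : N | g x = x} := isClosed_eq hg continuous_id
  have := hF.locallyCompactSpace
  have hFne : {x : N | g x = x} ≠ Set.univ := by
    obtain ⟨x, hx⟩ := hne
    intro h
    have : x ∈ {x : N | g x = x} := by
      rw [h]
      trivial
    exact hx this
  have hi := nm_fix_closedEmb g p hg hp hper
  set Y₀ : Set (NmOrb g) := (Set.range (fun v : {x : N | g x = x} => nmOrbMk g v.1))ᶜ with hY₀
  have hY₀o : IsOpen Y₀ := hi.isClosed_range.isOpen_compl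
  have := hY₀o.locallyCompactSpace
  obtain ⟨w, rfl⟩ := C.exact_mid n (Subtype.val : Y₀ → NmOrb g) _ hY₀o.isOpenEmbedding_subtypeVal hi
    (by rw [Subtype.range_coe]) u (nm_closed_vanish C hN _ hF hFne _)
  -- wandering charts
  let ι : Type := {V : Set N // IsOpen V ∧ NmWander g p V}
  have hnf : ∀ (V : ι) (v : V.1), g v.1 ≠ v.1 := by
    intro V v hv
    have := V.2.2 0 hp 1 hpp.one_lt (by norm_num)
    exact Set.disjoint_left.1 this ⟨v.1, v.2, rfl⟩ ⟨v.1, v.2, hv⟩
  let c : ∀ V : ι, V.1 → Y₀ := fun V v => ⟨nmOrbMk g v.1, (nm_fix_range_compl g p hp hper v.1).2 (hnf V v)⟩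
  have hco : ∀ V : ι, IsOpenEmbedding (c V) := fun V =>
    (IsOpenEmbedding.of_comp_iff (c V) hY₀o.isOpenEmbedding_subtypeVal).1
      (nm_wander_openEmb g p hg hp hper V.1 V.2.1 V.2.2)
  have hspan := (nm_span C n (fun V : ι => V.1) c hco
    (fun V => nm_eucl_of_emb hN _ V.2.1.isOpenEmbedding_subtypeVal) (by
      ext y
      simp only [Set.mem_iUnion, Set.mem_univ, iff_true]
      obtain ⟨x, hx⟩ := nm_orb_mk_surj g y.1
      have hgx : g x ≠ x := (nm_fix_range_compl g p hp hper x).1 (hx ▸ y.2)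
      obtain ⟨V, hVo, hxV, hVw⟩ := nm_wander_exists g p hg hpp hper x hgx
      exact ⟨⟨V, hVo, hVw⟩, ⟨x, hxV⟩, Subtype.ext hx⟩)).2
    (LinearMap.ker ((C.pull n (nmOrbMk g) hq).comp (C.ext n Subtype.val hY₀o.isOpenEmbedding_subtypeVal))) (by
      intro V v
      have := V.2.1.locallyCompactSpace
      rw [LinearMap.mem_ker, LinearMap.comp_apply,
        ← C.ext_comp n (c V) Subtype.val (hco V) hY₀o.isOpenEmbedding_subtypeVal v]
      exact nm_wander_kill C hN p g hg hper V.1 V.2.1 V.2.2 _ hq v)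
  have hw : w ∈ LinearMap.ker
      ((C.pull n (nmOrbMk g) hq).comp (C.ext n Subtype.val hY₀o.isOpenEmbedding_subtypeVal)) := by
    rw [hspan]
    trivial
  exact hw

theorem nm_core {n : ℕ} {N : Type} [TopologicalSpace N] [ConnectedSpace N]
    (hN : NmEucl n N) (p : ℕ) [Fact p.Prime] [CharP k p] (g : N → N) (hg : Continuous g)
    (hper : ∀ x, g^[p] x = x) (hne : ∃ x, g x ≠ x)
    (N₁ : Set N) (hN₁ : IsOpen N₁) (hinv : ∀ x ∈ N₁, g x ∈ N₁)
    {T : Type} [TopologicalSpace T] [T2Space T] [LocallyCompactSpace T]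
    (f : N₁ → T) (hf : IsProperMap f) (hfinv : ∀ x : N₁, f ⟨g x, hinv x x.2⟩ = f x)
    (w : C.H n T) :
    C.ext n (Subtype.val : N₁ → N) hN₁.isOpenEmbedding_subtypeVal (C.pull n f hf w) = 0 := by
  have hp : 0 < p := (Fact.out : p.Prime).pos
  have := nm_eucl_t2 hN
  have := nm_eucl_lc hN
  have := nm_orb_t2 g p hg hp hper
  have := nm_orb_lc g p hg hp hper
  have := hN₁.locallyCompactSpace
  let g₁ : N₁ → N₁ := fun x => ⟨g x, hinv x x.2⟩
  have hg₁ : Continuous g₁ := (hg.comp continuous_subtype_val).subtype_mk _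
  have hit : ∀ (i : ℕ) (a : N₁), ((g₁^[i] a : N₁) : N) = g^[i] a := by
    intro i
    induction i with
    | zero => intro a; rfl
    | succ i ih =>
      intro a
      rw [Function.iterate_succ_apply, ih, Function.iterate_succ_apply]
  have hper₁ : ∀ x, g₁^[p] x = x := fun x => Subtype.ext (by rw [hit, hper])
  have := nm_orb_t2 g₁ p hg₁ hp hper₁
  have := nm_orb_lc g₁ p hg₁ hp hper₁
  have hq := nm_orb_mk_proper g p hg hp hper
  have hq₁ := nm_orb_mk_proper g₁ p hg₁ hp hper₁
  have hfb := nm_orb_lift_proper g₁ f hfinv hf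
  have hl : ∀ x : N₁, nmOrbMk g ((g₁ x : N₁) : N) = nmOrbMk g (x : N) := fun x => nm_orb_mk_g g x.1
  obtain ⟨hιo, hιr⟩ := nm_orb_sub g p hg hp hper N₁ hN₁ g₁ (fun _ => rfl) hl
  have hbc := C.base_change n (nmOrbMk g) _ (nmOrbMk g₁) Subtype.val hq hιo hq₁
    hN₁.isOpenEmbedding_subtypeVal (fun _ => rfl) hιr (C.pull n _ hfb w)
  rw [← C.pull_comp n (nmOrbMk g₁) _ hq₁ hfb w, nm_orb_pull_zero C hN p g hg hper hne hq] at hbc
  exact hbc.symm

end Claimed.Agent.R304
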