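/-
Row 304, block A2 (designer helper27).  PACKAGE NsDiff: difference operators.   Proved (helper27).

`nsD g f x = f x - f (g⁻¹ * x)`.  No sup norms: all bounds are pointwise (`∀ x, |nsD g f x| ≤ B`).
-/
import Claimed.Agent.R304.NsDefs

set_option autoImplicit false

namespace Claimed.Agent.R304

variable {G : Type*} [Group G]

theorem nsD_one (f : G → ℝ) (x : G) : nsD 1 f x = 0 := by
  simp [nsD]

/-- (I1). -/
theorem nsD_mul (g h : G) (f : G → ℝ) (x : G) :
    nsD (g * h) f x = nsD g f x + nsD h f (g⁻¹ * x) := by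
  simp only [nsD, mul_inv_rev, mul_assoc]
  ring

theorem nsD_inv (g : G) (f : G → ℝ) (x : G) : nsD g⁻¹ f x = -nsD g f (g * x) := by
  simp only [nsD, inv_inv, inv_mul_cancel_left]
  ring

/-- (I1) for lists. -/
theorem nsD_list_prod_le (f : G → ℝ) (B : G → ℝ) (l : List G)
    (h : ∀ g ∈ l, ∀ x, |nsD g f x| ≤ B g) (x : G) : |nsD l.prod f x| ≤ nsCost B l := by
  induction l generalizing x with
  | nil => simp [nsD_one, nsCost]
  | cons g l ih =>
    rw [List.prod_cons, nsD_mul]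
    have h1 := h g (List.mem_cons_self) x
    have h2 := ih (fun g' hg' => h g' (List.mem_cons_of_mem _ hg')) (g⁻¹ * x)
    have h3 : nsCost B (g :: l) = B g + nsCost B l := by simp [nsCost]
    rw [h3]
    exact (abs_add_le _ _).trans (add_le_add h1 h2)

/-- (I1) for powers. -/
theorem nsD_pow_le (f : G → ℝ) (g : G) (B : ℝ) (h : ∀ x, |nsD g f x| ≤ B) (n : ℕ) (x : G) :
    |nsD (g ^ n) f x| ≤ n * B := by
  induction n generalizing x with
  | zero => simp [nsD_one]
  | succ n ih =>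
    rw [pow_succ', nsD_mul]
    have h1 := h x
    have h2 := ih (g⁻¹ * x)
    push_cast
    calc |nsD g f x + nsD (g ^ n) f (g⁻¹ * x)| ≤ |nsD g f x| + |nsD (g ^ n) f (g⁻¹ * x)| :=
          abs_add_le _ _
      _ ≤ B + n * B := add_le_add h1 h2
      _ = (n + 1) * B := by ring

/-- telescoping -/
theorem nsD_sum_translates (f : G → ℝ) (g : G) (n : ℕ) (x : G) :
    ∑ i ∈ Finset.range n, nsD g f ((g ^ i)⁻¹ * x) = nsD (g ^ n) f x := by
  induction n with
  | zero => simp [nsD_one]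
  | succ n ih =>
    rw [Finset.sum_range_succ, ih, pow_succ, nsD_mul]

/-- (I2). -/
theorem nsD_pow_expand (f : G → ℝ) (g : G) (n : ℕ) (x : G) :
    (n : ℝ) * nsD g f x = nsD (g ^ n) f x + ∑ i ∈ Finset.range n, nsD (g ^ i) (nsD g f) x := by
  rw [← nsD_sum_translates, ← Finset.sum_add_distrib]
  have : ∀ i ∈ Finset.range n,
      nsD g f ((g ^ i)⁻¹ * x) + nsD (g ^ i) (nsD g f) x = nsD g f x := by
    intro i _
    rw [nsD.eq_1 (g ^ i)]
    ring
  rw [Finset.sum_congr rfl this]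
  simp

/-- Consequence of (I2) in the form used by the bootstrap. -/
theorem nsD_le_of_second (f : G → ℝ) (g : G) (n : ℕ) (hn : 1 ≤ n) (m b : ℝ)
    (hf : ∀ x y, |f x - f y| ≤ m) (h2 : ∀ i < n, ∀ x, |nsD (g ^ i) (nsD g f) x| ≤ b) (x : G) :
    |nsD g f x| ≤ m / n + b := by
  have hn0 : (0 : ℝ) < n := by exact_mod_cast hn
  have h1 := nsD_pow_expand f g n x
  have h3 : |nsD (g ^ n) f x| ≤ m := hf _ _
  have h4 : |∑ i ∈ Finset.range n, nsD (g ^ i) (nsD g f) x| ≤ n * b := by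
    calc |∑ i ∈ Finset.range n, nsD (g ^ i) (nsD g f) x|
        ≤ ∑ i ∈ Finset.range n, |nsD (g ^ i) (nsD g f) x| := Finset.abs_sum_le_sum_abs _ _
      _ ≤ ∑ _i ∈ Finset.range n, b :=
          Finset.sum_le_sum fun i hi => h2 i (Finset.mem_range.mp hi) x
      _ = n * b := by simp
  have h5 : (n : ℝ) * |nsD g f x| ≤ m + n * b := by
    rw [← abs_of_pos hn0, ← abs_mul, abs_of_pos hn0, h1]
    exact (abs_add_le _ _).trans (add_le_add h3 h4)
  have h6 : m / n + b = (m + n * b) / n := by field_simp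
  rw [h6, le_div_iff₀ hn0]
  linarith

/-- `∂_g ∂_h - ∂_h ∂_g = τ_{gh} - τ_{hg}`. -/
theorem nsD_comm (g h : G) (f : G → ℝ) (x : G) :
    nsD g (nsD h f) x - nsD h (nsD g f) x = f ((g * h)⁻¹ * x) - f ((h * g)⁻¹ * x) := by
  simp only [nsD, mul_inv_rev, mul_assoc]
  ring

/-- First differences along the commutator `k = g⁻¹ h⁻¹ g h` are bounded by second differences:
apply `nsD_comm` at the point `y = h * g * x`; then `(h g)⁻¹ y = x` and `(g h)⁻¹ y = k⁻¹ x`. -/
theorem nsD_commutator_le (g h : G) (f : G → ℝ) (b : ℝ)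
    (h1 : ∀ x, |nsD g (nsD h f) x| ≤ b) (h2 : ∀ x, |nsD h (nsD g f) x| ≤ b) (x : G) :
    |nsD (g⁻¹ * h⁻¹ * g * h) f x| ≤ 2 * b := by
  have h3 := nsD_comm g h f (h * g * x)
  have e1 : (h * g)⁻¹ * (h * g * x) = x := by group
  have e2 : (g * h)⁻¹ * (h * g * x) = (g⁻¹ * h⁻¹ * g * h)⁻¹ * x := by group
  rw [e1, e2] at h3
  have h4 : nsD (g⁻¹ * h⁻¹ * g * h) f x
      = -(nsD g (nsD h f) (h * g * x) - nsD h (nsD g f) (h * g * x)) := by
    rw [h3, nsD]; ring
  rw [h4, abs_neg]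
  calc |nsD g (nsD h f) (h * g * x) - nsD h (nsD g f) (h * g * x)|
      ≤ |nsD g (nsD h f) (h * g * x)| + |nsD h (nsD g f) (h * g * x)| := abs_sub _ _
    _ ≤ b + b := add_le_add (h1 _) (h2 _)
    _ = 2 * b := by ring

end Claimed.Agent.R304
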