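/-
Row 304, block A2 (designer helper27).  PACKAGE NsConv: convolution with a Haar measure.   PROVED (sorry-free).

`nsConv μ ψ η x = ∫ y, ψ y * η (y⁻¹ * x) ∂μ`, `μ` a (left) Haar measure, `ψ` bounded Borel, `η` continuous with
compact support.  NO Fubini, NO second countability: only left invariance
(`MeasureTheory.integral_mul_left_eq_self`), linearity and `norm_integral_le_...`.
PROOF PLANS.
* `nsConv_integrable`: `y ↦ η (y⁻¹ * x)` is continuous with compact support (image of `tsupport η` under the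
  homeomorphism `z ↦ x * z⁻¹`), hence integrable (`Continuous.integrable_of_hasCompactSupport`);
  multiply by the bounded measurable `ψ` (`Integrable.bdd_mul`).
* `nsConv_eq`: substitute `y = x * z`.      * `nsConv_translate`: substitute `y = g⁻¹ * y'`.
* `nsD_nsConv`: `nsConv_translate` + `integral_sub`.
* `nsD_nsConv_right`: `y⁻¹ * (h⁻¹ * x) = (y⁻¹ * h * y)⁻¹ * (y⁻¹ * x)` (`group`) + `integral_sub`.
* `ns_second_diff`: `nsD h (nsD g φ) = nsD h (nsConv (nsD g ψ) η)`; the integrand of `nsD_nsConv_right` vanishes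
  off `K` and is bounded by `a * b` on `K`; `norm_setIntegral_le_of_norm_le_const`, `K` is closed (T2), hence
  measurable, `μ K < ∞`.
* `ns_unif_left`: `η` is uniformly continuous for the uniformity `IsTopologicalGroup.toUniformSpace` (Mathlib:
  `HasCompactSupport.uniformContinuous_of_continuous` type lemmas), or directly by the tube lemma on
  `(v, z) ↦ η (v⁻¹ z) - η z` over a compact neighbourhood of `tsupport η`.
* `ns_conj_nhds`: `(y, h) ↦ y⁻¹ * h * y` is continuous and maps `K × {1}` to `1`: `generalized_tube_lemma`.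
-/
import Claimed.Agent.R304.NsDiff

set_option autoImplicit false

namespace Claimed.Agent.R304

open Topology Filter MeasureTheory
open scoped Pointwise

variable {G : Type*} [Group G] [TopologicalSpace G] [IsTopologicalGroup G] [MeasurableSpace G]
  [BorelSpace G] (μ : Measure G) [μ.IsHaarMeasure]

theorem ns_integrable_inv {η : G → ℝ} (hη : Continuous η) (hηc : HasCompactSupport η) :
    Integrable (fun z => η z⁻¹) μ := by
  have hc : Continuous fun z : G => η z⁻¹ := hη.comp continuous_inv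
  have hs : HasCompactSupport fun z : G => η z⁻¹ := hηc.comp_homeomorph (Homeomorph.inv G)
  exact hc.integrable_of_hasCompactSupport hs

theorem ns_integrable_inv_mul {η : G → ℝ} (hη : Continuous η) (hηc : HasCompactSupport η) (x : G) :
    Integrable (fun y => η (y⁻¹ * x)) μ := by
  have hc : Continuous fun y : G => η (y⁻¹ * x) := hη.comp (continuous_inv.mul continuous_const)
  have hs : HasCompactSupport fun y : G => η (y⁻¹ * x) :=
    hηc.comp_homeomorph ((Homeomorph.inv G).trans (Homeomorph.mulRight x))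
  exact hc.integrable_of_hasCompactSupport hs

theorem nsConv_integrable {ψ η : G → ℝ} {B : ℝ} (hψm : Measurable ψ) (hψb : ∀ y, |ψ y| ≤ B)
    (hη : Continuous η) (hηc : HasCompactSupport η) (x : G) :
    Integrable (fun y => ψ y * η (y⁻¹ * x)) μ :=
  (ns_integrable_inv_mul μ hη hηc x).bdd_mul (c := B) hψm.aestronglyMeasurable
    (Filter.Eventually.of_forall hψb)

theorem nsConv_eq (ψ η : G → ℝ) (x : G) : nsConv μ ψ η x = ∫ z, ψ (x * z) * η z⁻¹ ∂μ := by
  rw [nsConv, ← integral_mul_left_eq_self (μ := μ) (fun y => ψ y * η (y⁻¹ * x)) x]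
  congr 1
  funext z
  rw [mul_inv_rev, inv_mul_cancel_right]

theorem nsConv_translate (ψ η : G → ℝ) (g x : G) :
    nsConv μ ψ η (g⁻¹ * x) = nsConv μ (fun y => ψ (g⁻¹ * y)) η x := by
  rw [nsConv, nsConv, ← integral_mul_left_eq_self (μ := μ) (fun y => ψ y * η (y⁻¹ * (g⁻¹ * x))) g⁻¹]
  congr 1
  funext z
  congr 2
  group

theorem nsD_nsConv {ψ η : G → ℝ} {B : ℝ} (hψm : Measurable ψ) (hψb : ∀ y, |ψ y| ≤ B)
    (hη : Continuous η) (hηc : HasCompactSupport η) (g x : G) :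
    nsD g (nsConv μ ψ η) x = nsConv μ (nsD g ψ) η x := by
  rw [nsD, nsConv_translate]
  have h1 := nsConv_integrable μ hψm hψb hη hηc x
  have h2 := nsConv_integrable μ (ψ := fun y => ψ (g⁻¹ * y)) (B := B)
    (hψm.comp (measurable_const_mul g⁻¹)) (fun y => hψb _) hη hηc x
  rw [nsConv, nsConv, nsConv, ← integral_sub h1 h2]
  congr 1
  funext y
  rw [nsD]
  ring

theorem nsD_nsConv_right {F η : G → ℝ} {B : ℝ} (hFm : Measurable F) (hFb : ∀ y, |F y| ≤ B)
    (hη : Continuous η) (hηc : HasCompactSupport η) (h x : G) :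
    nsD h (nsConv μ F η) x
      = ∫ y, F y * (η (y⁻¹ * x) - η ((y⁻¹ * h * y)⁻¹ * (y⁻¹ * x))) ∂μ := by
  have h1 := nsConv_integrable μ hFm hFb hη hηc x
  have h2 := nsConv_integrable μ hFm hFb hη hηc (h⁻¹ * x)
  rw [nsD, nsConv, nsConv, ← integral_sub h1 h2]
  congr 1
  funext y
  have e : (y⁻¹ * h * y)⁻¹ * (y⁻¹ * x) = y⁻¹ * (h⁻¹ * x) := by group
  rw [e]
  ring

/-- **Second difference estimate.** -/
theorem ns_second_diff [T2Space G] {ψ η : G → ℝ} {B : ℝ} (hψm : Measurable ψ)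
    (hψb : ∀ y, |ψ y| ≤ B) (hη : Continuous η) (hηc : HasCompactSupport η) {K : Set G}
    (hK : IsCompact K) {g h : G} {a b : ℝ} (ha : ∀ y, |nsD g ψ y| ≤ a)
    (hK0 : ∀ y, y ∉ K → nsD g ψ y = 0)
    (hb : ∀ y ∈ K, ∀ z, |η z - η ((y⁻¹ * h * y)⁻¹ * z)| ≤ b) (x : G) :
    |nsD h (nsD g (nsConv μ ψ η)) x| ≤ a * (b * (μ K).toReal) := by
  have e1 : nsD g (nsConv μ ψ η) = nsConv μ (nsD g ψ) η := by
    funext y
    exact nsD_nsConv μ hψm hψb hη hηc g y
  have hFm : Measurable (nsD g ψ) := by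
    unfold nsD
    exact hψm.sub (hψm.comp (measurable_const_mul g⁻¹))
  rw [e1, nsD_nsConv_right μ hFm ha hη hηc h x,
    ← setIntegral_eq_integral_of_forall_compl_eq_zero (s := K) (fun y hy => by rw [hK0 y hy, zero_mul])]
  have h3 := norm_setIntegral_le_of_norm_le_const (μ := μ) (s := K) (C := a * b)
    (f := fun y => nsD g ψ y * (η (y⁻¹ * x) - η ((y⁻¹ * h * y)⁻¹ * (y⁻¹ * x))))
    hK.measure_lt_top (fun y hy => by
      rw [Real.norm_eq_abs, abs_mul]
      exact mul_le_mul (ha y) (hb y hy _) (abs_nonneg _) ((abs_nonneg _).trans (ha y)))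
  rw [Real.norm_eq_abs] at h3
  rw [← mul_assoc]
  exact h3

theorem nsConv_nonneg {ψ η : G → ℝ} (hψ : ∀ y, 0 ≤ ψ y) (hη : ∀ z, 0 ≤ η z) (x : G) :
    0 ≤ nsConv μ ψ η x :=
  integral_nonneg fun y => mul_nonneg (hψ y) (hη _)

/-- upper bound from a bound of `ψ` on `x * (support of z ↦ η z⁻¹)` -/
theorem nsConv_le_of {ψ η : G → ℝ} {B : ℝ} (hψm : Measurable ψ) (hψb : ∀ y, |ψ y| ≤ B)
    (hη : Continuous η) (hηc : HasCompactSupport η) (hη0 : ∀ z, 0 ≤ η z) {x : G} {t : ℝ}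
    (ht : ∀ z, η z⁻¹ ≠ 0 → ψ (x * z) ≤ t) : nsConv μ ψ η x ≤ t * ∫ z, η z⁻¹ ∂μ := by
  rw [nsConv_eq, ← integral_const_mul]
  have hi := ns_integrable_inv μ hη hηc
  refine integral_mono ?_ (hi.const_mul t) ?_
  · exact hi.bdd_mul (c := B) (hψm.comp (measurable_const_mul x)).aestronglyMeasurable
      (Filter.Eventually.of_forall fun z => hψb _)
  · intro z
    by_cases hz : η z⁻¹ = 0
    · simp [hz]
    · exact mul_le_mul_of_nonneg_right (ht z hz) (hη0 _)

theorem nsConv_eq_of {ψ η : G → ℝ} {x : G} (h1 : ∀ z, η z⁻¹ ≠ 0 → ψ (x * z) = 1) :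
    nsConv μ ψ η x = ∫ z, η z⁻¹ ∂μ := by
  rw [nsConv_eq]
  congr 1
  funext z
  by_cases hz : η z⁻¹ = 0
  · simp [hz]
  · rw [h1 z hz, one_mul]

omit [MeasurableSpace G] [BorelSpace G] in
/-- left uniform continuity of a continuous function with compact support -/
theorem ns_unif_left {η : G → ℝ} (hη : Continuous η) (hηc : HasCompactSupport η) {ε : ℝ}
    (hε : 0 < ε) : ∃ V ∈ 𝓝 (1 : G), ∀ v ∈ V, ∀ z, |η z - η (v⁻¹ * z)| ≤ ε := by
  letI : UniformSpace G := IsTopologicalGroup.rightUniformSpace G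
  have hu : UniformContinuous η := hηc.uniformContinuous_of_continuous hη
  have h1 : {p : ℝ × ℝ | dist p.1 p.2 < ε} ∈ uniformity ℝ := Metric.dist_mem_uniformity hε
  have h2 := hu h1
  rw [Filter.mem_map, uniformity_eq_comap_nhds_one', Filter.mem_comap] at h2
  obtain ⟨V, hV, hsub⟩ := h2
  refine ⟨V⁻¹, inv_mem_nhds_one G hV, fun v hv z => ?_⟩
  have h3 : ((z, v⁻¹ * z) : G × G) ∈ (fun p : G × G => p.2 * p.1⁻¹) ⁻¹' V := by
    show v⁻¹ * z * z⁻¹ ∈ V
    rw [mul_inv_cancel_right]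
    exact hv
  have h4 := hsub h3
  have h5 : dist (η z) (η (v⁻¹ * z)) < ε := h4
  rw [Real.dist_eq] at h5
  exact h5.le

omit [MeasurableSpace G] [BorelSpace G] in
/-- conjugation by a compact set is equicontinuous at `1` -/
theorem ns_conj_nhds {K : Set G} (hK : IsCompact K) {V : Set G} (hV : V ∈ 𝓝 (1 : G)) :
    ∃ W ∈ 𝓝 (1 : G), ∀ h ∈ W, ∀ y ∈ K, y⁻¹ * h * y ∈ V := by
  have hc : Continuous fun p : G × G => p.1⁻¹ * p.2 * p.1 :=
    (continuous_fst.inv.mul continuous_snd).mul continuous_fst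
  have hn : IsOpen ((fun p : G × G => p.1⁻¹ * p.2 * p.1) ⁻¹' interior V) :=
    isOpen_interior.preimage hc
  have hp : K ×ˢ ({1} : Set G) ⊆ (fun p : G × G => p.1⁻¹ * p.2 * p.1) ⁻¹' interior V := by
    rintro ⟨y, h⟩ ⟨_, hh⟩
    have hh' : h = 1 := hh
    subst hh'
    show y⁻¹ * 1 * y ∈ interior V
    rw [mul_one, inv_mul_cancel]
    exact mem_interior_iff_mem_nhds.mpr hV
  obtain ⟨u, v, _, hv, hKu, h1v, huv⟩ := generalized_tube_lemma hK isCompact_singleton hn hp
  refine ⟨v, hv.mem_nhds (h1v rfl), fun h hh y hy => ?_⟩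
  exact interior_subset (huv (Set.mk_mem_prod (hKu hy) hh))

omit [MeasurableSpace G] [BorelSpace G] in
theorem ns_unif_conj {η : G → ℝ} (hη : Continuous η) (hηc : HasCompactSupport η) {K : Set G}
    (hK : IsCompact K) {ε : ℝ} (hε : 0 < ε) :
    ∃ W ∈ 𝓝 (1 : G), ∀ h ∈ W, ∀ y ∈ K, ∀ z, |η z - η ((y⁻¹ * h * y)⁻¹ * z)| ≤ ε := by
  obtain ⟨V, hV, hV'⟩ := ns_unif_left hη hηc hε
  obtain ⟨W, hW, hW'⟩ := ns_conj_nhds hK hV
  exact ⟨W, hW, fun h hh y hy z => hV' _ (hW' h hh y hy) z⟩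

end Claimed.Agent.R304
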