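/-
Row 304 (S0559, Hilbert-Smith), layer E: THE SIGNATURE.  Owner: helper181.  Package SgBasic (no sorry).

Pure linear algebra over `ℝ`, on top of Mathlib's `sigPos`, `sigNeg` (`LinearAlgebra/QuadraticForm/Signature`).
* `sgSig B : ℤ`                       signature of a bilinear form `B : V →ₗ[ℝ] V →ₗ[ℝ] ℝ` (of its quadratic form)
* `sgSig_neg`, `sgSig_congr`          `sgSig (-B) = - sgSig B`, invariance under isometries
* `sgProd B B'`, `sgSig_prod`         orthogonal sum (same shape as `WtForm.sum`), additivity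
* `sgSig_eq_zero_of_lagrangian`       `B` symmetric nondegenerate, `I = I^⊥` => signature `0`
* `sg_exists_lagrangian`              `B` symmetric nondegenerate of signature `0` => there is `I = I^⊥`
* `sgSig_mul`                         the form `<1>` has signature `1`
-/
import Mathlib

set_option autoImplicit false

namespace Claimed.Agent.R304
open QuadraticMap Module

section basic

variable {V V' : Type*} [AddCommGroup V] [Module ℝ V] [AddCommGroup V'] [Module ℝ V']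

/-- the quadratic form of a bilinear form -/
noncomputable abbrev sgQ (B : V →ₗ[ℝ] V →ₗ[ℝ] ℝ) : QuadraticForm ℝ V :=
  LinearMap.BilinMap.toQuadraticMap B

/-- the signature of a bilinear form on a finite dimensional real vector space -/
noncomputable def sgSig (B : V →ₗ[ℝ] V →ₗ[ℝ] ℝ) : ℤ :=
  (sigPos (sgQ B) : ℤ) - sigNeg (sgQ B)

theorem sgQ_apply (B : V →ₗ[ℝ] V →ₗ[ℝ] ℝ) (x : V) : sgQ B x = B x x := rfl

theorem sgQ_neg (B : V →ₗ[ℝ] V →ₗ[ℝ] ℝ) : sgQ (-B) = - sgQ B := by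
  ext x
  simp

theorem sgSig_neg (B : V →ₗ[ℝ] V →ₗ[ℝ] ℝ) : sgSig (-B) = - sgSig B := by
  unfold sgSig
  rw [sgQ_neg, sigPos_neg, sigNeg_neg]
  ring

theorem sgSig_congr {B : V →ₗ[ℝ] V →ₗ[ℝ] ℝ} {B' : V' →ₗ[ℝ] V' →ₗ[ℝ] ℝ} (e : V ≃ₗ[ℝ] V')
    (h : ∀ x, B' (e x) (e x) = B x x) : sgSig B = sgSig B' := by
  have he : Equivalent (sgQ B) (sgQ B') := ⟨{ e with map_app' := h }⟩
  unfold sgSig
  rw [he.sigPos_eq, he.sigNeg_eq]

/-- orthogonal sum of bilinear forms -/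
noncomputable def sgProd (B : V →ₗ[ℝ] V →ₗ[ℝ] ℝ) (B' : V' →ₗ[ℝ] V' →ₗ[ℝ] ℝ) :
    (V × V') →ₗ[ℝ] (V × V') →ₗ[ℝ] ℝ :=
  B.compl₁₂ (LinearMap.fst ℝ V V') (LinearMap.fst ℝ V V') +
    B'.compl₁₂ (LinearMap.snd ℝ V V') (LinearMap.snd ℝ V V')

theorem sgProd_apply (B : V →ₗ[ℝ] V →ₗ[ℝ] ℝ) (B' : V' →ₗ[ℝ] V' →ₗ[ℝ] ℝ) (x y : V × V') :
    sgProd B B' x y = B x.1 y.1 + B' x.2 y.2 := rfl

/-- the product of two subspaces, as a product -/
def sgProdEquiv (W : Submodule ℝ V) (W' : Submodule ℝ V') : ↥(W.prod W') ≃ₗ[ℝ] W × W' where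
  toFun x := (⟨x.1.1, x.2.1⟩, ⟨x.1.2, x.2.2⟩)
  invFun y := ⟨(y.1.1, y.2.1), ⟨y.1.2, y.2.2⟩⟩
  map_add' _ _ := rfl
  map_smul' _ _ := rfl
  left_inv _ := rfl
  right_inv _ := rfl

theorem sg_finrank_prod (W : Submodule ℝ V) (W' : Submodule ℝ V') [FiniteDimensional ℝ W]
    [FiniteDimensional ℝ W'] : finrank ℝ (W.prod W') = finrank ℝ W + finrank ℝ W' := by
  rw [← Module.finrank_prod]
  exact (sgProdEquiv W W').finrank_eq

theorem sg_sigPos_prod_le [FiniteDimensional ℝ V] [FiniteDimensional ℝ V']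
    (B : V →ₗ[ℝ] V →ₗ[ℝ] ℝ) (B' : V' →ₗ[ℝ] V' →ₗ[ℝ] ℝ) :
    sigPos (sgQ B) + sigPos (sgQ B') ≤ sigPos (sgQ (sgProd B B')) := by
  obtain ⟨W, hW, hWp⟩ := exists_finrank_eq_sigPos_and_posDef (sgQ B)
  obtain ⟨W', hW', hWp'⟩ := exists_finrank_eq_sigPos_and_posDef (sgQ B')
  rw [← hW, ← hW', ← sg_finrank_prod]
  apply le_sigPos_of_posDef
  rintro ⟨⟨x, y⟩, hx, hy⟩ hne
  change 0 < B x x + B' y y
  have h1 : ∀ x (hx : x ∈ W), x ≠ 0 → 0 < B x x := fun x hx h0 =>
    hWp ⟨x, hx⟩ (fun h => h0 (congrArg Subtype.val h))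
  have h2 : ∀ y (hy : y ∈ W'), y ≠ 0 → 0 < B' y y := fun y hy h0 =>
    hWp' ⟨y, hy⟩ (fun h => h0 (congrArg Subtype.val h))
  by_cases hx0 : x = 0
  · have hy0 : y ≠ 0 := by
      rintro rfl
      subst hx0
      exact hne rfl
    subst hx0
    simpa using h2 y hy hy0
  · by_cases hy0 : y = 0
    · subst hy0
      simpa using h1 x hx hx0
    · exact add_pos (h1 x hx hx0) (h2 y hy hy0)

theorem sgProd_neg (B : V →ₗ[ℝ] V →ₗ[ℝ] ℝ) (B' : V' →ₗ[ℝ] V' →ₗ[ℝ] ℝ) :
    sgProd (-B) (-B') = - sgProd B B' := by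
  ext x y <;> simp [sgProd_apply]

theorem sg_radical_prod_le [FiniteDimensional ℝ V] [FiniteDimensional ℝ V']
    (B : V →ₗ[ℝ] V →ₗ[ℝ] ℝ) (B' : V' →ₗ[ℝ] V' →ₗ[ℝ] ℝ) :
    finrank ℝ (sgQ B).radical + finrank ℝ (sgQ B').radical
      ≤ finrank ℝ (sgQ (sgProd B B')).radical := by
  rw [← sg_finrank_prod]
  apply Submodule.finrank_mono
  rintro ⟨x, y⟩ ⟨hx, hy⟩
  replace hx : x ∈ (sgQ B).radical := hx
  replace hy : y ∈ (sgQ B').radical := hy
  rw [mem_radical_iff'] at hx hy ⊢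
  refine ⟨?_, ?_⟩
  · change sgQ B x + sgQ B' y = 0
    rw [hx.1, hy.1, add_zero]
  · rintro ⟨n, n'⟩
    change sgQ B (x + n) + sgQ B' (y + n') = sgQ B n + sgQ B' n'
    rw [hx.2, hy.2]

theorem sgSig_prod [FiniteDimensional ℝ V] [FiniteDimensional ℝ V']
    (B : V →ₗ[ℝ] V →ₗ[ℝ] ℝ) (B' : V' →ₗ[ℝ] V' →ₗ[ℝ] ℝ) :
    sgSig (sgProd B B') = sgSig B + sgSig B' := by
  have h1 := sg_sigPos_prod_le B B'
  have h2 := sg_sigPos_prod_le (-B) (-B')
  rw [sgProd_neg, sgQ_neg, sgQ_neg, sgQ_neg, sigPos_neg, sigPos_neg, sigPos_neg] at h2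
  have h3 := sg_radical_prod_le B B'
  have e1 := QuadraticForm.sigPos_add_sigNeg_add_radical (Q := sgQ B)
  have e2 := QuadraticForm.sigPos_add_sigNeg_add_radical (Q := sgQ B')
  have e3 := QuadraticForm.sigPos_add_sigNeg_add_radical (Q := sgQ (sgProd B B'))
  rw [Module.finrank_prod] at e3
  unfold sgSig
  omega

theorem sg_radical_eq_bot {B : V →ₗ[ℝ] V →ₗ[ℝ] ℝ} (hs : ∀ x y, B x y = B y x)
    (hn : ∀ x, (∀ y, B x y = 0) → x = 0) : (sgQ B).radical = ⊥ := by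
  rw [Submodule.eq_bot_iff]
  intro x hx
  rw [mem_radical_iff'] at hx
  apply hn
  intro y
  have h := hx.2 y
  have h0 : B x x = 0 := hx.1
  simp only [sgQ_apply, map_add, LinearMap.add_apply] at h
  rw [h0, hs y x] at h
  linarith

theorem sgSig_eq_zero_of_lagrangian [FiniteDimensional ℝ V] {B : V →ₗ[ℝ] V →ₗ[ℝ] ℝ}
    (hs : ∀ x y, B x y = B y x) (hn : ∀ x, (∀ y, B x y = 0) → x = 0)
    (I : Submodule ℝ V) (hI : ∀ x, x ∈ I ↔ ∀ y ∈ I, B x y = 0) : sgSig B = 0 := by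
  have hnd : LinearMap.BilinForm.Nondegenerate B :=
    ⟨hn, fun y hy => hn y fun x => by rw [hs]; exact hy x⟩
  have horth : LinearMap.BilinForm.orthogonal B I = I := by
    ext x
    rw [LinearMap.BilinForm.mem_orthogonal_iff, hI]
    exact ⟨fun h y hy => by rw [hs]; exact h y hy, fun h y hy => by rw [hs]; exact h y hy⟩
  have hdim := LinearMap.BilinForm.finrank_orthogonal hnd I
  rw [horth] at hdim
  have hle : finrank ℝ I ≤ finrank ℝ V := Submodule.finrank_le I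
  have hzero : ∀ x ∈ I, B x x = 0 := fun x hx => (hI x).1 hx x hx
  have h1 := QuadraticForm.sigPos_add_finrank_le_of_nonpos (Q := sgQ B) (V := I)
    (fun x hx => (hzero x hx).le)
  have h2 := QuadraticForm.sigPos_add_finrank_le_of_nonpos (Q := -sgQ B) (V := I)
    (fun x hx => by
      change -(B x x) ≤ 0
      rw [hzero x hx, neg_zero])
  rw [sigPos_neg] at h2
  have e1 := QuadraticForm.sigPos_add_sigNeg_add_radical (Q := sgQ B)
  rw [sg_radical_eq_bot hs hn, finrank_bot] at e1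
  unfold sgSig
  omega

theorem sgSig_mul : sgSig (LinearMap.mul ℝ ℝ) = 1 := by
  have h1 : 1 ≤ sigPos (sgQ (LinearMap.mul ℝ ℝ)) := by
    have := le_sigPos_of_posDef (sgQ (LinearMap.mul ℝ ℝ)) (V := ⊤) (by
      intro x hx
      change 0 < (x : ℝ) * (x : ℝ)
      have : (x : ℝ) ≠ 0 := fun h => hx (Subtype.ext h)
      exact mul_self_pos.2 this)
    simpa using this
  have e1 := QuadraticForm.sigPos_add_sigNeg_add_radical (Q := sgQ (LinearMap.mul ℝ ℝ))
  rw [Module.finrank_self] at e1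
  unfold sgSig
  omega

theorem sg_exists_lagrangian [FiniteDimensional ℝ V] {B : V →ₗ[ℝ] V →ₗ[ℝ] ℝ}
    (hs : ∀ x y, B x y = B y x) (hn : ∀ x, (∀ y, B x y = 0) → x = 0) (h0 : sgSig B = 0) :
    ∃ I : Submodule ℝ V, ∀ x, x ∈ I ↔ ∀ y ∈ I, B x y = 0 := by
  have hnd : LinearMap.BilinForm.Nondegenerate B :=
    ⟨hn, fun y hy => hn y fun x => by rw [hs]; exact hy x⟩
  -- a maximal isotropic subspace
  obtain ⟨I, hIiso, hImax⟩ := (set_has_maximal_iff_noetherian (R := ℝ) (M := V)).2 inferInstance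
    {I : Submodule ℝ V | ∀ x ∈ I, ∀ y ∈ I, B x y = 0}
    ⟨⊥, by
      intro x hx y _
      rw [(Submodule.mem_bot ℝ).1 hx]
      simp⟩
  set J := LinearMap.BilinForm.orthogonal B I with hJ
  have hJmem : ∀ x, x ∈ J ↔ ∀ y ∈ I, B x y = 0 := by
    intro x
    rw [hJ, LinearMap.BilinForm.mem_orthogonal_iff]
    exact ⟨fun h y hy => by rw [hs]; exact h y hy, fun h y hy => by rw [hs]; exact h y hy⟩
  have hIJ : I ≤ J := fun x hx => (hJmem x).2 fun y hy => hIiso x hx y hy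
  -- isotropic vectors of `J` lie in `I`
  have hA : ∀ z ∈ J, B z z = 0 → z ∈ I := by
    intro z hz hzz
    by_contra hzI
    apply hImax (I ⊔ Submodule.span ℝ {z})
    · intro x hx y hy
      obtain ⟨a, ha, u, hu, rfl⟩ := Submodule.mem_sup.1 hx
      obtain ⟨a', ha', u', hu', rfl⟩ := Submodule.mem_sup.1 hy
      obtain ⟨c, rfl⟩ := Submodule.mem_span_singleton.1 hu
      obtain ⟨c', rfl⟩ := Submodule.mem_span_singleton.1 hu'
      have h1 : B z a' = 0 := (hJmem z).1 hz a' ha'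
      have h2 : B a z = 0 := by rw [hs]; exact (hJmem z).1 hz a ha
      simp [hIiso a ha a' ha', h1, h2, hzz]
    · refine lt_of_le_of_ne le_sup_left fun h => hzI ?_
      rw [h]
      exact Submodule.mem_sup_right (Submodule.mem_span_singleton_self z)
  -- the form is semidefinite on `J`
  have hB : (∀ x ∈ J, B x x ≤ 0) ∨ (∀ y ∈ J, 0 ≤ B y y) := by
    by_contra hcon
    push Not at hcon
    obtain ⟨⟨x, hx, hxx⟩, ⟨y, hy, hyy⟩⟩ := hcon
    obtain ⟨t, ht⟩ : ∃ t : ℝ, B y y * (t * t) + (2 * B x y) * t + B x x = 0 := by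
      apply exists_quadratic_eq_zero hyy.ne
      refine ⟨Real.sqrt (discrim (B y y) (2 * B x y) (B x x)), ?_⟩
      rw [Real.mul_self_sqrt]
      unfold discrim
      nlinarith [sq_nonneg (B x y), mul_pos hxx (neg_pos.2 hyy)]
    have hz : x + t • y ∈ J := J.add_mem hx (J.smul_mem t hy)
    have hzz : B (x + t • y) (x + t • y) = 0 := by
      simp only [map_add, map_smul, LinearMap.add_apply, LinearMap.smul_apply, smul_eq_mul]
      rw [hs y x]
      linarith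
    have hzI := hA _ hz hzz
    have h1 : B y (x + t • y) = 0 := (hJmem y).1 hy _ hzI
    have h2 : B x (x + t • y) = 0 := (hJmem x).1 hx _ hzI
    simp only [map_add, map_smul, smul_eq_mul] at h1 h2
    rw [hs y x] at h1
    nlinarith [mul_self_nonneg t]
  have hdim := LinearMap.BilinForm.finrank_orthogonal hnd I
  rw [← hJ] at hdim
  have hle : finrank ℝ I ≤ finrank ℝ V := Submodule.finrank_le I
  have hle2 : finrank ℝ I ≤ finrank ℝ J := Submodule.finrank_mono hIJ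
  have e1 := QuadraticForm.sigPos_add_sigNeg_add_radical (Q := sgQ B)
  rw [sg_radical_eq_bot hs hn, finrank_bot] at e1
  unfold sgSig at h0
  have hfin : finrank ℝ I = finrank ℝ J := by
    rcases hB with h | h
    · have h1 := QuadraticForm.sigPos_add_finrank_le_of_nonpos (Q := sgQ B) (V := J) h
      omega
    · have h2 := QuadraticForm.sigPos_add_finrank_le_of_nonpos (Q := -sgQ B) (V := J)
        (fun x hx => by
          change -(B x x) ≤ 0
          linarith [h x hx])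
      rw [sigPos_neg] at h2
      omega
  have hIJeq : I = J := Submodule.eq_of_le_of_finrank_eq hIJ hfin
  refine ⟨I, fun x => ?_⟩
  rw [← hJmem, ← hIJeq]

end basic
end Claimed.Agent.R304
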