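/-
Row 304 (S0559, Hilbert-Smith), layer E: THE SIGNATURE.  Owner: helper181.  Package SgHom (no sorry).

`M` ANY real vector space, `d : M →ₗ[ℝ] M`, `b : M →ₗ[ℝ] M →ₗ[ℝ] ℝ`.
* `sgH d`                       the homology `ker d / im d`
* `SgCompat d b`                `b` vanishes on (boundary, cycle) and (cycle, boundary); `sgCompat_of e k hsymm hadj`
* `sgHB d b h`                  the induced form on `sgH d`
* `sgD d b : ℤ`                 its signature (`0` if not `SgCompat`)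
* `SgModel d b B s`             `(V, B, s : V →ₗ M)` represents the homology with its form;
  `sgD_eq_of_model`             MODEL LEMMA `sgD d b = sgSig B`;   `sg_exists_model`
* `sgD_neg`, `sgD_prod`         (`d.prodMap d'`, `sgProd b b'`), `sgH_prod_finiteDimensional`
* `SgNondeg d b`                a cycle orthogonal to all cycles is a boundary
* `sgD_one`
-/
import Claimed.Agent.R304.SgBasic

set_option autoImplicit false

namespace Claimed.Agent.R304
open Module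

section hom

variable {M : Type*} [AddCommGroup M] [Module ℝ M]

/-- the boundaries, as a subspace of the cycles -/
def sgBd (d : M →ₗ[ℝ] M) : Submodule ℝ (LinearMap.ker d) :=
  (LinearMap.range d).comap (LinearMap.ker d).subtype

/-- the homology `ker d / im d` -/
abbrev sgH (d : M →ₗ[ℝ] M) : Type _ := (LinearMap.ker d) ⧸ sgBd d

/-- `b` vanishes on (boundary, cycle) and on (cycle, boundary) -/
def SgCompat (d : M →ₗ[ℝ] M) (b : M →ₗ[ℝ] M →ₗ[ℝ] ℝ) : Prop :=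
  (∀ x y, d y = 0 → b (d x) y = 0) ∧ (∀ x y, d x = 0 → b x (d y) = 0)

theorem sgCompat_of {d : M →ₗ[ℝ] M} {b : M →ₗ[ℝ] M →ₗ[ℝ] ℝ} (e k : ℝ)
    (hsymm : ∀ x y, b y x = e * b x y) (hadj : ∀ x y, b (d x) y = k * b x (d y)) :
    SgCompat d b := by
  refine ⟨fun x y hy => by rw [hadj, hy]; simp, fun x y hx => ?_⟩
  rw [hsymm (d y) x, hadj, hx]
  simp

/-- the form induced on the homology -/
noncomputable def sgHB (d : M →ₗ[ℝ] M) (b : M →ₗ[ℝ] M →ₗ[ℝ] ℝ) (h : SgCompat d b) :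
    sgH d →ₗ[ℝ] sgH d →ₗ[ℝ] ℝ :=
  LinearMap.liftQ₂ (sgBd d) (sgBd d) (b.domRestrict₁₂ (LinearMap.ker d) (LinearMap.ker d))
    (by
      rintro ⟨x, hx⟩ ⟨u, hu⟩
      ext ⟨y, hy⟩
      change b x y = 0
      have hu' : d u = x := hu
      rw [← hu']
      exact h.1 u y hy)
    (by
      rintro ⟨x, hx⟩ ⟨u, hu⟩
      ext ⟨y, hy⟩
      change b y x = 0
      have hu' : d u = x := hu
      rw [← hu']
      exact h.2 y u hy)

theorem sgHB_mk (d : M →ₗ[ℝ] M) (b : M →ₗ[ℝ] M →ₗ[ℝ] ℝ) (h : SgCompat d b)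
    (x y : LinearMap.ker d) :
    sgHB d b h (Submodule.Quotient.mk x) (Submodule.Quotient.mk y) = b x y := rfl

open Classical in
/-- the signature of the form induced by `b` on `ker d / im d` -/
noncomputable def sgD (d : M →ₗ[ℝ] M) (b : M →ₗ[ℝ] M →ₗ[ℝ] ℝ) : ℤ :=
  if h : SgCompat d b then sgSig (sgHB d b h) else 0

/-- `(V, B, s)` is a model of the homology of `(M, d)` with its form -/
structure SgModel (d : M →ₗ[ℝ] M) (b : M →ₗ[ℝ] M →ₗ[ℝ] ℝ) {V : Type*} [AddCommGroup V]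
    [Module ℝ V] (B : V →ₗ[ℝ] V →ₗ[ℝ] ℝ) (s : V →ₗ[ℝ] M) : Prop where
  cyc : ∀ v, d (s v) = 0
  isom : ∀ v w, b (s v) (s w) = B v w
  inj : ∀ v, s v ∈ LinearMap.range d → v = 0
  surj : ∀ z, d z = 0 → ∃ v, z - s v ∈ LinearMap.range d

variable {d : M →ₗ[ℝ] M} {b : M →ₗ[ℝ] M →ₗ[ℝ] ℝ} {V : Type*} [AddCommGroup V] [Module ℝ V]
  {B : V →ₗ[ℝ] V →ₗ[ℝ] ℝ} {s : V →ₗ[ℝ] M}

/-- a model is isomorphic to the homology -/
noncomputable def SgModel.equiv (hm : SgModel d b B s) : V ≃ₗ[ℝ] sgH d :=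
  LinearEquiv.ofBijective ((sgBd d).mkQ ∘ₗ s.codRestrict (LinearMap.ker d) hm.cyc) (by
    constructor
    · rw [← LinearMap.ker_eq_bot, LinearMap.ker_eq_bot']
      intro v hv
      apply hm.inj
      have : s.codRestrict (LinearMap.ker d) hm.cyc v ∈ sgBd d :=
        (Submodule.Quotient.mk_eq_zero _).1 hv
      exact this
    · intro z
      obtain ⟨⟨z, hz⟩, rfl⟩ := Submodule.Quotient.mk_surjective _ z
      obtain ⟨v, hv⟩ := hm.surj z hz
      refine ⟨v, ?_⟩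
      symm
      apply (Submodule.Quotient.eq _).2
      exact hv)

theorem SgModel.equiv_apply (hm : SgModel d b B s) (v : V) :
    hm.equiv v = Submodule.Quotient.mk ⟨s v, hm.cyc v⟩ := rfl

theorem sgD_eq_of_model (hc : SgCompat d b) (hm : SgModel d b B s) : sgD d b = sgSig B := by
  rw [sgD, dif_pos hc]
  symm
  apply sgSig_congr hm.equiv
  intro x
  rw [hm.equiv_apply, sgHB_mk]
  exact hm.isom x x

theorem sg_exists_model (hc : SgCompat d b) :
    ∃ s : sgH d →ₗ[ℝ] M, SgModel d b (sgHB d b hc) s := by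
  obtain ⟨g, hg⟩ := LinearMap.exists_rightInverse_of_surjective (sgBd d).mkQ
    (Submodule.range_mkQ _)
  have hg' : ∀ v, Submodule.Quotient.mk (g v) = v := fun v =>
    congrArg (fun f : sgH d →ₗ[ℝ] sgH d => f v) hg
  refine ⟨(LinearMap.ker d).subtype ∘ₗ g, ⟨fun v => (g v).2, fun v w => ?_, fun v hv => ?_,
    fun z hz => ?_⟩⟩
  · conv_rhs => rw [← hg' v, ← hg' w]
    rfl
  · rw [← hg' v]
    exact (Submodule.Quotient.mk_eq_zero _).2 hv
  · refine ⟨Submodule.Quotient.mk ⟨z, hz⟩, ?_⟩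
    have : (Submodule.Quotient.mk ⟨z, hz⟩ : sgH d)
        = Submodule.Quotient.mk (g (Submodule.Quotient.mk ⟨z, hz⟩)) := (hg' _).symm
    have h2 := (Submodule.Quotient.eq (sgBd d)).1 this
    exact h2

theorem SgModel.finiteDimensional (hm : SgModel d b B s) [FiniteDimensional ℝ (sgH d)] :
    FiniteDimensional ℝ V :=
  LinearEquiv.finiteDimensional hm.equiv.symm

theorem SgModel.finiteDimensional_H (hm : SgModel d b B s) [FiniteDimensional ℝ V] :
    FiniteDimensional ℝ (sgH d) :=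
  LinearEquiv.finiteDimensional hm.equiv

theorem SgCompat.neg (hc : SgCompat d b) : SgCompat d (-b) :=
  ⟨fun x y hy => by simp [hc.1 x y hy], fun x y hx => by simp [hc.2 x y hx]⟩

theorem SgModel.neg (hm : SgModel d b B s) : SgModel d (-b) (-B) s :=
  ⟨hm.cyc, fun v w => by simp [hm.isom v w], hm.inj, hm.surj⟩

theorem sgD_neg (d : M →ₗ[ℝ] M) (b : M →ₗ[ℝ] M →ₗ[ℝ] ℝ) : sgD d (-b) = - sgD d b := by
  by_cases hc : SgCompat d b
  · obtain ⟨s, hs⟩ := sg_exists_model hc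
    rw [sgD_eq_of_model hc hs, sgD_eq_of_model hc.neg hs.neg, sgSig_neg]
  · have hc' : ¬ SgCompat d (-b) := fun h => hc
      ⟨fun x y hy => by simpa using h.1 x y hy, fun x y hx => by simpa using h.2 x y hx⟩
    rw [sgD, sgD, dif_neg hc, dif_neg hc', neg_zero]

section prod

variable {M' : Type*} [AddCommGroup M'] [Module ℝ M'] {d' : M' →ₗ[ℝ] M'}
  {b' : M' →ₗ[ℝ] M' →ₗ[ℝ] ℝ} {V' : Type*} [AddCommGroup V'] [Module ℝ V']
  {B' : V' →ₗ[ℝ] V' →ₗ[ℝ] ℝ} {s' : V' →ₗ[ℝ] M'}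

theorem SgCompat.prod (hc : SgCompat d b) (hc' : SgCompat d' b') :
    SgCompat (d.prodMap d') (sgProd b b') := by
  constructor
  · rintro ⟨x, x'⟩ ⟨y, y'⟩ hy
    have h1 : d y = 0 := congrArg Prod.fst hy
    have h2 : d' y' = 0 := congrArg Prod.snd hy
    change b (d x) y + b' (d' x') y' = 0
    rw [hc.1 x y h1, hc'.1 x' y' h2, add_zero]
  · rintro ⟨x, x'⟩ ⟨y, y'⟩ hx
    have h1 : d x = 0 := congrArg Prod.fst hx
    have h2 : d' x' = 0 := congrArg Prod.snd hx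
    change b x (d y) + b' x' (d' y') = 0
    rw [hc.2 x y h1, hc'.2 x' y' h2, add_zero]

theorem SgModel.prod (hm : SgModel d b B s) (hm' : SgModel d' b' B' s') :
    SgModel (d.prodMap d') (sgProd b b') (sgProd B B') (s.prodMap s') := by
  refine ⟨?_, ?_, ?_, ?_⟩
  · rintro ⟨v, v'⟩
    change (d (s v), d' (s' v')) = 0
    rw [hm.cyc, hm'.cyc]
    rfl
  · rintro ⟨v, v'⟩ ⟨w, w'⟩
    change b (s v) (s w) + b' (s' v') (s' w') = B v w + B' v' w'
    rw [hm.isom, hm'.isom]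
  · rintro ⟨v, v'⟩ ⟨⟨u, u'⟩, hu⟩
    have h1 : d u = s v := congrArg Prod.fst hu
    have h2 : d' u' = s' v' := congrArg Prod.snd hu
    rw [hm.inj v ⟨u, h1⟩, hm'.inj v' ⟨u', h2⟩]
    rfl
  · rintro ⟨z, z'⟩ hz
    have h1 : d z = 0 := congrArg Prod.fst hz
    have h2 : d' z' = 0 := congrArg Prod.snd hz
    obtain ⟨v, u, hu⟩ := hm.surj z h1
    obtain ⟨v', u', hu'⟩ := hm'.surj z' h2
    refine ⟨(v, v'), (u, u'), ?_⟩
    change (d u, d' u') = (z - s v, z' - s' v')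
    rw [hu, hu']

theorem sgD_prod (hc : SgCompat d b) (hc' : SgCompat d' b') [FiniteDimensional ℝ (sgH d)]
    [FiniteDimensional ℝ (sgH d')] :
    sgD (d.prodMap d') (sgProd b b') = sgD d b + sgD d' b' := by
  obtain ⟨s, hs⟩ := sg_exists_model hc
  obtain ⟨s', hs'⟩ := sg_exists_model hc'
  rw [sgD_eq_of_model hc hs, sgD_eq_of_model hc' hs', sgD_eq_of_model (hc.prod hc') (hs.prod hs'),
    sgSig_prod]

theorem sgH_prod_finiteDimensional (d : M →ₗ[ℝ] M) (d' : M' →ₗ[ℝ] M')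
    [FiniteDimensional ℝ (sgH d)] [FiniteDimensional ℝ (sgH d')] :
    FiniteDimensional ℝ (sgH (d.prodMap d')) := by
  have hc : SgCompat d 0 := ⟨fun _ _ _ => rfl, fun _ _ _ => rfl⟩
  have hc' : SgCompat d' 0 := ⟨fun _ _ _ => rfl, fun _ _ _ => rfl⟩
  obtain ⟨s, hs⟩ := sg_exists_model hc
  obtain ⟨s', hs'⟩ := sg_exists_model hc'
  exact (hs.prod hs').finiteDimensional_H

end prod

/-- the induced form on the homology is nondegenerate -/
def SgNondeg (d : M →ₗ[ℝ] M) (b : M →ₗ[ℝ] M →ₗ[ℝ] ℝ) : Prop :=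
  ∀ z, d z = 0 → (∀ y, d y = 0 → b z y = 0) → z ∈ LinearMap.range d

theorem SgModel.nondeg (hm : SgModel d b B s) (hc : SgCompat d b) (hn : SgNondeg d b) :
    ∀ v, (∀ w, B v w = 0) → v = 0 := by
  intro v hv
  apply hm.inj
  apply hn _ (hm.cyc v)
  intro y hy
  obtain ⟨w, u, hu⟩ := hm.surj y hy
  have : y = s w + d u := by rw [hu]; abel
  rw [this, map_add, hm.isom, hv, hc.2 _ _ (hm.cyc v), add_zero]

theorem SgModel.symm (hm : SgModel d b B s) (hs : ∀ x y, b x y = b y x) :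
    ∀ v w, B v w = B w v := by
  intro v w
  rw [← hm.isom, ← hm.isom, hs]

/-- the one dimensional form `<1>` with zero differential has signature `1` -/
theorem sgD_one : sgD (0 : ℝ →ₗ[ℝ] ℝ) (LinearMap.mul ℝ ℝ) = 1 := by
  have hc : SgCompat (0 : ℝ →ₗ[ℝ] ℝ) (LinearMap.mul ℝ ℝ) :=
    ⟨fun x y _ => by simp, fun x y _ => by simp⟩
  have hm : SgModel (0 : ℝ →ₗ[ℝ] ℝ) (LinearMap.mul ℝ ℝ) (LinearMap.mul ℝ ℝ) LinearMap.id :=
    ⟨fun v => rfl, fun v w => rfl, fun v hv => by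
      obtain ⟨u, hu⟩ := hv
      exact hu.symm, fun z _ => ⟨z, 0, by simp⟩⟩
  rw [sgD_eq_of_model hc hm, sgSig_mul]

end hom
end Claimed.Agent.R304
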