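/-
Row 304 (S0559, Hilbert-Smith), layer E: THE SIGNATURE.  Owner: helper181.  Package SgCob (no sorry).

Signature and algebraic cobordism over a point, in pure linear algebra (CbNotes 11).  The acyclicity hypotheses are
stated ELEMENTWISE, in the weakest form which is used, so that they can be fed from `FcD.Acyc` over `PUnit`.
* `sg_factor`                   a functional vanishing on `ker f` factors through `f`
* `sgNondeg_of_cone`      (S0)  `cone (ad)` acyclic => `SgNondeg d b`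
* `sgD_eq_zero_of_datum`  (S3)  datum `(N, lam, h)` with `S` acyclic => `sgD d b = 0`
* `sg_exists_lagrangian_map`, `sg_exists_datum`  (S4)  `sgD d b = 0` => datum `N = (L, 0)`, `h = 0`, `S` acyclic
-/
import Claimed.Agent.R304.SgHom

set_option autoImplicit false

namespace Claimed.Agent.R304
open Module

section cob

variable {M : Type*} [AddCommGroup M] [Module ℝ M] {d : M →ₗ[ℝ] M} {b : M →ₗ[ℝ] M →ₗ[ℝ] ℝ}

/-- a functional which vanishes on `ker f` factors through `f` -/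
theorem sg_factor {N N' : Type*} [AddCommGroup N] [Module ℝ N] [AddCommGroup N'] [Module ℝ N']
    (f : N →ₗ[ℝ] N') (φ : N →ₗ[ℝ] ℝ) (h : ∀ n, f n = 0 → φ n = 0) :
    ∃ ν : N' →ₗ[ℝ] ℝ, ∀ n, φ n = ν (f n) := by
  have : φ ∈ LinearMap.range f.dualMap := by
    rw [LinearMap.range_dualMap_eq_dualAnnihilator_ker, Submodule.mem_dualAnnihilator]
    exact fun n hn => h n hn
  obtain ⟨ν, hν⟩ := this
  exact ⟨ν, fun n => by rw [← hν]; rfl⟩

/-- (S0) if the cone of the adjoint is acyclic then the induced form is nondegenerate.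
`hcone` is the consequence of the acyclicity which is used: the cycle `(z, μ)` of
`D (m, μ) = (- d m, b m + k • μ ∘ d)` is a boundary. -/
theorem sgNondeg_of_cone
    (hcone : ∀ (z : M) (μ : M →ₗ[ℝ] ℝ), d z = 0 → (∀ y, b z y = μ (d y)) → z ∈ LinearMap.range d) :
    SgNondeg d b := by
  intro z hz hzy
  obtain ⟨μ, hμ⟩ := sg_factor d (b z) hzy
  exact hcone z μ hz hμ

/-- (S3) a null-cobordant form has signature zero.  `hS` is the consequence of the acyclicity of
`S = N × M × N^*` which is used: the cycle `(0, p, ν)` is a boundary. -/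
theorem sgD_eq_zero_of_datum [FiniteDimensional ℝ (sgH d)] (hsymm : ∀ x y, b x y = b y x)
    (hc : SgCompat d b) (hn : SgNondeg d b)
    {N : Type*} [AddCommGroup N] [Module ℝ N] (dN : N →ₗ[ℝ] N) (lam : N →ₗ[ℝ] M)
    (hlam : ∀ n, lam (dN n) = d (lam n))
    (hiso : ∀ n n', dN n = 0 → dN n' = 0 → b (lam n) (lam n') = 0)
    (hS : ∀ (p : M) (ν : N →ₗ[ℝ] ℝ), d p = 0 → (∀ n, b p (lam n) = ν (dN n)) →
      ∃ n₁ p₁, dN n₁ = 0 ∧ lam n₁ + d p₁ = p) :
    sgD d b = 0 := by
  obtain ⟨s, hm⟩ := sg_exists_model hc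
  rw [sgD_eq_of_model hc hm]
  have hlamc : ∀ n, dN n = 0 → d (lam n) = 0 := fun n h => by rw [← hlam, h, map_zero]
  let I : Submodule ℝ (sgH d) :=
    { carrier := {v | ∃ n, dN n = 0 ∧ s v - lam n ∈ LinearMap.range d}
      add_mem' := by
        rintro v w ⟨n, hn, h1⟩ ⟨n', hn', h2⟩
        refine ⟨n + n', by rw [map_add, hn, hn', add_zero], ?_⟩
        have := (LinearMap.range d).add_mem h1 h2
        convert this using 1
        rw [map_add, map_add]
        abel
      zero_mem' := ⟨0, map_zero _, by simp⟩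
      smul_mem' := by
        rintro c v ⟨n, hn, h1⟩
        refine ⟨c • n, by rw [map_smul, hn, smul_zero], ?_⟩
        have := (LinearMap.range d).smul_mem c h1
        convert this using 1
        rw [map_smul, map_smul, smul_sub] }
  apply sgSig_eq_zero_of_lagrangian (hm.symm hsymm) (hm.nondeg hc hn) I
  intro v
  constructor
  · rintro ⟨n, hn, u, hu⟩ w ⟨n', hn', u', hu'⟩
    have e1 : s v = lam n + d u := by rw [hu]; abel
    have e2 : s w = lam n' + d u' := by rw [hu']; abel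
    rw [← hm.isom, e1, e2]
    simp only [map_add, LinearMap.add_apply]
    rw [hiso n n' hn hn', hc.1 u _ (hlamc n' hn'), hc.2 _ u' (hlamc n hn),
      hc.1 u (d u') (by
        have : d (d u') = d (s w - lam n') := by rw [hu']
        rw [this, map_sub, hm.cyc, hlamc n' hn', sub_zero])]
    simp
  · intro hv
    have h1 : ∀ n, dN n = 0 → b (s v) (lam n) = 0 := by
      intro n hn
      obtain ⟨w, u, hu⟩ := hm.surj (lam n) (hlamc n hn)
      have hw : w ∈ I := ⟨n, hn, -u, by rw [map_neg, hu]; abel⟩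
      have e : lam n = s w + d u := by rw [hu]; abel
      rw [e, map_add, hm.isom, hv w hw, hc.2 _ _ (hm.cyc v), add_zero]
    obtain ⟨ν, hν⟩ := sg_factor dN ((b (s v)) ∘ₗ lam) h1
    obtain ⟨n₁, p₁, hn₁, hp₁⟩ := hS (s v) ν (hm.cyc v) hν
    exact ⟨n₁, hn₁, p₁, by rw [← hp₁]; abel⟩

/-- (S4), raw form: a nondegenerate form of signature zero has a Lagrangian `lam : L → M`. -/
theorem sg_exists_lagrangian_map [FiniteDimensional ℝ (sgH d)] (hsymm : ∀ x y, b x y = b y x)
    (hc : SgCompat d b) (hn : SgNondeg d b) (h0 : sgD d b = 0) :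
    ∃ (L : Submodule ℝ (sgH d)) (lam : L →ₗ[ℝ] M),
      (∀ l, d (lam l) = 0) ∧ (∀ l l', b (lam l) (lam l') = 0) ∧
      (∀ l, lam l ∈ LinearMap.range d → l = 0) ∧
      (∀ p, d p = 0 → (∀ l, b p (lam l) = 0) → ∃ l₁ p₁, lam l₁ + d p₁ = p) ∧
      (∀ ψ : L →ₗ[ℝ] ℝ, ∃ z, d z = 0 ∧ ∀ l, b z (lam l) = ψ l) := by
  obtain ⟨s, hm⟩ := sg_exists_model hc
  rw [sgD_eq_of_model hc hm] at h0
  have hBs := hm.symm hsymm
  have hBn := hm.nondeg hc hn
  obtain ⟨L, hL⟩ := sg_exists_lagrangian hBs hBn h0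
  refine ⟨L, s ∘ₗ L.subtype, fun l => hm.cyc _, fun l l' => ?_, fun l hl => ?_, fun p hp hpl => ?_,
    fun ψ => ?_⟩
  · change b (s l) (s l') = 0
    rw [hm.isom]
    exact (hL l).1 l.2 l' l'.2
  · exact Subtype.ext (hm.inj _ hl)
  · obtain ⟨v, u, hu⟩ := hm.surj p hp
    have e : p = s v + d u := by rw [hu]; abel
    have hv : v ∈ L := by
      rw [hL]
      intro y hy
      have h1 := hpl ⟨y, hy⟩
      change b p (s y) = 0 at h1
      rw [e, map_add, LinearMap.add_apply, hm.isom, hc.1 _ _ (hm.cyc y), add_zero] at h1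
      exact h1
    exact ⟨⟨v, hv⟩, u, e.symm⟩
  · obtain ⟨ψ', hψ'⟩ := LinearMap.exists_extend ψ
    have hnd : LinearMap.BilinForm.Nondegenerate (sgHB d b hc) :=
      ⟨hBn, fun y hy => hBn y fun x => by rw [hBs]; exact hy x⟩
    let v := (LinearMap.BilinForm.toDual (sgHB d b hc) hnd).symm ψ'
    have hv : ∀ w, sgHB d b hc v w = ψ' w := fun w =>
      LinearMap.BilinForm.apply_toDual_symm_apply ψ' w
    refine ⟨s v, hm.cyc v, fun l => ?_⟩
    change b (s v) (s l) = ψ l
    rw [hm.isom, hv, ← hψ']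
    rfl

/-- (S4) a nondegenerate form of signature zero is null-cobordant: datum `N = (L, 0)`, `h = 0`;
`S = L × M × L^*`, `D (l, p, ν) = (0, lam l + d p, k • b p (lam ·))` is acyclic. -/
theorem sg_exists_datum [FiniteDimensional ℝ (sgH d)] (hsymm : ∀ x y, b x y = b y x)
    (hc : SgCompat d b) (hn : SgNondeg d b) (h0 : sgD d b = 0) {k : ℝ} (hk : k ≠ 0) :
    ∃ (L : Submodule ℝ (sgH d)) (lam : L →ₗ[ℝ] M),
      (∀ l, d (lam l) = 0) ∧ (∀ l l', b (lam l) (lam l') = 0) ∧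
      ∀ (l : L) (p : M) (ν : L →ₗ[ℝ] ℝ), lam l + d p = 0 → (∀ l', b p (lam l') = 0) →
        l = 0 ∧ ∃ l₁ p₁, lam l₁ + d p₁ = p ∧ ∀ l', k * b p₁ (lam l') = ν l' := by
  obtain ⟨L, lam, h1, h2, h3, h4, h5⟩ := sg_exists_lagrangian_map hsymm hc hn h0
  refine ⟨L, lam, h1, h2, fun l p ν hlp hpl => ?_⟩
  have hl : l = 0 := h3 l ⟨-p, by rw [map_neg]; exact (eq_neg_of_add_eq_zero_left hlp).symm⟩
  refine ⟨hl, ?_⟩
  have hp : d p = 0 := by rwa [hl, map_zero, zero_add] at hlp
  obtain ⟨l₁, p₀, hp₀⟩ := h4 p hp hpl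
  obtain ⟨z, hz, hzψ⟩ := h5 (k⁻¹ • ν - (b p₀) ∘ₗ lam)
  refine ⟨l₁, p₀ + z, by rw [map_add, hz, add_zero, hp₀], fun l' => ?_⟩
  rw [map_add, LinearMap.add_apply, hzψ]
  simp only [LinearMap.sub_apply, LinearMap.smul_apply, LinearMap.comp_apply, smul_eq_mul]
  field_simp
  ring

end cob
end Claimed.Agent.R304
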