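/-
Row 304 (S0559, Hilbert-Smith), layer E: THE SIGNATURE.  Owner: helper181.  Package SgWt (no sorry in this file).

Wiring of `Sg*` to the cobordism groups over the point (CbNotes 11).
* `sgPt L d hd : FcD PUnit`        a differential vector space as an object over the point
* `sg_pt_acyc_iff`                 `A.Acyc ↔ ker d = im d` over the point;   `sgPtDual` every functional is in the dual
* `sgW x : ℤ`                      signature of `x : WtForm PUnit t`; `sgW_sum`, `sgW_neg`, `sgW_nondeg`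
* `sgW_eq_zero_of_datum`           null-cobordant => signature `0`        (types with `wtE t = 1`)
* `sgW_exists_datum`               signature `0` => null-cobordant, with `N` finite dimensional
* `sgW_line`                       homology a line with nonzero form => signature `±1`
* `sg_wt_sig_exists 𝔐`             = the statement of `wti_sig_exists` (WtInst.lean)
-/
import Claimed.Agent.R304.WtInstDefs
import Claimed.Agent.R304.SgCob

set_option autoImplicit false

namespace Claimed.Agent.R304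
open Topology TopologicalSpace Module

section point

open Classical in
/-- a differential vector space as a differential object over the point -/
noncomputable def sgPt (L : Type) [AddCommGroup L] [Module ℝ L] (d : L →ₗ[ℝ] L)
    (hd : ∀ l, d (d l) = 0) : FcD PUnit.{1} where
  carrier := L
  acg := inferInstance
  mod := inferInstance
  supp := fun l => if l = 0 then ∅ else Set.univ
  supp_compact := fun l => (Set.toFinite _).isCompact
  supp_closed := fun l => isClosed_discrete _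
  supp_empty_iff := fun l => by
    by_cases h : l = 0
    · simp [h]
    · simp [h]
  supp_add := fun l l' => by
    by_cases h : l = 0
    · simp [h]
    · simp [h]
  supp_smul := fun c l => by
    by_cases h : l = 0
    · simp [h]
    · simp [h]
  ury := fun E => by
    by_cases hE : E = ∅
    · refine ⟨0, fun l => ?_⟩
      subst hE
      simp
    · have hE' : E = Set.univ := by
        obtain ⟨x, hx⟩ := Set.nonempty_iff_ne_empty.2 hE
        ext y
        simp only [Set.mem_univ, iff_true]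
        exact (Subsingleton.elim x y) ▸ hx
      refine ⟨LinearMap.id, fun l => ?_⟩
      subst hE'
      simp
  d := d
  d_loc := fun l => by
    by_cases h : l = 0
    · simp [h]
    · simp [h]
  d_sq := hd

theorem sg_pt_acyc_iff (A : FcD PUnit.{1}) :
    A.Acyc ↔ ∀ m, A.d m = 0 → ∃ m', A.d m' = m := by
  constructor
  · intro h m hm
    obtain ⟨m', -, hm'⟩ := h Set.univ isOpen_univ subset_rfl m (Set.subset_univ _) hm
    exact ⟨m', hm'⟩
  · intro h U _ _ m hm hd
    by_cases h0 : m = 0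
    · exact ⟨0, by rw [A.supp_zero]; exact Set.empty_subset _, by rw [map_zero, h0]⟩
    · have hne : (A.supp m).Nonempty := by
        rw [Set.nonempty_iff_ne_empty]
        exact fun h1 => h0 ((A.supp_empty_iff m).1 h1)
      obtain ⟨x, hx⟩ := hne
      have hU : U = Set.univ := by
        ext y
        simp only [Set.mem_univ, iff_true]
        exact (Subsingleton.elim x y) ▸ hm hx
      obtain ⟨m', hm'⟩ := h m hd
      exact ⟨m', by rw [hU]; exact Set.subset_univ _, hm'⟩

/-- over the point every functional is compactly supported -/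
def sgPtDual (A : FcD PUnit.{1}) (φ : A.C →ₗ[ℝ] ℝ) : A.dual.C :=
  ⟨φ, Set.univ, isCompact_univ, fun m hm => by
    have : A.supp m = ∅ := by
      rw [← Set.subset_empty_iff]
      intro x hx
      exact Set.disjoint_left.1 hm hx (Set.mem_univ x)
    rw [(A.supp_empty_iff m).1 this, map_zero]⟩

theorem sgPtDual_val (A : FcD PUnit.{1}) (φ : A.C →ₗ[ℝ] ℝ) : (sgPtDual A φ).1 = φ := rfl

theorem sg_acycOn_empty {X : Type} [TopologicalSpace X] (A : FcD X) : A.AcycOn ∅ := by
  intro U _ hU m hm _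
  have : A.supp m = ∅ := Set.subset_empty_iff.1 (hm.trans hU)
  exact ⟨0, by rw [A.supp_zero]; exact Set.empty_subset _, by
    rw [map_zero, (A.supp_empty_iff m).1 this]⟩

variable {t : ZMod 4}

/-- the signature of a form over the point -/
noncomputable def sgW (x : WtForm PUnit.{1} t) : ℤ := sgD x.M.d x.b

theorem sgW_compat (x : WtForm PUnit.{1} t) : SgCompat x.M.d x.b :=
  sgCompat_of (wtE t) (wtK t) x.symm x.adj

theorem sgW_sum (x y : WtForm PUnit.{1} t) [FiniteDimensional ℝ (sgH x.M.d)]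
    [FiniteDimensional ℝ (sgH y.M.d)] : sgW (x.sum y) = sgW x + sgW y :=
  sgD_prod (sgW_compat x) (sgW_compat y)

theorem sgW_neg (x : WtForm PUnit.{1} t) : sgW x.neg = - sgW x :=
  sgD_neg x.M.d x.b

theorem sgW_nondeg (x : WtForm PUnit.{1} t) (h : (fcCone x.ad).Acyc) : SgNondeg x.M.d x.b := by
  apply sgNondeg_of_cone
  intro z μ hz hμ
  rw [sg_pt_acyc_iff] at h
  obtain ⟨⟨m', φ'⟩, hm'⟩ := h (z, sgPtDual x.M (-(wtK t) • μ)) (by
    change (-(x.M.d z), (x.ad.f z + (x.M.dual.resc (wtK t)).d (sgPtDual x.M (-(wtK t) • μ)))) = 0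
    rw [hz, neg_zero]
    refine Prod.ext rfl ?_
    apply Subtype.ext
    apply LinearMap.ext
    intro y
    change x.b z y + wtK t * (-(wtK t) * μ (x.M.d y)) = 0
    rw [hμ y]
    have := wtK_sq t
    linear_combination (-(μ (x.M.d y))) * this)
  have h1 : -(x.M.d m') = z := congrArg Prod.fst hm'
  exact ⟨-m', by rw [map_neg, h1]⟩

theorem sgW_eq_zero_of_datum (hE : wtE t = 1) (x : WtForm PUnit.{1} t)
    [FiniteDimensional ℝ (sgH x.M.d)] (hx : (fcCone x.ad).Acyc) (D : WtDat x)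
    (hD : D.S.M.Acyc) : sgW x = 0 := by
  have hsymm : ∀ a c, x.b a c = x.b c a := fun a c => by rw [x.symm a c, hE, one_mul]
  apply sgD_eq_zero_of_datum hsymm (sgW_compat x) (sgW_nondeg x hx) D.N.d D.lam.f D.lam.comm
  · intro n n' hn hn'
    rw [D.h_eq, hn, hn']
    simp
  · intro p ν hp hν
    rw [sg_pt_acyc_iff] at hD
    obtain ⟨⟨n₁, p₁, ν₁⟩, h1⟩ := hD (0, p, sgPtDual D.N ν) (by
      change D.Sd (0, p, sgPtDual D.N ν) = 0
      refine Prod.ext ?_ (Prod.ext ?_ ?_)
      · change -(D.N.d 0) = 0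
        simp
      · change D.lam.f 0 + x.M.d p = 0
        rw [hp]
        simp
      · apply Subtype.ext
        apply LinearMap.ext
        intro n
        change D.h 0 n + wtK t * x.b p (D.lam.f n) - wtK t * ν (D.N.d n) = 0
        rw [hν n]
        simp)
    have h2 : D.Sd (n₁, p₁, ν₁) = (0, p, sgPtDual D.N ν) := h1
    have h3 : -(D.N.d n₁) = 0 := congrArg Prod.fst h2
    have h4 : D.lam.f n₁ + x.M.d p₁ = p := congrArg (fun q => q.2.1) h2
    exact ⟨n₁, p₁, neg_eq_zero.1 h3, h4⟩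

theorem sgW_exists_datum (hE : wtE t = 1) (x : WtForm PUnit.{1} t)
    [FiniteDimensional ℝ (sgH x.M.d)] (hx : (fcCone x.ad).Acyc) (h0 : sgW x = 0) :
    ∃ D : WtDat x, Module.Finite ℝ D.N.C ∧ D.S.M.Acyc := by
  have hsymm : ∀ a c, x.b a c = x.b c a := fun a c => by rw [x.symm a c, hE, one_mul]
  have hk : wtK t ≠ 0 := fun h => by
    have := wtK_sq t
    rw [h] at this
    norm_num at this
  obtain ⟨L, lam, h1, h2, h3⟩ := sg_exists_datum hsymm (sgW_compat x) (sgW_nondeg x hx) h0 hk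
  let N : FcD PUnit.{1} := sgPt L 0 (fun _ => rfl)
  have hloc : ∀ l : L, x.M.supp (lam l) ⊆ N.supp l := by
    intro l
    by_cases hl : l = 0
    · subst hl
      rw [map_zero, x.M.supp_zero]
      exact Set.empty_subset _
    · have : N.supp l = Set.univ := if_neg hl
      rw [this]
      exact Set.subset_univ _
  have hcomm : ∀ l : L, lam 0 = x.M.d (lam l) := by
    intro l
    rw [h1, map_zero]
  have heq : ∀ n n' : L, x.b (lam n) (lam n') = (0 : ℝ) + wtK t * 0 := by
    intro n n'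
    rw [h2]
    simp
  let D : WtDat x :=
    { N := N
      lam := { f := lam, loc := hloc, comm := hcomm }
      h := 0
      h_loc := fun _ _ _ => rfl
      h_symm := fun _ _ => by simp
      h_eq := heq }
  refine ⟨D, inferInstanceAs (Module.Finite ℝ L), ?_⟩
  rw [sg_pt_acyc_iff]
  rintro ⟨l, p, ν⟩ hm
  have hm' : D.Sd (l, p, ν) = 0 := hm
  obtain ⟨ν₀, hν₀⟩ : ∃ ν₀ : L →ₗ[ℝ] ℝ, ∀ l' : L, ν₀ l' = ν.1 l' := ⟨ν.1, fun _ => rfl⟩
  have e1 : lam l + x.M.d p = 0 := congrArg (fun q => q.2.1) hm'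
  have e2 : ∀ l' : L, x.b p (lam l') = 0 := by
    intro l'
    have := congrArg (fun q => (q.2.2 : D.N.dual.C).1 l') hm'
    have h5 : (0 : ℝ) + wtK t * x.b p (lam l') - wtK t * ν₀ (0 : L) = 0 := by
      rw [hν₀]
      exact this
    rw [map_zero, mul_zero, sub_zero, zero_add] at h5
    exact (mul_eq_zero.1 h5).resolve_left hk
  obtain ⟨hl, l₁, p₁, e3, e4⟩ := h3 l p ν₀ e1 e2
  refine ⟨(l₁, p₁, 0), ?_⟩
  change D.Sd (l₁, p₁, 0) = (l, p, ν)
  refine Prod.ext ?_ (Prod.ext ?_ ?_)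
  · have : -(0 : L) = l := by rw [hl, neg_zero]
    exact this
  · exact e3
  · apply Subtype.ext
    apply LinearMap.ext
    have key : ∀ l' : L, (0 : ℝ) + wtK t * x.b p₁ (lam l') - wtK t * 0 = ν.1 l' := by
      intro l'
      rw [e4, hν₀]
      ring
    exact key

/-- the signature of a form whose homology is a line -/
theorem sgW_line (x : WtForm PUnit.{1} t) (m : x.M.C) (hm : x.M.d m = 0) (hb : x.b m m ≠ 0)
    (hgen : ∀ m' : x.M.C, x.M.d m' = 0 → ∃ (c : ℝ) (m'' : x.M.C), m' = c • m + x.M.d m'') :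
    sgW x = 1 ∨ sgW x = -1 := by
  have hc := sgW_compat x
  have hmod : SgModel x.M.d x.b ((x.b m m) • LinearMap.mul ℝ ℝ)
      (LinearMap.toSpanSingleton ℝ x.M.C m) := by
    refine ⟨fun v => ?_, fun v w => ?_, fun v hv => ?_, fun z hz => ?_⟩
    · change x.M.d (v • m) = 0
      rw [map_smul, hm, smul_zero]
    · change x.b (v • m) (w • m) = x.b m m * (v * w)
      simp only [map_smul, LinearMap.smul_apply, smul_eq_mul]
      ring
    · obtain ⟨u, hu⟩ := hv
      have hu' : x.M.d u = v • m := hu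
      have h1 : x.b (x.M.d u) m = 0 := hc.1 u m hm
      rw [hu', map_smul, LinearMap.smul_apply, smul_eq_mul] at h1
      exact (mul_eq_zero.1 h1).resolve_right hb
    · obtain ⟨c, m'', h⟩ := hgen z hz
      refine ⟨c, m'', ?_⟩
      change x.M.d m'' = z - c • m
      rw [h]
      abel
  rw [sgW, sgD_eq_of_model hc hmod]
  have hpos : ∀ a : ℝ, 0 < a → sgSig (a • LinearMap.mul ℝ ℝ) = 1 := by
    intro a ha
    rw [← sgSig_mul]
    apply sgSig_congr (LinearEquiv.smulOfNeZero ℝ ℝ (Real.sqrt a) (Real.sqrt_pos.2 ha).ne')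
    intro v
    change (Real.sqrt a * v) * (Real.sqrt a * v) = a * (v * v)
    have := Real.mul_self_sqrt ha.le
    linear_combination (v * v) * this
  rcases lt_or_gt_of_ne hb with h | h
  · right
    have : (x.b m m) • LinearMap.mul ℝ ℝ = -((-(x.b m m)) • LinearMap.mul ℝ ℝ) := by
      ext
      simp
    rw [this, sgSig_neg, hpos _ (neg_pos.2 h)]
  · left
    exact hpos _ h

end point

attribute [local instance] EhSp.t2 EhSp.lc

/-- THE SIGNATURE (CbNotes 11): statement of `wti_sig_exists`. -/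
theorem sg_wt_sig_exists (𝔐 : FcModel) :
    ∃ σ : wtiQ 𝔐 0 PUnit.{1} ⊤ ⊥ →+ ℤ, Function.Injective σ ∧
      ∀ (x : WtForm PUnit.{1} ((0 : ℤ) : ZMod 4))
        (hx : x.In (wtiP 𝔐 PUnit.{1} ⊤) (wtiP 𝔐 PUnit.{1} ⊥)) (m : x.M.C),
        x.M.d m = 0 → x.b m m ≠ 0 →
        (∀ m' : x.M.C, x.M.d m' = 0 → ∃ (c : ℝ) (m'' : x.M.C), m' = c • m + x.M.d m'') →
        σ (wtMk _ _ x hx) = 1 ∨ σ (wtMk _ _ x hx) = -1 := by
  have hE : wtE ((0 : ℤ) : ZMod 4) = 1 := by rw [Int.cast_zero, wtE_zero]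
  have hfin : ∀ x : WtForm PUnit.{1} ((0 : ℤ) : ZMod 4),
      x.In (wtiP 𝔐 PUnit.{1} ⊤) (wtiP 𝔐 PUnit.{1} ⊥) → FiniteDimensional ℝ (sgH x.M.d) :=
    fun x hx => 𝔐.pt_fin x.M hx.1.1
  have hac : ∀ A : FcD PUnit.{1}, (wtiP 𝔐 PUnit.{1} ⊥).mem A → A.Acyc := by
    rintro A ⟨-, O, -, hO, hA⟩
    apply hA.mono
    intro y _
    exact hO (by simp)
  have hresp : ∀ x y : WtOb (wtiP 𝔐 PUnit.{1} ⊤) (wtiP 𝔐 PUnit.{1} ⊥) ((0 : ℤ) : ZMod 4),
      WtRel (wtiP 𝔐 PUnit.{1} ⊤) (wtiP 𝔐 PUnit.{1} ⊥) x.1 y.1 → sgW x.1 = sgW y.1 := by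
    rintro ⟨x, hx⟩ ⟨y, hy⟩ ⟨D, -, hDS⟩
    have hin := wt_in_sum _ _ hx (wt_in_neg _ _ hy)
    have f1 := hfin x hx
    have f2 : FiniteDimensional ℝ (sgH y.neg.M.d) := hfin y hy
    have f3 := hfin _ hin
    have h0 := sgW_eq_zero_of_datum hE (x.sum y.neg) (hac _ hin.2) D (hac _ hDS)
    rw [sgW_sum, sgW_neg] at h0
    change sgW x = sgW y
    linarith
  let σ : wtiQ 𝔐 0 PUnit.{1} ⊤ ⊥ →+ ℤ := AddMonoidHom.mk'
    (Quotient.lift (s := wtSetoid (wtiP 𝔐 PUnit.{1} ⊤) (wtiP 𝔐 PUnit.{1} ⊥) ((0 : ℤ) : ZMod 4))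
      (fun x => sgW x.1) hresp) (by
      rintro ⟨x, hx⟩ ⟨y, hy⟩
      have f1 := hfin x hx
      have f2 := hfin y hy
      exact sgW_sum x y)
  have hσ : ∀ x hx, σ (wtMk _ _ x hx) = sgW x := fun x hx => rfl
  refine ⟨σ, ?_, ?_⟩
  · rw [injective_iff_map_eq_zero]
    intro a ha
    obtain ⟨x, hx, rfl⟩ := wtMk_surj _ _ a
    rw [hσ] at ha
    apply (wtMk_eq_zero_iff _ _ x hx).2
    have f1 := hfin x hx
    obtain ⟨D, hDfin, hDS⟩ := sgW_exists_datum hE x (hac _ hx.2) ha
    refine ⟨D, ⟨𝔐.pt_mem D.N ?_, ∅, isOpen_empty, by simp, sg_acycOn_empty _⟩,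
      (wtiP 𝔐 PUnit.{1} ⊥).acyc hDS⟩
    unfold FcD.Hom
    infer_instance
  · intro x hx m hm hb hgen
    rw [hσ]
    exact sgW_line x m hm hb hgen
end Claimed.Agent.R304
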