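/-
Row 304.  Owner: helper89.  The frozen statement S0559 from the four exports E1-E4.

If `G` is not NSS, take the Newman neighbourhood `U` (E2) and a compact neighbourhood `K ⊆ U`.
Some nontrivial subgroup `H` lies in `K`; for `1 ≠ x ∈ H` the closure `A` of `⟨x⟩` is a nontrivial
compact abelian subgroup inside `K`.  By E3 it contains an element of prime order (excluded by E2)
or an injective continuous image of `ℤ_p` (which then acts faithfully on `X`; excluded by E1).
So `G` is NSS and E4 applies.
-/
import Claimed.Agent.R304.ExPadic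
import Claimed.Agent.R304.ExNewman
import Claimed.Agent.R304.ExMono
import Claimed.Agent.R304.ExNssLie

set_option autoImplicit false

namespace Claimed.Agent.R304

open Topology

theorem hsT_nss (n : ℕ) (hn : 1 ≤ n)
    (G : Type*) [Group G] [TopologicalSpace G] [IsTopologicalGroup G] [LocallyCompactSpace G]
    [T2Space G]
    (X : Type*) [TopologicalSpace X] [T2Space X] [SecondCountableTopology X] [ConnectedSpace X]
    [ChartedSpace (EuclideanSpace ℝ (Fin n)) X]
    [MulAction G X] [ContinuousSMul G X] [FaithfulSMul G X] : HsNSS G := by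
  obtain ⟨U, hU, hNew⟩ := hs_newman n hn G X
  obtain ⟨K, hK, hKU, hKc⟩ := local_compact_nhds hU
  refine ⟨K, hK, fun H hH => ?_⟩
  by_contra hne
  obtain ⟨x, hxH, hx1⟩ : ∃ x ∈ H, x ≠ 1 := by
    by_contra hcon
    apply hne
    rw [Subgroup.eq_bot_iff_forall]
    intro y hy
    by_contra hy1
    exact hcon ⟨y, hy, hy1⟩
  -- the closure of the cyclic group
  let Z : Subgroup G := Subgroup.zpowers x
  have hZH : Z ≤ H := by
    rw [Subgroup.zpowers_le]
    exact hxH
  let A : Subgroup G := Z.topologicalClosure
  have hAK : (A : Set G) ⊆ K := by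
    have h1 : (Z : Set G) ⊆ K := fun y hy => hH (hZH hy)
    have h2 : closure (Z : Set G) ⊆ K := closure_minimal h1 hKc.isClosed
    simpa [A, Subgroup.topologicalClosure_coe] using h2
  letI instA : CommGroup A := Subgroup.commGroupTopologicalClosure Z (by
    intro a b
    obtain ⟨a, i, rfl⟩ := a
    obtain ⟨b, j, rfl⟩ := b
    apply Subtype.ext
    show x ^ i * x ^ j = x ^ j * x ^ i
    rw [← zpow_add, ← zpow_add, add_comm])
  haveI : CompactSpace A := by
    apply isCompact_iff_compactSpace.1
    exact hKc.of_isClosed_subset Z.isClosed_topologicalClosure hAK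
  haveI : Nontrivial A := by
    refine ⟨⟨⟨x, Z.le_topologicalClosure (Subgroup.mem_zpowers x)⟩, 1, ?_⟩⟩
    intro h
    exact hx1 (congrArg Subtype.val h)
  obtain ⟨p, hp, h | h⟩ := hs_compact_abelian A
  · obtain ⟨a, ha1, hap⟩ := h
    apply ha1
    apply Subtype.ext
    refine hNew (a : G) p hp.out ?_ ?_
    · have := congrArg Subtype.val hap
      simpa using this
    · intro k
      exact hKU (hAK (a ^ k).2)
  · obtain ⟨f, hfc, hfi⟩ := h
    let φ : Multiplicative ℤ_[p] →* G := A.subtype.comp f
    have hφc : Continuous φ := continuous_subtype_val.comp hfc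
    have hφi : Function.Injective φ := Subtype.val_injective.comp hfi
    letI instAct : MulAction (Multiplicative ℤ_[p]) X := MulAction.compHom X φ
    haveI : ContinuousSMul (Multiplicative ℤ_[p]) X := by
      constructor
      show Continuous fun q : Multiplicative ℤ_[p] × X => φ q.1 • q.2
      exact (hφc.comp continuous_fst).smul continuous_snd
    haveI : FaithfulSMul (Multiplicative ℤ_[p]) X := by
      constructor
      intro a b hab
      apply hφi
      apply FaithfulSMul.eq_of_smul_eq_smul (α := X)
      intro y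
      exact hab y
    exact hs_no_padic p n hn X

theorem hsT_main (n : ℕ) (hn : 1 ≤ n)
    (G : Type*) [Group G] [TopologicalSpace G] [IsTopologicalGroup G] [LocallyCompactSpace G]
    [SecondCountableTopology G] [T2Space G]
    (X : Type*) [TopologicalSpace X] [T2Space X] [SecondCountableTopology X] [ConnectedSpace X]
    [ChartedSpace (EuclideanSpace ℝ (Fin n)) X]
    [MulAction G X] [ContinuousSMul G X] [FaithfulSMul G X] :
    ∃ (d : ℕ) (_ : ChartedSpace (EuclideanSpace ℝ (Fin d)) G),
      IsManifold (modelWithCornersSelf ℝ (EuclideanSpace ℝ (Fin d))) ((⊤ : ℕ∞) : WithTop ℕ∞) G ∧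
        LieGroup (modelWithCornersSelf ℝ (EuclideanSpace ℝ (Fin d))) ((⊤ : ℕ∞) : WithTop ℕ∞) G :=
  hs_nss_lie G (hsT_nss n hn G X)

end Claimed.Agent.R304
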